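import Vale.Agent.P161.MathlibUsed
import Vale.Agent.P161.Defs

set_option linter.all false

section

section

open MeasureTheory

namespace Vale.Agent.P161

variable {V : Type*}

/-- real value of the spin at `v` -/
def sp (σ : V → ℤˣ) (v : V) : ℝ := ((σ v : ℤ) : ℝ)

/-- product of spins over `S` -/
noncomputable def spS (S : Finset V) (σ : V → ℤˣ) : ℝ := ∏ v ∈ S, sp σ v

/-- likelihood of a history `H` of observations `(x, a)` : product of `1 + a σ_x` -/
noncomputable def lik (H : List (V × ℝ)) (σ : V → ℤˣ) : ℝ :=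
  (H.map fun p => 1 + p.2 * sp σ p.1).prod

/-- posterior expectation of `f` given history `H` -/
noncomputable def post (μ : Measure (V → ℤˣ)) (H : List (V × ℝ)) (f : (V → ℤˣ) → ℝ) : ℝ :=
  (∫ σ, f σ * lik H σ ∂μ) / (∫ σ, lik H σ ∂μ)

/-- posterior mean of the spin at `v` -/
noncomputable def mean (μ : Measure (V → ℤˣ)) (H : List (V × ℝ)) (v : V) : ℝ :=
  post μ H (fun σ => sp σ v)

/-- posterior covariance of the spins at `x` and `v` -/
noncomputable def cov (μ : Measure (V → ℤˣ)) (H : List (V × ℝ)) (x v : V) : ℝ :=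
  post μ H (fun σ => sp σ x * sp σ v) - mean μ H x * mean μ H v

/-- all observation strengths are at most 1/2 -/
def Good (H : List (V × ℝ)) : Prop := ∀ p ∈ H, |p.2| ≤ 1 / 2

/-- a function of finitely many spins, all in `A` -/
def LocalOn (A : Set V) (f : (V → ℤˣ) → ℝ) : Prop :=
  ∃ D : Finset V, (D : Set V) ⊆ A ∧ DependsOn f (D : Set V)

/-- the vertices closer to `u` than to `v` -/
def side (G : SimpleGraph V) (u v : V) : Set V := {x | G.dist x u < G.dist x v}

/-- edge splitting identity (Markov property over the edge uv) -/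
def EdgeSplit (G : SimpleGraph V) (θ : ℝ) (μ : Measure (V → ℤˣ)) : Prop :=
  ∀ u v, G.Adj u v → ∀ f g, LocalOn (side G u v) f → LocalOn (side G v u) g →
    ∫ σ, f σ * g σ ∂μ = (∫ σ, f σ ∂μ) * (∫ σ, g σ ∂μ)
      + θ * (∫ σ, f σ * sp σ u ∂μ) * (∫ σ, g σ * sp σ v ∂μ)

noncomputable def alpha (θ t : ℝ) : ℝ := t * (1 - θ ^ 2) / (1 - θ ^ 2 * t ^ 2)
noncomputable def rho (θ t : ℝ) : ℝ := θ * (1 - t ^ 2) / (1 - θ ^ 2 * t ^ 2)

/-- sample from the density `(1 + b w)/2` on `[-1,1]` by the quantile transform -/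
noncomputable def chan (b u : ℝ) : ℝ := (4 * u - 2 + b) / (1 + Real.sqrt ((1 - b) ^ 2 + 4 * b * u))

/-- the run of the algorithm along a list of (site, round); the HEAD of the list is the most
recent update. `U` is the noise. -/
noncomputable def run (μ : Measure (V → ℤˣ)) (ε : ℝ) (U : V × ℕ → unitInterval) :
    List (V × ℕ) → List (V × ℝ)
  | [] => []
  | i :: l => (i.1, ε * chan (ε * mean μ (run μ ε U l) i.1) (U i : ℝ)) :: run μ ε U l

/-- law of the noise -/
noncomputable abbrev noise (V : Type*) : Measure (V × ℕ → unitInterval) :=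
  Measure.infinitePi fun _ : V × ℕ => (volume : Measure unitInterval)

end Vale.Agent.P161
end
end

section

section

open MeasureTheory

namespace Vale.Agent.P161

variable {V : Type*} {G : SimpleGraph V}

open SimpleGraph in
/-- T1 -/
theorem dist_adj_cases (hG : G.IsTree) {u v : V} (huv : G.Adj u v) (x : V) :
    G.dist x v = G.dist x u + 1 ∨ G.dist x u = G.dist x v + 1 :=
  (hG.dist_eq_dist_add_one_of_adj x huv).symm

/-- T1' the two sides of an edge are complementary -/
theorem side_compl (hG : G.IsTree) {u v : V} (huv : G.Adj u v) :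
    (side G u v)ᶜ = side G v u := by
  ext x
  have h := dist_adj_cases hG huv x
  simp only [side, Set.mem_compl_iff, Set.mem_setOf_eq]
  omega

open SimpleGraph in
/-- existence of the previous vertex on a geodesic, any connected graph -/
theorem exists_adj_dist (hG : G.Connected) {x v : V} (h : x ≠ v) :
    ∃ u, G.Adj u v ∧ G.dist x u + 1 = G.dist x v := by
  obtain ⟨p, hp, hlen⟩ := hG.exists_path_of_dist v x
  cases p with
  | nil => exact absurd rfl h
  | @cons _ u _ hadj q =>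
    refine ⟨u, hadj.symm, ?_⟩
    have h1 : G.dist x u ≤ q.length := by
      rw [dist_comm]; exact dist_le q
    have h2 : G.dist x v ≤ G.dist x u + 1 := by
      have := hG.dist_triangle (u := x) (v := u) (w := v)
      rwa [dist_eq_one_iff_adj.2 hadj.symm] at this
    rw [Walk.length_cons, dist_comm] at hlen
    (clear * - hlen h1 h2; omega)

/-- T2 -/
theorem exists_next (hG : G.IsTree) {x v : V} (h : x ≠ v) :
    ∃ u, G.Adj u v ∧ G.dist x v = G.dist x u + 1 := by
  obtain ⟨u, h1, h2⟩ := exists_adj_dist hG.connected h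
  exact ⟨u, h1, h2.symm⟩

open SimpleGraph in
/-- uniqueness of the previous vertex on a geodesic in a tree -/
theorem adj_dist_unique (hG : G.IsTree) {x v a b : V} (ha : G.Adj a v) (hb : G.Adj b v)
    (hda : G.dist x a + 1 = G.dist x v) (hdb : G.dist x b + 1 = G.dist x v) : a = b := by
  obtain ⟨p, hp, hlp⟩ := hG.connected.exists_path_of_dist x a
  obtain ⟨q, hq, hlq⟩ := hG.connected.exists_path_of_dist x b
  have h1 : (p.concat ha).IsPath := by
    apply Walk.isPath_of_length_eq_dist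
    rw [Walk.length_concat]; (clear * - hda hdb hlp; omega)
  have h2 : (q.concat hb).IsPath := by
    apply Walk.isPath_of_length_eq_dist
    rw [Walk.length_concat]; omega
  have h3 : p.concat ha = q.concat hb :=
    congrArg Subtype.val ((hG.isAcyclic.subsingleton_path x v).elim ⟨_, h1⟩ ⟨_, h2⟩)
  have h4 := congrArg Walk.penultimate h3
  simpa using h4

open SimpleGraph in
/-- the only edge between the two sides of the edge `x y` is `x y` itself. -/
theorem crossing_edge (hG : G.IsTree) {x y u v : V} (hxy : G.Adj x y) (huv : G.Adj u v)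
    (h1 : G.dist x u < G.dist x v) (h2 : G.dist y v < G.dist y u) : x = u ∧ y = v := by
  have e1 := dist_adj_cases hG huv x
  have e2 := dist_adj_cases hG huv y
  have e3 := dist_adj_cases hG hxy u
  have e4 := dist_adj_cases hG hxy v
  rw [G.dist_comm (u := u) (v := x), G.dist_comm (u := u) (v := y)] at e3
  rw [G.dist_comm (u := v) (v := x), G.dist_comm (u := v) (v := y)] at e4
  have e5 : G.dist x u = G.dist y v := by omega
  have hxu : x = u := by
    by_contra hne
    obtain ⟨x', hx', hd'⟩ := exists_adj_dist hG.connected (x := u) (v := x) (Ne.symm hne)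
    -- x' is the neighbour of x towards u
    have h3 : G.dist v x' ≤ G.dist u x' + 1 := by
      have := hG.connected.dist_triangle (u := v) (v := u) (w := x')
      rw [dist_eq_one_iff_adj.2 huv.symm] at this
      omega
    have h4 : G.dist v x ≤ G.dist v x' + 1 := by
      have := hG.connected.dist_triangle (u := v) (v := x') (w := x)
      rwa [dist_eq_one_iff_adj.2 hx'] at this
    have c1 : G.dist v x = G.dist x v := G.dist_comm
    have c2 : G.dist u x = G.dist x u := G.dist_comm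
    have c3 : G.dist v y = G.dist y v := G.dist_comm
    have c4 : G.dist u y = G.dist y u := G.dist_comm
    have h5 : G.dist v x' + 1 = G.dist v x := by omega
    have h6 : G.dist v y + 1 = G.dist v x := by omega
    have h7 : x' = y := adj_dist_unique hG hx' hxy.symm h5 h6
    subst h7
    omega
  subst hxu
  refine ⟨rfl, ?_⟩
  have : G.dist y v = 0 := by rw [← e5]; simp
  exact (hG.connected.dist_eq_zero_iff).1 this

/-- T3 : the only edge between the two sides of the edge uv is uv -/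
theorem edge_between_sides (hG : G.IsTree) {u v x y : V} (huv : G.Adj u v) (hxy : G.Adj x y)
    (hx : x ∈ side G u v) (hy : y ∈ side G v u) : x = u ∧ y = v :=
  crossing_edge hG hxy huv hx hy

section Ball

/-- closed balls of a locally finite connected graph are finite -/
theorem finite_closedBall [G.LocallyFinite] (hG : G.Connected) (x : V) (n : ℕ) :
    {v | G.dist x v ≤ n}.Finite := by
  induction n with
  | zero =>
    apply (Set.finite_singleton x).subset
    intro v hv
    have : G.dist x v = 0 := Nat.le_zero.1 hv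
    exact ((hG.dist_eq_zero_iff).1 this).symm
  | succ n ih =>
    have h1 : {v | G.dist x v ≤ n + 1} ⊆
        {x} ∪ ⋃ u ∈ {v | G.dist x v ≤ n}, G.neighborSet u := by
      intro v hv
      by_cases hxv : x = v
      · left; exact hxv.symm
      · right
        obtain ⟨u, hu, hd⟩ := exists_adj_dist hG hxv
        simp only [Set.mem_setOf_eq] at hv
        simp only [Set.mem_iUnion]
        exact ⟨u, by simp only [Set.mem_setOf_eq]; omega, hu⟩
    apply Set.Finite.subset _ h1
    apply (Set.finite_singleton x).union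
    exact ih.biUnion fun u _ => Set.toFinite _

theorem finite_sphere [G.LocallyFinite] (hG : G.Connected) (x : V) (n : ℕ) :
    {v | G.dist x v = n}.Finite :=
  (finite_closedBall hG x n).subset (fun v hv => le_of_eq hv)

/-- the finite sphere -/
noncomputable def sph [G.LocallyFinite] (hG : G.Connected) (x : V) (n : ℕ) : Finset V :=
  (finite_sphere hG x n).toFinset

theorem mem_sph [G.LocallyFinite] (hG : G.Connected) {x v : V} {n : ℕ} :
    v ∈ sph hG x n ↔ G.dist x v = n := by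
  unfold sph
  rw [Set.Finite.mem_toFinset]
  exact Iff.rfl

theorem card_sph_zero [G.LocallyFinite] (hG : G.Connected) (x : V) :
    (sph hG x 0).card = 1 := by
  rw [Finset.card_eq_one]
  refine ⟨x, ?_⟩
  ext v
  rw [mem_sph, hG.dist_eq_zero_iff, Finset.mem_singleton]
  exact eq_comm

open SimpleGraph in
theorem card_sph_one_le [G.LocallyFinite] (hG : G.Connected) {d : ℕ}
    (hd : ∀ v, G.degree v = d) (x : V) : (sph hG x 1).card ≤ d := by
  rw [← hd x, ← card_neighborFinset_eq_degree]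
  apply Finset.card_le_card
  intro v hv
  rw [mem_sph, dist_eq_one_iff_adj] at hv
  simpa only [mem_neighborFinset] using hv

open SimpleGraph in
theorem card_sph_succ_le [G.LocallyFinite] (hG : G.IsTree) {d : ℕ}
    (hd : ∀ v, G.degree v = d) (x : V) (n : ℕ) :
    (sph hG.connected x (n + 2)).card ≤ (d - 1) * (sph hG.connected x (n + 1)).card := by
  classical
  have hex : ∀ v, ∃ u, x ≠ v → (G.Adj u v ∧ G.dist x u + 1 = G.dist x v) := by
    intro v
    by_cases h : x = v
    · exact ⟨v, fun h' => absurd h h'⟩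
    · obtain ⟨u, hu⟩ := exists_adj_dist hG.connected h
      exact ⟨u, fun _ => hu⟩
  choose par hpar using hex
  apply Finset.card_le_mul_card_image_of_maps_to (f := par)
  · intro v hv
    rw [mem_sph] at hv ⊢
    have hne : x ≠ v := by
      rintro rfl
      simp at hv
    have := (hpar v hne).2
    omega
  · intro u hu
    rw [mem_sph] at hu
    have hne : x ≠ u := by
      rintro rfl
      simp only [SimpleGraph.dist_self, Nat.right_eq_add, Nat.add_eq_zero_iff, one_ne_zero, and_false] at hu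
    have hsub : ((sph hG.connected x (n + 2)).filter (fun a => par a = u)) ⊆
        (G.neighborFinset u).erase (par u) := by
      intro v hv
      rw [Finset.mem_filter, mem_sph] at hv
      obtain ⟨hv1, hv2⟩ := hv
      have hnev : x ≠ v := by
        rintro rfl
        simp at hv1
      have h1 := hpar v hnev
      have h2 := hpar u hne
      rw [hv2] at h1
      rw [Finset.mem_erase, mem_neighborFinset]
      refine ⟨?_, h1.1⟩
      rintro rfl
      omega
    refine (Finset.card_le_card hsub).trans ?_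
    rw [Finset.card_erase_of_mem, card_neighborFinset_eq_degree, hd]
    rw [mem_neighborFinset]
    exact (hpar u hne).1.symm

theorem card_sph_le [G.LocallyFinite] (hG : G.IsTree) {d : ℕ}
    (hd : ∀ v, G.degree v = d) (x : V) (n : ℕ) :
    (sph hG.connected x (n + 1)).card ≤ d * (d - 1) ^ n := by
  induction n with
  | zero => simpa only [zero_add, pow_zero, mul_one] using card_sph_one_le hG.connected hd x
  | succ n ih =>
    calc (sph hG.connected x (n + 1 + 1)).card
        ≤ (d - 1) * (sph hG.connected x (n + 1)).card := card_sph_succ_le hG hd x n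
      _ ≤ (d - 1) * (d * (d - 1) ^ n) := Nat.mul_le_mul_left _ ih
      _ = d * (d - 1) ^ (n + 1) := by ring

/-- sharp geometric sum over finite sets -/
theorem sum_pow_dist_le' [G.LocallyFinite] (hG : G.IsTree) {d : ℕ}
    (hd : ∀ v, G.degree v = d) (hd1 : 1 ≤ d) {q : ℝ} (hq : 0 ≤ q)
    (hq1 : ((d : ℝ) - 1) * q < 1) (x : V) (Λ : Finset V) :
    ∑ v ∈ Λ, q ^ (G.dist x v) ≤ (1 + q) / (1 - ((d : ℝ) - 1) * q) := by
  classical
  have hd0 : (0 : ℝ) ≤ (d : ℝ) - 1 := by
    have : (1 : ℝ) ≤ d := by exact_mod_cast hd1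
    linarith only [this]
  -- bound on a ball
  have key : ∀ N : ℕ, ∑ n ∈ Finset.range (N + 1), ((sph hG.connected x n).card : ℝ) * q ^ n ≤
      (1 + q) / (1 - ((d : ℝ) - 1) * q) := by
    intro N
    rw [Finset.sum_range_succ', card_sph_zero]
    have h1 : ∑ n ∈ Finset.range N, ((sph hG.connected x (n + 1)).card : ℝ) * q ^ (n + 1) ≤
        ∑ n ∈ Finset.range N, (d * q) * (((d : ℝ) - 1) * q) ^ n := by
      apply Finset.sum_le_sum
      intro n _
      have h2 : ((sph hG.connected x (n + 1)).card : ℝ) ≤ d * ((d : ℝ) - 1) ^ n := by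
        have := card_sph_le hG hd x n
        have h3 : (((sph hG.connected x (n + 1)).card : ℕ) : ℝ) ≤ ((d * (d - 1) ^ n : ℕ) : ℝ) := by
          exact_mod_cast this
        rw [Nat.cast_mul, Nat.cast_pow, Nat.cast_sub hd1, Nat.cast_one] at h3
        exact h3
      calc ((sph hG.connected x (n + 1)).card : ℝ) * q ^ (n + 1)
          ≤ (d * ((d : ℝ) - 1) ^ n) * q ^ (n + 1) :=
            mul_le_mul_of_nonneg_right h2 (by (clear * - hq; positivity))
        _ = (d * q) * (((d : ℝ) - 1) * q) ^ n := by rw [mul_pow]; ring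
    have h3 : ∑ n ∈ Finset.range N, (d * q) * (((d : ℝ) - 1) * q) ^ n ≤
        (d * q) / (1 - ((d : ℝ) - 1) * q) := by
      rw [← Finset.mul_sum, div_eq_mul_inv]
      apply mul_le_mul_of_nonneg_left _ (by (clear * - hd1 hq; positivity))
      rw [← tsum_geometric_of_lt_one (by (clear * - hd0 hq; positivity)) hq1]
      exact (summable_geometric_of_lt_one (by positivity) hq1).sum_le_tsum _
        (fun i _ => by (clear * - hd0 hq; positivity))
    have h4 : (0 : ℝ) < 1 - ((d : ℝ) - 1) * q := by linarith only [hq1]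
    calc _ ≤ (d * q) / (1 - ((d : ℝ) - 1) * q) + ((1 : ℕ) : ℝ) * q ^ 0 := by linarith only [h3, h1]
      _ = (1 + q) / (1 - ((d : ℝ) - 1) * q) := by
        have h4' : (1 - ((d : ℝ) - 1) * q) ≠ 0 := ne_of_gt h4
        rw [pow_zero, Nat.cast_one, div_add' _ _ _ h4']
        congr 1
        ring
  obtain ⟨N, hN⟩ : ∃ N : ℕ, ∀ v ∈ Λ, G.dist x v ∈ Finset.range (N + 1) := by
    refine ⟨Λ.sup (fun v => G.dist x v), fun v hv => ?_⟩
    rw [Finset.mem_range, Nat.lt_succ_iff]
    exact Finset.le_sup (f := fun v => G.dist x v) hv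
  rw [← Finset.sum_fiberwise_of_maps_to hN]
  refine le_trans ?_ (key N)
  apply Finset.sum_le_sum
  intro n _
  have h5 : ∑ v ∈ Λ.filter (fun v => G.dist x v = n), q ^ (G.dist x v) =
      ((Λ.filter (fun v => G.dist x v = n)).card : ℝ) * q ^ n := by
    rw [← nsmul_eq_mul, ← Finset.sum_const]
    apply Finset.sum_congr rfl
    intro v hv
    rw [(Finset.mem_filter.1 hv).2]
  rw [h5]
  apply mul_le_mul_of_nonneg_right _ (by (clear * - hq; positivity))
  norm_cast
  apply Finset.card_le_card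
  intro v hv
  rw [mem_sph]
  exact (Finset.mem_filter.1 hv).2

/-- T4 : geometric sums over finite sets -/
theorem sum_pow_dist_le [G.LocallyFinite] (hG : G.IsTree) {d : ℕ} (hd : 2 ≤ d)
    (hreg : G.IsRegularOfDegree d) {q : ℝ} (hq0 : 0 ≤ q) (hq : ((d : ℝ) - 1) * q < 1)
    (v : V) (A : Finset V) :
    ∑ x ∈ A, q ^ G.dist v x ≤ 2 * d / (1 - ((d : ℝ) - 1) * q) := by
  refine (sum_pow_dist_le' hG (fun v => hreg v) (by omega) hq0 hq v A).trans ?_
  have hd2 : (2 : ℝ) ≤ d := by exact_mod_cast hd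
  apply div_le_div_of_nonneg_right _ (by linarith only [hq])
  have : q ≤ 1 := by (by_contra nlg; linarith only [nlg, mul_nonneg (le_of_lt (sub_pos.2 (not_le.1 nlg))) (sub_nonneg.2 hd2), hd2, hq])
  linarith only [this, hd2]

theorem summable_pow_dist [G.LocallyFinite] (hG : G.IsTree) {d : ℕ}
    (hd : ∀ v, G.degree v = d) (hd1 : 1 ≤ d) {q : ℝ} (hq : 0 ≤ q)
    (hq1 : ((d : ℝ) - 1) * q < 1) (x : V) :
    Summable (fun v => q ^ (G.dist x v)) :=
  summable_of_sum_le (fun v => by (clear * - hq; positivity)) (fun Λ => sum_pow_dist_le' hG hd hd1 hq hq1 x Λ)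

/-- T5 : balls are finite -/
theorem ball_finite [G.LocallyFinite] (hG : G.IsTree) (v : V) (R : ℕ) :
    {x | G.dist x v ≤ R}.Finite := by
  refine (finite_closedBall hG.connected v R).subset ?_
  intro x hx
  simp only [Set.mem_setOf_eq] at hx ⊢
  rwa [SimpleGraph.dist_comm]

end Ball

/-- a set `D` such that each vertex other than `u` in it has a neighbour in it closer to `u`
is connected -/
theorem induce_connected_of_next {D : Set V} {u : V} (hu : u ∈ D)
    (h : ∀ x ∈ D, x ≠ u → ∃ y ∈ D, G.Adj x y ∧ G.dist y u < G.dist x u) :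
    (G.induce D).Connected := by
  have key : ∀ n : ℕ, ∀ x (hx : x ∈ D), G.dist x u ≤ n →
      (G.induce D).Reachable ⟨x, hx⟩ ⟨u, hu⟩ := by
    intro n
    induction n with
    | zero =>
      intro x hx hn
      by_cases hxu : x = u
      · subst hxu
        exact SimpleGraph.Reachable.refl _
      · obtain ⟨y, hy, hxy, hlt⟩ := h x hx hxu
        omega
    | succ n ih =>
      intro x hx hn
      by_cases hxu : x = u
      · subst hxu
        exact SimpleGraph.Reachable.refl _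
      · obtain ⟨y, hy, hxy, hlt⟩ := h x hx hxu
        have h1 : (G.induce D).Adj ⟨x, hx⟩ ⟨y, hy⟩ := hxy
        exact h1.reachable.trans (ih y hy (by (clear * - hn hlt; omega)))
  have : Nonempty D := ⟨⟨u, hu⟩⟩
  rw [SimpleGraph.connected_iff]
  refine ⟨?_, this⟩
  intro a b
  exact (key _ a.1 a.2 le_rfl).trans (key _ b.1 b.2 le_rfl).symm

/-- moving toward `u` stays on the side of `u` -/
theorem next_mem_side (hG : G.IsTree) {u v x y : V} (huv : G.Adj u v) (hx : x ∈ side G u v)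
    (hxu : x ≠ u) (hxy : G.Adj x y) : y ∈ side G u v := by
  by_contra hy
  have hy' : y ∈ side G v u := by
    rw [← side_compl hG huv]
    exact hy
  exact hxu (edge_between_sides hG huv hxy hx hy').1

/-- T6 : for an edge uv and a finite set `D0`, there are finite sets `DA ⊆ side u v` containing u,
`DB ⊆ side v u` containing v, inducing connected subgraphs, whose union contains `D0`
and induces a connected subgraph. -/
theorem exists_split_sets [G.LocallyFinite] [DecidableEq V] (hG : G.IsTree) {u v : V}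
    (huv : G.Adj u v) (D0 : Finset V) :
    ∃ DA DB : Finset V, (DA : Set V) ⊆ side G u v ∧ (DB : Set V) ⊆ side G v u ∧
      u ∈ DA ∧ v ∈ DB ∧ (G.induce (DA : Set V)).Connected ∧ (G.induce (DB : Set V)).Connected ∧
      (G.induce ((DA ∪ DB : Finset V) : Set V)).Connected ∧ D0 ⊆ DA ∪ DB := by
  have huv1 : G.dist u v = 1 := SimpleGraph.dist_eq_one_iff_adj.2 huv
  have hvu1 : G.dist v u = 1 := SimpleGraph.dist_eq_one_iff_adj.2 huv.symm
  -- one-sided version
  have one : ∀ a b : V, G.Adj a b → ∀ n : ℕ,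
      ∃ D : Finset V, (D : Set V) ⊆ side G a b ∧ a ∈ D ∧ (G.induce (D : Set V)).Connected ∧
        ∀ x ∈ side G a b, G.dist x a ≤ n → x ∈ D := by
    intro a b hab n
    have hfin : ({x | G.dist x a ≤ n} ∩ side G a b).Finite :=
      (ball_finite hG a n).subset Set.inter_subset_left
    have hab1 : G.dist a b = 1 := SimpleGraph.dist_eq_one_iff_adj.2 hab
    have haD : a ∈ {x | G.dist x a ≤ n} ∩ side G a b := by
      constructor
      · simp only [Set.mem_ofPred_eq, SimpleGraph.dist_self, zero_le]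
      · simp only [side, Set.mem_ofPred_eq, SimpleGraph.dist_self, hab1, Order.lt_one_iff]
    refine ⟨hfin.toFinset, ?_, ?_, ?_, ?_⟩
    · rw [Set.Finite.coe_toFinset]; exact Set.inter_subset_right
    · rw [Set.Finite.mem_toFinset]; exact haD
    · rw [Set.Finite.coe_toFinset]
      apply induce_connected_of_next haD
      rintro x ⟨hx1, hx2⟩ hxa
      obtain ⟨y, hy1, hy2⟩ := exists_next hG (x := a) (v := x) (Ne.symm hxa)
      have c1 : G.dist a x = G.dist x a := G.dist_comm
      have c2 : G.dist a y = G.dist y a := G.dist_comm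
      refine ⟨y, ⟨?_, ?_⟩, hy1.symm, by omega⟩
      · simp only [Set.mem_setOf_eq] at hx1 ⊢
        omega
      · exact next_mem_side hG hab hx2 hxa hy1.symm
    · intro x hx hn
      rw [Set.Finite.mem_toFinset]
      exact ⟨hn, hx⟩
  obtain ⟨DA, hA1, hA2, hA3, hA4⟩ := one u v huv (D0.sup fun x => G.dist x u)
  obtain ⟨DB, hB1, hB2, hB3, hB4⟩ := one v u huv.symm (D0.sup fun x => G.dist x v)
  refine ⟨DA, DB, hA1, hB1, hA2, hB2, hA3, hB3, ?_, ?_⟩
  · rw [Finset.coe_union]
    exact SimpleGraph.connected_induce_union hA3.preconnected hB3.preconnected hA2 hB2 huv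
  · intro x hx
    rw [Finset.mem_union]
    by_cases hs : x ∈ side G u v
    · left
      exact hA4 x hs (Finset.le_sup (f := fun x => G.dist x u) hx)
    · right
      have hs' : x ∈ side G v u := by
        rw [← side_compl hG huv]; exact hs
      exact hB4 x hs' (Finset.le_sup (f := fun x => G.dist x v) hx)

/-- T7 : every finite set is contained in a finite set inducing a connected subgraph -/
theorem exists_connected_superset [G.LocallyFinite] (hG : G.IsTree) [Nonempty V] (D0 : Finset V) :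
    ∃ D : Finset V, D0 ⊆ D ∧ (G.induce (D : Set V)).Connected := by
  classical
  obtain ⟨x0⟩ := ‹Nonempty V›
  have hne : (insert x0 D0).Nonempty := Finset.insert_nonempty _ _
  obtain ⟨D, h1, h2⟩ := SimpleGraph.extend_finset_to_connected hG.connected.preconnected hne
  exact ⟨D, (Finset.subset_insert _ _).trans h1, h2⟩

/-- T8 : a connected locally finite graph is countable -/
theorem countable_of_tree [G.LocallyFinite] (hG : G.IsTree) : Countable V := by
  have hne : Nonempty V := hG.connected.nonempty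
  obtain ⟨x0⟩ := hne
  rw [← Set.countable_univ_iff]
  have : (Set.univ : Set V) = ⋃ n : ℕ, {x | G.dist x x0 ≤ n} := by
    ext x
    simp only [Set.mem_univ, Set.mem_iUnion, Set.mem_setOf_eq, true_iff]
    exact ⟨G.dist x x0, le_rfl⟩
  rw [this]
  exact Set.countable_iUnion fun n => (ball_finite hG x0 n).countable

end Vale.Agent.P161
end
end

section

section

open MeasureTheory

namespace Vale.Agent.P161

variable {V : Type*} {G : SimpleGraph V}

/-- the two point space of signs has measurable singletons -/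
theorem msc_units : MeasurableSingletonClass ℤˣ := by
  refine ⟨fun a => ?_⟩
  have h : Measurable (fun b : ℤˣ => (b : ℤ)) := comap_measurable _
  have h2 : ({a} : Set ℤˣ) = (fun b : ℤˣ => (b : ℤ)) ⁻¹' {(a : ℤ)} := by
    ext b
    simp only [Set.mem_singleton_iff, Units.ext_iff, Set.mem_preimage]
  rw [h2]
  exact h (measurableSet_singleton _)

/-- extend a configuration on `D` by 1 -/
noncomputable def ext1 (D : Finset V) (η : D → ℤˣ) : V → ℤˣ :=
  open Classical in fun v => if h : v ∈ D then η ⟨v, h⟩ else 1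

theorem ext1_of_mem {D : Finset V} (η : D → ℤˣ) {v : V} (h : v ∈ D) : ext1 D η v = η ⟨v, h⟩ := by
  simp [ext1, h]

theorem dependsOn_eq_ext1 {D : Finset V} {β : Type*} {f : (V → ℤˣ) → β}
    (hf : DependsOn f (D : Set V)) (σ : V → ℤˣ) : f σ = f (ext1 D (D.restrict σ)) := by
  apply hf
  intro v hv
  rw [ext1_of_mem _ (by simpa using hv)]
  rfl

theorem dependsOn_measurable {D : Finset V} {β : Type*} [MeasurableSpace β] {f : (V → ℤˣ) → β}
    (hf : DependsOn f (D : Set V)) : Measurable f := by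
  have := msc_units
  have h : f = (fun η : D → ℤˣ => f (ext1 D η)) ∘ D.restrict := by
    funext σ
    exact dependsOn_eq_ext1 hf σ
  rw [h]
  exact (Measurable.of_discrete).comp (Finset.measurable_restrict D)

/-- local functions are bounded, measurable, hence integrable -/
theorem LocalOn.integrable {A : Set V} {f : (V → ℤˣ) → ℝ} (hf : LocalOn A f)
    (μ : Measure (V → ℤˣ)) [IsFiniteMeasure μ] : Integrable f μ := by
  obtain ⟨D, -, hD⟩ := hf
  have := msc_units
  have h : f = (fun η : D → ℤˣ => f (ext1 D η)) ∘ D.restrict := by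
    funext σ
    exact dependsOn_eq_ext1 hD σ
  rw [h]
  exact (Integrable.of_finite (μ := μ.map D.restrict)).comp_measurable (Finset.measurable_restrict D)

/-- the weight of a configuration on `D` -/
noncomputable def wt (G : SimpleGraph V) (θ : ℝ) (D : Finset V) (η : V → ℤˣ) : ℝ :=
  1 / 2 * ∏ e ∈ (open Classical in D.sym2.filter (fun e => e ∈ G.edgeSet)),
        (1 + θ * (((e.map η).mul : ℤ) : ℝ)) / 2

theorem unit_cast (a : ℤˣ) : ((a : ℤ) : ℝ) = 1 ∨ ((a : ℤ) : ℝ) = -1 := by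
  rcases Int.units_eq_one_or a with h | h <;> simp [h]

theorem factor_nonneg {θ : ℝ} (h0 : 0 ≤ θ) (h1 : θ < 1) (a : ℤˣ) :
    0 ≤ (1 + θ * ((a : ℤ) : ℝ)) / 2 := by
  rcases unit_cast a with h | h <;> rw [h] <;> linarith only [h0, h1]

theorem wt_nonneg {θ : ℝ} (h0 : 0 ≤ θ) (h1 : θ < 1) (D : Finset V) (η : V → ℤˣ) :
    0 ≤ wt G θ D η := by
  unfold wt
  refine mul_nonneg (by norm_num) (Finset.prod_nonneg fun e _ => ?_)
  exact factor_nonneg h0 h1 _

theorem wt_congr {θ : ℝ} {D : Finset V} {η ξ : V → ℤˣ} (h : ∀ v ∈ D, η v = ξ v) :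
    wt G θ D η = wt G θ D ξ := by
  classical
  unfold wt
  congr 1
  refine Finset.prod_congr rfl fun e he => ?_
  have h1 := (Finset.mem_filter.mp he).1
  revert h1
  refine Sym2.ind (fun a b => ?_) e
  intro h1
  rw [Finset.mk_mem_sym2_iff] at h1
  simp only [Sym2.map_mk, Sym2.mul_mk, h a h1.1, h b h1.2]

theorem wt_union [DecidableEq V] (hG : G.IsTree) {θ : ℝ} {u v : V} (huv : G.Adj u v)
    {DA DB : Finset V} (hA : (DA : Set V) ⊆ side G u v) (hB : (DB : Set V) ⊆ side G v u)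
    (hu : u ∈ DA) (hv : v ∈ DB) (η : V → ℤˣ) :
    wt G θ (DA ∪ DB) η = wt G θ DA η * wt G θ DB η * (1 + θ * (((η u : ℤ) : ℝ) * ((η v : ℤ) : ℝ))) := by
  classical
  have hdisj : ∀ x, x ∈ DA → x ∈ DB → False := by
    intro x hx hx'
    have h1 := hA hx
    have h2 := hB hx'
    simp only [side, Set.mem_ofPred_eq] at h1 h2
    omega
  have hset : (DA ∪ DB).sym2.filter (fun e => e ∈ G.edgeSet) =
      (DA.sym2.filter (fun e => e ∈ G.edgeSet) ∪ DB.sym2.filter (fun e => e ∈ G.edgeSet))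
        ∪ {s(u, v)} := by
    ext e
    refine Sym2.ind (fun a b => ?_) e
    simp only [Finset.mem_filter, Finset.mem_union, Finset.mk_mem_sym2_iff,
      SimpleGraph.mem_edgeSet, Finset.mem_singleton]
    constructor
    · rintro ⟨⟨ha | ha, hb | hb⟩, hab⟩
      · exact Or.inl (Or.inl ⟨⟨ha, hb⟩, hab⟩)
      · right
        obtain ⟨h1, h2⟩ := edge_between_sides hG huv hab (hA ha) (hB hb)
        rw [h1, h2]
      · right
        obtain ⟨h1, h2⟩ := edge_between_sides hG huv hab.symm (hA hb) (hB ha)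
        rw [h1, h2, Sym2.eq_swap]
      · exact Or.inl (Or.inr ⟨⟨ha, hb⟩, hab⟩)
    · rintro ((⟨⟨ha, hb⟩, hab⟩ | ⟨⟨ha, hb⟩, hab⟩) | h)
      · exact ⟨⟨Or.inl ha, Or.inl hb⟩, hab⟩
      · exact ⟨⟨Or.inr ha, Or.inr hb⟩, hab⟩
      · rw [Sym2.eq_iff] at h
        rcases h with ⟨rfl, rfl⟩ | ⟨rfl, rfl⟩
        · exact ⟨⟨Or.inl hu, Or.inr hv⟩, huv⟩
        · exact ⟨⟨Or.inr hv, Or.inl hu⟩, huv.symm⟩
  have hd1 : Disjoint (DA.sym2.filter (fun e => e ∈ G.edgeSet))
      (DB.sym2.filter (fun e => e ∈ G.edgeSet)) := by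
    rw [Finset.disjoint_left]
    intro e
    refine Sym2.ind (fun a b => ?_) e
    simp only [Finset.mem_filter, Finset.mk_mem_sym2_iff]
    intro h h'
    exact hdisj a h.1.1 h'.1.1
  have hd2 : Disjoint (DA.sym2.filter (fun e => e ∈ G.edgeSet) ∪
      DB.sym2.filter (fun e => e ∈ G.edgeSet)) {s(u, v)} := by
    rw [Finset.disjoint_singleton_right]
    simp only [Finset.mem_union, Finset.mem_filter, Finset.mk_mem_sym2_iff]
    rintro (h | h)
    · exact hdisj v h.1.2 hv
    · exact hdisj u hu h.1.1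
  unfold wt
  rw [hset, Finset.prod_union hd2, Finset.prod_union hd1, Finset.prod_singleton]
  simp only [Sym2.map_mk, Sym2.mul_mk, Units.val_mul, Int.cast_mul]
  ring

theorem measurableSet_cyl (D : Finset V) (η : V → ℤˣ) :
    MeasurableSet {σ : V → ℤˣ | ∀ v ∈ D, σ v = η v} := by
  have := msc_units
  have h : {σ : V → ℤˣ | ∀ v ∈ D, σ v = η v} = ⋂ v ∈ D, (fun σ : V → ℤˣ => σ v) ⁻¹' {η v} := by
    ext σ
    simp only [Set.mem_ofPred_eq, Set.mem_iInter, Set.mem_preimage, Set.mem_singleton_iff]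
  rw [h]
  exact Finset.measurableSet_biInter _ fun v _ => measurable_pi_apply v (measurableSet_singleton _)

/-- S-main : the free Ising measure satisfies the edge splitting identity -/
theorem IsFreeIsing.edgeSplit [G.LocallyFinite] (hG : G.IsTree) {θ : ℝ} (h0 : 0 ≤ θ) (h1 : θ < 1)
    {μ : Measure (V → ℤˣ)} (hμ : IsFreeIsing G θ μ) : EdgeSplit G θ μ := by
  classical
  intro u v huv f g hf hg
  have := msc_units
  have := hμ.isProb
  obtain ⟨Df, hDf, hf⟩ := hf
  obtain ⟨Dg, hDg, hg⟩ := hg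
  obtain ⟨DA, DB, hA, hB, hu, hv, hcA, hcB, hcAB, hsub⟩ := exists_split_sets hG huv (Df ∪ Dg)
  have hfA : DependsOn f (DA : Set V) := by
    refine DependsOn.mono ?_ hf
    intro x hx
    have h2 := hDf hx
    have h3 := hsub (Finset.mem_union_left _ hx)
    rcases Finset.mem_union.mp h3 with h | h
    · exact h
    · exfalso
      have h4 := hB h
      simp only [side, Set.mem_ofPred_eq] at h2 h4
      omega
  have hgB : DependsOn g (DB : Set V) := by
    refine DependsOn.mono ?_ hg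
    intro x hx
    have h2 := hDg hx
    have h3 := hsub (Finset.mem_union_right _ hx)
    rcases Finset.mem_union.mp h3 with h | h
    · exfalso
      have h4 := hA h
      simp only [side, Set.mem_ofPred_eq] at h2 h4
      omega
    · exact h
  have hdisj : ∀ x, x ∈ DA → x ∈ DB → False := by
    intro x hx hx'
    have h1 := hA hx
    have h2 := hB hx'
    simp only [side, Set.mem_ofPred_eq] at h1 h2
    omega
  -- one sided expansions
  have key1 : ∀ (D : Finset V) (F : (D → ℤˣ) → ℝ), (G.induce (D : Set V)).Connected →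
      ∫ σ, F (D.restrict σ) ∂μ = ∑ η : D → ℤˣ, wt G θ D (ext1 D η) * F η := by
    intro D F hD
    have hint : Integrable F (μ.map D.restrict) := Integrable.of_finite
    have e1 : ∫ σ, F (D.restrict σ) ∂μ = ∫ η, F η ∂(μ.map D.restrict) := by
      rw [integral_map (Finset.measurable_restrict D).aemeasurable hint.1]
    rw [e1, integral_fintype hint]
    refine Finset.sum_congr rfl fun η _ => ?_
    rw [smul_eq_mul]
    congr 1
    rw [measureReal_def, Measure.map_apply (Finset.measurable_restrict D) (measurableSet_singleton _)]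
    have e2 : (D.restrict : (V → ℤˣ) → (D → ℤˣ)) ⁻¹' {η} = {σ : V → ℤˣ | ∀ v ∈ D, σ v = ext1 D η v} := by
      ext σ
      simp only [Set.mem_preimage, Set.mem_singleton_iff, Set.mem_ofPred_eq]
      constructor
      · rintro rfl v hv
        rw [ext1_of_mem _ hv]
        rfl
      · intro h
        funext ⟨v, hv⟩
        have := h v hv
        rw [ext1_of_mem _ hv] at this
        exact this
    rw [e2, hμ.marginal D hD]
    exact ENNReal.toReal_ofReal (wt_nonneg h0 h1 D _)
  -- two sided expansion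
  have key2 : ∀ (F : (DA → ℤˣ) → ℝ) (K : (DB → ℤˣ) → ℝ),
      ∫ σ, F (DA.restrict σ) * K (DB.restrict σ) ∂μ =
        ∑ η : DA → ℤˣ, ∑ ξ : DB → ℤˣ, (wt G θ DA (ext1 DA η) * wt G θ DB (ext1 DB ξ) *
          (1 + θ * (((η ⟨u, hu⟩ : ℤ) : ℝ) * ((ξ ⟨v, hv⟩ : ℤ) : ℝ)))) * (F η * K ξ) := by
    intro F K
    have hm : Measurable (fun σ : V → ℤˣ => (DA.restrict σ, DB.restrict σ)) :=
      (Finset.measurable_restrict DA).prodMk (Finset.measurable_restrict DB)
    have hint : Integrable (fun p : (DA → ℤˣ) × (DB → ℤˣ) => F p.1 * K p.2)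
      (μ.map (fun σ : V → ℤˣ => (DA.restrict σ, DB.restrict σ))) := Integrable.of_finite
    have e1 : ∫ σ, F (DA.restrict σ) * K (DB.restrict σ) ∂μ =
        ∫ p, F p.1 * K p.2 ∂(μ.map (fun σ : V → ℤˣ => (DA.restrict σ, DB.restrict σ))) := by
      rw [integral_map hm.aemeasurable hint.1]
    rw [e1, integral_fintype hint, Fintype.sum_prod_type]
    refine Finset.sum_congr rfl fun η _ => Finset.sum_congr rfl fun ξ _ => ?_
    rw [smul_eq_mul]
    congr 1
    rw [measureReal_def, Measure.map_apply hm (measurableSet_singleton _)]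
    set ζ : V → ℤˣ := fun x => if x ∈ DA then ext1 DA η x else ext1 DB ξ x with hζ
    have hζA : ∀ x ∈ DA, ζ x = ext1 DA η x := fun x hx => by simp [hζ, hx]
    have hζB : ∀ x ∈ DB, ζ x = ext1 DB ξ x := fun x hx => by
      have : x ∉ DA := fun h => hdisj x h hx
      simp [hζ, this]
    have e2 : (fun σ : V → ℤˣ => (DA.restrict σ, DB.restrict σ)) ⁻¹' {(η, ξ)} =
        {σ : V → ℤˣ | ∀ v ∈ DA ∪ DB, σ v = ζ v} := by
      ext σ
      simp only [Set.mem_preimage, Set.mem_singleton_iff, Set.mem_ofPred_eq, Prod.mk.injEq]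
      constructor
      · rintro ⟨rfl, rfl⟩ v hv
        rcases Finset.mem_union.mp hv with hv | hv
        · rw [hζA v hv, ext1_of_mem _ hv]
          rfl
        · rw [hζB v hv, ext1_of_mem _ hv]
          rfl
      · intro h
        constructor
        · funext ⟨v, hv⟩
          have := h v (Finset.mem_union_left _ hv)
          rw [hζA v hv, ext1_of_mem _ hv] at this
          exact this
        · funext ⟨v, hv⟩
          have := h v (Finset.mem_union_right _ hv)
          rw [hζB v hv, ext1_of_mem _ hv] at this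
          exact this
    rw [e2, hμ.marginal (DA ∪ DB) hcAB]
    have e3 := ENNReal.toReal_ofReal (wt_nonneg (G := G) h0 h1 (DA ∪ DB) ζ)
    have e4 := wt_union hG (θ := θ) huv hA hB hu hv ζ
    rw [wt_congr hζA, wt_congr hζB, hζA u hu, hζB v hv, ext1_of_mem _ hu, ext1_of_mem _ hv] at e4
    rw [← e4]
    exact e3
  have hF : ∀ σ, f σ = f (ext1 DA (DA.restrict σ)) := dependsOn_eq_ext1 hfA
  have hK : ∀ σ, g σ = g (ext1 DB (DB.restrict σ)) := dependsOn_eq_ext1 hgB
  have i1 := key2 (fun η => f (ext1 DA η)) (fun ξ => g (ext1 DB ξ))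
  have i2 := key1 DA (fun η => f (ext1 DA η)) hcA
  have i3 := key1 DB (fun η => g (ext1 DB η)) hcB
  have i4 : ∫ σ, f (ext1 DA (DA.restrict σ)) * sp σ u ∂μ =
      ∑ η : DA → ℤˣ, wt G θ DA (ext1 DA η) * (f (ext1 DA η) * ((η ⟨u, hu⟩ : ℤ) : ℝ)) :=
    key1 DA (fun η => f (ext1 DA η) * ((η ⟨u, hu⟩ : ℤ) : ℝ)) hcA
  have i5 : ∫ σ, g (ext1 DB (DB.restrict σ)) * sp σ v ∂μ =
      ∑ ξ : DB → ℤˣ, wt G θ DB (ext1 DB ξ) * (g (ext1 DB ξ) * ((ξ ⟨v, hv⟩ : ℤ) : ℝ)) :=
    key1 DB (fun η => g (ext1 DB η) * ((η ⟨v, hv⟩ : ℤ) : ℝ)) hcB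
  simp only [← hF, ← hK] at i1 i2 i3 i4 i5
  rw [i1, i2, i3, i4, i5, Finset.sum_mul_sum, mul_assoc, Finset.sum_mul_sum, Finset.mul_sum,
    ← Finset.sum_add_distrib]
  refine Finset.sum_congr rfl fun η _ => ?_
  rw [Finset.mul_sum, ← Finset.sum_add_distrib]
  refine Finset.sum_congr rfl fun ξ _ => ?_
  ring

/-- invariance of the weights under automorphisms -/
theorem wt_aut {θ : ℝ} (D : Finset V) (η : V → ℤˣ) (g : G ≃g G) :
    wt G θ (D.map g.symm.toEquiv.toEmbedding) (fun w => η (g w)) = wt G θ D η := by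
  classical
  unfold wt
  congr 1
  refine Finset.prod_nbij' (Sym2.map g) (Sym2.map g.symm) ?_ ?_ ?_ ?_ ?_
  · intro e
    refine Sym2.ind (fun a b => ?_) e
    simp only [Finset.mem_filter, Finset.mk_mem_sym2_iff, Sym2.map_mk, SimpleGraph.mem_edgeSet,
      Finset.mem_map]
    rintro ⟨⟨⟨a', ha', rfl⟩, ⟨b', hb', rfl⟩⟩, hab⟩
    refine ⟨⟨?_, ?_⟩, ?_⟩
    · simpa using ha'
    · simpa using hb'
    · exact g.map_adj_iff.mpr hab
  · intro e
    refine Sym2.ind (fun a b => ?_) e
    simp only [Finset.mem_filter, Finset.mk_mem_sym2_iff, Sym2.map_mk, SimpleGraph.mem_edgeSet,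
      Finset.mem_map]
    rintro ⟨⟨ha, hb⟩, hab⟩
    exact ⟨⟨⟨a, ha, rfl⟩, ⟨b, hb, rfl⟩⟩, g.symm.map_adj_iff.mpr hab⟩
  · intro e _
    refine Sym2.ind (fun a b => ?_) e
    simp
  · intro e _
    refine Sym2.ind (fun a b => ?_) e
    simp
  · intro e _
    refine Sym2.ind (fun a b => ?_) e
    simp only [Sym2.map_mk, Sym2.mul_mk, Units.val_mul, Int.cast_mul]

/-- invariance of the free Ising measure under automorphisms -/
theorem IsFreeIsing.map_aut [G.LocallyFinite] (hG : G.IsTree) {θ : ℝ} (h0 : 0 ≤ θ) (h1 : θ < 1)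
    {μ : Measure (V → ℤˣ)} (hμ : IsFreeIsing G θ μ) (g : G ≃g G) :
    μ.map (fun σ v => σ (g.symm v)) = μ := by
  classical
  have := msc_units
  have := hμ.isProb
  have : Nonempty V := hG.connected.nonempty
  have hm : Measurable (fun (σ : V → ℤˣ) (v : V) => σ (g.symm v)) :=
    measurable_pi_lambda _ fun v => measurable_pi_apply _
  have : IsProbabilityMeasure (μ.map (fun (σ : V → ℤˣ) (v : V) => σ (g.symm v))) :=
    Measure.isProbabilityMeasure_map hm.aemeasurable
  have hcyl : ∀ (D : Finset V) (η : D → ℤˣ),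
      (D.restrict : (V → ℤˣ) → (D → ℤˣ)) ⁻¹' {η} = {σ : V → ℤˣ | ∀ v ∈ D, σ v = ext1 D η v} := by
    intro D η
    ext σ
    simp only [Set.mem_preimage, Set.mem_singleton_iff, Set.mem_ofPred_eq]
    constructor
    · rintro rfl v hv
      rw [ext1_of_mem _ hv]
      rfl
    · intro h
      funext ⟨v, hv⟩
      have := h v hv
      rw [ext1_of_mem _ hv] at this
      exact this
  have hconn : ∀ D : Finset V, (G.induce (D : Set V)).Connected →
      (μ.map (fun (σ : V → ℤˣ) (v : V) => σ (g.symm v))).map D.restrict = μ.map D.restrict := by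
    intro D hD
    refine Measure.ext_of_singleton fun η => ?_
    rw [Measure.map_apply (Finset.measurable_restrict D) (measurableSet_singleton _),
      Measure.map_apply (Finset.measurable_restrict D) (measurableSet_singleton _), hcyl,
      Measure.map_apply hm (measurableSet_cyl _ _)]
    have e1 : (fun (σ : V → ℤˣ) (v : V) => σ (g.symm v)) ⁻¹'
        {σ : V → ℤˣ | ∀ v ∈ D, σ v = ext1 D η v} =
        {σ : V → ℤˣ | ∀ v ∈ D.map g.symm.toEquiv.toEmbedding,
          σ v = (fun w => ext1 D η (g w)) v} := by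
      ext σ
      simp only [Set.mem_preimage, Set.mem_ofPred_eq, Finset.mem_map]
      constructor
      · rintro h v ⟨a, ha, rfl⟩
        have := h a ha
        simpa only [Function.Embedding.coeFn_mk, RelIso.coe_fn_toEquiv, RelIso.apply_symm_apply] using this
      · intro h v hv
        have := h (g.symm v) ⟨v, hv, rfl⟩
        simpa using this
    have hD' : (G.induce ((D.map g.symm.toEquiv.toEmbedding : Finset V) : Set V)).Connected := by
      have hb : Set.BijOn g.symm (D : Set V) ((D.map g.symm.toEquiv.toEmbedding : Finset V) : Set V) := by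
        rw [Finset.coe_map]
        exact (g.symm.toEquiv.injective.injOn).bijOn_image
      exact (SimpleGraph.Iso.connected_iff (SimpleGraph.Iso.induce g.symm hb)).mp hD
    rw [e1, hμ.marginal _ hD', hμ.marginal _ hD]
    exact congrArg ENNReal.ofReal (wt_aut (θ := θ) D (ext1 D η) g)
  have hall : ∀ I : Finset V,
      (μ.map (fun (σ : V → ℤˣ) (v : V) => σ (g.symm v))).map I.restrict = μ.map I.restrict := by
    intro I
    obtain ⟨D, hID, hD⟩ := exists_connected_superset hG I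
    have e : (I.restrict : (V → ℤˣ) → (I → ℤˣ)) = Finset.restrict₂ hID ∘ D.restrict := rfl
    have h2 := hconn D hD
    rw [e, ← Measure.map_map (Finset.measurable_restrict₂ hID) (Finset.measurable_restrict D),
      ← Measure.map_map (Finset.measurable_restrict₂ hID) (Finset.measurable_restrict D), h2]
  have : ∀ I : Finset V, IsFiniteMeasure (μ.map (I.restrict : (V → ℤˣ) → (I → ℤˣ))) :=
    fun I => inferInstance
  exact IsProjectiveLimit.unique (P := fun I => μ.map I.restrict) (fun I => hall I) (fun I => rfl)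

end Vale.Agent.P161
end
end

section

section

open MeasureTheory

namespace Vale.Agent.P161

variable {V : Type*} {G : SimpleGraph V} {μ : Measure (V → ℤˣ)}

theorem sp_cases (σ : V → ℤˣ) (v : V) : sp σ v = 1 ∨ sp σ v = -1 := unit_cast (σ v)

theorem sp_sq (σ : V → ℤˣ) (v : V) : sp σ v ^ 2 = 1 := by
  rcases sp_cases σ v with h | h <;> rw [h] <;> norm_num

theorem sp_mul_self (σ : V → ℤˣ) (v : V) : sp σ v * sp σ v = 1 := by
  rw [← sq, sp_sq]

theorem abs_sp (σ : V → ℤˣ) (v : V) : |sp σ v| = 1 := by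
  rcases sp_cases σ v with h | h <;> rw [h] <;> norm_num

/-! ### local functions -/

theorem localP_mul {A : Set V} {f g : (V → ℤˣ) → ℝ} (hf : LocalOn A f) (hg : LocalOn A g) :
    LocalOn A (fun σ => f σ * g σ) := by
  classical
  obtain ⟨D, hDA, hD⟩ := hf
  obtain ⟨E, hEA, hE⟩ := hg
  refine ⟨D ∪ E, ?_, ?_⟩
  · intro x hx
    rcases Finset.mem_union.mp hx with h | h
    · exact hDA h
    · exact hEA h
  · intro x y hxy
    have h1 : f x = f y := hD fun i hi => hxy i (by
      rw [Finset.coe_union]; exact Or.inl hi)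
    have h2 : g x = g y := hE fun i hi => hxy i (by
      rw [Finset.coe_union]; exact Or.inr hi)
    simp only [h1, h2]

theorem localP_const {A : Set V} (c : ℝ) : LocalOn A (fun _ : V → ℤˣ => c) :=
  ⟨∅, by simp only [Finset.coe_empty, Set.empty_subset], fun _ _ _ => rfl⟩

theorem localP_sp {A : Set V} {v : V} (hv : v ∈ A) : LocalOn A (fun σ : V → ℤˣ => sp σ v) := by
  refine ⟨{v}, by simpa using hv, ?_⟩
  intro x y hxy
  simp only [sp]
  rw [hxy v (by simp)]

theorem lik_nil (σ : V → ℤˣ) : lik [] σ = 1 := rfl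

theorem lik_cons (p : V × ℝ) (H : List (V × ℝ)) (σ : V → ℤˣ) :
    lik (p :: H) σ = (1 + p.2 * sp σ p.1) * lik H σ := by
  simp only [lik, List.map_cons, List.prod_cons]

theorem localP_lik {A : Set V} {H : List (V × ℝ)} (h : ∀ p ∈ H, p.1 ∈ A) : LocalOn A (lik H) := by
  classical
  refine ⟨(H.map Prod.fst).toFinset, ?_, ?_⟩
  · intro x hx
    simp only [List.coe_toFinset, List.mem_map, Set.mem_ofPred_eq] at hx
    obtain ⟨p, hp, rfl⟩ := hx
    exact h p hp
  · intro x y hxy
    unfold lik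
    congr 1
    refine List.map_congr_left fun p hp => ?_
    have : x p.1 = y p.1 := hxy p.1 (by
      simp only [List.coe_toFinset, List.mem_map, Set.mem_ofPred_eq]
      exact ⟨p, hp, rfl⟩)
    simp only [sp, this]

theorem localP_spS {A : Set V} {S : Finset V} (hS : (S : Set V) ⊆ A) :
    LocalOn A (fun σ : V → ℤˣ => spS S σ) := by
  refine ⟨S, hS, ?_⟩
  intro x y hxy
  unfold spS
  refine Finset.prod_congr rfl fun v hv => ?_
  simp only [sp]
  rw [hxy v hv]

theorem abs_spS (S : Finset V) (σ : V → ℤˣ) : |spS S σ| = 1 := by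
  unfold spS
  rw [Finset.abs_prod]
  exact Finset.prod_eq_one fun v _ => abs_sp σ v

/-! ### the likelihood -/

theorem good_cons {p : V × ℝ} {H : List (V × ℝ)} (hH : Good (p :: H)) :
    |p.2| ≤ 1 / 2 ∧ Good H :=
  ⟨hH p (by simp), fun q hq => hH q (by simp [hq])⟩

theorem factor_pos {a s : ℝ} (ha : |a| ≤ 1 / 2) (hs : |s| ≤ 1) : 0 < 1 + a * s := by
  have h : |a * s| ≤ 1 / 2 := by
    rw [abs_mul]
    calc |a| * |s| ≤ 1 / 2 * 1 := mul_le_mul ha hs (abs_nonneg _) (by norm_num)
      _ = 1 / 2 := by norm_num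
  have := (abs_le.mp h).1
  linarith only [this]

theorem lik_pos {H : List (V × ℝ)} (hH : Good H) (σ : V → ℤˣ) : 0 < lik H σ := by
  induction H with
  | nil => simp only [lik_nil, zero_lt_one]
  | cons p H ih =>
    rw [lik_cons]
    obtain ⟨h1, h2⟩ := good_cons hH
    exact mul_pos (factor_pos h1 (abs_sp σ p.1).le) (ih h2)

theorem localP_lik' (H : List (V × ℝ)) : LocalOn Set.univ (lik H) := localP_lik (by simp)

theorem int_mul_lik [IsFiniteMeasure μ] (H : List (V × ℝ)) {f : (V → ℤˣ) → ℝ}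
    (hf : LocalOn Set.univ f) : Integrable (fun σ => f σ * lik H σ) μ :=
  (localP_mul hf (localP_lik' H)).integrable μ

theorem int_lik [IsFiniteMeasure μ] (H : List (V × ℝ)) : Integrable (fun σ => lik H σ) μ :=
  (localP_lik' H).integrable μ

theorem integral_lik_pos [IsProbabilityMeasure μ] {H : List (V × ℝ)} (hH : Good H) :
    0 < ∫ σ, lik H σ ∂μ := by
  rw [integral_pos_iff_support_of_nonneg (fun σ => (lik_pos hH σ).le) (int_lik H)]
  have : Function.support (fun σ => lik H σ) = Set.univ := by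
    ext σ
    simp [(lik_pos hH σ).ne']
  rw [this]
  simp only [measure_univ, zero_lt_one]

theorem post_mono [IsProbabilityMeasure μ] {H : List (V × ℝ)} (hH : Good H)
    {f g : (V → ℤˣ) → ℝ} (hf : LocalOn Set.univ f) (hg : LocalOn Set.univ g)
    (h : ∀ σ, f σ ≤ g σ) : post μ H f ≤ post μ H g := by
  unfold post
  refine div_le_div_of_nonneg_right ?_ (integral_lik_pos hH).le
  exact integral_mono (int_mul_lik H hf) (int_mul_lik H hg)
    fun σ => mul_le_mul_of_nonneg_right (h σ) (lik_pos hH σ).le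

theorem post_const [IsProbabilityMeasure μ] {H : List (V × ℝ)} (hH : Good H) (c : ℝ) :
    post μ H (fun _ => c) = c := by
  unfold post
  rw [integral_const_mul, mul_div_assoc, div_self (integral_lik_pos hH).ne', mul_one]

theorem post_const_mul (H : List (V × ℝ)) (c : ℝ) (f : (V → ℤˣ) → ℝ) :
    post μ H (fun σ => c * f σ) = c * post μ H f := by
  unfold post
  simp only [mul_assoc]
  rw [integral_const_mul, mul_div_assoc]

theorem post_sub [IsProbabilityMeasure μ] (H : List (V × ℝ)) {f g : (V → ℤˣ) → ℝ}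
    (hf : LocalOn Set.univ f) (hg : LocalOn Set.univ g) :
    post μ H (fun σ => f σ - g σ) = post μ H f - post μ H g := by
  unfold post
  simp only [sub_mul]
  rw [integral_sub (int_mul_lik H hf) (int_mul_lik H hg), sub_div]

theorem abs_post_le_post [IsProbabilityMeasure μ] {H : List (V × ℝ)} (hH : Good H)
    {f g : (V → ℤˣ) → ℝ} (hf : LocalOn Set.univ f) (hg : LocalOn Set.univ g)
    (h : ∀ σ, |f σ| ≤ g σ) : |post μ H f| ≤ post μ H g := by
  rw [abs_le]
  constructor
  · have h1 := post_mono (μ := μ) hH (f := fun σ => -1 * g σ) (g := f)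
      (localP_mul (localP_const (-1)) hg) hf (fun σ => by
        have := (abs_le.mp (h σ)).1
        linarith)
    rw [post_const_mul] at h1
    linarith only [h1]
  · exact post_mono hH hf hg fun σ => (le_abs_self _).trans (h σ)

theorem post_cons [IsProbabilityMeasure μ] {H : List (V × ℝ)} (hH : Good H) {x : V} {a : ℝ}
    (ha : |a| ≤ 1 / 2) {f : (V → ℤˣ) → ℝ} (hf : LocalOn Set.univ f) :
    post μ ((x, a) :: H) f =
      (post μ H f + a * post μ H (fun σ => sp σ x * f σ)) / (1 + a * mean μ H x) := by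
  have hZ := integral_lik_pos (μ := μ) hH
  have hx : LocalOn (Set.univ : Set V) (fun σ : V → ℤˣ => sp σ x) := localP_sp (Set.mem_univ x)
  have e1 : ∫ σ, f σ * lik ((x, a) :: H) σ ∂μ =
      ∫ σ, f σ * lik H σ ∂μ + a * ∫ σ, (sp σ x * f σ) * lik H σ ∂μ := by
    rw [← integral_const_mul, ← integral_add (int_mul_lik H hf)
      ((int_mul_lik H (localP_mul hx hf)).const_mul a)]
    congr 1
    funext σ
    rw [lik_cons]
    ring
  have e2 : ∫ σ, lik ((x, a) :: H) σ ∂μ =
      ∫ σ, lik H σ ∂μ + a * ∫ σ, sp σ x * lik H σ ∂μ := by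
    rw [← integral_const_mul, ← integral_add (int_lik H)
      ((int_mul_lik H hx).const_mul a)]
    congr 1
    funext σ
    rw [lik_cons]
    ring
  unfold mean post
  rw [e1, e2]
  have e3 : ∫ σ, lik H σ ∂μ + a * ∫ σ, sp σ x * lik H σ ∂μ =
      (∫ σ, lik H σ ∂μ) * (1 + a * ((∫ σ, sp σ x * lik H σ ∂μ) / ∫ σ, lik H σ ∂μ)) := by
    (clear * - hZ; field_simp)
  rw [e3, ← div_div]
  congr 1
  (clear * - hZ; field_simp)

theorem abs_post_le [IsProbabilityMeasure μ] {H : List (V × ℝ)} (hH : Good H)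
    {f : (V → ℤˣ) → ℝ} (hf : LocalOn Set.univ f) {C : ℝ} (hC : ∀ σ, |f σ| ≤ C) :
    |post μ H f| ≤ C := by
  have := abs_post_le_post (μ := μ) hH hf (localP_const C) hC
  rwa [post_const hH] at this

theorem abs_mean_le [IsProbabilityMeasure μ] {H : List (V × ℝ)} (hH : Good H) (v : V) :
    |mean μ H v| ≤ 1 :=
  abs_post_le hH (localP_sp (Set.mem_univ v)) fun σ => (abs_sp σ v).le

theorem mean_cons [IsProbabilityMeasure μ] {H : List (V × ℝ)} (hH : Good H) (x v : V) {a : ℝ}
    (ha : |a| ≤ 1 / 2) :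
    mean μ ((x, a) :: H) v =
      mean μ H v + cov μ H x v * (a / (1 + a * mean μ H x)) := by
  have h1 : 0 < 1 + a * mean μ H x := factor_pos ha (abs_mean_le hH x)
  have h2 := post_cons (μ := μ) hH (x := x) ha (localP_sp (Set.mem_univ v))
  unfold cov
  rw [mean, h2, ← mean]
  field_simp
  ring

theorem cov_self [IsProbabilityMeasure μ] {H : List (V × ℝ)} (hH : Good H) (x : V) :
    cov μ H x x = 1 - mean μ H x ^ 2 := by
  unfold cov
  have : (fun σ : V → ℤˣ => sp σ x * sp σ x) = fun _ => (1 : ℝ) := by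
    funext σ
    exact sp_mul_self σ x
  rw [this, post_const hH]
  ring

/-- splitting the likelihood over a set of vertices -/
theorem lik_split (A : Set V) [DecidablePred (· ∈ A)] (H : List (V × ℝ)) (σ : V → ℤˣ) :
    lik H σ = lik (H.filter fun p => decide (p.1 ∈ A)) σ *
      lik (H.filter fun p => decide (¬ p.1 ∈ A)) σ := by
  induction H with
  | nil => simp [lik_nil]
  | cons p H ih =>
    rw [lik_cons, ih]
    by_cases h : p.1 ∈ A
    · rw [List.filter_cons_of_pos (by simpa using h), List.filter_cons_of_neg (by simpa using h),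
        lik_cons]
      ring
    · rw [List.filter_cons_of_neg (by simpa using h), List.filter_cons_of_pos (by simpa using h),
        lik_cons]
      ring

theorem good_filter {H : List (V × ℝ)} (hH : Good H) (q : V × ℝ → Bool) : Good (H.filter q) :=
  fun p hp => hH p (List.mem_of_mem_filter hp)

theorem one_sub_sq_pos {θ t : ℝ} (h0 : 0 ≤ θ) (h1 : θ < 1) (ht : |t| ≤ 1) :
    0 < 1 - θ ^ 2 * t ^ 2 := by
  have h2 : t ^ 2 ≤ 1 := by
    rw [← sq_abs]
    exact pow_le_one₀ (abs_nonneg _) ht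
  have h3 : θ ^ 2 < 1 := pow_lt_one₀ h0 h1 (by norm_num)
  nlinarith only [h3, h2]

/-- core identity across an edge -/
theorem edge_core [IsProbabilityMeasure μ] (hG : G.IsTree) {θ : ℝ} (h0 : 0 ≤ θ) (h1 : θ < 1)
    (hμ : EdgeSplit G θ μ) {H : List (V × ℝ)} (hH : Good H) {u v : V} (huv : G.Adj u v) :
    ∃ t : ℝ, |t| ≤ 1 ∧ ∀ f : (V → ℤˣ) → ℝ, LocalOn (side G u v) f →
      post μ H (fun σ => f σ * sp σ v) =
        alpha θ t * post μ H f + rho θ t * post μ H (fun σ => f σ * sp σ u) := by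
  classical
  set HA := H.filter fun p => decide (p.1 ∈ side G u v) with hHA
  set HB := H.filter fun p => decide (¬ p.1 ∈ side G u v) with hHB
  have hgA : Good HA := good_filter hH _
  have hgB : Good HB := good_filter hH _
  have hsplit : ∀ σ, lik H σ = lik HA σ * lik HB σ := lik_split (side G u v) H
  have hLA : LocalOn (side G u v) (lik HA) := localP_lik fun p hp => by
    simpa using List.of_mem_filter hp
  have hLB : LocalOn (side G v u) (lik HB) := localP_lik fun p hp => by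
    have h2 : ¬ p.1 ∈ side G u v := by simpa using List.of_mem_filter hp
    rw [← side_compl hG huv]
    exact h2
  have hd : G.dist u v = 1 := SimpleGraph.dist_eq_one_iff_adj.2 huv
  have hu : u ∈ side G u v := by
    simp only [side, Set.mem_ofPred_eq, SimpleGraph.dist_self, hd]
    norm_num
  have hv : v ∈ side G v u := by
    have hd' : G.dist v u = 1 := by rw [SimpleGraph.dist_comm]; exact hd
    simp only [side, Set.mem_ofPred_eq, SimpleGraph.dist_self, hd']
    norm_num
  have hsu : LocalOn (side G u v) (fun σ : V → ℤˣ => sp σ u) := localP_sp hu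
  have hsv : LocalOn (side G v u) (fun σ : V → ℤˣ => sp σ v) := localP_sp hv
  have hZB := integral_lik_pos (μ := μ) hgB
  have hZ := integral_lik_pos (μ := μ) hH
  set ZB := ∫ σ, lik HB σ ∂μ with hZBdef
  set Z := ∫ σ, lik H σ ∂μ with hZdef
  set t := (∫ σ, sp σ v * lik HB σ ∂μ) / ZB with ht
  have htB : ∫ σ, sp σ v * lik HB σ ∂μ = t * ZB := by
    rw [ht]
    (clear * - hZB; field_simp)
  have ht1 : |t| ≤ 1 := abs_mean_le (μ := μ) hgB v
  refine ⟨t, ht1, fun f hf => ?_⟩
  set P := ∫ σ, f σ * lik HA σ ∂μ with hP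
  set Q := ∫ σ, f σ * lik HA σ * sp σ u ∂μ with hQ
  have hfA : LocalOn (side G u v) (fun σ => f σ * lik HA σ) := localP_mul hf hLA
  -- E[f L]
  have e1 : ∫ σ, f σ * lik H σ ∂μ = ZB * (P + θ * t * Q) := by
    have h2 := hμ u v huv _ _ hfA hLB
    have h3 : ∫ σ, f σ * lik H σ ∂μ = ∫ σ, f σ * lik HA σ * lik HB σ ∂μ := by
      congr 1
      funext σ
      rw [hsplit]
      ring
    have h4 : ∫ σ, lik HB σ * sp σ v ∂μ = t * ZB := by
      rw [← htB]
      congr 1
      funext σ
      ring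
    rw [h3, h2, h4]
    ring
  -- E[f s_v L]
  have e2 : ∫ σ, f σ * sp σ v * lik H σ ∂μ = ZB * (t * P + θ * Q) := by
    have h2 := hμ u v huv _ _ hfA (localP_mul hsv hLB)
    have h3 : ∫ σ, f σ * sp σ v * lik H σ ∂μ =
        ∫ σ, f σ * lik HA σ * (sp σ v * lik HB σ) ∂μ := by
      congr 1
      funext σ
      rw [hsplit]
      ring
    have h4 : ∫ σ, sp σ v * lik HB σ * sp σ v ∂μ = ZB := by
      rw [hZBdef]
      congr 1
      funext σ
      rw [mul_right_comm, sp_mul_self, one_mul]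
    rw [h3, h2, h4, htB]
    ring
  -- E[f s_u L]
  have e3 : ∫ σ, f σ * sp σ u * lik H σ ∂μ = ZB * (Q + θ * t * P) := by
    have h2 := hμ u v huv _ _ (localP_mul hfA hsu) hLB
    have h3 : ∫ σ, f σ * sp σ u * lik H σ ∂μ =
        ∫ σ, f σ * lik HA σ * sp σ u * lik HB σ ∂μ := by
      congr 1
      funext σ
      rw [hsplit]
      ring
    have h4 : ∫ σ, f σ * lik HA σ * sp σ u * sp σ u ∂μ = P := by
      rw [hP]
      congr 1
      funext σ
      rw [mul_assoc, sp_mul_self, mul_one]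
    have h5 : ∫ σ, lik HB σ * sp σ v ∂μ = t * ZB := by
      rw [← htB]
      congr 1
      funext σ
      ring
    rw [h3, h2, h4, h5]
    ring
  have hN : 1 - θ ^ 2 * t ^ 2 ≠ 0 := (one_sub_sq_pos h0 h1 ht1).ne'
  have hZ' : Z ≠ 0 := hZ.ne'
  unfold post
  rw [e1, e2, e3, ← hZdef, alpha, rho]
  rw [div_mul_div_comm, div_mul_div_comm, ← add_div, div_eq_div_iff hZ' (mul_ne_zero hN hZ')]
  ring

/-- edge structure -/
theorem edge_struct [IsProbabilityMeasure μ] (hG : G.IsTree) {θ : ℝ} (h0 : 0 ≤ θ) (h1 : θ < 1)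
    (hμ : EdgeSplit G θ μ) {H : List (V × ℝ)} (hH : Good H) {u v : V} (huv : G.Adj u v) :
    ∃ t : ℝ, |t| ≤ 1 ∧ mean μ H v = alpha θ t + rho θ t * mean μ H u ∧
      ∀ x ∈ side G u v, cov μ H x v = rho θ t * cov μ H x u := by
  obtain ⟨t, ht, h⟩ := edge_core (μ := μ) hG h0 h1 hμ hH huv
  have hm : mean μ H v = alpha θ t + rho θ t * mean μ H u := by
    have h2 := h (fun _ => 1) (localP_const 1)
    simp only [one_mul] at h2
    rw [post_const hH, mul_one] at h2
    exact h2
  refine ⟨t, ht, hm, fun x hx => ?_⟩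
  have h2 := h (fun σ => sp σ x) (localP_sp hx)
  unfold cov
  rw [h2, hm]
  unfold mean
  ring

theorem alpha_rho_le {θ t : ℝ} (h0 : 0 ≤ θ) (h1 : θ < 1) (ht : |t| ≤ 1) :
    |alpha θ t| + rho θ t ≤ 1 := by
  have hN := one_sub_sq_pos h0 h1 ht
  have hθ2 : 0 ≤ 1 - θ ^ 2 := by nlinarith only [h1, h0]
  have e : |alpha θ t| = |t| * (1 - θ ^ 2) / (1 - θ ^ 2 * t ^ 2) := by
    unfold alpha
    rw [abs_div, abs_mul, abs_of_nonneg hθ2, abs_of_pos hN]
  rw [e, rho, ← add_div, div_le_one hN]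
  have h2 : t ^ 2 = |t| ^ 2 := (sq_abs t).symm
  rw [h2]
  have ha := abs_nonneg t
  have key : 0 ≤ (1 - |t|) * (1 - θ) * (1 - θ * |t|) := by
    refine mul_nonneg (mul_nonneg (by linarith only [ht]) (by linarith only [h1])) ?_
    nlinarith only [h1, h0, ht]
  linarith

theorem rho_mem {θ t : ℝ} (h0 : 0 ≤ θ) (h1 : θ < 1) (ht : |t| ≤ 1) :
    0 ≤ rho θ t ∧ rho θ t ≤ θ := by
  have hN := one_sub_sq_pos h0 h1 ht
  have h2 : t ^ 2 ≤ 1 := by
    rw [← sq_abs]
    exact pow_le_one₀ (abs_nonneg _) ht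
  have h3 : θ ^ 2 ≤ 1 := pow_le_one₀ h0 h1.le
  unfold rho
  constructor
  · exact div_nonneg (mul_nonneg h0 (by linarith)) hN.le
  · rw [div_le_iff₀ hN]
    refine mul_le_mul_of_nonneg_left ?_ h0
    linarith only [mul_nonneg (sq_nonneg (t : ℝ)) (sub_nonneg.2 h3)]

theorem alpha_rho_identity {θ t : ℝ} (h0 : 0 ≤ θ) (h1 : θ < 1) (ht : |t| ≤ 1) :
    (1 + θ ^ 2) * rho θ t = θ * (1 + rho θ t ^ 2 - alpha θ t ^ 2) := by
  have hN := one_sub_sq_pos h0 h1 ht
  unfold rho alpha
  field_simp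
  ring

/-- Lipschitz bound for `rho` in terms of the two means (pure algebra) -/
theorem rho_lip {θ : ℝ} (h0 : 0 ≤ θ) (h1 : θ < 1) :
    ∃ L : ℝ, 0 ≤ L ∧ ∀ t t' m m' : ℝ, |t| ≤ 1 → |t'| ≤ 1 → |m| ≤ 1 → |m'| ≤ 1 →
      |rho θ t - rho θ t'| ≤
        L * (|m - m'| + |(alpha θ t + rho θ t * m) - (alpha θ t' + rho θ t' * m')|) := by
  refine ⟨2 / (1 - θ) ^ 2, by positivity, fun t t' m m' ht ht' hm hm' => ?_⟩
  have hp : 0 < (1 - θ) ^ 2 := by
    have : 0 < 1 - θ := by linarith only [h1]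
    positivity
  have hr := rho_mem h0 h1 ht
  have hr' := rho_mem h0 h1 ht'
  have ha := alpha_rho_le h0 h1 ht
  have ha' := alpha_rho_le h0 h1 ht'
  have i1 := alpha_rho_identity h0 h1 ht
  have i2 := alpha_rho_identity h0 h1 ht'
  set r := rho θ t
  set r' := rho θ t'
  set α := alpha θ t
  set α' := alpha θ t'
  set B := 1 + θ ^ 2 - θ * (r + r') - θ * m' * (α + α') with hB
  have key : (r - r') * B = -θ * (α + α') * ((α + r * m) - (α' + r' * m') - r * (m - m')) := by
    rw [hB]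
    linear_combination i1 - i2
  have hm'α : m' * (α + α') ≤ |α| + |α'| := by
    calc m' * (α + α') ≤ |m' * (α + α')| := le_abs_self _
      _ = |m'| * |α + α'| := abs_mul _ _
      _ ≤ 1 * (|α| + |α'|) := mul_le_mul hm' (abs_add_le _ _) (abs_nonneg _) (by norm_num)
      _ = |α| + |α'| := one_mul _
  have hBp : (1 - θ) ^ 2 ≤ B := by
    have h2 : θ * (m' * (α + α')) ≤ θ * (|α| + |α'|) := mul_le_mul_of_nonneg_left hm'α h0
    have h3 : θ * (r + r' + |α| + |α'|) ≤ θ * 2 :=
      mul_le_mul_of_nonneg_left (by linarith only [ha, ha']) h0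
    rw [hB]
    linarith only [h3, h2]
  have hα2 : |α + α'| ≤ 2 := by
    have := abs_add_le α α'
    linarith only [hr, hr', ha, ha', this]
  have h5 : |r - r'| * (1 - θ) ^ 2 ≤
      2 * (|m - m'| + |(α + r * m) - (α' + r' * m')|) := by
    calc |r - r'| * (1 - θ) ^ 2 ≤ |r - r'| * B :=
          mul_le_mul_of_nonneg_left hBp (abs_nonneg _)
      _ = |(r - r') * B| := by rw [abs_mul, abs_of_pos (hp.trans_le hBp)]
      _ = |-θ * (α + α') * ((α + r * m) - (α' + r' * m') - r * (m - m'))| := by rw [key]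
      _ = θ * |α + α'| * |(α + r * m) - (α' + r' * m') - r * (m - m')| := by
          rw [abs_mul, abs_mul, abs_neg, abs_of_nonneg h0]
      _ ≤ 1 * 2 * (|(α + r * m) - (α' + r' * m')| + |m - m'|) := by
          refine mul_le_mul (mul_le_mul h1.le hα2 (abs_nonneg _) (by norm_num)) ?_
            (abs_nonneg _) (by norm_num)
          calc |(α + r * m) - (α' + r' * m') - r * (m - m')|
              ≤ |(α + r * m) - (α' + r' * m')| + |r * (m - m')| := abs_sub _ _
            _ ≤ |(α + r * m) - (α' + r' * m')| + |m - m'| := by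
                rw [abs_mul r, abs_of_nonneg hr.1]
                have := mul_le_mul_of_nonneg_right (hr.2.trans h1.le) (abs_nonneg (m - m'))
                linarith only [this]
      _ = 2 * (|m - m'| + |(α + r * m) - (α' + r' * m')|) := by ring
  rw [div_mul_eq_mul_div, le_div_iff₀ hp]
  exact h5

theorem abs_cov_le [IsProbabilityMeasure μ] (hG : G.IsTree) {θ : ℝ} (h0 : 0 ≤ θ) (h1 : θ < 1)
    (hμ : EdgeSplit G θ μ) {H : List (V × ℝ)} (hH : Good H) (x v : V) :
    |cov μ H x v| ≤ θ ^ G.dist x v := by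
  obtain ⟨n, hn⟩ : ∃ n, G.dist x v = n := ⟨_, rfl⟩
  rw [hn]
  induction n generalizing v with
  | zero =>
    have hxv : x = v := hG.connected.dist_eq_zero_iff.mp hn
    subst hxv
    rw [cov_self hH, pow_zero]
    have h2 := abs_mean_le (μ := μ) hH x
    have h3 : mean μ H x ^ 2 ≤ 1 := by
      rw [← sq_abs]
      exact pow_le_one₀ (abs_nonneg _) h2
    rw [abs_of_nonneg (by (clear * - h3; linarith))]
    nlinarith only []
  | succ n ih =>
    have hne : x ≠ v := by
      rintro rfl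
      simp at hn
    obtain ⟨u, hu, hd⟩ := exists_next hG hne
    have hdu : G.dist x u = n := by omega
    obtain ⟨t, ht, -, hc⟩ := edge_struct (μ := μ) hG h0 h1 hμ hH hu
    have hx : x ∈ side G u v := by
      simp only [side, Set.mem_ofPred_eq]
      omega
    rw [hc x hx, abs_mul, pow_succ']
    have hr := rho_mem h0 h1 ht
    rw [abs_of_nonneg hr.1]
    exact mul_le_mul hr.2 (ih u hdu) (abs_nonneg _) h0

/-- Lipschitz recursion for covariances -/
theorem cov_lip (hG : G.IsTree) {θ : ℝ} (h0 : 0 ≤ θ) (h1 : θ < 1) :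
    ∃ L : ℝ, 0 ≤ L ∧ ∀ (μ : Measure (V → ℤˣ)) [IsProbabilityMeasure μ], EdgeSplit G θ μ →
      ∀ x v : V, x ≠ v → ∃ u, G.Adj u v ∧ G.dist x v = G.dist x u + 1 ∧
      ∀ H H' : List (V × ℝ), Good H → Good H' →
        |cov μ H x v - cov μ H' x v| ≤
          L * (|mean μ H u - mean μ H' u| + |mean μ H v - mean μ H' v|) * θ ^ G.dist x u
            + θ * |cov μ H x u - cov μ H' x u| := by
  obtain ⟨L, hL0, hL⟩ := rho_lip h0 h1
  refine ⟨L, hL0, fun μ _ hμ x v hne => ?_⟩
  obtain ⟨u, hu, hd⟩ := exists_next hG hne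
  refine ⟨u, hu, hd, fun H H' hH hH' => ?_⟩
  obtain ⟨t, ht, hm, hc⟩ := edge_struct (μ := μ) hG h0 h1 hμ hH hu
  obtain ⟨t', ht', hm', hc'⟩ := edge_struct (μ := μ) hG h0 h1 hμ hH' hu
  have hx : x ∈ side G u v := by
    simp only [side, Set.mem_ofPred_eq]
    omega
  rw [hc x hx, hc' x hx]
  have h2 := hL t t' (mean μ H u) (mean μ H' u) ht ht' (abs_mean_le hH u) (abs_mean_le hH' u)
  rw [← hm, ← hm'] at h2
  have h3 := abs_cov_le (μ := μ) hG h0 h1 hμ hH x u
  have hr' := rho_mem h0 h1 ht'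
  calc |rho θ t * cov μ H x u - rho θ t' * cov μ H' x u|
      = |(rho θ t - rho θ t') * cov μ H x u + rho θ t' * (cov μ H x u - cov μ H' x u)| := by
        congr 1
        ring
    _ ≤ |(rho θ t - rho θ t') * cov μ H x u| + |rho θ t' * (cov μ H x u - cov μ H' x u)| :=
        abs_add_le _ _
    _ = |rho θ t - rho θ t'| * |cov μ H x u| + rho θ t' * |cov μ H x u - cov μ H' x u| := by
        rw [abs_mul, abs_mul, abs_of_nonneg hr'.1]
    _ ≤ L * (|mean μ H u - mean μ H' u| + |mean μ H v - mean μ H' v|) * θ ^ G.dist x u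
            + θ * |cov μ H x u - cov μ H' x u| := by
        refine add_le_add ?_ (mul_le_mul_of_nonneg_right hr'.2 (abs_nonneg _))
        exact mul_le_mul h2 h3 (abs_nonneg _) ((abs_nonneg _).trans h2)

theorem post_abs_sp_sub [IsProbabilityMeasure μ] {H : List (V × ℝ)} (hH : Good H) (x : V)
    {g : (V → ℤˣ) → ℝ} (hg : LocalOn Set.univ g) (hg1 : ∀ σ, |g σ| ≤ 1) :
    |post μ H (fun σ => sp σ x * g σ) - mean μ H x * post μ H g| ≤ 1 - mean μ H x ^ 2 := by
  have hx : LocalOn (Set.univ : Set V) (fun σ : V → ℤˣ => sp σ x) := localP_sp (Set.mem_univ x)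
  have hm := abs_mean_le (μ := μ) hH x
  set m := mean μ H x with hmdef
  have e1 : post μ H (fun σ => sp σ x * g σ) - m * post μ H g =
      post μ H (fun σ => sp σ x * g σ - m * g σ) := by
    rw [post_sub H (localP_mul hx hg) (localP_mul (localP_const m) hg), post_const_mul]
  have e2 : post μ H (fun σ => 1 - m * sp σ x) = 1 - m ^ 2 := by
    rw [post_sub H (localP_const 1) (localP_mul (localP_const m) hx), post_const_mul,
      post_const hH, ← mean, ← hmdef]
    ring
  rw [e1, ← e2]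
  refine abs_post_le_post hH ?_ ?_ fun σ => ?_
  · obtain ⟨D, -, hD⟩ := localP_mul hx hg
    obtain ⟨E, -, hE⟩ := hg
    classical
    refine ⟨D ∪ E, by simp only [Finset.coe_union, Set.subset_univ], ?_⟩
    intro σ τ hστ
    have h1 := hD (x := σ) (y := τ) fun i hi => hστ i (by rw [Finset.coe_union]; exact Or.inl hi)
    have h2 := hE (x := σ) (y := τ) fun i hi => hστ i (by rw [Finset.coe_union]; exact Or.inr hi)
    simp only at h1 h2 ⊢
    rw [h1, h2]
  · obtain ⟨E, hE', hE⟩ := hx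
    refine ⟨E, hE', ?_⟩
    intro σ τ hστ
    have h2 := hE (x := σ) (y := τ) hστ
    simp only at h2 ⊢
    rw [h2]
  · have h2 : |sp σ x - m| ≤ 1 - m * sp σ x := by
      obtain ⟨h3, h4⟩ := abs_le.mp hm
      rcases sp_cases σ x with h | h <;> rw [h, abs_le] <;> constructor <;> linarith only [h3, h4]
    calc |sp σ x * g σ - m * g σ| = |sp σ x - m| * |g σ| := by rw [← sub_mul, abs_mul]
      _ ≤ |sp σ x - m| * 1 := mul_le_mul_of_nonneg_left (hg1 σ) (abs_nonneg _)
      _ ≤ 1 - m * sp σ x := by rw [mul_one]; exact h2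

theorem abs_post_prod_sub [IsProbabilityMeasure μ] {H : List (V × ℝ)} (hH : Good H)
    (S : Finset V) :
    |post μ H (spS S) - ∏ v ∈ S, mean μ H v| ≤ ∑ v ∈ S, (1 - mean μ H v ^ 2) := by
  classical
  induction S using Finset.induction_on with
  | empty =>
    have : (spS ∅ : (V → ℤˣ) → ℝ) = fun _ => 1 := by
      funext σ
      simp [spS]
    rw [this, post_const hH]
    simp
  | insert x S hx ih =>
    rw [Finset.prod_insert hx, Finset.sum_insert hx]
    have e : (spS (insert x S) : (V → ℤˣ) → ℝ) = fun σ => sp σ x * spS S σ := by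
      funext σ
      simp only [spS]
      rw [Finset.prod_insert hx]
    rw [e]
    have h2 := post_abs_sp_sub (μ := μ) hH x (localP_spS (Set.subset_univ _))
      (fun σ => (abs_spS S σ).le)
    have h3 := abs_mean_le (μ := μ) hH x
    calc |post μ H (fun σ => sp σ x * spS S σ) - mean μ H x * ∏ v ∈ S, mean μ H v|
        = |(post μ H (fun σ => sp σ x * spS S σ) - mean μ H x * post μ H (spS S)) +
            mean μ H x * (post μ H (spS S) - ∏ v ∈ S, mean μ H v)| := by
          congr 1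
          ring
      _ ≤ |post μ H (fun σ => sp σ x * spS S σ) - mean μ H x * post μ H (spS S)| +
            |mean μ H x * (post μ H (spS S) - ∏ v ∈ S, mean μ H v)| := abs_add_le _ _
      _ ≤ (1 - mean μ H x ^ 2) + ∑ v ∈ S, (1 - mean μ H v ^ 2) := by
          refine add_le_add h2 ?_
          rw [abs_mul]
          calc |mean μ H x| * |post μ H (spS S) - ∏ v ∈ S, mean μ H v|
              ≤ 1 * |post μ H (spS S) - ∏ v ∈ S, mean μ H v| :=
                mul_le_mul_of_nonneg_right h3 (abs_nonneg _)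
            _ ≤ _ := by rw [one_mul]; exact ih

/-- equivariance of the posterior mean, for an invariant measure -/
theorem mean_map_aut (g : G ≃g G) (hinv : μ.map (fun σ v => σ (g.symm v)) = μ)
    (H : List (V × ℝ)) (v : V) :
    mean μ (H.map fun p => (g p.1, p.2)) (g v) = mean μ H v := by
  have := msc_units
  have hm : Measurable (fun (σ : V → ℤˣ) (v : V) => σ (g.symm v)) :=
    measurable_pi_lambda _ fun v => measurable_pi_apply _
  have hint : ∀ F : (V → ℤˣ) → ℝ, LocalOn Set.univ F →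
      ∫ σ, F σ ∂μ = ∫ σ, F (fun v => σ (g.symm v)) ∂μ := by
    intro F hF
    obtain ⟨D, -, hD⟩ := hF
    have hFm : Measurable F := dependsOn_measurable hD
    conv_lhs => rw [← hinv]
    rw [integral_map hm.aemeasurable hFm.aestronglyMeasurable]
  have hlik : ∀ σ : V → ℤˣ, lik (H.map fun p => (g p.1, p.2)) (fun v => σ (g.symm v)) = lik H σ := by
    intro σ
    unfold lik
    rw [List.map_map]
    congr 1
    refine List.map_congr_left fun p _ => ?_
    simp only [sp, Function.comp_apply, RelIso.symm_apply_apply]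
  unfold mean post
  rw [hint _ (localP_mul (localP_sp (Set.mem_univ (g v))) (localP_lik' _)), hint _ (localP_lik' _)]
  simp only [hlik]
  simp only [sp, RelIso.symm_apply_apply]

end Vale.Agent.P161
end
end

section

section

open MeasureTheory Set

namespace Vale.Agent.P161

theorem disc_nonneg {b u : ℝ} (h0 : 0 ≤ u) (h1 : u ≤ 1) :
    0 ≤ (1 - b) ^ 2 + 4 * b * u := by
  rcases le_total 0 b with hb | hb
  · positivity
  · linarith only [mul_nonneg (sub_nonneg.2 hb) (sub_nonneg.2 h1), sq_nonneg (1 + b)]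

theorem chan_mul {b u : ℝ} (h0 : 0 ≤ u) (h1 : u ≤ 1) :
    1 + b * chan b u = Real.sqrt ((1 - b) ^ 2 + 4 * b * u) := by
  have hs := Real.sq_sqrt (disc_nonneg (b := b) h0 h1)
  have hs0 := Real.sqrt_nonneg ((1 - b) ^ 2 + 4 * b * u)
  unfold chan
  set s := Real.sqrt ((1 - b) ^ 2 + 4 * b * u) with hsdef
  have h2 : (1 + s) ≠ 0 := by (clear * -; positivity)
  field_simp
  linarith

theorem chan_eq {b u : ℝ} (h0 : 0 ≤ u) (h1 : u ≤ 1) :
    chan b u + b * (chan b u ^ 2 - 1) / 2 = 2 * u - 1 := by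
  have hm := chan_mul (b := b) h0 h1
  have hs0 := Real.sqrt_nonneg ((1 - b) ^ 2 + 4 * b * u)
  have h3 : chan b u * (1 + Real.sqrt ((1 - b) ^ 2 + 4 * b * u)) = 4 * u - 2 + b := by
    unfold chan
    field_simp
  rw [← hm] at h3
  linear_combination h3 / 2

theorem abs_chan_le {b u : ℝ} (hb : |b| ≤ 1 / 2) (h0 : 0 ≤ u) (h1 : u ≤ 1) :
    |chan b u| ≤ 1 := by
  have hm := chan_mul (b := b) h0 h1
  have hs0 := Real.sqrt_nonneg ((1 - b) ^ 2 + 4 * b * u)
  have he := chan_eq (b := b) h0 h1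
  rw [← hm] at hs0
  obtain ⟨hb1, hb2⟩ := abs_le.1 hb
  rw [abs_le]
  set w := chan b u
  constructor
  · have h4 : 0 < 1 + b * (w - 1) / 2 := by linarith only [hs0, hb2]
    have h5 : 0 ≤ (w + 1) * (1 + b * (w - 1) / 2) := by linarith only [he, h0]
    have := nonneg_of_mul_nonneg_left h5 h4
    linarith only [this]
  · have h4 : 0 < 1 + b * (w + 1) / 2 := by linarith
    have h5 : 0 ≤ (1 - w) * (1 + b * (w + 1) / 2) := by linarith only [he, h1]
    have := nonneg_of_mul_nonneg_left h5 h4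
    linarith only [this]

theorem chan_lip {b b' u : ℝ} (hb : |b| ≤ 1 / 2) (hb' : |b'| ≤ 1 / 2) (h0 : 0 ≤ u) (h1 : u ≤ 1) :
    |chan b u - chan b' u| ≤ |b - b'| := by
  have he := chan_eq (b := b) h0 h1
  have he' := chan_eq (b := b') h0 h1
  have hw := abs_chan_le hb h0 h1
  have hw' := abs_chan_le hb' h0 h1
  set w := chan b u
  set w' := chan b' u
  have key : (w - w') * (1 + b * (w + w') / 2) = (b - b') * ((1 - w' ^ 2) / 2) := by
    linear_combination he - he'
  have h2 : |b * (w + w') / 2| ≤ 1 / 2 := by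
    rw [abs_div, abs_mul]
    have : |w + w'| ≤ 2 := (abs_add_le _ _).trans (by linarith only [hw, hw'])
    have h3 : |b| * |w + w'| ≤ 1 / 2 * 2 := mul_le_mul hb this (abs_nonneg _) (by (clear * -; norm_num))
    rw [abs_of_pos (by norm_num : (0:ℝ) < 2)]
    linarith only [h3]
  have h3 : 1 / 2 ≤ |1 + b * (w + w') / 2| := by
    have := abs_le.1 h2
    rw [abs_of_nonneg (by linarith only [this])]
    linarith only [this]
  have h4 : |(1 - w' ^ 2) / 2| ≤ 1 / 2 := by
    rw [abs_le] at hw' ⊢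
    constructor <;> nlinarith only [hw']
  have h5 : |w - w'| * |1 + b * (w + w') / 2| = |b - b'| * |(1 - w' ^ 2) / 2| := by
    rw [← abs_mul, ← abs_mul, key]
  nlinarith only [h5, h3, h4, abs_nonneg (b - b')]

theorem measurable_chan : Measurable (fun p : ℝ × ℝ => chan p.1 p.2) := by
  unfold chan
  fun_prop

theorem continuous_chan (b : ℝ) : Continuous (fun u : ℝ => chan b u) := by
  unfold chan
  refine Continuous.div (by fun_prop) (by fun_prop) ?_
  intro u
  have := Real.sqrt_nonneg ((1 - b) ^ 2 + 4 * b * u)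
  positivity

theorem integral_unitInterval (f : ℝ → ℝ) :
    ∫ u : unitInterval, f u = ∫ u in (0 : ℝ)..1, f u := by
  rw [intervalIntegral.integral_of_le (by norm_num), ← integral_Icc_eq_integral_Ioc]
  exact integral_subtype measurableSet_Icc f

theorem integral_chan {b : ℝ} (hb : |b| ≤ 1 / 2) {F : ℝ → ℝ} (hF : Continuous F) :
    ∫ u : unitInterval, F (chan b u) = 1 / 2 * ∫ w in (-1 : ℝ)..1, F w * (1 + b * w) := by
  rw [integral_unitInterval (fun u => F (chan b u))]
  have hf : ∀ x ∈ uIcc (-1 : ℝ) 1,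
      HasDerivAt (fun w : ℝ => (w + 1) / 2 + b * (w ^ 2 - 1) / 4) ((1 + b * x) / 2) x := by
    intro x _
    have h1 : HasDerivAt (fun w : ℝ => (w + 1) / 2) (1 / 2) x :=
      ((hasDerivAt_id x).add_const 1).div_const 2
    have h2 : HasDerivAt (fun w : ℝ => b * (w ^ 2 - 1) / 4) (b * (2 * x) / 4) x := by
      have := ((((hasDerivAt_pow 2 x).sub_const 1).const_mul b).div_const 4)
      simpa only [Nat.cast_ofNat, Nat.add_one_sub_one, pow_one] using this
    have h3 := h1.add h2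
    have h4 : (1 / 2 + b * (2 * x) / 4 : ℝ) = (1 + b * x) / 2 := by ring
    rw [h4] at h3
    exact h3
  have hsub := intervalIntegral.integral_comp_mul_deriv (a := (-1 : ℝ)) (b := 1)
    (f := fun w : ℝ => (w + 1) / 2 + b * (w ^ 2 - 1) / 4) (f' := fun x => (1 + b * x) / 2)
    (g := fun u => F (chan b u)) hf (by (clear * -; fun_prop)) (hF.comp (continuous_chan b))
  have e0 : ((-1 : ℝ) + 1) / 2 + b * ((-1 : ℝ) ^ 2 - 1) / 4 = 0 := by norm_num
  have e1 : ((1 : ℝ) + 1) / 2 + b * ((1 : ℝ) ^ 2 - 1) / 4 = 1 := by norm_num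
  simp only [e0, e1] at hsub
  rw [← hsub, ← intervalIntegral.integral_const_mul]
  apply intervalIntegral.integral_congr
  intro w hw
  rw [uIcc_of_le (by norm_num)] at hw
  obtain ⟨hb1, hb2⟩ := abs_le.1 hb
  obtain ⟨hw1, hw2⟩ := hw
  have hpos : 0 ≤ 1 + b * w := by nlinarith only [hb2, hw2, hb1, hw1]
  have hsq : (1 - b) ^ 2 + 4 * b * ((w + 1) / 2 + b * (w ^ 2 - 1) / 4) = (1 + b * w) ^ 2 := by ring
  have hch : chan b ((w + 1) / 2 + b * (w ^ 2 - 1) / 4) = w := by
    unfold chan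
    rw [hsq, Real.sqrt_sq hpos]
    have : 1 + (1 + b * w) ≠ 0 := by (clear * - hpos; positivity)
    rw [div_eq_iff this]
    ring
  simp only [Function.comp, hch]
  ring

theorem integral_chan' {b : ℝ} (hb : |b| ≤ 1 / 2) {F : ℝ → ℝ} (hF : ContinuousOn F (Icc (-1) 1)) :
    ∫ u : unitInterval, F (chan b u) = 1 / 2 * ∫ w in (-1 : ℝ)..1, F w * (1 + b * w) := by
  have h11 : (-1 : ℝ) ≤ 1 := by norm_num
  have hc : Continuous (IccExtend h11 (fun x => F x)) :=
    (continuousOn_iff_continuous_domRestrict.1 hF).Icc_extend'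
  have := integral_chan hb hc
  have e1 : ∫ u : unitInterval, IccExtend h11 (fun x => F x) (chan b u) =
      ∫ u : unitInterval, F (chan b u) := by
    apply integral_congr_ae
    filter_upwards with u
    have := abs_le.1 (abs_chan_le hb u.2.1 u.2.2)
    exact IccExtend_of_mem h11 _ ⟨this.1, this.2⟩
  have e2 : ∫ w in (-1 : ℝ)..1, IccExtend h11 (fun x => F x) w * (1 + b * w) =
      ∫ w in (-1 : ℝ)..1, F w * (1 + b * w) := by
    apply intervalIntegral.integral_congr
    intro w hw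
    rw [uIcc_of_le (by norm_num)] at hw
    simp only
    rw [IccExtend_of_mem h11 _ hw]
  rw [← e1, this, e2]

/-- the step observed value -/
noncomputable def obs (ε m u : ℝ) : ℝ := ε * chan (ε * m) u

/-- increment factor -/
noncomputable def incr (ε m u : ℝ) : ℝ := obs ε m u / (1 + obs ε m u * m)

theorem abs_eps_mul {ε m : ℝ} (hε0 : 0 ≤ ε) (hε : ε ≤ 1 / 2) (hm : |m| ≤ 1) :
    |ε * m| ≤ 1 / 2 := by
  rw [abs_mul, abs_of_nonneg hε0]
  nlinarith only [hε, hε0, hm]

theorem abs_obs_le {ε m u : ℝ} (hε0 : 0 ≤ ε) (hε : ε ≤ 1 / 2) (hm : |m| ≤ 1) (h0 : 0 ≤ u)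
    (h1 : u ≤ 1) : |obs ε m u| ≤ ε := by
  unfold obs
  rw [abs_mul, abs_of_nonneg hε0]
  have := abs_chan_le (abs_eps_mul hε0 hε hm) h0 h1
  linarith only [mul_nonneg (sub_nonneg.2 hε0) (sub_nonneg.2 this)]

theorem obs_den {ε m u : ℝ} (hε0 : 0 ≤ ε) (hε : ε ≤ 1 / 2) (hm : |m| ≤ 1) (h0 : 0 ≤ u)
    (h1 : u ≤ 1) : 1 / 2 ≤ 1 + obs ε m u * m := by
  have h := abs_obs_le hε0 hε hm h0 h1
  have h2 : |obs ε m u * m| ≤ 1 / 2 := by
    rw [abs_mul]
    nlinarith only [hε, h, hm, abs_nonneg (obs ε m u)]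
  linarith only [(abs_le.1 h2).1]

theorem abs_incr_le {ε m u : ℝ} (hε0 : 0 ≤ ε) (hε : ε ≤ 1 / 2) (hm : |m| ≤ 1) (h0 : 0 ≤ u)
    (h1 : u ≤ 1) : |incr ε m u| ≤ 2 * ε := by
  have h := abs_obs_le hε0 hε hm h0 h1
  have hd := obs_den hε0 hε hm h0 h1
  unfold incr
  rw [abs_div, abs_of_pos (by linarith only [hd] : 0 < 1 + obs ε m u * m), div_le_iff₀ (by linarith only [hd])]
  linarith only [mul_nonneg (sub_nonneg.2 hε0) (sub_nonneg.2 hd), mul_nonneg (mul_self_nonneg (1 : ℝ)) (sub_nonneg.2 h)]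

theorem incr_lip {ε m m' u : ℝ} (hε0 : 0 ≤ ε) (hε : ε ≤ 1 / 2) (hm : |m| ≤ 1) (hm' : |m'| ≤ 1)
    (h0 : 0 ≤ u) (h1 : u ≤ 1) : |incr ε m u - incr ε m' u| ≤ 4 * ε * |m - m'| := by
  have hd := obs_den hε0 hε hm h0 h1
  have hd' := obs_den hε0 hε hm' h0 h1
  have hb := abs_eps_mul hε0 hε hm
  have hb' := abs_eps_mul hε0 hε hm'
  have hw := abs_chan_le hb h0 h1
  have hw' := abs_chan_le hb' h0 h1
  have hl := chan_lip hb hb' h0 h1
  unfold incr obs at *
  set w := chan (ε * m) u
  set w' := chan (ε * m') u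
  have e : ε * w / (1 + ε * w * m) - ε * w' / (1 + ε * w' * m') =
      (ε * (w - w') + ε ^ 2 * (w * w') * (m' - m)) / ((1 + ε * w * m) * (1 + ε * w' * m')) := by
    field_simp
    ring
  rw [e, abs_div, div_le_iff₀ (by (clear * - hd hd'; positivity))]
  have hden : 1 / 4 ≤ |(1 + ε * w * m) * (1 + ε * w' * m')| := by
    rw [abs_of_nonneg (by (clear * - hd hd'; positivity))]
    linarith only [mul_nonneg (sub_nonneg.2 hd) (sub_nonneg.2 hd'), mul_nonneg (mul_self_nonneg (1 : ℝ)) (sub_nonneg.2 hd'), mul_nonneg (mul_self_nonneg (1 : ℝ)) (sub_nonneg.2 hd)]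
  have hl' : |w - w'| ≤ ε * |m - m'| := by
    calc |w - w'| ≤ |ε * m - ε * m'| := hl
      _ = ε * |m - m'| := by rw [← mul_sub, abs_mul, abs_of_nonneg hε0]
  have hww : |w * w'| ≤ 1 := by
    rw [abs_mul]
    nlinarith only [hw', hw, abs_nonneg w']
  have hnum : |ε * (w - w') + ε ^ 2 * (w * w') * (m' - m)| ≤ 2 * ε ^ 2 * |m - m'| := by
    calc _ ≤ |ε * (w - w')| + |ε ^ 2 * (w * w') * (m' - m)| := abs_add_le _ _
      _ = ε * |w - w'| + ε ^ 2 * |w * w'| * |m - m'| := by
        rw [abs_mul, abs_of_nonneg hε0, abs_mul, abs_mul, abs_of_nonneg (by (clear * -; positivity) : 0 ≤ ε ^ 2),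
          abs_sub_comm m' m]
      _ ≤ ε * (ε * |m - m'|) + ε ^ 2 * 1 * |m - m'| := by (clear * - hl' hε0 hww; gcongr)
      _ = _ := by ring
  calc _ ≤ 2 * ε ^ 2 * |m - m'| := hnum
    _ ≤ 4 * ε * |m - m'| * (1 / 4) := by linarith only [mul_nonneg (sub_nonneg.2 hε) (sub_nonneg.2 (mul_nonneg hε0 (abs_nonneg (m - m'))))]
    _ ≤ _ := by (clear * - hden hε0; gcongr)

theorem integral_obs_bayes {ε m : ℝ} (hε0 : 0 ≤ ε) (hε : ε ≤ 1 / 2) (hm : |m| ≤ 1) (A B : ℝ) :
    ∫ u : unitInterval, (A + obs ε m u * B) / (1 + obs ε m u * m) = A := by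
  have hb := abs_eps_mul hε0 hε hm
  have hpos : ∀ w ∈ Icc (-1 : ℝ) 1, 0 < 1 + ε * w * m := by
    intro w hw
    have h2 : |w| ≤ 1 := abs_le.2 hw
    have h3 : |ε * w * m| ≤ 1 / 2 := by
      rw [mul_right_comm, abs_mul]
      linarith only [mul_nonneg (sub_nonneg.2 hb) (sub_nonneg.2 (abs_nonneg (ε * m))), mul_nonneg (sub_nonneg.2 hb) (sub_nonneg.2 hb), mul_nonneg (sub_nonneg.2 h2) (sub_nonneg.2 (abs_nonneg (ε * m)))]
    linarith only [(abs_le.1 h3).1]
  have hc : ContinuousOn (fun w : ℝ => (A + ε * w * B) / (1 + ε * w * m)) (Icc (-1) 1) := by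
    apply ContinuousOn.div (by fun_prop) (by fun_prop)
    intro w hw
    exact (hpos w hw).ne'
  have := integral_chan' hb hc
  unfold obs
  rw [this]
  have e : ∫ w in (-1 : ℝ)..1, (A + ε * w * B) / (1 + ε * w * m) * (1 + ε * m * w) =
      ∫ w in (-1 : ℝ)..1, (A + ε * B * w) := by
    apply intervalIntegral.integral_congr
    intro w hw
    rw [uIcc_of_le (by norm_num)] at hw
    have := (hpos w hw).ne'
    have h2 : 1 + ε * m * w = 1 + ε * w * m := by ring
    simp only
    rw [h2]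
    field_simp
  rw [e, intervalIntegral.integral_add (by simp) (by apply Continuous.intervalIntegrable; fun_prop),
    intervalIntegral.integral_const_mul]
  simp only [one_div, intervalIntegral.integral_const, sub_neg_eq_add, smul_eq_mul, integral_id, one_pow, even_two, Even.neg_pow, sub_self, zero_div, mul_zero, add_zero]
  ring

theorem integral_incr {ε m : ℝ} (hε0 : 0 ≤ ε) (hε : ε ≤ 1 / 2) (hm : |m| ≤ 1) :
    ∫ u : unitInterval, incr ε m u = 0 := by
  have := integral_obs_bayes hε0 hε hm 0 1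
  simpa only [incr, mul_one, zero_add] using this

theorem le_integral_incr_sq {ε m : ℝ} (hε0 : 0 ≤ ε) (hε : ε ≤ 1 / 2) (hm : |m| ≤ 1) :
    ε ^ 2 / 9 ≤ ∫ u : unitInterval, incr ε m u ^ 2 := by
  have hb := abs_eps_mul hε0 hε hm
  have hpos : ∀ w ∈ Icc (-1 : ℝ) 1, 0 < 1 + ε * w * m ∧ 1 + ε * w * m ≤ 3 / 2 := by
    intro w hw
    have h2 : |w| ≤ 1 := abs_le.2 hw
    have h3 : |ε * w * m| ≤ 1 / 2 := by
      rw [mul_right_comm, abs_mul]
      nlinarith only [h2, hb, abs_nonneg (ε * m)]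
    constructor <;> linarith only [(abs_le.1 h3).1, (abs_le.1 h3).2]
  have hc : ContinuousOn (fun w : ℝ => (ε * w / (1 + ε * w * m)) ^ 2) (Icc (-1) 1) := by
    apply ContinuousOn.pow
    apply ContinuousOn.div (by fun_prop) (by fun_prop)
    intro w hw
    exact (hpos w hw).1.ne'
  have := integral_chan' hb hc
  unfold incr obs
  rw [this]
  have hmono : ∫ w in (-1 : ℝ)..1, (2 / 3 * ε ^ 2) * w ^ 2 ≤
      ∫ w in (-1 : ℝ)..1, (ε * w / (1 + ε * w * m)) ^ 2 * (1 + ε * m * w) := by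
    apply intervalIntegral.integral_mono_on (by norm_num)
    · apply Continuous.intervalIntegrable; fun_prop
    · apply ContinuousOn.intervalIntegrable
      rw [uIcc_of_le (by norm_num)]
      apply ContinuousOn.mul hc (by fun_prop)
    · intro w hw
      obtain ⟨h1, h2⟩ := hpos w hw
      have h3 : 1 + ε * m * w = 1 + ε * w * m := by ring
      have h5 : (ε * w / (1 + ε * w * m)) ^ 2 * (1 + ε * w * m) =
          (ε * w) ^ 2 / (1 + ε * w * m) := by
        (clear * - h1; field_simp)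
      rw [h3, h5, le_div_iff₀ h1]
      calc 2 / 3 * ε ^ 2 * w ^ 2 * (1 + ε * w * m)
          ≤ 2 / 3 * ε ^ 2 * w ^ 2 * (3 / 2) := by (clear * - h2; gcongr)
        _ = _ := by ring
  have hval : ∫ w in (-1 : ℝ)..1, (2 / 3 * ε ^ 2) * w ^ 2 = 4 / 9 * ε ^ 2 := by
    rw [intervalIntegral.integral_const_mul, integral_pow]
    norm_num
    ring
  rw [hval] at hmono
  nlinarith only [hmono]

end Vale.Agent.P161
end
end

section

section

open MeasureTheory

namespace Vale.Agent.P161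

/-- resampling one coordinate of an infinite product of probability measures -/
theorem measurePreserving_update {ι Ω : Type*} [DecidableEq ι] [MeasurableSpace Ω]
    (lam : Measure Ω) [IsProbabilityMeasure lam] (i : ι) :
    MeasurePreserving (fun p : (ι → Ω) × Ω => Function.update p.1 i p.2)
      ((Measure.infinitePi fun _ : ι => lam).prod lam) (Measure.infinitePi fun _ : ι => lam) := by
  have hm : Measurable (fun p : (ι → Ω) × Ω => Function.update p.1 i p.2) := by
    rw [measurable_pi_iff]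
    intro j
    by_cases h : j = i
    · subst h
      simpa only [Function.update_self] using measurable_snd
    · simp only [Function.update_of_ne h]
      exact (measurable_pi_apply j).comp measurable_fst
  refine ⟨hm, ?_⟩
  refine Measure.eq_infinitePi _ fun s t ht => ?_
  rw [Measure.map_apply hm (.pi s.countable_toSet fun _ _ => ht _)]
  have hpre : (fun p : (ι → Ω) × Ω => Function.update p.1 i p.2) ⁻¹' (s : Set ι).pi t =
      (((s.erase i : Finset ι) : Set ι).pi t) ×ˢ (if i ∈ s then t i else Set.univ) := by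
    ext ⟨w, u⟩
    simp only [Set.mem_preimage, Set.mem_pi, Set.mem_prod, Finset.mem_coe, Finset.mem_erase]
    constructor
    · intro h
      refine ⟨fun j hj => ?_, ?_⟩
      · simpa [Function.update_of_ne hj.1] using h j hj.2
      · split_ifs with his
        · simpa using h i his
        · trivial
    · rintro ⟨h1, h2⟩ j hj
      by_cases hji : j = i
      · subst hji
        simpa [hj] using h2
      · simpa [Function.update_of_ne hji] using h1 j ⟨hji, hj⟩
  rw [hpre, Measure.prod_prod, Measure.infinitePi_pi _ (fun j _ => ht j)]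
  by_cases his : i ∈ s
  · rw [if_pos his, Finset.prod_erase_mul s _ his]
  · rw [if_neg his, measure_univ, mul_one, Finset.erase_eq_of_notMem his]

/-- fresh coordinate lemma -/
theorem integral_fresh {ι Ω : Type*} [DecidableEq ι] [MeasurableSpace Ω]
    (lam : Measure Ω) [IsProbabilityMeasure lam] (i : ι) (g : (ι → Ω) → ℝ) (hg : Measurable g)
    {C : ℝ} (hC : ∀ w, |g w| ≤ C) :
    ∫ w, g w ∂(Measure.infinitePi fun _ : ι => lam) =
      ∫ w, (∫ u, g (Function.update w i u) ∂lam) ∂(Measure.infinitePi fun _ : ι => lam) := by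
  have hmp := measurePreserving_update (ι := ι) lam i
  rw [← hmp.map_eq, integral_map hmp.measurable.aemeasurable
    (hg.aestronglyMeasurable), hmp.map_eq]
  rw [integral_prod]
  refine Integrable.of_bound ((hg.comp hmp.measurable).aestronglyMeasurable) C ?_
  exact Filter.Eventually.of_forall fun p => by simpa only [Real.norm_eq_abs] using hC _

/-- reindexing invariance -/
theorem infinitePi_reindex {ι Ω : Type*} [MeasurableSpace Ω]
    (lam : Measure Ω) [IsProbabilityMeasure lam] (e : ι ≃ ι) :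
    (Measure.infinitePi fun _ : ι => lam).map (fun w i => w (e i)) =
      Measure.infinitePi fun _ : ι => lam := by
  have h := Measure.infinitePi_map_piCongrLeft (X := fun _ : ι => Ω) (μ := fun _ : ι => lam) e.symm
  convert h using 2
  ext w i
  simp [MeasurableEquiv.coe_piCongrLeft, Equiv.piCongrLeft, Equiv.piCongrLeft']

/-- distinct labels almost surely -/
theorem ae_injective_labels {ι : Type*} [Countable ι] :
    ∀ᵐ x ∂(Measure.infinitePi fun _ : ι => (volume : Measure unitInterval)),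
      Function.Injective x := by
  classical
  have key : ∀ i j : ι, i ≠ j →
      ∀ᵐ x ∂(Measure.infinitePi fun _ : ι => (volume : Measure unitInterval)), x i ≠ x j := by
    intro i j hij
    have hmp := measurePreserving_update (ι := ι) (volume : Measure unitInterval) i
    rw [← hmp.map_eq]
    have hset : MeasurableSet {x : ι → unitInterval | x i ≠ x j} :=
      (measurableSet_eq_fun (measurable_pi_apply i) (measurable_pi_apply j)).compl
    rw [ae_map_iff hmp.measurable.aemeasurable hset]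
    have hset2 : MeasurableSet {p : (ι → unitInterval) × unitInterval |
        Function.update p.1 i p.2 i ≠ Function.update p.1 i p.2 j} := hmp.measurable hset
    rw [Measure.ae_prod_iff_ae_ae hset2]
    refine Filter.Eventually.of_forall fun w => ?_
    have : ∀ᵐ u ∂(volume : Measure unitInterval), u ≠ w j := by
      rw [ae_iff]
      simp
    filter_upwards [this] with u hu
    simpa only [Function.update_self, Function.update_of_ne (Ne.symm hij), ne_eq] using hu
  have h2 : ∀ᵐ x ∂(Measure.infinitePi fun _ : ι => (volume : Measure unitInterval)),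
      ∀ i j : ι, i ≠ j → x i ≠ x j := by
    rw [ae_all_iff]; intro i
    rw [ae_all_iff]; intro j
    by_cases hij : i = j
    · exact Filter.Eventually.of_forall fun x h => absurd hij h
    · filter_upwards [key i j hij] with x hx _ using hx
  filter_upwards [h2] with x hx i j hij
  by_contra hne
  exact hx i j hne hij

end Vale.Agent.P161
end
end

section

section

open MeasureTheory

namespace Vale.Agent.P161

variable {V : Type*} {G : SimpleGraph V} {μ : Measure (V → ℤˣ)}

theorem run_nil (ε : ℝ) (U : V × ℕ → unitInterval) : run μ ε U [] = [] := rfl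

theorem run_cons (ε : ℝ) (U : V × ℕ → unitInterval) (i : V × ℕ) (l : List (V × ℕ)) :
    run μ ε U (i :: l) =
      (i.1, obs ε (mean μ (run μ ε U l) i.1) (U i : ℝ)) :: run μ ε U l := rfl

theorem good_run [IsProbabilityMeasure μ] {ε : ℝ} (hε0 : 0 ≤ ε) (hε : ε ≤ 1 / 2)
    (U : V × ℕ → unitInterval) (l : List (V × ℕ)) : Good (run μ ε U l) := by
  induction l with
  | nil => intro p hp; simp [run_nil] at hp
  | cons i l ih =>
    rw [run_cons]
    intro p hp
    rcases List.mem_cons.1 hp with h | h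
    · subst h
      exact (abs_obs_le hε0 hε (abs_mean_le ih i.1) (U i).2.1 (U i).2.2).trans hε
    · exact ih p h

theorem abs_obs_run_le [IsProbabilityMeasure μ] {ε : ℝ} (hε0 : 0 ≤ ε) (hε : ε ≤ 1 / 2)
    (U : V × ℕ → unitInterval) (l : List (V × ℕ)) (x : V) (u : unitInterval) :
    |obs ε (mean μ (run μ ε U l) x) u| ≤ 1 / 2 :=
  (abs_obs_le hε0 hε (abs_mean_le (good_run hε0 hε U l) x) u.2.1 u.2.2).trans hε

theorem localOn_sp (v : V) : LocalOn Set.univ (fun σ : V → ℤˣ => sp σ v) := by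
  refine ⟨{v}, Set.subset_univ _, ?_⟩
  intro x y hxy
  simp only [sp]
  rw [hxy v (by simp)]

theorem LocalOn.mul {A : Set V} {f g : (V → ℤˣ) → ℝ} (hf : LocalOn A f) (hg : LocalOn A g) :
    LocalOn A (fun σ => f σ * g σ) := by
  classical
  obtain ⟨D, hDA, hD⟩ := hf
  obtain ⟨E, hEA, hE⟩ := hg
  refine ⟨D ∪ E, by simp only [Finset.coe_union, Set.union_subset_iff, hDA, hEA, and_self], ?_⟩
  intro x y hxy
  have h1 := hD (x := x) (y := y) (fun i hi => hxy i (by simp; left; exact hi))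
  have h2 := hE (x := x) (y := y) (fun i hi => hxy i (by simp; right; exact hi))
  simp only [h1, h2]

theorem localOn_sp_mul (x : V) {f : (V → ℤˣ) → ℝ} (hf : LocalOn Set.univ f) :
    LocalOn Set.univ (fun σ => sp σ x * f σ) := (localOn_sp x).mul hf

theorem measurable_obs_aux {Ω : Type*} [MeasurableSpace Ω] {m u : Ω → ℝ} {ε : ℝ}
    (hm : Measurable m) (hu : Measurable u) : Measurable fun ω => obs ε (m ω) (u ω) := by
  unfold obs
  exact ((measurable_chan.comp ((hm.const_mul ε).prodMk hu))).const_mul ε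

theorem measurable_post_run [IsProbabilityMeasure μ] {ε : ℝ} (hε0 : 0 ≤ ε) (hε : ε ≤ 1 / 2)
    (l : List (V × ℕ)) {f : (V → ℤˣ) → ℝ} (hf : LocalOn Set.univ f) :
    Measurable fun U : V × ℕ → unitInterval => post μ (run μ ε U l) f := by
  induction l generalizing f with
  | nil => simp only [run_nil]; exact measurable_const
  | cons i l ih =>
    have hm : Measurable fun U : V × ℕ → unitInterval => mean μ (run μ ε U l) i.1 :=
      ih (localOn_sp i.1)
    have hu : Measurable fun U : V × ℕ → unitInterval => (U i : ℝ) :=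
      measurable_subtype_coe.comp (measurable_pi_apply i)
    have ho := measurable_obs_aux (ε := ε) hm hu
    have : (fun U : V × ℕ → unitInterval => post μ (run μ ε U (i :: l)) f) = fun U =>
        (post μ (run μ ε U l) f + obs ε (mean μ (run μ ε U l) i.1) (U i : ℝ) *
          post μ (run μ ε U l) (fun σ => sp σ i.1 * f σ)) /
          (1 + obs ε (mean μ (run μ ε U l) i.1) (U i : ℝ) * mean μ (run μ ε U l) i.1) := by
      funext U
      rw [run_cons]
      exact post_cons (good_run hε0 hε U l) (abs_obs_run_le hε0 hε U l i.1 (U i)) hf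
    rw [this]
    exact ((ih hf).add (ho.mul (ih (localOn_sp_mul i.1 hf)))).div
      (measurable_const.add (ho.mul hm))

theorem measurable_mean_run [IsProbabilityMeasure μ] {ε : ℝ} (hε0 : 0 ≤ ε) (hε : ε ≤ 1 / 2)
    (l : List (V × ℕ)) (v : V) :
    Measurable fun U : V × ℕ → unitInterval => mean μ (run μ ε U l) v :=
  measurable_post_run hε0 hε l (localOn_sp v)

theorem measurable_cov_run [IsProbabilityMeasure μ] {ε : ℝ} (hε0 : 0 ≤ ε) (hε : ε ≤ 1 / 2)
    (l : List (V × ℕ)) (x v : V) :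
    Measurable fun U : V × ℕ → unitInterval => cov μ (run μ ε U l) x v := by
  unfold cov
  exact (measurable_post_run hε0 hε l (localOn_sp_mul x (localOn_sp v))).sub
    ((measurable_mean_run hε0 hε l x).mul (measurable_mean_run hε0 hε l v))

theorem run_congr {ε : ℝ} {U U' : V × ℕ → unitInterval} {l : List (V × ℕ)}
    (h : ∀ i ∈ l, U i = U' i) : run μ ε U l = run μ ε U' l := by
  induction l with
  | nil => rfl
  | cons i l ih =>
    rw [run_cons, run_cons, ih (fun j hj => h j (List.mem_cons_of_mem _ hj)),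
      h i List.mem_cons_self]

/-- one fresh step for a function of the state and the fresh label -/
theorem integral_step (l : List (V × ℕ)) {i : V × ℕ} (hi : i ∉ l)
    (F : (V × ℕ → unitInterval) → unitInterval → ℝ)
    (hF : Measurable fun U : V × ℕ → unitInterval => F U (U i))
    (hdep : ∀ U U' : V × ℕ → unitInterval, (∀ j ∈ l, U j = U' j) → F U = F U')
    {C : ℝ} (hC : ∀ U u, |F U u| ≤ C) :
    ∫ U, F U (U i) ∂(noise V) = ∫ U, (∫ u, F U u) ∂(noise V) := by
  classical
  rw [integral_fresh (volume : Measure unitInterval) i (fun U => F U (U i)) hF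
    (fun w => hC w (w i))]
  congr 1
  funext U
  congr 1
  funext u
  rw [Function.update_self, hdep (Function.update U i u) U]
  intro j hj
  rw [Function.update_of_ne]
  rintro rfl
  exact hi hj

theorem integrable_of_bdd {Ω : Type*} [MeasurableSpace Ω] {P : Measure Ω} [IsFiniteMeasure P]
    {f : Ω → ℝ} (hf : Measurable f) {C : ℝ} (hC : ∀ ω, |f ω| ≤ C) : Integrable f P :=
  Integrable.of_bound hf.aestronglyMeasurable C (Filter.Eventually.of_forall hC)

theorem LocalOn.exists_bound {A : Set V} {f : (V → ℤˣ) → ℝ} (hf : LocalOn A f) :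
    ∃ C, ∀ σ, |f σ| ≤ C := by
  classical
  obtain ⟨D, -, hD⟩ := hf
  let ext : (D → ℤˣ) → (V → ℤˣ) := fun τ v => if h : v ∈ D then τ ⟨v, h⟩ else 1
  refine ⟨∑ τ : D → ℤˣ, |f (ext τ)|, fun σ => ?_⟩
  have : f σ = f (ext fun v => σ v) := by
    apply hD
    intro v hv
    have hv' : v ∈ D := hv
    simp only [hv', ↓reduceDIte, ext]
  rw [this]
  exact Finset.single_le_sum (f := fun τ : D → ℤˣ => |f (ext τ)|) (fun _ _ => abs_nonneg _)
    (Finset.mem_univ (fun v : D => σ v))

theorem measurable_incr_run [IsProbabilityMeasure μ] {ε : ℝ} (hε0 : 0 ≤ ε) (hε : ε ≤ 1 / 2)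
    (l : List (V × ℕ)) (x : V) (i : V × ℕ) :
    Measurable fun U : V × ℕ → unitInterval => incr ε (mean μ (run μ ε U l) x) (U i) := by
  have hm := measurable_mean_run (μ := μ) hε0 hε l x
  have hu : Measurable fun U : V × ℕ → unitInterval => (U i : ℝ) :=
    measurable_subtype_coe.comp (measurable_pi_apply i)
  have ho := measurable_obs_aux (ε := ε) hm hu
  unfold incr
  exact ho.div (measurable_const.add (ho.mul hm))

/-- the basic orthogonality: a bounded function of the past times the increment integrates to 0 -/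
theorem integral_mul_incr_eq_zero [IsProbabilityMeasure μ] {ε : ℝ} (hε0 : 0 ≤ ε) (hε : ε ≤ 1 / 2)
    (l l1 : List (V × ℕ)) (hsub : ∀ j ∈ l1, j ∈ l) {i : V × ℕ} (hi : i ∉ l)
    (h : (V × ℕ → unitInterval) → ℝ) (hh : Measurable h)
    (hdep : ∀ U U' : V × ℕ → unitInterval, (∀ j ∈ l, U j = U' j) → h U = h U')
    {C : ℝ} (hC : ∀ U, |h U| ≤ C) (x : V) :
    ∫ U, h U * incr ε (mean μ (run μ ε U l1) x) (U i) ∂(noise V) = 0 := by
  have key := integral_step l hi
    (fun U u => h U * incr ε (mean μ (run μ ε U l1) x) u)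
    (hh.mul (measurable_incr_run hε0 hε l1 x i))
    (fun U U' hUU => by
      funext u
      rw [hdep U U' hUU, run_congr (fun j hj => hUU j (hsub j hj))])
    (C := |C| * (2 * ε))
    (fun U u => by
      rw [abs_mul]
      exact mul_le_mul ((hC U).trans (le_abs_self C))
        (abs_incr_le hε0 hε (abs_mean_le (good_run hε0 hε U l1) x) u.2.1 u.2.2)
        (abs_nonneg _) (abs_nonneg _))
  rw [key]
  have : ∀ U : V × ℕ → unitInterval,
      ∫ u : unitInterval, h U * incr ε (mean μ (run μ ε U l1) x) u = 0 := by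
    intro U
    rw [integral_const_mul, integral_incr hε0 hε (abs_mean_le (good_run hε0 hε U l1) x), mul_zero]
  simp only [this, integral_zero]

theorem post_cons_incr [IsProbabilityMeasure μ] {ε : ℝ} (hε0 : 0 ≤ ε) (hε : ε ≤ 1 / 2)
    (U : V × ℕ → unitInterval) (i : V × ℕ) (l : List (V × ℕ)) {f : (V → ℤˣ) → ℝ}
    (hf : LocalOn Set.univ f) :
    post μ (run μ ε U (i :: l)) f = post μ (run μ ε U l) f +
      (post μ (run μ ε U l) (fun σ => sp σ i.1 * f σ)
        - mean μ (run μ ε U l) i.1 * post μ (run μ ε U l) f) *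
        incr ε (mean μ (run μ ε U l) i.1) (U i) := by
  have hd := obs_den hε0 hε (abs_mean_le (μ := μ) (good_run (μ := μ) hε0 hε U l) i.1)
    (U i).2.1 (U i).2.2
  rw [run_cons, post_cons (good_run hε0 hε U l) (abs_obs_run_le hε0 hε U l i.1 (U i)) hf]
  unfold incr
  have : 1 + obs ε (mean μ (run μ ε U l) i.1) (U i : ℝ) * mean μ (run μ ε U l) i.1 ≠ 0 := by
    linarith only [hd]
  field_simp
  ring

theorem mean_cons_incr [IsProbabilityMeasure μ] {ε : ℝ} (hε0 : 0 ≤ ε) (hε : ε ≤ 1 / 2)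
    (U : V × ℕ → unitInterval) (i : V × ℕ) (l : List (V × ℕ)) (v : V) :
    mean μ (run μ ε U (i :: l)) v = mean μ (run μ ε U l) v +
      cov μ (run μ ε U l) i.1 v * incr ε (mean μ (run μ ε U l) i.1) (U i) := by
  rw [run_cons, mean_cons (good_run hε0 hε U l) i.1 v (abs_obs_run_le hε0 hε U l i.1 (U i))]
  rfl

/-- martingale step against a bounded function of the past -/
theorem integral_post_cons_mul [IsProbabilityMeasure μ] {ε : ℝ} (hε0 : 0 ≤ ε) (hε : ε ≤ 1 / 2)
    (l l1 : List (V × ℕ)) (hsub : ∀ j ∈ l1, j ∈ l) {i : V × ℕ} (hi : i ∉ l)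
    (h : (V × ℕ → unitInterval) → ℝ) (hh : Measurable h)
    (hdep : ∀ U U' : V × ℕ → unitInterval, (∀ j ∈ l, U j = U' j) → h U = h U')
    {C : ℝ} (hC : ∀ U, |h U| ≤ C) {f : (V → ℤˣ) → ℝ} (hf : LocalOn Set.univ f) :
    ∫ U, post μ (run μ ε U (i :: l1)) f * h U ∂(noise V) =
      ∫ U, post μ (run μ ε U l1) f * h U ∂(noise V) := by
  obtain ⟨B, hB⟩ := hf.exists_bound
  obtain ⟨B', hB'⟩ := (localOn_sp_mul i.1 hf).exists_bound
  have m1 := measurable_post_run (μ := μ) hε0 hε l1 hf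
  have m2 := measurable_post_run (μ := μ) hε0 hε l1 (localOn_sp_mul i.1 hf)
  have m3 := measurable_mean_run (μ := μ) hε0 hε l1 i.1
  have b1 : ∀ U, |post μ (run μ ε U l1) f| ≤ B := fun U =>
    abs_post_le (good_run hε0 hε U l1) hf hB
  have b2 : ∀ U, |post μ (run μ ε U l1) (fun σ => sp σ i.1 * f σ)| ≤ B' := fun U =>
    abs_post_le (good_run hε0 hε U l1) (localOn_sp_mul i.1 hf) hB'
  have b3 : ∀ U, |mean μ (run μ ε U l1) i.1| ≤ 1 := fun U =>
    abs_mean_le (good_run hε0 hε U l1) i.1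
  have hB0 : 0 ≤ B := (abs_nonneg _).trans (b1 (fun _ => 0))
  have hC0 : 0 ≤ C := (abs_nonneg _).trans (hC (fun _ => 0))
  have hz := integral_mul_incr_eq_zero (μ := μ) hε0 hε l l1 hsub hi
    (fun U => (post μ (run μ ε U l1) (fun σ => sp σ i.1 * f σ)
        - mean μ (run μ ε U l1) i.1 * post μ (run μ ε U l1) f) * h U)
    ((m2.sub (m3.mul m1)).mul hh)
    (fun U U' hUU => by
      rw [hdep U U' hUU, run_congr (fun j hj => hUU j (hsub j hj))])
    (C := (B' + 1 * B) * C)
    (fun U => by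
      rw [abs_mul]
      refine mul_le_mul ?_ (hC U) (abs_nonneg _) ?_
      · refine (abs_sub _ _).trans ?_
        rw [abs_mul]
        exact add_le_add (b2 U) (mul_le_mul (b3 U) (b1 U) (abs_nonneg _) (by norm_num))
      · have := (abs_nonneg _).trans (b2 U)
        (clear * - this hB0; positivity)) i.1
  have e1 : ∀ U : V × ℕ → unitInterval, post μ (run μ ε U (i :: l1)) f * h U =
      post μ (run μ ε U l1) f * h U + (post μ (run μ ε U l1) (fun σ => sp σ i.1 * f σ)
        - mean μ (run μ ε U l1) i.1 * post μ (run μ ε U l1) f) * h U *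
        incr ε (mean μ (run μ ε U l1) i.1) (U i) := by
    intro U
    rw [post_cons_incr hε0 hε U i l1 hf]
    ring
  simp only [e1]
  rw [integral_add, hz, add_zero]
  · refine integrable_of_bdd (m1.mul hh) (C := B * C) (fun U => ?_)
    rw [abs_mul]
    exact mul_le_mul (b1 U) (hC U) (abs_nonneg _) hB0
  · refine integrable_of_bdd (((m2.sub (m3.mul m1)).mul hh).mul
      (measurable_incr_run hε0 hε l1 i.1 i)) (C := ((B' + 1 * B) * C) * (2 * ε)) (fun U => ?_)
    rw [abs_mul, abs_mul]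
    have hB'0 := (abs_nonneg _).trans (b2 U)
    refine mul_le_mul (mul_le_mul ?_ (hC U) (abs_nonneg _) (by (clear * - hB'0 hB0; positivity)))
      (abs_incr_le hε0 hε (b3 U) (U i).2.1 (U i).2.2) (abs_nonneg _) (by (clear * - hB'0 hB0 hC0; positivity))
    refine (abs_sub _ _).trans ?_
    rw [abs_mul]
    exact add_le_add (b2 U) (mul_le_mul (b3 U) (b1 U) (abs_nonneg _) (by norm_num))

theorem integral_post_append_mul [IsProbabilityMeasure μ] {ε : ℝ} (hε0 : 0 ≤ ε) (hε : ε ≤ 1 / 2)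
    (l l' : List (V × ℕ)) (hl : (l ++ l').Nodup)
    (h : (V × ℕ → unitInterval) → ℝ) (hh : Measurable h)
    (hdep : ∀ U U' : V × ℕ → unitInterval, (∀ j ∈ l', U j = U' j) → h U = h U')
    {C : ℝ} (hC : ∀ U, |h U| ≤ C) {f : (V → ℤˣ) → ℝ} (hf : LocalOn Set.univ f) :
    ∫ U, post μ (run μ ε U (l ++ l')) f * h U ∂(noise V) =
      ∫ U, post μ (run μ ε U l') f * h U ∂(noise V) := by
  induction l with
  | nil => rfl
  | cons i l ih =>
    rw [List.cons_append, List.nodup_cons] at hl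
    rw [List.cons_append, integral_post_cons_mul hε0 hε (l ++ l') (l ++ l') (fun j hj => hj) hl.1 h
      hh (fun U U' hUU => hdep U U' (fun j hj => hUU j (List.mem_append_right _ hj))) hC hf]
    exact ih hl.2

/-- martingale property: exact law -/
theorem integral_post_run [IsProbabilityMeasure μ] {ε : ℝ} (hε0 : 0 ≤ ε) (hε : ε ≤ 1 / 2)
    (l : List (V × ℕ)) (hl : l.Nodup) {f : (V → ℤˣ) → ℝ} (hf : LocalOn Set.univ f) :
    ∫ U, post μ (run μ ε U l) f ∂(noise V) = ∫ σ, f σ ∂μ := by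
  have := integral_post_append_mul (μ := μ) hε0 hε l [] (by simpa using hl) (fun _ => 1)
    measurable_const (fun _ _ _ => rfl) (C := 1) (by simp only [abs_one, Std.le_refl, implies_true]) hf
  simp only [List.append_nil, mul_one, run_nil] at this
  rw [this]
  simp [post, lik]

/-- orthogonality of martingale increments -/
theorem integral_sq_sub_run [IsProbabilityMeasure μ] {ε : ℝ} (hε0 : 0 ≤ ε) (hε : ε ≤ 1 / 2)
    (l l' : List (V × ℕ)) (hl : (l ++ l').Nodup) (v : V) :
    ∫ U, (mean μ (run μ ε U (l ++ l')) v - mean μ (run μ ε U l') v) ^ 2 ∂(noise V) =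
      ∫ U, mean μ (run μ ε U (l ++ l')) v ^ 2 ∂(noise V)
        - ∫ U, mean μ (run μ ε U l') v ^ 2 ∂(noise V) := by
  have m1 := measurable_mean_run (μ := μ) hε0 hε (l ++ l') v
  have m2 := measurable_mean_run (μ := μ) hε0 hε l' v
  have b1 : ∀ U, |mean μ (run μ ε U (l ++ l')) v| ≤ 1 := fun U =>
    abs_mean_le (good_run hε0 hε U _) v
  have b2 : ∀ U, |mean μ (run μ ε U l') v| ≤ 1 := fun U =>
    abs_mean_le (good_run hε0 hε U _) v
  have hz := integral_post_append_mul (μ := μ) hε0 hε l l' hl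
    (fun U => mean μ (run μ ε U l') v) m2
    (fun U U' hUU => by rw [run_congr hUU]) b2 (localOn_sp v)
  have i1 : Integrable (fun U => mean μ (run μ ε U (l ++ l')) v ^ 2) (noise V) :=
    integrable_of_bdd (m1.pow_const 2) (C := 1) (fun U => by
      rw [abs_pow]; exact pow_le_one₀ (abs_nonneg _) (b1 U))
  have i2 : Integrable (fun U => mean μ (run μ ε U l') v ^ 2) (noise V) :=
    integrable_of_bdd (m2.pow_const 2) (C := 1) (fun U => by
      rw [abs_pow]; exact pow_le_one₀ (abs_nonneg _) (b2 U))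
  have i3 : Integrable (fun U => mean μ (run μ ε U (l ++ l')) v * mean μ (run μ ε U l') v)
      (noise V) :=
    integrable_of_bdd (m1.mul m2) (C := 1 * 1) (fun U => by
      rw [abs_mul]; exact mul_le_mul (b1 U) (b2 U) (abs_nonneg _) (by norm_num))
  have e1 : ∀ U : V × ℕ → unitInterval,
      (mean μ (run μ ε U (l ++ l')) v - mean μ (run μ ε U l') v) ^ 2 =
      mean μ (run μ ε U (l ++ l')) v ^ 2 + mean μ (run μ ε U l') v ^ 2
       - 2 * (mean μ (run μ ε U (l ++ l')) v * mean μ (run μ ε U l') v) := by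
    intro U; ring
  simp only [e1]
  have e2 := integral_sub (i1.add i2) (i3.const_mul 2)
  simp only [Pi.add_apply] at e2
  rw [e2, integral_add i1 i2, integral_const_mul]
  have hz' : ∫ U, mean μ (run μ ε U (l ++ l')) v * mean μ (run μ ε U l') v ∂(noise V) =
      ∫ U, mean μ (run μ ε U l') v ^ 2 ∂(noise V) := by
    rw [show (fun U => mean μ (run μ ε U l') v ^ 2) =
      fun U => mean μ (run μ ε U l') v * mean μ (run μ ε U l') v from by funext U; ring]
    exact hz
  rw [hz']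
  ring

end Vale.Agent.P161
end
end

section

section

open MeasureTheory

namespace Vale.Agent.P161

variable {V : Type*}

theorem measurable_unitsInt_val : Measurable fun u : ℤˣ => (u : ℤ) :=
  comap_measurable (fun u : ℤˣ => (u : ℤ))

theorem measurableSet_singleton_unitsInt (u : ℤˣ) : MeasurableSet ({u} : Set ℤˣ) := by
  have : ({u} : Set ℤˣ) = (fun u : ℤˣ => (u : ℤ)) ⁻¹' {(u : ℤ)} := by
    ext w; simp [Units.ext_iff]
  rw [this]
  exact measurable_unitsInt_val (measurableSet_singleton _)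

theorem sp_mul_self_det (σ : V → ℤˣ) (v : V) : sp σ v * sp σ v = 1 := by
  unfold sp
  rcases Int.units_eq_one_or (σ v) with h | h <;> simp [h]

theorem sp_eq_one_or (σ : V → ℤˣ) (v : V) : sp σ v = 1 ∨ sp σ v = -1 := by
  unfold sp
  rcases Int.units_eq_one_or (σ v) with h | h <;> simp [h]

theorem measurable_sp (v : V) : Measurable fun σ : V → ℤˣ => sp σ v := by
  unfold sp
  have h1 : Measurable fun σ : V → ℤˣ => ((σ v : ℤˣ) : ℤ) :=
    measurable_unitsInt_val.comp (measurable_pi_apply v)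
  exact (measurable_from_top (f := fun n : ℤ => (n : ℝ))).comp h1

theorem measurable_spS (S : Finset V) : Measurable fun σ : V → ℤˣ => spS S σ := by
  unfold spS
  exact Finset.measurable_prod _ fun v _ => measurable_sp v

theorem abs_spS_bd540 (S : Finset V) (σ : V → ℤˣ) : |spS S σ| = 1 := by
  unfold spS
  rw [Finset.abs_prod]
  refine Finset.prod_eq_one fun v _ => ?_
  rcases sp_eq_one_or σ v with h | h <;> simp [h]

theorem integrable_spS (μ : Measure (V → ℤˣ)) [IsProbabilityMeasure μ] (S : Finset V) :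
    Integrable (spS S) μ := by
  refine Integrable.of_bound (measurable_spS S).aestronglyMeasurable 1 ?_
  exact Filter.Eventually.of_forall fun σ => by rw [Real.norm_eq_abs, abs_spS_bd540]

/-- indicator of a cylinder event as a combination of spin products -/
theorem indicator_cylinder_eq (D : Finset V) (η : V → ℤˣ) (σ : V → ℤˣ) :
    Set.indicator {σ : V → ℤˣ | ∀ v ∈ D, σ v = η v} (fun _ => (1 : ℝ)) σ =
      ∑ S ∈ D.powerset, (1 / 2 ^ D.card) * spS S η * spS S σ := by
  classical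
  have h1 : ∑ S ∈ D.powerset, (1 / 2 ^ D.card : ℝ) * spS S η * spS S σ =
      ∏ v ∈ D, ((1 + sp η v * sp σ v) / 2) := by
    have : ∀ S : Finset V, spS S η * spS S σ = ∏ v ∈ S, (sp η v * sp σ v) := by
      intro S; unfold spS; rw [Finset.prod_mul_distrib]
    rw [Finset.prod_div_distrib, Finset.prod_const, Finset.prod_one_add]
    rw [Finset.sum_div]
    refine Finset.sum_congr rfl fun S _ => ?_
    rw [mul_assoc, this]
    ring
  rw [h1]
  by_cases h : ∀ v ∈ D, σ v = η v
  · rw [Set.indicator_of_mem (show σ ∈ {σ : V → ℤˣ | ∀ v ∈ D, σ v = η v} from h)]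
    symm
    refine Finset.prod_eq_one fun v hv => ?_
    have : sp η v * sp σ v = 1 := by
      have h' : sp σ v = sp η v := by unfold sp; rw [h v hv]
      rw [h', sp_mul_self_det]
    rw [this]; norm_num
  · rw [Set.indicator_of_notMem (show σ ∉ {σ : V → ℤˣ | ∀ v ∈ D, σ v = η v} from h)]
    push Not at h
    obtain ⟨v, hv, hne⟩ := h
    symm
    refine Finset.prod_eq_zero hv ?_
    have : sp η v * sp σ v = -1 := by
      unfold sp
      rcases Int.units_eq_one_or (σ v) with h1 | h1 <;>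
        rcases Int.units_eq_one_or (η v) with h2 | h2 <;> simp_all
    rw [this]; norm_num

theorem measurableSet_cyl_det (D : Finset V) (η : V → ℤˣ) :
    MeasurableSet {σ : V → ℤˣ | ∀ v ∈ D, σ v = η v} := by
  have : {σ : V → ℤˣ | ∀ v ∈ D, σ v = η v} = ⋂ v ∈ D, {σ | σ v = η v} := by
    ext σ; simp only [Set.mem_ofPred_eq, Set.mem_iInter]
  rw [this]
  refine Finset.measurableSet_biInter _ fun v _ => ?_
  exact (measurable_pi_apply (X := fun _ : V => ℤˣ) v) (measurableSet_singleton_unitsInt (η v))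

theorem measureReal_cyl (μ : Measure (V → ℤˣ)) [IsProbabilityMeasure μ] (D : Finset V)
    (η : V → ℤˣ) : μ.real {σ : V → ℤˣ | ∀ v ∈ D, σ v = η v} =
      ∑ S ∈ D.powerset, (1 / 2 ^ D.card) * spS S η * ∫ σ, spS S σ ∂μ := by
  rw [← integral_indicator_one (measurableSet_cyl_det D η)]
  have : (Set.indicator {σ : V → ℤˣ | ∀ v ∈ D, σ v = η v} (1 : (V → ℤˣ) → ℝ)) =
      fun σ => ∑ S ∈ D.powerset, (1 / 2 ^ D.card) * spS S η * spS S σ := by
    funext σ
    rw [← indicator_cylinder_eq]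
    rfl
  rw [this, integral_finsetSum]
  · refine Finset.sum_congr rfl fun S _ => ?_
    rw [integral_const_mul]
  · intro S _
    exact (integrable_spS μ S).const_mul _

/-- spin measures are determined by their cylinder probabilities -/
theorem measure_ext_of_cyl (μ ν : Measure (V → ℤˣ)) [IsProbabilityMeasure μ]
    [IsProbabilityMeasure ν] (h : ∀ (D : Finset V) (η : V → ℤˣ),
      μ {σ : V → ℤˣ | ∀ v ∈ D, σ v = η v} = ν {σ : V → ℤˣ | ∀ v ∈ D, σ v = η v}) : μ = ν := by
  classical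
  have : MeasurableSingletonClass ℤˣ := ⟨measurableSet_singleton_unitsInt⟩
  have hproj : ∀ D : Finset V, μ.map D.restrict = ν.map D.restrict := by
    intro D
    refine Measure.ext_of_singleton ?_
    intro η
    rw [Measure.map_apply (by fun_prop) (measurableSet_singleton η),
      Measure.map_apply (by fun_prop) (measurableSet_singleton η)]
    have hset : (D.restrict : (V → ℤˣ) → (D → ℤˣ)) ⁻¹' {η} =
        {σ : V → ℤˣ | ∀ v ∈ D, σ v = (fun w => if hw : w ∈ D then η ⟨w, hw⟩ else 1) v} := by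
      ext σ
      simp only [Set.mem_preimage, Set.mem_singleton_iff, Set.mem_ofPred_eq]
      constructor
      · intro hσ v hv
        rw [← hσ]; simp [hv]
      · intro hσ
        funext v
        have := hσ v v.2
        simpa only [Finset.restrict, SetLike.coe_mem, ↓reduceDIte, Subtype.coe_eta] using this
    rw [hset]
    exact h D _
  have h1 : IsProjectiveLimit μ (fun D : Finset V => μ.map D.restrict) := fun D => rfl
  have h2 : IsProjectiveLimit ν (fun D : Finset V => μ.map D.restrict) := fun D => (hproj D).symm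
  exact h1.unique h2

/-- spin measures are determined by their correlation functions -/
theorem measure_ext_of_corr (μ ν : Measure (V → ℤˣ)) [IsProbabilityMeasure μ]
    [IsProbabilityMeasure ν] (h : ∀ S : Finset V, ∫ σ, spS S σ ∂μ = ∫ σ, spS S σ ∂ν) : μ = ν := by
  classical
  refine measure_ext_of_cyl μ ν fun D η => ?_
  have h3 : μ.real {σ : V → ℤˣ | ∀ v ∈ D, σ v = η v} =
      ν.real {σ : V → ℤˣ | ∀ v ∈ D, σ v = η v} := by
    rw [measureReal_cyl μ D η, measureReal_cyl ν D η]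
    exact Finset.sum_congr rfl fun S _ => by rw [h S]
  rw [measureReal_def, measureReal_def] at h3
  exact (ENNReal.toReal_eq_toReal_iff' (measure_ne_top _ _) (measure_ne_top _ _)).1 h3

end Vale.Agent.P161
end
end

section

section

namespace Vale.Agent.P161

theorem dist_hom_le {V : Type*} {G : SimpleGraph V} (hG : G.Connected) (g : G →g G) (x v : V) :
    G.dist (g x) (g v) ≤ G.dist x v := by
  obtain ⟨p, hp⟩ := hG.exists_walk_length_eq_dist x v
  have := SimpleGraph.dist_le (p.map g)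
  rwa [SimpleGraph.Walk.length_map, hp] at this

theorem dist_aut {V : Type*} {G : SimpleGraph V} (hG : G.Connected) (g : G ≃g G) (x v : V) :
    G.dist (g x) (g v) = G.dist x v := by
  refine le_antisymm (dist_hom_le hG g.toHom x v) ?_
  have := dist_hom_le hG g.symm.toHom (g x) (g v)
  simpa only [ge_iff_le, RelHom.coeFn_mk, RelIso.coe_fn_toEquiv, RelIso.symm_apply_apply] using this

end Vale.Agent.P161
end
end

section

section

open MeasureTheory Filter Topology ProbabilityTheory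

namespace Vale.Agent.P161

variable {V : Type*} {G : SimpleGraph V}

theorem integral_sp_eq_zero {θ : ℝ} {μ : Measure (V → ℤˣ)} (hμ : IsFreeIsing G θ μ) (v : V) :
    ∫ σ, sp σ v ∂μ = 0 := by
  classical
  have := hμ.isProb
  have hconn : (G.induce (({v} : Finset V) : Set V)).Connected := by
    have hs : Subsingleton (({v} : Finset V) : Set V) := by
      constructor
      rintro ⟨a, ha⟩ ⟨b, hb⟩
      have ha' : a = v := by simpa using ha
      have hb' : b = v := by simpa using hb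
      exact Subtype.ext (ha'.trans hb'.symm)
    have hn : Nonempty (({v} : Finset V) : Set V) := ⟨⟨v, by simp⟩⟩
    exact { preconnected := fun a b => by rw [Subsingleton.elim a b], nonempty := hn }
  have hm : ∀ η : V → ℤˣ, μ {σ | σ v = η v} = ENNReal.ofReal (1 / 2) := by
    intro η
    have h := hμ.marginal {v} hconn η
    have h1 : {σ : V → ℤˣ | ∀ w ∈ ({v} : Finset V), σ w = η w} = {σ | σ v = η v} := by
      ext σ
      simp only [Finset.mem_singleton, forall_eq, Set.mem_ofPred_eq]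
    rw [h1] at h
    rw [h]
    congr 1
    rw [Finset.prod_eq_one, mul_one]
    intro e he
    exfalso
    simp only [Finset.mem_filter, Finset.mem_sym2_iff] at he
    induction e with
    | _ a b =>
      obtain ⟨h1, h2⟩ := he
      have ha := h1 a (by simp)
      have hb := h1 b (by simp)
      simp only [Finset.mem_singleton] at ha hb
      rw [SimpleGraph.mem_edgeSet] at h2
      rw [ha, hb] at h2
      exact G.loopless.irrefl v h2
  have hms : ∀ s : ℤˣ, MeasurableSet {σ : V → ℤˣ | σ v = s} := fun s =>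
    (measurable_pi_apply v : Measurable fun σ : V → ℤˣ => σ v) (measurableSet_singleton_unitsInt s)
  have e : (fun σ : V → ℤˣ => sp σ v) = fun σ =>
      ({σ : V → ℤˣ | σ v = 1}.indicator (fun _ => (1 : ℝ)) σ -
        {σ : V → ℤˣ | σ v = -1}.indicator (fun _ => (1 : ℝ)) σ) := by
    funext σ
    rcases Int.units_eq_one_or (σ v) with h | h
    · simp only [sp, h, Units.val_one, Int.cast_one, Set.indicator, Set.mem_ofPred_eq, ↓reduceIte, units_ne_neg_self, sub_zero]
    · simp only [sp, h, Units.val_neg, Units.val_one, Int.reduceNeg, Int.cast_neg, Int.cast_one, Set.indicator, Set.mem_ofPred_eq, neg_units_ne_self, ↓reduceIte, zero_sub]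
  rw [e, integral_sub, integral_indicator_const _ (hms 1), integral_indicator_const _ (hms (-1))]
  · have h1 := hm (fun _ => 1)
    have h2 := hm (fun _ => -1)
    rw [measureReal_def, measureReal_def, h1, h2]
    simp
  · exact (integrable_const _).indicator (hms 1)
  · exact (integrable_const _).indicator (hms (-1))

theorem integral_sp_sp [G.LocallyFinite] (hG : G.IsTree) {θ : ℝ} (h0 : 0 ≤ θ) (h1 : θ < 1)
    {μ : Measure (V → ℤˣ)} (hμ : IsFreeIsing G θ μ) (u v : V) :
    ∫ σ, sp σ u * sp σ v ∂μ = θ ^ G.dist u v := by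
  classical
  have := hμ.isProb
  obtain ⟨n, hn⟩ : ∃ n, G.dist u v = n := ⟨_, rfl⟩
  induction n generalizing v with
  | zero =>
    have huv : u = v := (hG.connected.dist_eq_zero_iff).1 hn
    subst huv
    simp [sp_mul_self_det]
  | succ n ih =>
    have hne : u ≠ v := by
      rintro rfl
      simp only [SimpleGraph.dist_self, Nat.right_eq_add, Nat.add_eq_zero_iff, one_ne_zero, and_false] at hn
    obtain ⟨w, hwv, hd⟩ := exists_next hG hne
    have hdw : G.dist u w = n := by omega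
    have hloc : ∀ {A : Set V} {x : V}, x ∈ A → LocalOn A (fun σ : V → ℤˣ => sp σ x) := by
      intro A x hx
      refine ⟨{x}, by simpa using hx, ?_⟩
      intro σ σ' h
      have := h x (by simp)
      simp only [sp, this]
    have hsplit := hμ.edgeSplit hG h0 h1 w v hwv (fun σ => sp σ u) (fun σ => sp σ v)
      (hloc (by show G.dist u w < G.dist u v; omega))
      (hloc (by
        show G.dist v v < G.dist v w
        rw [SimpleGraph.dist_self]
        exact Nat.pos_of_ne_zero fun h =>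
          hwv.ne ((hG.connected.dist_eq_zero_iff).1 h).symm))
    rw [hsplit, integral_sp_eq_zero hμ u, ih w hdw, hdw, hn]
    simp only [zero_mul, sp_mul_self_det, integral_const, probReal_univ, smul_eq_mul, mul_one, zero_add]
    ring

end Vale.Agent.P161
end
end

section

section

/-!
# Absorbed Cauchy-Schwarz

For a path with cavity means `m i` the transfer factors are `xf θ (m i)`, where
`xf θ m = (1 - m ^ 2) / (1 - θ ^ 2 * m ^ 2)`.  The difference of the products of transfer factors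
of two systems is controlled by a weighted sum of squared differences of the cavity means, with
no loss in the length of the path.
-/

open Finset

namespace Vale.Agent.P161

/-- transfer factor of a vertex with cavity mean `m` on a path -/
noncomputable def xf (θ m : ℝ) : ℝ := (1 - m ^ 2) / (1 - θ ^ 2 * m ^ 2)

section xf

variable {θ m m' : ℝ}

theorem xf_den_ge (hm : |m| ≤ 1) : 1 - θ ^ 2 ≤ 1 - θ ^ 2 * m ^ 2 := by
  have h1 : m ^ 2 ≤ 1 := by rw [← sq_abs]; exact pow_le_one₀ (abs_nonneg _) hm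
  linarith only [mul_nonneg (sub_nonneg.2 h1) (sq_nonneg θ)]

theorem xf_den_pos (hθ : θ ^ 2 < 1) (hm : |m| ≤ 1) : 0 < 1 - θ ^ 2 * m ^ 2 :=
  lt_of_lt_of_le (by (clear * - hθ; linarith)) (xf_den_ge hm)

theorem xf_nonneg (hθ : θ ^ 2 < 1) (hm : |m| ≤ 1) : 0 ≤ xf θ m := by
  have h1 : m ^ 2 ≤ 1 := by rw [← sq_abs]; exact pow_le_one₀ (abs_nonneg _) hm
  exact div_nonneg (by linarith only [h1]) (xf_den_pos hθ hm).le

theorem one_sub_xf (hθ : θ ^ 2 < 1) (hm : |m| ≤ 1) :
    1 - xf θ m = (1 - θ ^ 2) * m ^ 2 / (1 - θ ^ 2 * m ^ 2) := by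
  have h := (xf_den_pos hθ hm).ne'
  unfold xf
  rw [eq_div_iff h, sub_mul, div_mul_cancel₀ _ h]
  ring

theorem one_sub_xf_ge (hθ : θ ^ 2 < 1) (hm : |m| ≤ 1) :
    (1 - θ ^ 2) * m ^ 2 ≤ 1 - xf θ m := by
  rw [one_sub_xf hθ hm, le_div_iff₀ (xf_den_pos hθ hm)]
  have h1 : 0 ≤ (1 - θ ^ 2) * m ^ 2 := mul_nonneg (by linarith) (sq_nonneg _)
  have h2 : 0 ≤ θ ^ 2 * m ^ 2 := by (clear * -; positivity)
  linarith only [mul_nonneg (sub_nonneg.2 h1) (sub_nonneg.2 h2)]

theorem one_sub_xf_le (hθ : θ ^ 2 < 1) (hm : |m| ≤ 1) : 1 - xf θ m ≤ m ^ 2 := by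
  rw [one_sub_xf hθ hm, div_le_iff₀ (xf_den_pos hθ hm)]
  have h := xf_den_ge (θ := θ) hm
  (by_contra nlg; linarith only [nlg, mul_nonneg (sub_nonneg.2 h) (sq_nonneg m), mul_pos (sub_pos.2 (not_le.1 nlg)) (sub_pos.2 hθ), mul_nonneg (sq_nonneg (θ : ℝ)) (le_of_lt (sub_pos.2 (not_le.1 nlg)))])

theorem xf_le_one (hθ : θ ^ 2 < 1) (hm : |m| ≤ 1) : xf θ m ≤ 1 := by
  have h := one_sub_xf_ge hθ hm
  have h1 : 0 ≤ (1 - θ ^ 2) * m ^ 2 := mul_nonneg (by linarith) (sq_nonneg _)
  linarith only [h, h1]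

theorem xf_le (hθ : θ ^ 2 < 1) (hm : |m| ≤ 1) : xf θ m ≤ 1 - (1 - θ ^ 2) * m ^ 2 := by
  linarith [one_sub_xf_ge hθ hm]

@[simp] theorem xf_neg : xf θ (-m) = xf θ m := by simp only [xf, even_two, Even.neg_pow]

@[simp] theorem xf_zero : xf θ 0 = 1 := by simp only [xf, ne_eq, OfNat.ofNat_ne_zero, not_false_eq_true, zero_pow, sub_zero, mul_zero, one_ne_zero, div_self]

theorem xf_pos (hθ : θ ^ 2 < 1) (hm : |m| < 1) : 0 < xf θ m := by
  have h1 : m ^ 2 < 1 := by
    rw [← sq_abs]; exact pow_lt_one₀ (abs_nonneg _) hm two_ne_zero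
  exact div_pos (by linarith only [h1]) (xf_den_pos hθ hm.le)

theorem xf_sub (hθ : θ ^ 2 < 1) (hm : |m| ≤ 1) (hm' : |m'| ≤ 1) :
    xf θ m - xf θ m' =
      -((1 - θ ^ 2) * (m ^ 2 - m' ^ 2)) / ((1 - θ ^ 2 * m ^ 2) * (1 - θ ^ 2 * m' ^ 2)) := by
  have h := (xf_den_pos hθ hm).ne'
  have h' := (xf_den_pos hθ hm').ne'
  unfold xf
  rw [div_sub_div _ _ h h']
  congr 1
  ring

theorem abs_xf_sub_le (hθ : θ ^ 2 < 1) (hm : |m| ≤ 1) (hm' : |m'| ≤ 1) :
    |xf θ m - xf θ m'| ≤ |m - m'| * (|m| + |m'|) / (1 - θ ^ 2) := by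
  have hγ : 0 < 1 - θ ^ 2 := by linarith
  rw [xf_sub hθ hm hm', abs_div, abs_neg, abs_mul, abs_of_pos hγ,
    abs_of_pos (mul_pos (xf_den_pos hθ hm) (xf_den_pos hθ hm')),
    div_le_div_iff₀ (mul_pos (xf_den_pos hθ hm) (xf_den_pos hθ hm')) hγ]
  have h1 : |m ^ 2 - m' ^ 2| ≤ |m - m'| * (|m| + |m'|) := by
    rw [show m ^ 2 - m' ^ 2 = (m - m') * (m + m') by ring, abs_mul]
    exact mul_le_mul_of_nonneg_left (abs_add_le _ _) (abs_nonneg _)
  have h2 : (1 - θ ^ 2) * (1 - θ ^ 2) ≤ (1 - θ ^ 2 * m ^ 2) * (1 - θ ^ 2 * m' ^ 2) :=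
    mul_le_mul (xf_den_ge hm) (xf_den_ge hm') hγ.le (xf_den_pos hθ hm).le
  have h3 : 0 ≤ |m - m'| * (|m| + |m'|) := by positivity
  calc (1 - θ ^ 2) * |m ^ 2 - m' ^ 2| * (1 - θ ^ 2)
      = |m ^ 2 - m' ^ 2| * ((1 - θ ^ 2) * (1 - θ ^ 2)) := by ring
    _ ≤ (|m - m'| * (|m| + |m'|)) * ((1 - θ ^ 2 * m ^ 2) * (1 - θ ^ 2 * m' ^ 2)) :=
        mul_le_mul h1 h2 (mul_nonneg hγ.le hγ.le) h3

theorem measurable_xf {Ω : Type*} [MeasurableSpace Ω] {f : Ω → ℝ} (hf : Measurable f) (θ : ℝ) :
    Measurable fun ω => xf θ (f ω) := by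
  unfold xf
  exact ((measurable_const.sub (hf.pow_const 2))).div
    (measurable_const.sub ((hf.pow_const 2).const_mul _))

end xf

/-- hybrid decomposition of a difference of products -/
theorem prod_sub_prod_range (x y : ℕ → ℝ) (n : ℕ) :
    ∏ i ∈ range n, x i - ∏ i ∈ range n, y i =
      ∑ i ∈ range n, (∏ j ∈ range i, x j) * (x i - y i) * ∏ j ∈ Ico (i + 1) n, y j := by
  induction n with
  | zero => simp only [range_zero, prod_empty, sub_self, le_add_iff_nonneg_left, zero_le, Ico_eq_empty_of_le, mul_one, sum_empty]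
  | succ n ih =>
    rw [prod_range_succ, prod_range_succ, sum_range_succ, Ico_self, prod_empty]
    have h : ∑ i ∈ range n, (∏ j ∈ range i, x j) * (x i - y i) * ∏ j ∈ Ico (i + 1) (n + 1), y j
        = (∑ i ∈ range n, (∏ j ∈ range i, x j) * (x i - y i) * ∏ j ∈ Ico (i + 1) n, y j)
          * y n := by
      rw [sum_mul]
      apply sum_congr rfl
      intro i hi
      rw [prod_Ico_succ_top (Nat.succ_le_of_lt (mem_range.1 hi))]
      ring
    rw [h, ← ih]
    ring

theorem sum_prod_range_mul_one_sub (x : ℕ → ℝ) (n : ℕ) :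
    ∑ i ∈ range n, (∏ j ∈ range i, x j) * (1 - x i) = 1 - ∏ i ∈ range n, x i := by
  induction n with
  | zero => simp
  | succ n ih => rw [sum_range_succ, ih, prod_range_succ]; ring

theorem sum_prod_Ico_mul_one_sub (y : ℕ → ℝ) (n : ℕ) :
    ∑ i ∈ range n, (∏ j ∈ Ico (i + 1) n, y j) * (1 - y i) = 1 - ∏ i ∈ range n, y i := by
  have h := prod_sub_prod_range (fun _ => (1 : ℝ)) y n
  simp only [prod_const_one, one_mul] at h
  rw [h]
  exact sum_congr rfl fun i _ => mul_comm _ _

section absorb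

variable {θ : ℝ} {m m' : ℕ → ℝ}

theorem prod_xf_nonneg (hθ : θ ^ 2 < 1) (hm : ∀ i, |m i| ≤ 1) (s : Finset ℕ) :
    0 ≤ ∏ i ∈ s, xf θ (m i) := prod_nonneg fun i _ => xf_nonneg hθ (hm i)

theorem prod_xf_le_one (hθ : θ ^ 2 < 1) (hm : ∀ i, |m i| ≤ 1) (s : Finset ℕ) :
    ∏ i ∈ s, xf θ (m i) ≤ 1 :=
  prod_le_one (fun i _ => xf_nonneg hθ (hm i)) fun i _ => xf_le_one hθ (hm i)

theorem sum_prod_range_sq_le (hθ : θ ^ 2 < 1) (hm : ∀ i, |m i| ≤ 1) (n : ℕ) :
    ∑ i ∈ range n, (∏ j ∈ range i, xf θ (m j)) * m i ^ 2 ≤ 1 / (1 - θ ^ 2) := by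
  have hγ : 0 < 1 - θ ^ 2 := by linarith
  rw [le_div_iff₀ hγ, sum_mul]
  calc ∑ i ∈ range n, (∏ j ∈ range i, xf θ (m j)) * m i ^ 2 * (1 - θ ^ 2)
      ≤ ∑ i ∈ range n, (∏ j ∈ range i, xf θ (m j)) * (1 - xf θ (m i)) := by
        apply sum_le_sum
        intro i _
        rw [mul_assoc]
        apply mul_le_mul_of_nonneg_left _ (prod_xf_nonneg hθ hm _)
        rw [mul_comm]
        exact one_sub_xf_ge hθ (hm i)
    _ = 1 - ∏ i ∈ range n, xf θ (m i) := sum_prod_range_mul_one_sub _ n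
    _ ≤ 1 := by linarith only [prod_xf_nonneg hθ hm (range n)]

theorem sum_prod_Ico_sq_le (hθ : θ ^ 2 < 1) (hm : ∀ i, |m i| ≤ 1) (n : ℕ) :
    ∑ i ∈ range n, (∏ j ∈ Ico (i + 1) n, xf θ (m j)) * m i ^ 2 ≤ 1 / (1 - θ ^ 2) := by
  have hγ : 0 < 1 - θ ^ 2 := by linarith
  rw [le_div_iff₀ hγ, sum_mul]
  calc ∑ i ∈ range n, (∏ j ∈ Ico (i + 1) n, xf θ (m j)) * m i ^ 2 * (1 - θ ^ 2)
      ≤ ∑ i ∈ range n, (∏ j ∈ Ico (i + 1) n, xf θ (m j)) * (1 - xf θ (m i)) := by
        apply sum_le_sum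
        intro i _
        rw [mul_assoc]
        apply mul_le_mul_of_nonneg_left _ (prod_xf_nonneg hθ hm _)
        rw [mul_comm]
        exact one_sub_xf_ge hθ (hm i)
    _ = 1 - ∏ i ∈ range n, xf θ (m i) := sum_prod_Ico_mul_one_sub _ n
    _ ≤ 1 := by linarith only [prod_xf_nonneg hθ hm (range n)]

/-- **Absorbed Cauchy-Schwarz inequality.** -/
theorem absorb (hθ : θ ^ 2 < 1) (hm : ∀ i, |m i| ≤ 1) (hm' : ∀ i, |m' i| ≤ 1) (n : ℕ) :
    (∏ i ∈ range n, xf θ (m i) - ∏ i ∈ range n, xf θ (m' i)) ^ 2 ≤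
      4 / (1 - θ ^ 2) ^ 3 * ∑ i ∈ range n,
        (∏ j ∈ range i, xf θ (m j)) * (∏ j ∈ Ico (i + 1) n, xf θ (m' j)) * (m i - m' i) ^ 2 := by
  have hγ : 0 < 1 - θ ^ 2 := by linarith
  set P : ℕ → ℝ := fun i => ∏ j ∈ range i, xf θ (m j) with hP
  set Q : ℕ → ℝ := fun i => ∏ j ∈ Ico (i + 1) n, xf θ (m' j) with hQ
  have hP0 : ∀ i, 0 ≤ P i := fun i => prod_xf_nonneg hθ hm _
  have hQ0 : ∀ i, 0 ≤ Q i := fun i => prod_xf_nonneg hθ hm' _
  have hP1 : ∀ i, P i ≤ 1 := fun i => prod_xf_le_one hθ hm _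
  have hQ1 : ∀ i, Q i ≤ 1 := fun i => prod_xf_le_one hθ hm' _
  have hPQ : ∀ i, 0 ≤ P i * Q i := fun i => mul_nonneg (hP0 i) (hQ0 i)
  -- first bound by absolute values
  have h1 : |∏ i ∈ range n, xf θ (m i) - ∏ i ∈ range n, xf θ (m' i)| ≤
      ∑ i ∈ range n, (Real.sqrt (P i * Q i) * |m i - m' i|) *
        (Real.sqrt (P i * Q i) * ((|m i| + |m' i|) / (1 - θ ^ 2))) := by
    rw [prod_sub_prod_range]
    refine (abs_sum_le_sum_abs _ _).trans (sum_le_sum fun i _ => ?_)
    rw [abs_mul, abs_mul, abs_of_nonneg (hP0 i), abs_of_nonneg (hQ0 i)]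
    have h2 := abs_xf_sub_le hθ (hm i) (hm' i)
    calc P i * |xf θ (m i) - xf θ (m' i)| * Q i
        ≤ P i * (|m i - m' i| * (|m i| + |m' i|) / (1 - θ ^ 2)) * Q i :=
          mul_le_mul_of_nonneg_right (mul_le_mul_of_nonneg_left h2 (hP0 i)) (hQ0 i)
      _ = (Real.sqrt (P i * Q i) * Real.sqrt (P i * Q i)) *
            (|m i - m' i| * ((|m i| + |m' i|) / (1 - θ ^ 2))) := by
          rw [Real.mul_self_sqrt (hPQ i)]; ring
      _ = _ := by ring
  -- Cauchy-Schwarz
  have h3 : (∑ i ∈ range n, (Real.sqrt (P i * Q i) * |m i - m' i|) *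
        (Real.sqrt (P i * Q i) * ((|m i| + |m' i|) / (1 - θ ^ 2)))) ^ 2 ≤
      (∑ i ∈ range n, (Real.sqrt (P i * Q i) * |m i - m' i|) ^ 2) *
      ∑ i ∈ range n, (Real.sqrt (P i * Q i) * ((|m i| + |m' i|) / (1 - θ ^ 2))) ^ 2 :=
    sum_mul_sq_le_sq_mul_sq _ _ _
  have h4 : ∑ i ∈ range n, (Real.sqrt (P i * Q i) * |m i - m' i|) ^ 2 =
      ∑ i ∈ range n, P i * Q i * (m i - m' i) ^ 2 := by
    apply sum_congr rfl
    intro i _
    rw [mul_pow, Real.sq_sqrt (hPQ i), sq_abs]
  have h5 : ∑ i ∈ range n, (Real.sqrt (P i * Q i) * ((|m i| + |m' i|) / (1 - θ ^ 2))) ^ 2 ≤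
      4 / (1 - θ ^ 2) ^ 3 := by
    have h6 : ∀ i ∈ range n, (Real.sqrt (P i * Q i) * ((|m i| + |m' i|) / (1 - θ ^ 2))) ^ 2 ≤
        2 / (1 - θ ^ 2) ^ 2 * (P i * m i ^ 2 + Q i * m' i ^ 2) := by
      intro i _
      rw [mul_pow, Real.sq_sqrt (hPQ i), div_pow]
      have h7 : (|m i| + |m' i|) ^ 2 ≤ 2 * (m i ^ 2 + m' i ^ 2) := by
        linarith only [sq_abs (m' i), sq_abs (m i), sq_nonneg (|m i| - |m' i|)]
      have h8 : P i * Q i * (|m i| + |m' i|) ^ 2 ≤ 2 * (P i * m i ^ 2 + Q i * m' i ^ 2) := by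
        have h9 : P i * Q i * m i ^ 2 ≤ P i * m i ^ 2 := by
          apply mul_le_mul_of_nonneg_right _ (sq_nonneg _)
          exact mul_le_of_le_one_right (hP0 i) (hQ1 i)
        have h10 : P i * Q i * m' i ^ 2 ≤ Q i * m' i ^ 2 := by
          apply mul_le_mul_of_nonneg_right _ (sq_nonneg _)
          exact mul_le_of_le_one_left (hQ0 i) (hP1 i)
        calc P i * Q i * (|m i| + |m' i|) ^ 2 ≤ P i * Q i * (2 * (m i ^ 2 + m' i ^ 2)) :=
              mul_le_mul_of_nonneg_left h7 (hPQ i)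
          _ = 2 * (P i * Q i * m i ^ 2 + P i * Q i * m' i ^ 2) := by ring
          _ ≤ _ := by linarith only [h9, h10]
      rw [mul_div_assoc', div_mul_eq_mul_div]
      exact div_le_div_of_nonneg_right h8 (by positivity)
    refine (sum_le_sum h6).trans ?_
    rw [← mul_sum, sum_add_distrib]
    have h11 := sum_prod_range_sq_le hθ hm n
    have h12 := sum_prod_Ico_sq_le hθ hm' n
    calc 2 / (1 - θ ^ 2) ^ 2 * (∑ i ∈ range n, P i * m i ^ 2 + ∑ i ∈ range n, Q i * m' i ^ 2)
        ≤ 2 / (1 - θ ^ 2) ^ 2 * (1 / (1 - θ ^ 2) + 1 / (1 - θ ^ 2)) :=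
          mul_le_mul_of_nonneg_left (add_le_add h11 h12) (by positivity)
      _ = 4 / (1 - θ ^ 2) ^ 3 := by
          have := hγ.ne'
          field_simp
          norm_num
  have h13 : 0 ≤ ∑ i ∈ range n, P i * Q i * (m i - m' i) ^ 2 :=
    sum_nonneg fun i _ => mul_nonneg (hPQ i) (sq_nonneg _)
  calc (∏ i ∈ range n, xf θ (m i) - ∏ i ∈ range n, xf θ (m' i)) ^ 2
      = |∏ i ∈ range n, xf θ (m i) - ∏ i ∈ range n, xf θ (m' i)| ^ 2 := (sq_abs _).symm
    _ ≤ (∑ i ∈ range n, (Real.sqrt (P i * Q i) * |m i - m' i|) *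
          (Real.sqrt (P i * Q i) * ((|m i| + |m' i|) / (1 - θ ^ 2)))) ^ 2 :=
        pow_le_pow_left₀ (abs_nonneg _) h1 2
    _ ≤ _ := h3
    _ ≤ (∑ i ∈ range n, P i * Q i * (m i - m' i) ^ 2) * (4 / (1 - θ ^ 2) ^ 3) := by
        rw [h4]; exact mul_le_mul_of_nonneg_left h5 h13
    _ = _ := by rw [mul_comm]

end absorb

end Vale.Agent.P161
end
end

section

section

/-!
# Messages as explicit functions of the two means of an edge
-/

open MeasureTheory

namespace Vale.Agent.P161

/-- For an edge `uv` with posterior means `m` (at `u`) and `m'` (at `v`), `tau θ m m'` is the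
message about `v` computed from the data on `v`'s side: the solution `t` of
`m' = alpha θ t + rho θ t * m`. -/
noncomputable def tau (θ m m' : ℝ) : ℝ :=
  2 * (m' - θ * m) / ((1 - θ ^ 2) +
    Real.sqrt ((1 - θ ^ 2) ^ 2 - 4 * (θ * (m - θ * m')) * (m' - θ * m)))

theorem rho_eq_xf (θ t : ℝ) : rho θ t = θ * xf θ t := by
  unfold rho xf
  rw [mul_div_assoc]

theorem continuous_tau {θ : ℝ} (h0 : 0 ≤ θ) (h1 : θ < 1) :
    Continuous fun p : ℝ × ℝ => tau θ p.1 p.2 := by
  unfold tau
  have hθ : 0 < 1 - θ ^ 2 := by nlinarith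
  refine Continuous.div (by fun_prop) (by fun_prop) ?_
  intro p
  have := Real.sqrt_nonneg ((1 - θ ^ 2) ^ 2 - 4 * (θ * (p.1 - θ * p.2)) * (p.2 - θ * p.1))
  linarith only [hθ, this]

theorem measurable_tau {Ω : Type*} [MeasurableSpace Ω] {f g : Ω → ℝ} (hf : Measurable f)
    (hg : Measurable g) (θ : ℝ) : Measurable fun ω => tau θ (f ω) (g ω) := by
  unfold tau
  (clear * - hg hf; fun_prop)

section basic

variable {θ m m' : ℝ}

theorem tau_disc_nonneg (h0 : 0 ≤ θ) (h1 : θ < 1) (hm : |m| ≤ 1) (hm' : |m'| ≤ 1) :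
    0 ≤ (1 - θ ^ 2) ^ 2 - 4 * (θ * (m - θ * m')) * (m' - θ * m) := by
  obtain ⟨a1, a2⟩ := abs_le.1 hm
  obtain ⟨b1, b2⟩ := abs_le.1 hm'
  -- (m - θ m')(m' - θ m) ≤ |m m'| (1-θ)^2 ≤ (1-θ)^2
  have key : (m - θ * m') * (m' - θ * m) ≤ (1 - θ) ^ 2 := by
    have h2 : m * m' ≤ 1 := by linarith only [mul_nonneg (sub_nonneg.2 a2) (sub_nonneg.2 b1), mul_nonneg (sub_nonneg.2 a1) (sub_nonneg.2 b2)]
    have h3 : -1 ≤ m * m' := by linarith only [mul_nonneg (sub_nonneg.2 a2) (sub_nonneg.2 b2), mul_nonneg (sub_nonneg.2 a1) (sub_nonneg.2 b1)]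
    have e : (m - θ * m') * (m' - θ * m) = m * m' * (1 + θ ^ 2) - θ * (m ^ 2 + m' ^ 2) := by ring
    rw [e]
    rcases le_total 0 (m * m') with h | h
    · have h4 : 2 * (m * m') ≤ m ^ 2 + m' ^ 2 := by linarith only [sq_nonneg (m - m')]
      have h5 : θ * (2 * (m * m')) ≤ θ * (m ^ 2 + m' ^ 2) := mul_le_mul_of_nonneg_left h4 h0
      linarith only [mul_nonneg (sq_nonneg (1 - θ : ℝ)) (sub_nonneg.2 h2), h5]
    · have h6 : 0 ≤ θ * (m ^ 2 + m' ^ 2) := by (clear * - h0; positivity)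
      have h7 : m * m' * (1 + θ ^ 2) ≤ 0 := mul_nonpos_of_nonpos_of_nonneg h (by positivity)
      nlinarith only [h6, h7]
  have h8 : 4 * (θ * (m - θ * m')) * (m' - θ * m) ≤ 4 * θ * (1 - θ) ^ 2 := by
    have := mul_le_mul_of_nonneg_left key (by positivity : (0 : ℝ) ≤ 4 * θ)
    linarith only [this]
  have h9 : 0 ≤ (1 - θ) ^ 4 := by positivity
  linarith

theorem tau_den_pos (h0 : 0 ≤ θ) (h1 : θ < 1) (m m' : ℝ) : 0 < (1 - θ ^ 2) +
    Real.sqrt ((1 - θ ^ 2) ^ 2 - 4 * (θ * (m - θ * m')) * (m' - θ * m)) := by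
  have hθ : 0 < 1 - θ ^ 2 := by nlinarith
  have := Real.sqrt_nonneg ((1 - θ ^ 2) ^ 2 - 4 * (θ * (m - θ * m')) * (m' - θ * m))
  linarith only [hθ, this]

theorem tau_quad (h0 : 0 ≤ θ) (h1 : θ < 1) (hm : |m| ≤ 1) (hm' : |m'| ≤ 1) :
    θ * (m - θ * m') * tau θ m m' ^ 2 - (1 - θ ^ 2) * tau θ m m' + (m' - θ * m) = 0 := by
  have hD := tau_disc_nonneg h0 h1 hm hm'
  have hp := tau_den_pos h0 h1 m m'
  have hS := Real.sq_sqrt hD
  unfold tau
  set S := Real.sqrt ((1 - θ ^ 2) ^ 2 - 4 * (θ * (m - θ * m')) * (m' - θ * m)) with hSdef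
  have hne : (1 - θ ^ 2) + S ≠ 0 := hp.ne'
  rw [div_pow]
  field_simp
  linear_combination (m' - θ * m) * hS

theorem abs_tau_le (h0 : 0 ≤ θ) (h1 : θ < 1) (hm : |m| ≤ 1) (hm' : |m'| ≤ 1) :
    |tau θ m m'| ≤ 1 := by
  have hD := tau_disc_nonneg h0 h1 hm hm'
  have hp := tau_den_pos h0 h1 m m'
  obtain ⟨a1, a2⟩ := abs_le.1 hm
  obtain ⟨b1, b2⟩ := abs_le.1 hm'
  have hθ : 0 < 1 - θ ^ 2 := by nlinarith only [h1, h0]
  unfold tau
  rw [abs_div, abs_of_pos hp, div_le_one hp, abs_mul, abs_of_pos (by norm_num : (0 : ℝ) < 2)]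
  have key : 2 * |m' - θ * m| - (1 - θ ^ 2) ≤
      Real.sqrt ((1 - θ ^ 2) ^ 2 - 4 * (θ * (m - θ * m')) * (m' - θ * m)) := by
    apply Real.le_sqrt_of_sq_le
    rcases le_total 0 (m' - θ * m) with h | h
    · rw [abs_of_nonneg h]
      have : 0 ≤ (m' - θ * m) * ((1 - θ ^ 2) * (1 - m')) :=
        mul_nonneg h (mul_nonneg hθ.le (by linarith only [b2]))
      linarith
    · rw [abs_of_nonpos h]
      have : 0 ≤ -(m' - θ * m) * ((1 - θ ^ 2) * (1 + m')) :=
        mul_nonneg (by linarith only [h]) (mul_nonneg hθ.le (by linarith only [b1]))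
      linarith
  linarith only [key]

/-- the edge equation -/
theorem tau_edge (h0 : 0 ≤ θ) (h1 : θ < 1) (hm : |m| ≤ 1) (hm' : |m'| ≤ 1) :
    m' = alpha θ (tau θ m m') + rho θ (tau θ m m') * m := by
  have hq := tau_quad h0 h1 hm hm'
  have ht := abs_tau_le h0 h1 hm hm'
  have hN := (one_sub_sq_pos h0 h1 ht).ne'
  unfold alpha rho
  rw [div_mul_eq_mul_div, ← add_div, eq_div_iff hN]
  linear_combination hq

theorem alpha_rho_sub (h0 : 0 ≤ θ) (h1 : θ < 1) {t t' : ℝ} (ht : |t| ≤ 1) (ht' : |t'| ≤ 1)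
    (m : ℝ) :
    (alpha θ t + rho θ t * m) - (alpha θ t' + rho θ t' * m) =
      (t - t') * ((1 - θ ^ 2) * (1 + θ ^ 2 * t * t' - θ * m * (t + t')) /
        ((1 - θ ^ 2 * t ^ 2) * (1 - θ ^ 2 * t' ^ 2))) := by
  have hN := (one_sub_sq_pos h0 h1 ht).ne'
  have hN' := (one_sub_sq_pos h0 h1 ht').ne'
  unfold alpha rho
  rw [div_mul_eq_mul_div, ← add_div, div_mul_eq_mul_div, ← add_div, div_sub_div _ _ hN hN',
    ← mul_div_assoc]
  congr 1
  ring

/-- quantitative injectivity of the edge equation -/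
theorem abs_sub_le_edge (h0 : 0 ≤ θ) (h1 : θ < 1) {t t' : ℝ} (ht : |t| ≤ 1) (ht' : |t'| ≤ 1)
    (hm : |m| ≤ 1) :
    (1 - θ) ^ 3 * |t - t'| ≤ |(alpha θ t + rho θ t * m) - (alpha θ t' + rho θ t' * m)| := by
  have hN := one_sub_sq_pos h0 h1 ht
  have hN' := one_sub_sq_pos h0 h1 ht'
  obtain ⟨c1, c2⟩ := abs_le.1 ht
  obtain ⟨d1, d2⟩ := abs_le.1 ht'
  have hθ : 0 < 1 - θ := by linarith only [h1]
  have hB : (1 - θ) ^ 2 ≤ 1 + θ ^ 2 * t * t' - θ * m * (t + t') := by
    have h2 : m * (t + t') ≤ |t + t'| := by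
      calc m * (t + t') ≤ |m * (t + t')| := le_abs_self _
        _ = |m| * |t + t'| := abs_mul _ _
        _ ≤ 1 * |t + t'| := mul_le_mul_of_nonneg_right hm (abs_nonneg _)
        _ = |t + t'| := one_mul _
    have h3 : θ * (m * (t + t')) ≤ θ * |t + t'| := mul_le_mul_of_nonneg_left h2 h0
    have f1 : 1 - θ ≤ 1 - θ * t := by linarith only [mul_nonneg (sub_nonneg.2 h0) (sub_nonneg.2 c2)]
    have f2 : 1 - θ ≤ 1 - θ * t' := by nlinarith only [h0, d2]
    have f3 : 1 - θ ≤ 1 + θ * t := by nlinarith only [h0, c1]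
    have f4 : 1 - θ ≤ 1 + θ * t' := by nlinarith only [h0, d1]
    rcases le_total 0 (t + t') with h | h
    · rw [abs_of_nonneg h] at h3
      have := mul_le_mul f1 f2 hθ.le (by linarith only [h1, f1])
      linarith
    · rw [abs_of_nonpos h] at h3
      have := mul_le_mul f3 f4 hθ.le (by linarith only [h1, f3])
      linarith
  have hden : (1 - θ ^ 2 * t ^ 2) * (1 - θ ^ 2 * t' ^ 2) ≤ 1 := by
    have g1 : 1 - θ ^ 2 * t ^ 2 ≤ 1 := by linarith only [mul_nonneg (sq_nonneg (θ : ℝ)) (sq_nonneg (t : ℝ))]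
    have g2 : 1 - θ ^ 2 * t' ^ 2 ≤ 1 := by nlinarith only []
    calc _ ≤ 1 * 1 := mul_le_mul g1 g2 hN'.le (by norm_num)
      _ = 1 := by norm_num
  have hdp : 0 < (1 - θ ^ 2 * t ^ 2) * (1 - θ ^ 2 * t' ^ 2) := mul_pos hN hN'
  have hQ : (1 - θ) ^ 3 ≤ (1 - θ ^ 2) * (1 + θ ^ 2 * t * t' - θ * m * (t + t')) /
        ((1 - θ ^ 2 * t ^ 2) * (1 - θ ^ 2 * t' ^ 2)) := by
    rw [le_div_iff₀ hdp]
    have k1 : (1 - θ) ^ 3 * ((1 - θ ^ 2 * t ^ 2) * (1 - θ ^ 2 * t' ^ 2)) ≤ (1 - θ) ^ 3 :=
      mul_le_of_le_one_right (by positivity) hden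
    have k2 : (1 - θ) * (1 - θ) ^ 2 ≤
        (1 - θ ^ 2) * (1 + θ ^ 2 * t * t' - θ * m * (t + t')) := by
      refine mul_le_mul (by nlinarith only [h1, h0]) hB (by positivity) (by nlinarith only [h1, h0])
    calc _ ≤ _ := k1
      _ = (1 - θ) * (1 - θ) ^ 2 := by ring
      _ ≤ _ := k2
  rw [alpha_rho_sub h0 h1 ht ht' m, abs_mul]
  rw [mul_comm]
  refine mul_le_mul_of_nonneg_left (hQ.trans (le_abs_self _)) (abs_nonneg _)

/-- uniqueness of the message -/
theorem eq_tau (h0 : 0 ≤ θ) (h1 : θ < 1) {t : ℝ} (ht : |t| ≤ 1) (hm : |m| ≤ 1) (hm' : |m'| ≤ 1)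
    (h : m' = alpha θ t + rho θ t * m) : t = tau θ m m' := by
  have h2 := tau_edge h0 h1 hm hm'
  have h3 := abs_sub_le_edge h0 h1 ht (abs_tau_le h0 h1 hm hm') hm
  rw [← h, ← h2, sub_self, abs_zero] at h3
  have hθ : 0 < (1 - θ) ^ 3 := by
    have : 0 < 1 - θ := by linarith only [h1]
    positivity
  have h4 : |t - tau θ m m'| = 0 := by
    refine le_antisymm ?_ (abs_nonneg _)
    by_contra hc
    push Not at hc
    have := mul_pos hθ hc
    linarith only [h3, this]
  rw [abs_eq_zero] at h4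
  linarith only [h4]

/-- Lipschitz dependence of the message on the two means -/
theorem abs_tau_sub_le (h0 : 0 ≤ θ) (h1 : θ < 1) {k k' : ℝ} (hm : |m| ≤ 1) (hm' : |m'| ≤ 1)
    (hk : |k| ≤ 1) (hk' : |k'| ≤ 1) :
    |tau θ m m' - tau θ k k'| ≤ 1 / (1 - θ) ^ 3 * (|m - k| + |m' - k'|) := by
  have hθ : 0 < (1 - θ) ^ 3 := by
    have : 0 < 1 - θ := by linarith
    positivity
  have ht := abs_tau_le h0 h1 hm hm'
  have ht' := abs_tau_le h0 h1 hk hk'
  have e1 := tau_edge h0 h1 hm hm'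
  have e2 := tau_edge h0 h1 hk hk'
  have h3 := abs_sub_le_edge h0 h1 ht ht' hm
  rw [← e1] at h3
  have hr := rho_mem h0 h1 ht'
  have e3 : alpha θ (tau θ k k') + rho θ (tau θ k k') * m = k' + rho θ (tau θ k k') * (m - k) := by
    linear_combination -e2
  rw [e3] at h3
  have h4 : |m' - (k' + rho θ (tau θ k k') * (m - k))| ≤ |m - k| + |m' - k'| := by
    have : m' - (k' + rho θ (tau θ k k') * (m - k)) =
      (m' - k') - rho θ (tau θ k k') * (m - k) := by ring
    rw [this]
    refine (abs_sub _ _).trans ?_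
    rw [abs_mul, abs_of_nonneg hr.1, add_comm]
    refine add_le_add ?_ le_rfl
    exact mul_le_of_le_one_left (abs_nonneg _) (hr.2.trans h1.le)
  rw [div_mul_eq_mul_div, one_mul, le_div_iff₀ hθ, mul_comm]
  exact h3.trans h4

/-- the reverse message is obtained by removing the contribution of the forward message -/
theorem tau_rev (h0 : 0 ≤ θ) (h1 : θ < 1) (hm : |m| ≤ 1) (hm' : |m'| ≤ 1) :
    tau θ m' m = (m - θ * tau θ m m') / (1 - θ * tau θ m m' * m) := by
  set t := tau θ m m' with htdef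
  have ht : |t| ≤ 1 := abs_tau_le h0 h1 hm hm'
  have e := tau_edge h0 h1 hm hm'
  rw [← htdef] at e
  obtain ⟨a1, a2⟩ := abs_le.1 hm
  obtain ⟨c1, c2⟩ := abs_le.1 ht
  have hd : 0 < 1 - θ * t * m := by
    have h2 : t * m ≤ 1 := by linarith [mul_nonneg (sub_nonneg.2 a2) (sub_nonneg.2 c1), mul_nonneg (sub_nonneg.2 a1) (sub_nonneg.2 c2)]
    nlinarith only [h1, h0, h2]
  have hN := one_sub_sq_pos h0 h1 ht
  symm
  refine eq_tau h0 h1 (t := (m - θ * t) / (1 - θ * t * m)) ?_ hm' hm ?_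
  · rw [abs_div, abs_of_pos hd, div_le_one hd, abs_le]
    have g1 : θ * t ≤ 1 := by nlinarith only [h1, h0, c2]
    have g2 : -1 ≤ θ * t := by nlinarith only [h1, h0, c1]
    constructor
    · nlinarith only [g1, a1]
    · linarith only [mul_nonneg (sub_nonneg.2 g2) (sub_nonneg.2 a2)]
  · -- m = alpha θ t'' + rho θ t'' * m'
    have hs : |(m - θ * t) / (1 - θ * t * m)| ≤ 1 := by
      rw [abs_div, abs_of_pos hd, div_le_one hd, abs_le]
      have g1 : θ * t ≤ 1 := by (by_contra nlg; linarith [mul_nonneg (sub_nonneg.2 h0) (sub_nonneg.2 c2), mul_nonneg (le_of_lt (sub_pos.2 h1)) (sub_nonneg.2 h0), mul_pos (sub_pos.2 h1) (sub_pos.2 h1), mul_nonneg (le_of_lt (sub_pos.2 (not_le.1 nlg))) (sub_nonneg.2 h0), mul_pos (sub_pos.2 (not_le.1 nlg)) (sub_pos.2 h1)])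
      have g2 : -1 ≤ θ * t := by nlinarith only [h1, h0, c1]
      constructor
      · nlinarith only [g1, a1]
      · nlinarith only [g2, a2]
    have hN2 := one_sub_sq_pos h0 h1 hs
    have hd' := hd.ne'
    have hN' := hN.ne'
    have e' : m' * (1 - θ ^ 2 * t ^ 2) = t * (1 - θ ^ 2) + θ * (1 - t ^ 2) * m := by
      rw [e]
      unfold alpha rho
      rw [div_mul_eq_mul_div, ← add_div, div_mul_cancel₀ _ hN']
    have hq : (m - θ * t) / (1 - θ * t * m) * (1 - θ * t * m) = m - θ * t :=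
      div_mul_cancel₀ _ hd'
    clear_value t
    generalize (m - θ * t) / (1 - θ * t * m) = q at hq hN2 hs ⊢
    unfold alpha rho
    rw [div_mul_eq_mul_div, ← add_div, eq_div_iff hN2.ne']
    have hm2 : m = θ * t + q * (1 - θ * t * m) := by linarith only [hq]
    -- multiply by the nonzero (1 - θ t m)^2 (1 - θ^2 t^2)
    have hne : (1 - θ * t * m) ^ 2 * (1 - θ ^ 2 * t ^ 2) ≠ 0 := mul_ne_zero (pow_ne_zero _ hd') hN'
    apply mul_left_cancel₀ hne
    have l1 : (1 - θ * t * m) ^ 2 * (1 - θ ^ 2 * t ^ 2) * (m * (1 - θ ^ 2 * q ^ 2)) =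
        (1 - θ ^ 2 * t ^ 2) * m * ((1 - θ * t * m) ^ 2 - θ ^ 2 * (q * (1 - θ * t * m)) ^ 2) := by
      ring
    have l2 : (1 - θ * t * m) ^ 2 * (1 - θ ^ 2 * t ^ 2) *
        (q * (1 - θ ^ 2) + θ * (1 - q ^ 2) * m') =
        (1 - θ ^ 2 * t ^ 2) * (1 - θ ^ 2) * (1 - θ * t * m) * (q * (1 - θ * t * m)) +
        θ * ((1 - θ * t * m) ^ 2 - (q * (1 - θ * t * m)) ^ 2) * (m' * (1 - θ ^ 2 * t ^ 2)) := by
      ring
    rw [l1, l2, hq, e']
    ring

/-- turn-around identity -/
theorem tau_symm (h0 : 0 ≤ θ) (h1 : θ < 1) (hm : |m| ≤ 1) (hm' : |m'| ≤ 1) :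
    (1 - m ^ 2) * rho θ (tau θ m m') = (1 - m' ^ 2) * rho θ (tau θ m' m) := by
  set t := tau θ m m' with htdef
  have ht : |t| ≤ 1 := abs_tau_le h0 h1 hm hm'
  have e := tau_edge h0 h1 hm hm'
  rw [← htdef] at e
  have hr := tau_rev h0 h1 hm hm'
  rw [← htdef] at hr
  obtain ⟨a1, a2⟩ := abs_le.1 hm
  obtain ⟨c1, c2⟩ := abs_le.1 ht
  have hd : 0 < 1 - θ * t * m := by
    have h2 : t * m ≤ 1 := by nlinarith only [a1, c2, a2, c1]
    nlinarith only [h1, h0, h2]
  have hN := one_sub_sq_pos h0 h1 ht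
  have hs : |tau θ m' m| ≤ 1 := abs_tau_le h0 h1 hm' hm
  have hN2 := one_sub_sq_pos h0 h1 hs
  have e' : m' * (1 - θ ^ 2 * t ^ 2) = t * (1 - θ ^ 2) + θ * (1 - t ^ 2) * m := by
    rw [e]
    unfold alpha rho
    rw [div_mul_eq_mul_div, ← add_div, div_mul_cancel₀ _ hN.ne']
  have hd' := hd.ne'
  have hN' := hN.ne'
  have hq : tau θ m' m * (1 - θ * t * m) = m - θ * t := by
    rw [hr, div_mul_cancel₀ _ hd']
  set q := tau θ m' m with hqdef
  unfold rho
  rw [← mul_div_assoc, ← mul_div_assoc, div_eq_div_iff hN' hN2.ne']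
  have hne : (1 - θ * t * m) ^ 2 * (1 - θ ^ 2 * t ^ 2) ≠ 0 := mul_ne_zero (pow_ne_zero _ hd') hN'
  apply mul_left_cancel₀ hne
  have l1 : (1 - θ * t * m) ^ 2 * (1 - θ ^ 2 * t ^ 2) *
      ((1 - m ^ 2) * (θ * (1 - t ^ 2)) * (1 - θ ^ 2 * q ^ 2)) =
      (1 - θ ^ 2 * t ^ 2) * ((1 - m ^ 2) * (θ * (1 - t ^ 2))) *
      ((1 - θ * t * m) ^ 2 - θ ^ 2 * (q * (1 - θ * t * m)) ^ 2) := by ring
  have l2 : (1 - θ * t * m) ^ 2 * (1 - θ ^ 2 * t ^ 2) *
      ((1 - m' ^ 2) * (θ * (1 - q ^ 2)) * (1 - θ ^ 2 * t ^ 2)) =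
      ((1 - θ ^ 2 * t ^ 2) ^ 2 - (m' * (1 - θ ^ 2 * t ^ 2)) ^ 2) *
      (θ * ((1 - θ * t * m) ^ 2 - (q * (1 - θ * t * m)) ^ 2)) := by ring
  rw [l1, l2, hq, e']
  ring

end basic

end Vale.Agent.P161
end
end

section

section

open MeasureTheory

namespace Vale.Agent.P161

variable {V : Type*} {G : SimpleGraph V} {μ μ' : Measure (V → ℤˣ)}

/-- the run of the algorithm with strength `e i` for the item `i` -/
noncomputable def runE (μ : Measure (V → ℤˣ)) (e : V × ℕ → ℝ) (U : V × ℕ → unitInterval) :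
    List (V × ℕ) → List (V × ℝ)
  | [] => []
  | i :: l => (i.1, obs (e i) (mean μ (runE μ e U l) i.1) (U i : ℝ)) :: runE μ e U l

/-- admissible strengths -/
def StrOK (e : V × ℕ → ℝ) : Prop := ∀ i, 0 ≤ e i ∧ e i ≤ 1 / 2

theorem StrOK.nonneg {e : V × ℕ → ℝ} (he : StrOK e) (i : V × ℕ) : 0 ≤ e i := (he i).1

theorem StrOK.le {e : V × ℕ → ℝ} (he : StrOK e) (i : V × ℕ) : e i ≤ 1 / 2 := (he i).2

theorem runE_nil (e : V × ℕ → ℝ) (U : V × ℕ → unitInterval) : runE μ e U [] = [] := rfl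

theorem runE_cons (e : V × ℕ → ℝ) (U : V × ℕ → unitInterval) (i : V × ℕ) (l : List (V × ℕ)) :
    runE μ e U (i :: l) =
      (i.1, obs (e i) (mean μ (runE μ e U l) i.1) (U i : ℝ)) :: runE μ e U l := rfl

theorem good_runE [IsProbabilityMeasure μ] {e : V × ℕ → ℝ} (he : StrOK e)
    (U : V × ℕ → unitInterval) (l : List (V × ℕ)) : Good (runE μ e U l) := by
  induction l with
  | nil => intro p hp; simp [runE_nil] at hp
  | cons i l ih =>
    rw [runE_cons]
    intro p hp
    rcases List.mem_cons.1 hp with h | h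
    · subst h
      exact (abs_obs_le (he.nonneg i) (he.le i) (abs_mean_le ih i.1) (U i).2.1 (U i).2.2).trans
        (he.le i)
    · exact ih p h

theorem abs_obs_runE_le [IsProbabilityMeasure μ] {e : V × ℕ → ℝ} (he : StrOK e)
    (U : V × ℕ → unitInterval) (l : List (V × ℕ)) (i : V × ℕ) (x : V) (u : unitInterval) :
    |obs (e i) (mean μ (runE μ e U l) x) u| ≤ 1 / 2 :=
  (abs_obs_le (he.nonneg i) (he.le i) (abs_mean_le (good_runE he U l) x) u.2.1 u.2.2).trans
    (he.le i)

theorem measurable_obs_aux2 {Ω : Type*} [MeasurableSpace Ω] {a m u : Ω → ℝ} (ha : Measurable a)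
    (hm : Measurable m) (hu : Measurable u) : Measurable fun ω => obs (a ω) (m ω) (u ω) := by
  unfold obs
  exact ha.mul (measurable_chan.comp ((ha.mul hm).prodMk hu))

/-- joint measurability in strengths and noise -/
theorem measurable_post_runE [IsProbabilityMeasure μ] {Ω : Type*} [MeasurableSpace Ω]
    {e : Ω → V × ℕ → ℝ} (hem : ∀ i, Measurable fun ω => e ω i) (he : ∀ ω, StrOK (e ω))
    {U : Ω → V × ℕ → unitInterval} (hU : Measurable U)
    (l : List (V × ℕ)) {f : (V → ℤˣ) → ℝ} (hf : LocalOn Set.univ f) :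
    Measurable fun ω => post μ (runE μ (e ω) (U ω) l) f := by
  induction l generalizing f with
  | nil => simp only [runE_nil]; exact measurable_const
  | cons i l ih =>
    have hm : Measurable fun ω => mean μ (runE μ (e ω) (U ω) l) i.1 :=
      ih (localOn_sp i.1)
    have hu : Measurable fun ω => (U ω i : ℝ) :=
      measurable_subtype_coe.comp ((measurable_pi_apply i).comp hU)
    have ho := measurable_obs_aux2 (hem i) hm hu
    have : (fun ω => post μ (runE μ (e ω) (U ω) (i :: l)) f) = fun ω =>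
        (post μ (runE μ (e ω) (U ω) l) f +
          obs (e ω i) (mean μ (runE μ (e ω) (U ω) l) i.1) (U ω i : ℝ) *
          post μ (runE μ (e ω) (U ω) l) (fun σ => sp σ i.1 * f σ)) /
          (1 + obs (e ω i) (mean μ (runE μ (e ω) (U ω) l) i.1) (U ω i : ℝ) *
            mean μ (runE μ (e ω) (U ω) l) i.1) := by
      funext ω
      rw [runE_cons]
      exact post_cons (good_runE (he ω) (U ω) l) (abs_obs_runE_le (he ω) (U ω) l i i.1 (U ω i)) hf
    rw [this]
    exact ((ih hf).add (ho.mul (ih (localOn_sp_mul i.1 hf)))).div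
      (measurable_const.add (ho.mul hm))

theorem measurable_mean_runE [IsProbabilityMeasure μ] {Ω : Type*} [MeasurableSpace Ω]
    {e : Ω → V × ℕ → ℝ} (hem : ∀ i, Measurable fun ω => e ω i) (he : ∀ ω, StrOK (e ω))
    {U : Ω → V × ℕ → unitInterval} (hU : Measurable U) (l : List (V × ℕ)) (v : V) :
    Measurable fun ω => mean μ (runE μ (e ω) (U ω) l) v :=
  measurable_post_runE hem he hU l (localOn_sp v)

theorem measurable_cov_runE [IsProbabilityMeasure μ] {Ω : Type*} [MeasurableSpace Ω]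
    {e : Ω → V × ℕ → ℝ} (hem : ∀ i, Measurable fun ω => e ω i) (he : ∀ ω, StrOK (e ω))
    {U : Ω → V × ℕ → unitInterval} (hU : Measurable U) (l : List (V × ℕ)) (x v : V) :
    Measurable fun ω => cov μ (runE μ (e ω) (U ω) l) x v := by
  unfold cov
  exact (measurable_post_runE hem he hU l (localOn_sp_mul x (localOn_sp v))).sub
    ((measurable_mean_runE hem he hU l x).mul (measurable_mean_runE hem he hU l v))

theorem measurable_post_runE' [IsProbabilityMeasure μ] {e : V × ℕ → ℝ} (he : StrOK e)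
    (l : List (V × ℕ)) {f : (V → ℤˣ) → ℝ} (hf : LocalOn Set.univ f) :
    Measurable fun U : V × ℕ → unitInterval => post μ (runE μ e U l) f :=
  measurable_post_runE (e := fun _ : V × ℕ → unitInterval => e) (fun _ => measurable_const)
    (fun _ => he) measurable_id l hf

theorem measurable_mean_runE' [IsProbabilityMeasure μ] {e : V × ℕ → ℝ} (he : StrOK e)
    (l : List (V × ℕ)) (v : V) :
    Measurable fun U : V × ℕ → unitInterval => mean μ (runE μ e U l) v :=
  measurable_post_runE' he l (localOn_sp v)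

theorem measurable_cov_runE' [IsProbabilityMeasure μ] {e : V × ℕ → ℝ} (he : StrOK e)
    (l : List (V × ℕ)) (x v : V) :
    Measurable fun U : V × ℕ → unitInterval => cov μ (runE μ e U l) x v :=
  measurable_cov_runE (e := fun _ : V × ℕ → unitInterval => e) (fun _ => measurable_const)
    (fun _ => he) measurable_id l x v

theorem runE_congr {e e' : V × ℕ → ℝ} {U U' : V × ℕ → unitInterval} {l : List (V × ℕ)}
    (hee : ∀ i ∈ l, e i = e' i) (h : ∀ i ∈ l, U i = U' i) : runE μ e U l = runE μ e' U' l := by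
  induction l with
  | nil => rfl
  | cons i l ih =>
    rw [runE_cons, runE_cons, ih (fun j hj => hee j (List.mem_cons_of_mem _ hj))
      (fun j hj => h j (List.mem_cons_of_mem _ hj)),
      h i List.mem_cons_self, hee i List.mem_cons_self]

theorem runE_congr_noise {e : V × ℕ → ℝ} {U U' : V × ℕ → unitInterval} {l : List (V × ℕ)}
    (h : ∀ i ∈ l, U i = U' i) : runE μ e U l = runE μ e U' l :=
  runE_congr (fun _ _ => rfl) h

theorem measurable_incr_runE [IsProbabilityMeasure μ] {Ω : Type*} [MeasurableSpace Ω]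
    {e : Ω → V × ℕ → ℝ} (hem : ∀ i, Measurable fun ω => e ω i) (he : ∀ ω, StrOK (e ω))
    {U : Ω → V × ℕ → unitInterval} (hU : Measurable U) (l : List (V × ℕ)) (x : V) (i : V × ℕ) :
    Measurable fun ω => incr (e ω i) (mean μ (runE μ (e ω) (U ω) l) x) (U ω i) := by
  have hm := measurable_mean_runE (μ := μ) hem he hU l x
  have hu : Measurable fun ω => (U ω i : ℝ) :=
    measurable_subtype_coe.comp ((measurable_pi_apply i).comp hU)
  have ho := measurable_obs_aux2 (hem i) hm hu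
  unfold incr
  exact ho.div (measurable_const.add (ho.mul hm))

theorem measurable_incr_runE' [IsProbabilityMeasure μ] {e : V × ℕ → ℝ} (he : StrOK e)
    (l : List (V × ℕ)) (x : V) (i : V × ℕ) :
    Measurable fun U : V × ℕ → unitInterval => incr (e i) (mean μ (runE μ e U l) x) (U i) :=
  measurable_incr_runE (e := fun _ : V × ℕ → unitInterval => e) (fun _ => measurable_const)
    (fun _ => he) measurable_id l x i

/-- the basic orthogonality: a bounded function of the past times the increment integrates to 0 -/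
theorem integral_mul_incrE_eq_zero [IsProbabilityMeasure μ] {e : V × ℕ → ℝ} (he : StrOK e)
    (l l1 : List (V × ℕ)) (hsub : ∀ j ∈ l1, j ∈ l) {i : V × ℕ} (hi : i ∉ l)
    (h : (V × ℕ → unitInterval) → ℝ) (hh : Measurable h)
    (hdep : ∀ U U' : V × ℕ → unitInterval, (∀ j ∈ l, U j = U' j) → h U = h U')
    {C : ℝ} (hC : ∀ U, |h U| ≤ C) (x : V) :
    ∫ U, h U * incr (e i) (mean μ (runE μ e U l1) x) (U i) ∂(noise V) = 0 := by
  have key := integral_step l hi
    (fun U u => h U * incr (e i) (mean μ (runE μ e U l1) x) u)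
    (hh.mul (measurable_incr_runE' he l1 x i))
    (fun U U' hUU => by
      funext u
      rw [hdep U U' hUU, runE_congr_noise (fun j hj => hUU j (hsub j hj))])
    (C := |C| * (2 * e i))
    (fun U u => by
      rw [abs_mul]
      exact mul_le_mul ((hC U).trans (le_abs_self C))
        (abs_incr_le (he.nonneg i) (he.le i) (abs_mean_le (good_runE he U l1) x) u.2.1 u.2.2)
        (abs_nonneg _) (abs_nonneg _))
  rw [key]
  have : ∀ U : V × ℕ → unitInterval,
      ∫ u : unitInterval, h U * incr (e i) (mean μ (runE μ e U l1) x) u = 0 := by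
    intro U
    rw [integral_const_mul, integral_incr (he.nonneg i) (he.le i)
      (abs_mean_le (good_runE he U l1) x), mul_zero]
  simp only [this, integral_zero]

theorem post_consE_incr [IsProbabilityMeasure μ] {e : V × ℕ → ℝ} (he : StrOK e)
    (U : V × ℕ → unitInterval) (i : V × ℕ) (l : List (V × ℕ)) {f : (V → ℤˣ) → ℝ}
    (hf : LocalOn Set.univ f) :
    post μ (runE μ e U (i :: l)) f = post μ (runE μ e U l) f +
      (post μ (runE μ e U l) (fun σ => sp σ i.1 * f σ)
        - mean μ (runE μ e U l) i.1 * post μ (runE μ e U l) f) *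
        incr (e i) (mean μ (runE μ e U l) i.1) (U i) := by
  have hd := obs_den (he.nonneg i) (he.le i) (abs_mean_le (μ := μ) (good_runE (μ := μ) he U l) i.1)
    (U i).2.1 (U i).2.2
  rw [runE_cons, post_cons (good_runE he U l) (abs_obs_runE_le he U l i i.1 (U i)) hf]
  unfold incr
  have : 1 + obs (e i) (mean μ (runE μ e U l) i.1) (U i : ℝ) * mean μ (runE μ e U l) i.1 ≠ 0 := by
    linarith only [hd]
  field_simp
  ring

theorem mean_consE_incr [IsProbabilityMeasure μ] {e : V × ℕ → ℝ} (he : StrOK e)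
    (U : V × ℕ → unitInterval) (i : V × ℕ) (l : List (V × ℕ)) (v : V) :
    mean μ (runE μ e U (i :: l)) v = mean μ (runE μ e U l) v +
      cov μ (runE μ e U l) i.1 v * incr (e i) (mean μ (runE μ e U l) i.1) (U i) := by
  rw [runE_cons, mean_cons (good_runE he U l) i.1 v (abs_obs_runE_le he U l i i.1 (U i))]
  rfl

/-- martingale step against a bounded function of the past -/
theorem integral_post_consE_mul [IsProbabilityMeasure μ] {e : V × ℕ → ℝ} (he : StrOK e)
    (l l1 : List (V × ℕ)) (hsub : ∀ j ∈ l1, j ∈ l) {i : V × ℕ} (hi : i ∉ l)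
    (h : (V × ℕ → unitInterval) → ℝ) (hh : Measurable h)
    (hdep : ∀ U U' : V × ℕ → unitInterval, (∀ j ∈ l, U j = U' j) → h U = h U')
    {C : ℝ} (hC : ∀ U, |h U| ≤ C) {f : (V → ℤˣ) → ℝ} (hf : LocalOn Set.univ f) :
    ∫ U, post μ (runE μ e U (i :: l1)) f * h U ∂(noise V) =
      ∫ U, post μ (runE μ e U l1) f * h U ∂(noise V) := by
  obtain ⟨B, hB⟩ := hf.exists_bound
  obtain ⟨B', hB'⟩ := (localOn_sp_mul i.1 hf).exists_bound
  have m1 := measurable_post_runE' (μ := μ) he l1 hf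
  have m2 := measurable_post_runE' (μ := μ) he l1 (localOn_sp_mul i.1 hf)
  have m3 := measurable_mean_runE' (μ := μ) he l1 i.1
  have b1 : ∀ U, |post μ (runE μ e U l1) f| ≤ B := fun U =>
    abs_post_le (good_runE he U l1) hf hB
  have b2 : ∀ U, |post μ (runE μ e U l1) (fun σ => sp σ i.1 * f σ)| ≤ B' := fun U =>
    abs_post_le (good_runE he U l1) (localOn_sp_mul i.1 hf) hB'
  have b3 : ∀ U, |mean μ (runE μ e U l1) i.1| ≤ 1 := fun U =>
    abs_mean_le (good_runE he U l1) i.1
  have hB0 : 0 ≤ B := (abs_nonneg _).trans (b1 (fun _ => 0))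
  have hC0 : 0 ≤ C := (abs_nonneg _).trans (hC (fun _ => 0))
  have hz := integral_mul_incrE_eq_zero (μ := μ) he l l1 hsub hi
    (fun U => (post μ (runE μ e U l1) (fun σ => sp σ i.1 * f σ)
        - mean μ (runE μ e U l1) i.1 * post μ (runE μ e U l1) f) * h U)
    ((m2.sub (m3.mul m1)).mul hh)
    (fun U U' hUU => by
      rw [hdep U U' hUU, runE_congr_noise (fun j hj => hUU j (hsub j hj))])
    (C := (B' + 1 * B) * C)
    (fun U => by
      rw [abs_mul]
      refine mul_le_mul ?_ (hC U) (abs_nonneg _) ?_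
      · refine (abs_sub _ _).trans ?_
        rw [abs_mul]
        exact add_le_add (b2 U) (mul_le_mul (b3 U) (b1 U) (abs_nonneg _) (by norm_num))
      · have := (abs_nonneg _).trans (b2 U)
        (clear * - this hB0; positivity)) i.1
  have e1 : ∀ U : V × ℕ → unitInterval, post μ (runE μ e U (i :: l1)) f * h U =
      post μ (runE μ e U l1) f * h U + (post μ (runE μ e U l1) (fun σ => sp σ i.1 * f σ)
        - mean μ (runE μ e U l1) i.1 * post μ (runE μ e U l1) f) * h U *
        incr (e i) (mean μ (runE μ e U l1) i.1) (U i) := by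
    intro U
    rw [post_consE_incr he U i l1 hf]
    ring
  simp only [e1]
  rw [integral_add, hz, add_zero]
  · refine integrable_of_bdd (m1.mul hh) (C := B * C) (fun U => ?_)
    rw [abs_mul]
    exact mul_le_mul (b1 U) (hC U) (abs_nonneg _) hB0
  · refine integrable_of_bdd (((m2.sub (m3.mul m1)).mul hh).mul
      (measurable_incr_runE' he l1 i.1 i)) (C := ((B' + 1 * B) * C) * (2 * e i)) (fun U => ?_)
    rw [abs_mul, abs_mul]
    have hB'0 := (abs_nonneg _).trans (b2 U)
    have he0 := he.nonneg i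
    refine mul_le_mul (mul_le_mul ?_ (hC U) (abs_nonneg _) (by (clear * - hB'0 hB0; positivity)))
      (abs_incr_le (he.nonneg i) (he.le i) (b3 U) (U i).2.1 (U i).2.2) (abs_nonneg _)
      (by (clear * - hB'0 hB0 hC0; positivity))
    refine (abs_sub _ _).trans ?_
    rw [abs_mul]
    exact add_le_add (b2 U) (mul_le_mul (b3 U) (b1 U) (abs_nonneg _) (by norm_num))

theorem integral_post_appendE_mul [IsProbabilityMeasure μ] {e : V × ℕ → ℝ} (he : StrOK e)
    (l l' : List (V × ℕ)) (hl : (l ++ l').Nodup)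
    (h : (V × ℕ → unitInterval) → ℝ) (hh : Measurable h)
    (hdep : ∀ U U' : V × ℕ → unitInterval, (∀ j ∈ l', U j = U' j) → h U = h U')
    {C : ℝ} (hC : ∀ U, |h U| ≤ C) {f : (V → ℤˣ) → ℝ} (hf : LocalOn Set.univ f) :
    ∫ U, post μ (runE μ e U (l ++ l')) f * h U ∂(noise V) =
      ∫ U, post μ (runE μ e U l') f * h U ∂(noise V) := by
  induction l with
  | nil => rfl
  | cons i l ih =>
    rw [List.cons_append, List.nodup_cons] at hl
    rw [List.cons_append, integral_post_consE_mul he (l ++ l') (l ++ l') (fun j hj => hj) hl.1 h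
      hh (fun U U' hUU => hdep U U' (fun j hj => hUU j (List.mem_append_right _ hj))) hC hf]
    exact ih hl.2

/-- martingale property: exact law -/
theorem integral_post_runE [IsProbabilityMeasure μ] {e : V × ℕ → ℝ} (he : StrOK e)
    (l : List (V × ℕ)) (hl : l.Nodup) {f : (V → ℤˣ) → ℝ} (hf : LocalOn Set.univ f) :
    ∫ U, post μ (runE μ e U l) f ∂(noise V) = ∫ σ, f σ ∂μ := by
  have := integral_post_appendE_mul (μ := μ) he l [] (by simpa using hl) (fun _ => 1)
    measurable_const (fun _ _ _ => rfl) (C := 1) (by simp only [abs_one, Std.le_refl, implies_true]) hf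
  simp only [List.append_nil, mul_one, runE_nil] at this
  rw [this]
  simp [post, lik]

end Vale.Agent.P161
end
end

section

section

/-!
# Lipschitz dependence of messages and transfer factors on `θ`
-/

namespace Vale.Agent.P161

theorem sq_le_one_tt {t : ℝ} (ht : |t| ≤ 1) : t ^ 2 ≤ 1 := by
  rw [← sq_abs]
  exact pow_le_one₀ (abs_nonneg _) ht

theorem den_prod_ge {θ θ' B t : ℝ} (h0 : 0 ≤ θ) (h0' : 0 ≤ θ') (hB : θ ≤ B) (hB' : θ' ≤ B)
    (hB1 : B < 1) (ht : |t| ≤ 1) :
    (1 - t ^ 2) * (1 - B) ≤ (1 - θ ^ 2 * t ^ 2) * (1 - θ' ^ 2 * t ^ 2) := by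
  have ht2 := sq_le_one_tt ht
  have ht0 := sq_nonneg t
  have hθ2 : θ ^ 2 ≤ 1 := by nlinarith only [hB, hB1, h0]
  have hθ'2 : θ' ^ 2 ≤ B := by nlinarith only [hB', h0', hB1]
  have e1 : 1 - t ^ 2 ≤ 1 - θ ^ 2 * t ^ 2 := by linarith only [mul_nonneg (sq_nonneg (t : ℝ)) (sub_nonneg.2 hθ2)]
  have e2 : 1 - B ≤ 1 - θ' ^ 2 * t ^ 2 := by nlinarith only [hθ'2, ht2]
  exact mul_le_mul e1 e2 (by linarith only [hB1]) (by linarith)

theorem abs_alpha_sub_theta_le {θ θ' B t : ℝ} (h0 : 0 ≤ θ) (h0' : 0 ≤ θ') (hB : θ ≤ B)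
    (hB' : θ' ≤ B) (hB1 : B < 1) (ht : |t| ≤ 1) :
    |alpha θ t - alpha θ' t| ≤ 2 / (1 - B) * |θ - θ'| := by
  have hN := one_sub_sq_pos h0 (hB.trans_lt hB1) ht
  have hN' := one_sub_sq_pos h0' (hB'.trans_lt hB1) ht
  have hp : 0 < 1 - B := by (clear * - hB1; linarith)
  have ht2 := sq_le_one_tt ht
  have e : alpha θ t - alpha θ' t = t * ((θ' ^ 2 - θ ^ 2) * (1 - t ^ 2)) /
      ((1 - θ ^ 2 * t ^ 2) * (1 - θ' ^ 2 * t ^ 2)) := by
    unfold alpha
    rw [div_sub_div _ _ hN.ne' hN'.ne']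
    congr 1
    ring
  have hD := mul_pos hN hN'
  have hden := den_prod_ge h0 h0' hB hB' hB1 ht
  rw [e, abs_div, abs_of_pos hD, div_le_iff₀ hD, abs_mul, abs_mul,
    abs_of_nonneg (by linarith only [ht2] : 0 ≤ 1 - t ^ 2)]
  have h3 : |θ' ^ 2 - θ ^ 2| ≤ 2 * |θ - θ'| := by
    have : θ' ^ 2 - θ ^ 2 = -(θ - θ') * (θ + θ') := by ring
    rw [this, abs_mul, abs_neg, mul_comm, abs_of_nonneg (by linarith only [h0, h0'] : 0 ≤ θ + θ')]
    exact mul_le_mul_of_nonneg_right (by linarith only [hB, hB', hB1]) (abs_nonneg _)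
  calc |t| * (|θ' ^ 2 - θ ^ 2| * (1 - t ^ 2))
      ≤ 1 * ((2 * |θ - θ'|) * (1 - t ^ 2)) := by
        refine mul_le_mul ht ?_ (mul_nonneg (abs_nonneg _) (by linarith only [ht2])) (by norm_num)
        exact mul_le_mul_of_nonneg_right h3 (by linarith only [ht2])
    _ = 2 / (1 - B) * |θ - θ'| * ((1 - t ^ 2) * (1 - B)) := by
        (clear * - hp; field_simp)
    _ ≤ _ := mul_le_mul_of_nonneg_left hden (by (clear * - hB1; positivity))

theorem abs_rho_sub_theta_le {θ θ' B t : ℝ} (h0 : 0 ≤ θ) (h0' : 0 ≤ θ') (hB : θ ≤ B)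
    (hB' : θ' ≤ B) (hB1 : B < 1) (ht : |t| ≤ 1) :
    |rho θ t - rho θ' t| ≤ 2 / (1 - B) * |θ - θ'| := by
  have hN := one_sub_sq_pos h0 (hB.trans_lt hB1) ht
  have hN' := one_sub_sq_pos h0' (hB'.trans_lt hB1) ht
  have hp : 0 < 1 - B := by linarith only [hB1]
  have ht2 := sq_le_one_tt ht
  have e : rho θ t - rho θ' t = (1 - t ^ 2) * ((θ - θ') * (1 + θ * θ' * t ^ 2)) /
      ((1 - θ ^ 2 * t ^ 2) * (1 - θ' ^ 2 * t ^ 2)) := by
    unfold rho
    rw [div_sub_div _ _ hN.ne' hN'.ne']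
    congr 1
    ring
  have hD := mul_pos hN hN'
  have hden := den_prod_ge h0 h0' hB hB' hB1 ht
  have hw0 : 0 ≤ θ * θ' := mul_nonneg h0 h0'
  have hw1 : θ * θ' ≤ 1 := by nlinarith only [hB, hB1, h0, hB']
  have hw : 0 ≤ 1 + θ * θ' * t ^ 2 := by
    have := mul_nonneg hw0 (sq_nonneg t)
    linarith only [this]
  have hw2 : 1 + θ * θ' * t ^ 2 ≤ 2 := by
    have := mul_le_mul hw1 ht2 (sq_nonneg t) (by norm_num)
    linarith only [this]
  rw [e, abs_div, abs_of_pos hD, div_le_iff₀ hD, abs_mul, abs_mul,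
    abs_of_nonneg (by linarith only [ht2] : 0 ≤ 1 - t ^ 2), abs_of_nonneg hw]
  calc (1 - t ^ 2) * (|θ - θ'| * (1 + θ * θ' * t ^ 2))
      ≤ (1 - t ^ 2) * (|θ - θ'| * 2) := by
        refine mul_le_mul_of_nonneg_left ?_ (by linarith only [ht2])
        exact mul_le_mul_of_nonneg_left hw2 (abs_nonneg _)
    _ = 2 / (1 - B) * |θ - θ'| * ((1 - t ^ 2) * (1 - B)) := by
        (clear * - hp; field_simp)
    _ ≤ _ := mul_le_mul_of_nonneg_left hden (by (clear * - hB1; positivity))

/-- Lipschitz dependence of the message on `θ` -/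
theorem abs_tau_sub_theta_le {θ θ' B m m' : ℝ} (h0 : 0 ≤ θ) (h0' : 0 ≤ θ') (hB : θ ≤ B)
    (hB' : θ' ≤ B) (hB1 : B < 1) (hm : |m| ≤ 1) (hm' : |m'| ≤ 1) :
    |tau θ m m' - tau θ' m m'| ≤ 4 / (1 - B) ^ 4 * |θ - θ'| := by
  have h1 : θ < 1 := hB.trans_lt hB1
  have h1' : θ' < 1 := hB'.trans_lt hB1
  have hp : 0 < 1 - B := by linarith only [hB1]
  have ht := abs_tau_le h0 h1 hm hm'
  have ht' := abs_tau_le h0' h1' hm hm'
  have e1 := tau_edge h0 h1 hm hm'
  have e2 := tau_edge h0' h1' hm hm'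
  have h3 := abs_sub_le_edge h0 h1 ht ht' hm
  rw [← e1] at h3
  have hα := abs_alpha_sub_theta_le h0 h0' hB hB' hB1 ht'
  have hρ := abs_rho_sub_theta_le h0 h0' hB hB' hB1 ht'
  have h4 : |m' - (alpha θ (tau θ' m m') + rho θ (tau θ' m m') * m)| ≤
      4 / (1 - B) * |θ - θ'| := by
    have e3 : m' - (alpha θ (tau θ' m m') + rho θ (tau θ' m m') * m) =
        -(alpha θ (tau θ' m m') - alpha θ' (tau θ' m m')) -
        (rho θ (tau θ' m m') - rho θ' (tau θ' m m')) * m := by
      linear_combination e2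
    rw [e3]
    refine (abs_sub _ _).trans ?_
    rw [abs_neg, abs_mul]
    have h5 : |rho θ (tau θ' m m') - rho θ' (tau θ' m m')| * |m| ≤ 2 / (1 - B) * |θ - θ'| :=
      (mul_le_of_le_one_right (abs_nonneg _) hm).trans hρ
    calc _ ≤ 2 / (1 - B) * |θ - θ'| + 2 / (1 - B) * |θ - θ'| := add_le_add hα h5
      _ = 4 / (1 - B) * |θ - θ'| := by ring
  have h6 : (1 - B) ^ 3 * |tau θ m m' - tau θ' m m'| ≤ 4 / (1 - B) * |θ - θ'| := by
    refine le_trans ?_ (h3.trans h4)
    refine mul_le_mul_of_nonneg_right ?_ (abs_nonneg _)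
    exact pow_le_pow_left₀ hp.le (by linarith only [hB]) 3
  have h7 : 4 / (1 - B) ^ 4 * |θ - θ'| = (4 / (1 - B) * |θ - θ'|) / (1 - B) ^ 3 := by
    field_simp
  rw [h7, le_div_iff₀ (by positivity), mul_comm]
  exact h6

/-- joint Lipschitz bound -/
theorem abs_tau_sub_le' {θ θ' B m m' k k' : ℝ} (h0 : 0 ≤ θ) (h0' : 0 ≤ θ') (hB : θ ≤ B)
    (hB' : θ' ≤ B) (hB1 : B < 1) (hm : |m| ≤ 1) (hm' : |m'| ≤ 1) (hk : |k| ≤ 1)
    (hk' : |k'| ≤ 1) :
    |tau θ m m' - tau θ' k k'| ≤
      4 / (1 - B) ^ 4 * (|m - k| + |m' - k'| + |θ - θ'|) := by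
  have h1 : θ < 1 := hB.trans_lt hB1
  have hp : 0 < 1 - B := by linarith only [hB1]
  have a1 := abs_tau_sub_le h0 h1 hm hm' hk hk'
  have a2 := abs_tau_sub_theta_le (m := k) (m' := k') h0 h0' hB hB' hB1 hk hk'
  have a3 : 1 / (1 - θ) ^ 3 ≤ 4 / (1 - B) ^ 4 := by
    have b1 : 1 / (1 - θ) ^ 3 ≤ 1 / (1 - B) ^ 3 :=
      one_div_le_one_div_of_le (by positivity) (pow_le_pow_left₀ hp.le (by linarith only [hB]) 3)
    have b2 : 1 / (1 - B) ^ 3 ≤ 4 / (1 - B) ^ 4 := by
      rw [div_le_div_iff₀ (by (clear * - hB1; positivity)) (by positivity)]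
      have : (1 - B) ^ 4 = (1 - B) ^ 3 * (1 - B) := by ring
      have b3 : 0 < (1 - B) ^ 3 := by positivity
      linarith only [mul_nonneg (le_of_lt (sub_pos.2 b3)) (sub_nonneg.2 hB), mul_nonneg (le_of_lt (sub_pos.2 b3)) (sub_nonneg.2 h0), b3]
    exact b1.trans b2
  calc |tau θ m m' - tau θ' k k'|
      = |(tau θ m m' - tau θ k k') + (tau θ k k' - tau θ' k k')| := by congr 1; ring
    _ ≤ |tau θ m m' - tau θ k k'| + |tau θ k k' - tau θ' k k'| := abs_add_le _ _
    _ ≤ 4 / (1 - B) ^ 4 * (|m - k| + |m' - k'|) + 4 / (1 - B) ^ 4 * |θ - θ'| := by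
        refine add_le_add (a1.trans ?_) a2
        exact mul_le_mul_of_nonneg_right a3 (by (clear * -; positivity))
    _ = _ := by ring

end Vale.Agent.P161
end
end

section

section

open MeasureTheory

namespace Vale.Agent.P161

/-- one uniform label gives a sequence of i.i.d. uniform labels -/
theorem exists_decode :
    ∃ Ξ : unitInterval → (ℕ → unitInterval), Measurable Ξ ∧
      Measure.map Ξ (volume : Measure unitInterval) =
        Measure.infinitePi fun _ : ℕ => (volume : Measure unitInterval) :=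
  Measure.exists_measurable_map_eq _

end Vale.Agent.P161
end
end

section

section

open MeasureTheory Filter Topology

namespace Vale.Agent.P161

/-- nonnegative functions with geometrically decaying integrals tend to zero almost surely -/
theorem ae_tendsto_zero_of_integral_le {Ω : Type*} [MeasurableSpace Ω] {P : Measure Ω}
    {f : ℕ → Ω → ℝ} (hm : ∀ k, Measurable (f k)) (h0 : ∀ k ω, 0 ≤ f k ω)
    (hi : ∀ k, Integrable (f k) P) {K : ℝ} (hK : ∀ k, ∫ ω, f k ω ∂P ≤ K * (1 / 4) ^ k) :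
    ∀ᵐ ω ∂P, Tendsto (fun k => f k ω) atTop (𝓝 0) := by
  have hs : ∑' k, ENNReal.ofReal (K * (1 / 4) ^ k) ≠ ⊤ := by
    have : Summable fun k : ℕ => K * (1 / 4 : ℝ) ^ k :=
      (summable_geometric_of_lt_one (by (clear * -; norm_num)) (by (clear * -; norm_num))).mul_left K
    exact this.tsum_ofReal_ne_top
  have h1 : ∫⁻ ω, ∑' k, ENNReal.ofReal (f k ω) ∂P ≠ ⊤ := by
    rw [lintegral_tsum fun k => (hm k).ennreal_ofReal.aemeasurable]
    refine ne_top_of_le_ne_top hs (ENNReal.tsum_le_tsum fun k => ?_)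
    rw [← ofReal_integral_eq_lintegral_ofReal (hi k) (Eventually.of_forall (h0 k))]
    exact ENNReal.ofReal_le_ofReal (hK k)
  have hm' : Measurable fun ω => ∑' k, ENNReal.ofReal (f k ω) :=
    Measurable.tsum fun k => (hm k).ennreal_ofReal
  filter_upwards [ae_lt_top hm' h1] with ω hω
  have h2 := ENNReal.tendsto_atTop_zero_of_tsum_ne_top hω.ne
  have h3 := (ENNReal.tendsto_toReal (a := 0) (by simp)).comp h2
  simp only [ENNReal.toReal_zero] at h3
  refine h3.congr fun k => ?_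
  simp [ENNReal.toReal_ofReal (h0 k ω)]

/-- a sequence whose squares tend to one and with vanishing increments converges to a sign -/
theorem tendsto_sign {a : ℕ → ℝ} (h1 : Tendsto (fun k => (a (k + 1) - a k) ^ 2) atTop (𝓝 0))
    (h2 : Tendsto (fun k => 1 - a k ^ 2) atTop (𝓝 0)) :
    ((∃ k0, ∀ k ≥ k0, 0 < a k) ∧ Tendsto a atTop (𝓝 1)) ∨
      ((¬ ∃ k0, ∀ k ≥ k0, 0 < a k) ∧ Tendsto a atTop (𝓝 (-1))) := by
  have e1 : ∀ᶠ k in atTop, (a (k + 1) - a k) ^ 2 < 1 / 4 :=
    h1.eventually (gt_mem_nhds (by (clear * -; norm_num)))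
  have e2 : ∀ᶠ k in atTop, 1 - a k ^ 2 < 3 / 4 := h2.eventually (gt_mem_nhds (by norm_num))
  obtain ⟨N, hN⟩ := eventually_atTop.1 (e1.and e2)
  have hd : ∀ k ≥ N, |a (k + 1) - a k| < 1 / 2 := by
    intro k hk
    have := (hN k hk).1
    rw [show (1 / 4 : ℝ) = (1 / 2) ^ 2 by norm_num] at this
    exact abs_lt_of_sq_lt_sq this (by norm_num)
  have hh : ∀ k ≥ N, 1 / 2 < a k ∨ a k < -(1 / 2) := by
    intro k hk
    by_contra hcon
    rw [not_or, not_lt, not_lt] at hcon
    have := (hN k hk).2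
    nlinarith only [this, hcon]
  have hpos : ∀ k ≥ N, 1 / 2 < a k → 1 / 2 < a (k + 1) := by
    intro k hk h
    rcases hh (k + 1) (by omega) with h' | h'
    · exact h'
    · have := abs_lt.1 (hd k hk)
      linarith only [h, h', this]
  have hneg : ∀ k ≥ N, a k < -(1 / 2) → a (k + 1) < -(1 / 2) := by
    intro k hk h
    rcases hh (k + 1) (by omega) with h' | h'
    · have := abs_lt.1 (hd k hk)
      linarith only [h, h', this]
    · exact h'
  rcases hh N le_rfl with h | h
  · have hall : ∀ k ≥ N, 1 / 2 < a k := by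
      intro k hk
      induction k, hk using Nat.le_induction with
      | base => exact h
      | succ k hk ih => exact hpos k hk ih
    refine Or.inl ⟨⟨N, fun k hk => by linarith only [hall k hk]⟩, ?_⟩
    rw [tendsto_iff_dist_tendsto_zero]
    have h2' : Tendsto (fun k => |1 - a k ^ 2|) atTop (𝓝 0) := by
      simpa only [abs_zero] using h2.abs
    refine squeeze_zero' (Eventually.of_forall fun k => dist_nonneg) ?_ h2'
    filter_upwards [eventually_ge_atTop N] with k hk
    rw [Real.dist_eq]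
    have h3 : 1 - a k ^ 2 = -(a k - 1) * (a k + 1) := by ring
    rw [h3, abs_mul, abs_neg]
    have h4 : 1 ≤ |a k + 1| := by
      rw [abs_of_pos] <;> linarith only [hall k hk]
    nlinarith only [h4, abs_nonneg (a k - 1)]
  · have hall : ∀ k ≥ N, a k < -(1 / 2) := by
      intro k hk
      induction k, hk using Nat.le_induction with
      | base => exact h
      | succ k hk ih => exact hneg k hk ih
    refine Or.inr ⟨?_, ?_⟩
    · rintro ⟨k0, hk0⟩
      have h3 := hk0 (max k0 N) (le_max_left _ _)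
      have h4 := hall (max k0 N) (le_max_right _ _)
      linarith
    rw [tendsto_iff_dist_tendsto_zero]
    have h2' : Tendsto (fun k => |1 - a k ^ 2|) atTop (𝓝 0) := by
      simpa only [abs_zero] using h2.abs
    refine squeeze_zero' (Eventually.of_forall fun k => dist_nonneg) ?_ h2'
    filter_upwards [eventually_ge_atTop N] with k hk
    rw [Real.dist_eq]
    have h3 : 1 - a k ^ 2 = (1 - a k) * (a k - (-1)) := by ring
    rw [h3, abs_mul]
    have h4 : 1 ≤ |1 - a k| := by
      rw [abs_of_pos] <;> linarith only [hall k hk]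
    linarith only [mul_nonneg (sub_nonneg.2 h4) (sub_nonneg.2 (abs_nonneg (a k - (-1))))]

theorem exists_radius (C : ℝ) {lam : ℝ} (hlam : 1 < lam) {δ : ℝ} (hδ : 0 < δ) :
    ∃ R : ℕ, C / lam ^ R ≤ δ := by
  obtain ⟨R, hR⟩ := pow_unbounded_of_one_lt (C / δ) hlam
  refine ⟨R, ?_⟩
  have hp : 0 < lam ^ R := pow_pos (by linarith only [hlam]) R
  rw [div_le_iff₀ hp]
  rw [div_lt_iff₀ hδ] at hR
  linarith only [hR]

theorem abs_prod_sub_prod_le {V : Type*} (S : Finset V) (x y : V → ℝ) (hx : ∀ v, |x v| ≤ 1)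
    (hy : ∀ v, |y v| ≤ 1) : |∏ v ∈ S, x v - ∏ v ∈ S, y v| ≤ ∑ v ∈ S, |x v - y v| := by
  classical
  induction S using Finset.induction_on with
  | empty => simp only [Finset.prod_empty, sub_self, abs_zero, Finset.sum_empty, Std.le_refl]
  | insert a S ha ih =>
    rw [Finset.prod_insert ha, Finset.prod_insert ha, Finset.sum_insert ha]
    have h1 : x a * ∏ v ∈ S, x v - y a * ∏ v ∈ S, y v =
        (x a - y a) * ∏ v ∈ S, x v + y a * (∏ v ∈ S, x v - ∏ v ∈ S, y v) := by ring
    have h2 : |∏ v ∈ S, x v| ≤ 1 := by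
      rw [Finset.abs_prod]
      exact Finset.prod_le_one (fun v _ => abs_nonneg _) (fun v _ => hx v)
    rw [h1]
    refine (abs_add_le _ _).trans (add_le_add ?_ ?_)
    · rw [abs_mul]
      linarith only [mul_nonneg (sub_nonneg.2 h2) (sub_nonneg.2 (abs_nonneg (x a - y a)))]
    · rw [abs_mul]
      linarith only [mul_nonneg (sub_nonneg.2 (abs_nonneg (∏ v ∈ S, x v - ∏ v ∈ S, y v))) (sub_nonneg.2 (hy a)), ih]

theorem integral_comb {Ω : Type*} [MeasurableSpace Ω] {P : Measure Ω} {f g h : Ω → ℝ}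
    (hf : Integrable f P) (hg : Integrable g P) (hh : Integrable h P) :
    ∫ ω, (3 * f ω + 3 * g ω + 3 * h ω) ∂P = 3 * ∫ ω, f ω ∂P + 3 * ∫ ω, g ω ∂P + 3 * ∫ ω, h ω ∂P := by
  have h1 : ∫ ω, (3 * f ω + 3 * g ω + 3 * h ω) ∂P =
      ∫ ω, (3 * f ω + 3 * g ω) ∂P + ∫ ω, 3 * h ω ∂P :=
    integral_add ((hf.const_mul 3).add (hg.const_mul 3)) (hh.const_mul 3)
  have h2 : ∫ ω, (3 * f ω + 3 * g ω) ∂P = ∫ ω, 3 * f ω ∂P + ∫ ω, 3 * g ω ∂P :=
    integral_add (hf.const_mul 3) (hg.const_mul 3)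
  rw [h1, h2, integral_const_mul, integral_const_mul, integral_const_mul]

theorem integral_comb2 {Ω : Type*} [MeasurableSpace Ω] {P : Measure Ω} [IsProbabilityMeasure P]
    {f g : Ω → ℝ} (hf : Integrable f P) (hg : Integrable g P) (c : ℝ) :
    ∫ ω, ((c + f ω / c) / 2 + g ω) ∂P = (c + (∫ ω, f ω ∂P) / c) / 2 + ∫ ω, g ω ∂P := by
  have i1 : Integrable (fun ω => f ω / c) P := hf.div_const c
  have i2 : Integrable (fun ω => c + f ω / c) P := (integrable_const c).add i1
  have h1 : ∫ ω, ((c + f ω / c) / 2 + g ω) ∂P = ∫ ω, (c + f ω / c) / 2 ∂P + ∫ ω, g ω ∂P :=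
    integral_add (i2.div_const 2) hg
  have h2 : ∫ ω, (c + f ω / c) ∂P = ∫ _ω, c ∂P + ∫ ω, f ω / c ∂P :=
    integral_add (integrable_const c) i1
  rw [h1, integral_div, h2, integral_div]
  simp only [integral_const, probReal_univ, smul_eq_mul, one_mul]

theorem abs_le_quad {x δ : ℝ} (hδ : 0 < δ) : |x| ≤ (δ + x ^ 2 / δ) / 2 := by
  have h1 : x ^ 2 / δ * δ = x ^ 2 := div_mul_cancel₀ _ hδ.ne'
  have h2 : 0 ≤ (|x| - δ) ^ 2 / δ := by positivity
  have h3 : (|x| - δ) ^ 2 / δ = x ^ 2 / δ - 2 * |x| + δ := by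
    have h4 : (|x| - δ) ^ 2 = x ^ 2 - 2 * |x| * δ + δ ^ 2 := by
      rw [sub_sq, sq_abs]
    rw [h4]
    field_simp
  linarith

end Vale.Agent.P161
end
end

section

section

open MeasureTheory

namespace Vale.Agent.P161

variable {V : Type*} {G : SimpleGraph V} {μ : Measure (V → ℤˣ)}

/-- squared L2 distance of the posterior means of two runs -/
noncomputable def phi (μ : Measure (V → ℤˣ)) (ε : ℝ) (l1 l2 : List (V × ℕ)) (v : V) : ℝ :=
  ∫ U, (mean μ (run μ ε U l1) v - mean μ (run μ ε U l2) v) ^ 2 ∂(noise V)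

/-- squared L2 distance of the posterior covariances of two runs -/
noncomputable def eC (μ : Measure (V → ℤˣ)) (ε : ℝ) (l1 l2 : List (V × ℕ)) (x v : V) : ℝ :=
  ∫ U, (cov μ (run μ ε U l1) x v - cov μ (run μ ε U l2) x v) ^ 2 ∂(noise V)

theorem phi_comm (ε : ℝ) (l1 l2 : List (V × ℕ)) (v : V) : phi μ ε l1 l2 v = phi μ ε l2 l1 v := by
  unfold phi
  congr 1
  funext U
  ring

theorem phi_nonneg (ε : ℝ) (l1 l2 : List (V × ℕ)) (v : V) : 0 ≤ phi μ ε l1 l2 v :=
  integral_nonneg fun _ => sq_nonneg _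

theorem abs_cov_le_two [IsProbabilityMeasure μ] {H : List (V × ℝ)} (hH : Good H) (x v : V) :
    |cov μ H x v| ≤ 2 := by
  unfold cov
  have h1 : |post μ H (fun σ => sp σ x * sp σ v)| ≤ 1 := by
    apply abs_post_le hH (localOn_sp_mul x (localOn_sp v))
    intro σ
    rw [abs_mul, abs_sp, abs_sp, mul_one]
  have h2 : |mean μ H x * mean μ H v| ≤ 1 := by
    rw [abs_mul]
    exact mul_le_one₀ (abs_mean_le hH x) (abs_nonneg _) (abs_mean_le hH v)
  calc _ ≤ |post μ H (fun σ => sp σ x * sp σ v)| + |mean μ H x * mean μ H v| := abs_sub _ _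
    _ ≤ 2 := by (clear * - h1 h2; linarith)

theorem phi_le_four [IsProbabilityMeasure μ] {ε : ℝ} (hε0 : 0 ≤ ε) (hε : ε ≤ 1 / 2)
    (l1 l2 : List (V × ℕ)) (v : V) : phi μ ε l1 l2 v ≤ 4 := by
  unfold phi
  have : ∫ U, (mean μ (run μ ε U l1) v - mean μ (run μ ε U l2) v) ^ 2 ∂(noise V) ≤
      ∫ _U, (4 : ℝ) ∂(noise V) := by
    apply integral_mono_of_nonneg (Filter.Eventually.of_forall fun _ => sq_nonneg _)
      (integrable_const _)
    refine Filter.Eventually.of_forall fun U => ?_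
    have h1 := abs_le.1 (abs_mean_le (μ := μ) (good_run (μ := μ) hε0 hε U l1) v)
    have h2 := abs_le.1 (abs_mean_le (μ := μ) (good_run (μ := μ) hε0 hε U l2) v)
    simp only
    nlinarith only [h1, h2]
  simpa only [ge_iff_le, integral_const, probReal_univ, smul_eq_mul, one_mul] using this

theorem integrable_phi [IsProbabilityMeasure μ] {ε : ℝ} (hε0 : 0 ≤ ε) (hε : ε ≤ 1 / 2)
    (l1 l2 : List (V × ℕ)) (v : V) :
    Integrable (fun U => (mean μ (run μ ε U l1) v - mean μ (run μ ε U l2) v) ^ 2) (noise V) := by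
  apply integrable_of_bdd (((measurable_mean_run hε0 hε l1 v).sub
    (measurable_mean_run hε0 hε l2 v)).pow_const 2) (C := 4)
  intro U
  have h1 := abs_le.1 (abs_mean_le (μ := μ) (good_run (μ := μ) hε0 hε U l1) v)
  have h2 := abs_le.1 (abs_mean_le (μ := μ) (good_run (μ := μ) hε0 hε U l2) v)
  rw [abs_of_nonneg (sq_nonneg _), Pi.sub_apply]
  (clear * - h1 h2; nlinarith)

theorem integrable_eC [IsProbabilityMeasure μ] {ε : ℝ} (hε0 : 0 ≤ ε) (hε : ε ≤ 1 / 2)
    (l1 l2 : List (V × ℕ)) (x v : V) :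
    Integrable (fun U => (cov μ (run μ ε U l1) x v - cov μ (run μ ε U l2) x v) ^ 2) (noise V) := by
  apply integrable_of_bdd (((measurable_cov_run hε0 hε l1 x v).sub
    (measurable_cov_run hε0 hε l2 x v)).pow_const 2) (C := 16)
  intro U
  have h1 := abs_le.1 (abs_cov_le_two (μ := μ) (good_run (μ := μ) hε0 hε U l1) x v)
  have h2 := abs_le.1 (abs_cov_le_two (μ := μ) (good_run (μ := μ) hε0 hε U l2) x v)
  rw [abs_of_nonneg (sq_nonneg _), Pi.sub_apply]
  nlinarith only [h1, h2]

theorem integral_sq_add_of_ortho {Ω : Type*} [MeasurableSpace Ω] {P : Measure Ω}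
    [IsFiniteMeasure P] {X D : Ω → ℝ} (hX : Measurable X) (hD : Measurable D) {C C' : ℝ}
    (hXC : ∀ ω, |X ω| ≤ C) (hDC : ∀ ω, |D ω| ≤ C') (h : ∫ ω, X ω * D ω ∂P = 0) :
    ∫ ω, (X ω + D ω) ^ 2 ∂P = ∫ ω, X ω ^ 2 ∂P + ∫ ω, D ω ^ 2 ∂P := by
  have i1 : Integrable (fun ω => X ω ^ 2) P := integrable_of_bdd (hX.pow_const 2) (C := C ^ 2)
    (fun ω => by rw [abs_pow]; exact pow_le_pow_left₀ (abs_nonneg _) (hXC ω) 2)
  have i2 : Integrable (fun ω => D ω ^ 2) P := integrable_of_bdd (hD.pow_const 2) (C := C' ^ 2)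
    (fun ω => by rw [abs_pow]; exact pow_le_pow_left₀ (abs_nonneg _) (hDC ω) 2)
  have i3 : Integrable (fun ω => X ω * D ω) P := integrable_of_bdd (hX.mul hD) (C := C * C')
    (fun ω => by
      rw [abs_mul]
      exact mul_le_mul (hXC ω) (hDC ω) (abs_nonneg _) ((abs_nonneg _).trans (hXC ω)))
  have e1 : ∀ ω, (X ω + D ω) ^ 2 = X ω ^ 2 + D ω ^ 2 + 2 * (X ω * D ω) := fun ω => by ring
  simp only [e1]
  have e2 := integral_add (i1.add i2) (i3.const_mul 2)
  simp only [Pi.add_apply] at e2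
  rw [e2, integral_add i1 i2, integral_const_mul, h]
  ring

/-- both runs updated at the same site with the same fresh label -/
theorem phi_both [IsProbabilityMeasure μ] {ε : ℝ} (hε0 : 0 ≤ ε) (hε : ε ≤ 1 / 2)
    (l l1 l2 : List (V × ℕ)) (hs1 : ∀ j ∈ l1, j ∈ l) (hs2 : ∀ j ∈ l2, j ∈ l) {i : V × ℕ}
    (hi : i ∉ l) (v : V) :
    phi μ ε (i :: l1) (i :: l2) v = phi μ ε l1 l2 v +
      ∫ U, (cov μ (run μ ε U l1) i.1 v * incr ε (mean μ (run μ ε U l1) i.1) (U i) -
        cov μ (run μ ε U l2) i.1 v * incr ε (mean μ (run μ ε U l2) i.1) (U i)) ^ 2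
        ∂(noise V) := by
  have m1 := measurable_mean_run (μ := μ) hε0 hε l1 v
  have m2 := measurable_mean_run (μ := μ) hε0 hε l2 v
  have c1 := measurable_cov_run (μ := μ) hε0 hε l1 i.1 v
  have c2 := measurable_cov_run (μ := μ) hε0 hε l2 i.1 v
  have n1 := measurable_incr_run (μ := μ) hε0 hε l1 i.1 i
  have n2 := measurable_incr_run (μ := μ) hε0 hε l2 i.1 i
  have bm1 : ∀ U, |mean μ (run μ ε U l1) v| ≤ 1 := fun U => abs_mean_le (good_run hε0 hε U l1) v
  have bm2 : ∀ U, |mean μ (run μ ε U l2) v| ≤ 1 := fun U => abs_mean_le (good_run hε0 hε U l2) v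
  have bc1 : ∀ U, |cov μ (run μ ε U l1) i.1 v| ≤ 2 := fun U =>
    abs_cov_le_two (good_run hε0 hε U l1) i.1 v
  have bc2 : ∀ U, |cov μ (run μ ε U l2) i.1 v| ≤ 2 := fun U =>
    abs_cov_le_two (good_run hε0 hε U l2) i.1 v
  have bn1 : ∀ U : V × ℕ → unitInterval, |incr ε (mean μ (run μ ε U l1) i.1) (U i)| ≤ 2 * ε :=
    fun U => abs_incr_le hε0 hε (abs_mean_le (good_run hε0 hε U l1) i.1) (U i).2.1 (U i).2.2
  have bn2 : ∀ U : V × ℕ → unitInterval, |incr ε (mean μ (run μ ε U l2) i.1) (U i)| ≤ 2 * ε :=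
    fun U => abs_incr_le hε0 hε (abs_mean_le (good_run hε0 hε U l2) i.1) (U i).2.1 (U i).2.2
  have bX : ∀ U, |mean μ (run μ ε U l1) v - mean μ (run μ ε U l2) v| ≤ 2 := fun U =>
    (abs_sub _ _).trans (by linarith only [bm1 U, bm2 U])
  have z1 := integral_mul_incr_eq_zero (μ := μ) hε0 hε l l1 hs1 hi
    (fun U => (mean μ (run μ ε U l1) v - mean μ (run μ ε U l2) v) *
      cov μ (run μ ε U l1) i.1 v) ((m1.sub m2).mul c1)
    (fun U U' h => by
      rw [run_congr (fun j hj => h j (hs1 j hj)), run_congr (fun j hj => h j (hs2 j hj))])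
    (C := 2 * 2) (fun U => by
      rw [abs_mul]; exact mul_le_mul (bX U) (bc1 U) (abs_nonneg _) (by norm_num)) i.1
  have z2 := integral_mul_incr_eq_zero (μ := μ) hε0 hε l l2 hs2 hi
    (fun U => (mean μ (run μ ε U l1) v - mean μ (run μ ε U l2) v) *
      cov μ (run μ ε U l2) i.1 v) ((m1.sub m2).mul c2)
    (fun U U' h => by
      rw [run_congr (fun j hj => h j (hs1 j hj)), run_congr (fun j hj => h j (hs2 j hj))])
    (C := 2 * 2) (fun U => by
      rw [abs_mul]; exact mul_le_mul (bX U) (bc2 U) (abs_nonneg _) (by norm_num)) i.1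
  have hort : ∫ U, (mean μ (run μ ε U l1) v - mean μ (run μ ε U l2) v) *
      (cov μ (run μ ε U l1) i.1 v * incr ε (mean μ (run μ ε U l1) i.1) (U i) -
        cov μ (run μ ε U l2) i.1 v * incr ε (mean μ (run μ ε U l2) i.1) (U i)) ∂(noise V) = 0 := by
    have e : ∀ U : V × ℕ → unitInterval, (mean μ (run μ ε U l1) v - mean μ (run μ ε U l2) v) *
      (cov μ (run μ ε U l1) i.1 v * incr ε (mean μ (run μ ε U l1) i.1) (U i) -
        cov μ (run μ ε U l2) i.1 v * incr ε (mean μ (run μ ε U l2) i.1) (U i)) =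
        (mean μ (run μ ε U l1) v - mean μ (run μ ε U l2) v) *
      cov μ (run μ ε U l1) i.1 v * incr ε (mean μ (run μ ε U l1) i.1) (U i) -
        (mean μ (run μ ε U l1) v - mean μ (run μ ε U l2) v) *
      cov μ (run μ ε U l2) i.1 v * incr ε (mean μ (run μ ε U l2) i.1) (U i) := fun U => by ring
    simp only [e]
    rw [integral_sub, z1, z2, sub_zero]
    · refine integrable_of_bdd (((m1.sub m2).mul c1).mul n1) (C := 2 * 2 * (2 * ε)) (fun U => ?_)
      rw [abs_mul, abs_mul]
      exact mul_le_mul (mul_le_mul (bX U) (bc1 U) (abs_nonneg _) (by norm_num)) (bn1 U)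
        (abs_nonneg _) (by norm_num)
    · refine integrable_of_bdd (((m1.sub m2).mul c2).mul n2) (C := 2 * 2 * (2 * ε)) (fun U => ?_)
      rw [abs_mul, abs_mul]
      exact mul_le_mul (mul_le_mul (bX U) (bc2 U) (abs_nonneg _) (by norm_num)) (bn2 U)
        (abs_nonneg _) (by norm_num)
  have := integral_sq_add_of_ortho (P := noise V) (m1.sub m2) ((c1.mul n1).sub (c2.mul n2))
    (C := 2) (C' := 2 * (2 * ε) + 2 * (2 * ε)) bX (fun U => by
      refine (abs_sub _ _).trans (add_le_add ?_ ?_)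
      · rw [Pi.mul_apply, abs_mul]
        exact mul_le_mul (bc1 U) (bn1 U) (abs_nonneg _) (by norm_num)
      · rw [Pi.mul_apply, abs_mul]
        exact mul_le_mul (bc2 U) (bn2 U) (abs_nonneg _) (by norm_num)) hort
  unfold phi
  rw [show (fun U : V × ℕ → unitInterval =>
    (mean μ (run μ ε U (i :: l1)) v - mean μ (run μ ε U (i :: l2)) v) ^ 2) = fun U =>
    ((mean μ (run μ ε U l1) v - mean μ (run μ ε U l2) v) +
      (cov μ (run μ ε U l1) i.1 v * incr ε (mean μ (run μ ε U l1) i.1) (U i) -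
        cov μ (run μ ε U l2) i.1 v * incr ε (mean μ (run μ ε U l2) i.1) (U i))) ^ 2 from by
    funext U
    rw [mean_cons_incr hε0 hε, mean_cons_incr hε0 hε]
    ring]
  exact this

/-- only the first run updated -/
theorem phi_left [IsProbabilityMeasure μ] {ε : ℝ} (hε0 : 0 ≤ ε) (hε : ε ≤ 1 / 2)
    (l l1 l2 : List (V × ℕ)) (hs1 : ∀ j ∈ l1, j ∈ l) (hs2 : ∀ j ∈ l2, j ∈ l) {i : V × ℕ}
    (hi : i ∉ l) (v : V) :
    phi μ ε (i :: l1) l2 v = phi μ ε l1 l2 v +
      ∫ U, (cov μ (run μ ε U l1) i.1 v * incr ε (mean μ (run μ ε U l1) i.1) (U i)) ^ 2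
        ∂(noise V) := by
  have m1 := measurable_mean_run (μ := μ) hε0 hε l1 v
  have m2 := measurable_mean_run (μ := μ) hε0 hε l2 v
  have c1 := measurable_cov_run (μ := μ) hε0 hε l1 i.1 v
  have n1 := measurable_incr_run (μ := μ) hε0 hε l1 i.1 i
  have bm1 : ∀ U, |mean μ (run μ ε U l1) v| ≤ 1 := fun U => abs_mean_le (good_run hε0 hε U l1) v
  have bm2 : ∀ U, |mean μ (run μ ε U l2) v| ≤ 1 := fun U => abs_mean_le (good_run hε0 hε U l2) v
  have bc1 : ∀ U, |cov μ (run μ ε U l1) i.1 v| ≤ 2 := fun U =>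
    abs_cov_le_two (good_run hε0 hε U l1) i.1 v
  have bn1 : ∀ U : V × ℕ → unitInterval, |incr ε (mean μ (run μ ε U l1) i.1) (U i)| ≤ 2 * ε :=
    fun U => abs_incr_le hε0 hε (abs_mean_le (good_run hε0 hε U l1) i.1) (U i).2.1 (U i).2.2
  have bX : ∀ U, |mean μ (run μ ε U l1) v - mean μ (run μ ε U l2) v| ≤ 2 := fun U =>
    (abs_sub _ _).trans (by linarith only [bm1 U, bm2 U])
  have z1 := integral_mul_incr_eq_zero (μ := μ) hε0 hε l l1 hs1 hi
    (fun U => (mean μ (run μ ε U l1) v - mean μ (run μ ε U l2) v) *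
      cov μ (run μ ε U l1) i.1 v) ((m1.sub m2).mul c1)
    (fun U U' h => by
      rw [run_congr (fun j hj => h j (hs1 j hj)), run_congr (fun j hj => h j (hs2 j hj))])
    (C := 2 * 2) (fun U => by
      rw [abs_mul]; exact mul_le_mul (bX U) (bc1 U) (abs_nonneg _) (by norm_num)) i.1
  have hort : ∫ U, (mean μ (run μ ε U l1) v - mean μ (run μ ε U l2) v) *
      (cov μ (run μ ε U l1) i.1 v * incr ε (mean μ (run μ ε U l1) i.1) (U i))
        ∂(noise V) = 0 := by
    rw [← z1]
    congr 1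
    funext U
    ring
  have := integral_sq_add_of_ortho (P := noise V) (m1.sub m2) (c1.mul n1)
    (C := 2) (C' := 2 * (2 * ε)) bX (fun U => by
      rw [Pi.mul_apply, abs_mul]
      exact mul_le_mul (bc1 U) (bn1 U) (abs_nonneg _) (by norm_num)) hort
  unfold phi
  rw [show (fun U : V × ℕ → unitInterval =>
    (mean μ (run μ ε U (i :: l1)) v - mean μ (run μ ε U l2) v) ^ 2) = fun U =>
    ((mean μ (run μ ε U l1) v - mean μ (run μ ε U l2) v) +
      (cov μ (run μ ε U l1) i.1 v * incr ε (mean μ (run μ ε U l1) i.1) (U i))) ^ 2 from by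
    funext U
    rw [mean_cons_incr hε0 hε]
    ring]
  exact this

theorem phi_both_le [IsProbabilityMeasure μ] (hG : G.IsTree) {θ : ℝ} (h0 : 0 ≤ θ) (h1 : θ < 1)
    (hμ : EdgeSplit G θ μ) {ε : ℝ} (hε0 : 0 ≤ ε) (hε : ε ≤ 1 / 2)
    (l l1 l2 : List (V × ℕ)) (hs1 : ∀ j ∈ l1, j ∈ l) (hs2 : ∀ j ∈ l2, j ∈ l) {i : V × ℕ}
    (hi : i ∉ l) (v : V) :
    phi μ ε (i :: l1) (i :: l2) v ≤ phi μ ε l1 l2 v +
      (8 * ε ^ 2 * eC μ ε l1 l2 i.1 v
        + 32 * ε ^ 2 * (θ ^ 2) ^ G.dist i.1 v * phi μ ε l1 l2 i.1) := by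
  rw [phi_both hε0 hε l l1 l2 hs1 hs2 hi v]
  gcongr
  unfold eC phi
  rw [← integral_const_mul, ← integral_const_mul, ← integral_add
    ((integrable_eC hε0 hε l1 l2 i.1 v).const_mul _) ((integrable_phi hε0 hε l1 l2 i.1).const_mul _)]
  apply integral_mono_of_nonneg (Filter.Eventually.of_forall fun _ => sq_nonneg _)
    (((integrable_eC hε0 hε l1 l2 i.1 v).const_mul _).add
      ((integrable_phi hε0 hε l1 l2 i.1).const_mul _))
  refine Filter.Eventually.of_forall fun U => ?_
  simp only [Pi.add_apply]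
  have bm1 := abs_mean_le (μ := μ) (good_run (μ := μ) hε0 hε U l1) i.1
  have bm2 := abs_mean_le (μ := μ) (good_run (μ := μ) hε0 hε U l2) i.1
  have g1 := abs_incr_le hε0 hε bm1 (U i).2.1 (U i).2.2
  have gl := incr_lip hε0 hε bm1 bm2 (U i).2.1 (U i).2.2
  have k2 := abs_cov_le (μ := μ) hG h0 h1 hμ (good_run (μ := μ) hε0 hε U l2) i.1 v
  set K1 := cov μ (run μ ε U l1) i.1 v
  set K2 := cov μ (run μ ε U l2) i.1 v
  set m1 := mean μ (run μ ε U l1) i.1
  set m2 := mean μ (run μ ε U l2) i.1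
  set a := incr ε m1 (U i)
  set b := incr ε m2 (U i)
  have e1 : (K1 * a - K2 * b) ^ 2 ≤ 2 * ((K1 - K2) ^ 2 * a ^ 2) + 2 * (K2 ^ 2 * (a - b) ^ 2) := by
    have : K1 * a - K2 * b = (K1 - K2) * a + K2 * (a - b) := by ring
    rw [this]
    linarith only [sq_nonneg ((K1 - K2) * a - K2 * (a - b))]
  have e2 : a ^ 2 ≤ 4 * ε ^ 2 := by
    have := sq_le_sq' (by linarith only [g1, neg_abs_le a]) ((le_abs_self a).trans g1)
    linarith only [this]
  have e3 : (a - b) ^ 2 ≤ 16 * ε ^ 2 * (m1 - m2) ^ 2 := by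
    have h := pow_le_pow_left₀ (abs_nonneg _) gl 2
    rw [sq_abs] at h
    calc _ ≤ _ := h
      _ = _ := by rw [mul_pow, sq_abs]; ring
  have e4 : K2 ^ 2 ≤ (θ ^ 2) ^ G.dist i.1 v := by
    have h := pow_le_pow_left₀ (abs_nonneg _) k2 2
    rw [sq_abs] at h
    calc _ ≤ _ := h
      _ = _ := by ring
  calc _ ≤ _ := e1
    _ ≤ 2 * ((K1 - K2) ^ 2 * (4 * ε ^ 2)) +
        2 * ((θ ^ 2) ^ G.dist i.1 v * (16 * ε ^ 2 * (m1 - m2) ^ 2)) := by (clear * - e2 e4 e3; gcongr)
    _ = _ := by ring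

theorem phi_left_le [IsProbabilityMeasure μ] (hG : G.IsTree) {θ : ℝ} (h0 : 0 ≤ θ) (h1 : θ < 1)
    (hμ : EdgeSplit G θ μ) {ε : ℝ} (hε0 : 0 ≤ ε) (hε : ε ≤ 1 / 2)
    (l l1 l2 : List (V × ℕ)) (hs1 : ∀ j ∈ l1, j ∈ l) (hs2 : ∀ j ∈ l2, j ∈ l) {i : V × ℕ}
    (hi : i ∉ l) (v : V) :
    phi μ ε (i :: l1) l2 v ≤ phi μ ε l1 l2 v + 4 * ε ^ 2 * (θ ^ 2) ^ G.dist i.1 v := by
  rw [phi_left hε0 hε l l1 l2 hs1 hs2 hi v]
  gcongr
  have : ∫ U, (cov μ (run μ ε U l1) i.1 v * incr ε (mean μ (run μ ε U l1) i.1) (U i)) ^ 2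
      ∂(noise V) ≤ ∫ _U, 4 * ε ^ 2 * (θ ^ 2) ^ G.dist i.1 v ∂(noise V) := by
    apply integral_mono_of_nonneg (Filter.Eventually.of_forall fun _ => sq_nonneg _)
      (integrable_const _)
    refine Filter.Eventually.of_forall fun U => ?_
    simp only
    have bm1 := abs_mean_le (μ := μ) (good_run (μ := μ) hε0 hε U l1) i.1
    have g1 := abs_incr_le hε0 hε bm1 (U i).2.1 (U i).2.2
    have k2 := abs_cov_le (μ := μ) hG h0 h1 hμ (good_run (μ := μ) hε0 hε U l1) i.1 v
    set K1 := cov μ (run μ ε U l1) i.1 v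
    set a := incr ε (mean μ (run μ ε U l1) i.1) (U i)
    have e2 : a ^ 2 ≤ 4 * ε ^ 2 := by
      have := sq_le_sq' (by linarith [neg_abs_le a]) ((le_abs_self a).trans g1)
      linarith
    have e4 : K1 ^ 2 ≤ (θ ^ 2) ^ G.dist i.1 v := by
      have h := pow_le_pow_left₀ (abs_nonneg _) k2 2
      rw [sq_abs] at h
      calc _ ≤ _ := h
        _ = _ := by ring
    rw [mul_pow]
    calc _ ≤ (θ ^ 2) ^ G.dist i.1 v * (4 * ε ^ 2) := by (clear * - e4 e2; gcongr)
      _ = _ := by ring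
  simpa only [ge_iff_le, integral_const, probReal_univ, smul_eq_mul, one_mul] using this

theorem phi_le_both [IsProbabilityMeasure μ] {ε : ℝ} (hε0 : 0 ≤ ε) (hε : ε ≤ 1 / 2)
    (l l1 l2 : List (V × ℕ)) (hs1 : ∀ j ∈ l1, j ∈ l) (hs2 : ∀ j ∈ l2, j ∈ l) {i : V × ℕ}
    (hi : i ∉ l) (v : V) : phi μ ε l1 l2 v ≤ phi μ ε (i :: l1) (i :: l2) v := by
  rw [phi_both hε0 hε l l1 l2 hs1 hs2 hi v]
  exact le_add_of_nonneg_right (integral_nonneg fun _ => sq_nonneg _)

theorem phi_le_left [IsProbabilityMeasure μ] {ε : ℝ} (hε0 : 0 ≤ ε) (hε : ε ≤ 1 / 2)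
    (l l1 l2 : List (V × ℕ)) (hs1 : ∀ j ∈ l1, j ∈ l) (hs2 : ∀ j ∈ l2, j ∈ l) {i : V × ℕ}
    (hi : i ∉ l) (v : V) : phi μ ε l1 l2 v ≤ phi μ ε (i :: l1) l2 v := by
  rw [phi_left hε0 hε l l1 l2 hs1 hs2 hi v]
  exact le_add_of_nonneg_right (integral_nonneg fun _ => sq_nonneg _)

end Vale.Agent.P161
end
end

section

section

open MeasureTheory

namespace Vale.Agent.P161

variable {V : Type*} {G : SimpleGraph V} {μ : Measure (V → ℤˣ)}

theorem eC_self_le [IsProbabilityMeasure μ] {ε : ℝ} (hε0 : 0 ≤ ε) (hε : ε ≤ 1 / 2)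
    (l1 l2 : List (V × ℕ)) (x : V) : eC μ ε l1 l2 x x ≤ 4 * phi μ ε l1 l2 x := by
  unfold eC phi
  rw [← integral_const_mul]
  apply integral_mono_of_nonneg (Filter.Eventually.of_forall fun _ => sq_nonneg _)
    ((integrable_phi hε0 hε l1 l2 x).const_mul _)
  refine Filter.Eventually.of_forall fun U => ?_
  simp only
  have g1 := good_run (μ := μ) hε0 hε U l1
  have g2 := good_run (μ := μ) hε0 hε U l2
  rw [cov_self g1, cov_self g2]
  have h1 := abs_le.1 (abs_mean_le (μ := μ) g1 x)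
  have h2 := abs_le.1 (abs_mean_le (μ := μ) g2 x)
  set a := mean μ (run μ ε U l1) x
  set b := mean μ (run μ ε U l2) x
  have e : (1 - a ^ 2 - (1 - b ^ 2)) ^ 2 = (a - b) ^ 2 * (a + b) ^ 2 := by ring
  have h3 : (a + b) ^ 2 ≤ 4 := by nlinarith only [h1, h2]
  rw [e]
  linarith only [mul_nonneg (sq_nonneg (a - b : ℝ)) (sub_nonneg.2 h3)]

theorem eC_rec [IsProbabilityMeasure μ] {θ : ℝ} (h0 : 0 ≤ θ)
    {L : ℝ} (hL0 : 0 ≤ L) {lam : ℝ} (hlam : 1 < lam) {ε : ℝ} (hε0 : 0 ≤ ε) (hε : ε ≤ 1 / 2)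
    (l1 l2 : List (V × ℕ)) {x v u : V} {n : ℕ}
    (hL : ∀ H H' : List (V × ℝ), Good H → Good H' →
        |cov μ H x v - cov μ H' x v| ≤
          L * (|mean μ H u - mean μ H' u| + |mean μ H v - mean μ H' v|) * θ ^ n
            + θ * |cov μ H x u - cov μ H' x u|) :
    eC μ ε l1 l2 x v ≤ lam / (lam - 1) * 2 * L ^ 2 * (θ ^ 2) ^ n *
        (phi μ ε l1 l2 u + phi μ ε l1 l2 v) + lam * θ ^ 2 * eC μ ε l1 l2 x u := by
  have iu := integrable_phi (μ := μ) hε0 hε l1 l2 u
  have iv := integrable_phi (μ := μ) hε0 hε l1 l2 v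
  have ie := integrable_eC (μ := μ) hε0 hε l1 l2 x u
  unfold eC phi
  have e2 := integral_add ((iu.add iv).const_mul (lam / (lam - 1) * 2 * L ^ 2 * (θ ^ 2) ^ n))
    (ie.const_mul (lam * θ ^ 2))
  simp only [Pi.add_apply] at e2
  rw [← integral_add iu iv, ← integral_const_mul, ← integral_const_mul, ← e2]
  apply integral_mono_of_nonneg (Filter.Eventually.of_forall fun _ => sq_nonneg _)
    (((iu.add iv).const_mul _).add (ie.const_mul _))
  refine Filter.Eventually.of_forall fun U => ?_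
  have h := hL _ _ (good_run (μ := μ) hε0 hε U l1) (good_run (μ := μ) hε0 hε U l2)
  simp only [Pi.add_apply]
  set K := cov μ (run μ ε U l1) x v - cov μ (run μ ε U l2) x v
  set K' := cov μ (run μ ε U l1) x u - cov μ (run μ ε U l2) x u
  set Du := mean μ (run μ ε U l1) u - mean μ (run μ ε U l2) u
  set Dv := mean μ (run μ ε U l1) v - mean μ (run μ ε U l2) v
  have hs : 0 < lam - 1 := by linarith only [hlam]
  set s := lam - 1 with hsdef
  set a := L * (|Du| + |Dv|) * θ ^ n
  set b := θ * |K'|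
  have hK : K ^ 2 ≤ (a + b) ^ 2 := by
    rw [← sq_abs K]
    exact pow_le_pow_left₀ (abs_nonneg _) h 2
  have hab : (a + b) ^ 2 ≤ lam / s * a ^ 2 + lam * b ^ 2 := by
    have hl : lam = 1 + s := by rw [hsdef]; ring
    have e : lam / s * a ^ 2 + lam * b ^ 2 - (a + b) ^ 2 = (a - s * b) ^ 2 / s := by
      rw [hl]
      field_simp
      ring
    have : 0 ≤ (a - s * b) ^ 2 / s := by (clear * - hlam; positivity)
    linarith only [this, e]
  have ha2 : a ^ 2 ≤ 2 * L ^ 2 * (θ ^ 2) ^ n * (Du ^ 2 + Dv ^ 2) := by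
    have e : a ^ 2 = L ^ 2 * (θ ^ 2) ^ n * (|Du| + |Dv|) ^ 2 := by
      simp only [a]
      rw [mul_pow, mul_pow, ← pow_mul, ← pow_mul, mul_comm n 2]
      ring
    have h2 : (|Du| + |Dv|) ^ 2 ≤ 2 * (Du ^ 2 + Dv ^ 2) := by
      rw [← sq_abs Du, ← sq_abs Dv]
      linarith only [sq_nonneg (|Du| - |Dv|)]
    rw [e]
    calc _ ≤ L ^ 2 * (θ ^ 2) ^ n * (2 * (Du ^ 2 + Dv ^ 2)) := by (clear * - h2; gcongr)
      _ = _ := by ring
  have hb2 : b ^ 2 = θ ^ 2 * K' ^ 2 := by
    simp only [b]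
    rw [mul_pow, sq_abs]
  have hls : 0 ≤ lam / s := by positivity
  calc K ^ 2 ≤ lam / s * a ^ 2 + lam * b ^ 2 := hK.trans hab
    _ ≤ lam / s * (2 * L ^ 2 * (θ ^ 2) ^ n * (Du ^ 2 + Dv ^ 2)) + lam * (θ ^ 2 * K' ^ 2) := by
      rw [hb2]; (clear * - ha2 hlam; gcongr)
    _ = _ := by ring

theorem eC_bound [IsProbabilityMeasure μ] (hG : G.IsTree) {θ : ℝ} (h0 : 0 ≤ θ)
    {L : ℝ} (hL0 : 0 ≤ L)
    (hL : ∀ x v : V, x ≠ v → ∃ u, G.Adj u v ∧ G.dist x v = G.dist x u + 1 ∧
      ∀ H H' : List (V × ℝ), Good H → Good H' →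
        |cov μ H x v - cov μ H' x v| ≤
          L * (|mean μ H u - mean μ H' u| + |mean μ H v - mean μ H' v|) * θ ^ G.dist x u
            + θ * |cov μ H x u - cov μ H' x u|)
    {lam q C1 : ℝ} (hlam : 1 < lam) (hq0 : 0 < q) (hq1 : lam ^ 3 * θ ^ 2 ≤ q) (hC1 : 4 ≤ C1)
    (hC1' : lam / (lam - 1) * 2 * L ^ 2 * (1 + lam) ≤ C1 * q * (1 - 1 / lam))
    {ε : ℝ} (hε0 : 0 ≤ ε) (hε : ε ≤ 1 / 2) (l1 l2 : List (V × ℕ)) (o : V) {M : ℝ} (hM0 : 0 ≤ M)
    (hM : ∀ w, phi μ ε l1 l2 w ≤ M * lam ^ G.dist w o) :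
    ∀ n : ℕ, ∀ x v : V, G.dist x v = n →
      eC μ ε l1 l2 x v ≤ C1 * M * lam ^ G.dist v o * q ^ n := by
  intro n
  induction n with
  | zero =>
    intro x v hxv
    have : x = v := (hG.connected.dist_eq_zero_iff).1 hxv
    subst this
    have h := eC_self_le (μ := μ) hε0 hε l1 l2 x
    have h2 := hM x
    have h3 : 0 ≤ M * lam ^ G.dist x o := by (clear * - hM0 hlam; positivity)
    calc _ ≤ 4 * phi μ ε l1 l2 x := h
      _ ≤ 4 * (M * lam ^ G.dist x o) := by (clear * - h2; gcongr)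
      _ ≤ C1 * (M * lam ^ G.dist x o) := by (clear * - hC1 hM0 hlam; gcongr)
      _ = _ := by ring
  | succ n ih =>
    intro x v hxv
    have hne : x ≠ v := by
      rintro rfl
      simp at hxv
    obtain ⟨u, huv, hd, hlip⟩ := hL x v hne
    have hdu : G.dist x u = n := by omega
    rw [hdu] at hlip
    have hrec := eC_rec (μ := μ) h0 hL0 hlam hε0 hε l1 l2 hlip
    have hu := ih x u hdu
    have hlam0 : 0 < lam := by linarith only [hlam]
    have hW : lam ^ G.dist u o ≤ lam * lam ^ G.dist v o := by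
      have h1 : G.dist u o ≤ G.dist v o + 1 := by
        have := hG.connected.dist_triangle (u := u) (v := v) (w := o)
        have h2 : G.dist u v = 1 := SimpleGraph.dist_eq_one_iff_adj.2 huv
        omega
      calc lam ^ G.dist u o ≤ lam ^ (G.dist v o + 1) := pow_le_pow_right₀ hlam.le h1
        _ = _ := by ring
    set W := lam ^ G.dist v o with hWdef
    have hW0 : 0 < W := by positivity
    have hls : 0 ≤ lam / (lam - 1) := div_nonneg hlam0.le (by linarith only [hlam])
    have hθq : (θ ^ 2) ^ n ≤ q ^ n := by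
      apply pow_le_pow_left₀ (sq_nonneg _)
      calc θ ^ 2 = 1 * θ ^ 2 := by ring
        _ ≤ lam ^ 3 * θ ^ 2 := by
          gcongr
          exact one_le_pow₀ hlam.le
        _ ≤ q := hq1
    have hl2 : lam ^ 2 * θ ^ 2 ≤ q / lam := by
      rw [le_div_iff₀ hlam0]
      calc _ = lam ^ 3 * θ ^ 2 := by ring
        _ ≤ q := hq1
    calc eC μ ε l1 l2 x v ≤ _ := hrec
      _ ≤ lam / (lam - 1) * 2 * L ^ 2 * q ^ n * (M * (lam * W) + M * W) +
          lam * θ ^ 2 * (C1 * M * (lam * W) * q ^ n) := by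
        gcongr
        · exact add_nonneg (phi_nonneg _ _ _ _) (phi_nonneg _ _ _ _)
        · exact (hM u).trans (by (clear * - hW hM0; gcongr))
        · exact hM v
        · exact hu.trans (by (clear * - hW hC1 hM0 hq0; gcongr))
      _ = M * W * q ^ n * (lam / (lam - 1) * 2 * L ^ 2 * (1 + lam) + C1 * (lam ^ 2 * θ ^ 2)) := by
        ring
      _ ≤ M * W * q ^ n * (C1 * q * (1 - 1 / lam) + C1 * (q / lam)) := by (clear * - hC1' hl2 hC1 hM0 hlam hq0; gcongr)
      _ = C1 * M * W * q ^ (n + 1) := by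
        field_simp
        ring

/-- restriction of a schedule to the sites in `A` -/
noncomputable def fl (A : Set V) (l : List (V × ℕ)) : List (V × ℕ) :=
  open Classical in l.filter (fun i => i.1 ∈ A)

theorem fl_cons_mem {A : Set V} {i : V × ℕ} (h : i.1 ∈ A) (l : List (V × ℕ)) :
    fl A (i :: l) = i :: fl A l := by
  unfold fl
  rw [List.filter_cons_of_pos (by simp [h])]

theorem fl_cons_not_mem {A : Set V} {i : V × ℕ} (h : i.1 ∉ A) (l : List (V × ℕ)) :
    fl A (i :: l) = fl A l := by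
  unfold fl
  rw [List.filter_cons_of_neg (by simp [h])]

theorem mem_of_mem_fl {A : Set V} {l : List (V × ℕ)} {j : V × ℕ} (h : j ∈ fl A l) : j ∈ l := by
  unfold fl at h
  exact List.mem_of_mem_filter h

theorem phi_fl_mono [IsProbabilityMeasure μ] {ε : ℝ} (hε0 : 0 ≤ ε) (hε : ε ≤ 1 / 2)
    (A A' : Set V) (l : List (V × ℕ)) {i : V × ℕ} (hi : i ∉ l) (v : V) :
    phi μ ε (fl A l) (fl A' l) v ≤ phi μ ε (fl A (i :: l)) (fl A' (i :: l)) v := by
  by_cases h1 : i.1 ∈ A <;> by_cases h2 : i.1 ∈ A'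
  · rw [fl_cons_mem h1, fl_cons_mem h2]
    exact phi_le_both hε0 hε l _ _ (fun _ => mem_of_mem_fl) (fun _ => mem_of_mem_fl) hi v
  · rw [fl_cons_mem h1, fl_cons_not_mem h2]
    exact phi_le_left hε0 hε l _ _ (fun _ => mem_of_mem_fl) (fun _ => mem_of_mem_fl) hi v
  · rw [fl_cons_not_mem h1, fl_cons_mem h2, phi_comm, phi_comm _ _ (i :: _)]
    exact phi_le_left hε0 hε l _ _ (fun _ => mem_of_mem_fl) (fun _ => mem_of_mem_fl) hi v
  · rw [fl_cons_not_mem h1, fl_cons_not_mem h2]

theorem phi_fl_step [IsProbabilityMeasure μ] (hG : G.IsTree) {θ : ℝ} (h0 : 0 ≤ θ) (h1 : θ < 1)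
    (hμ : EdgeSplit G θ μ) {L : ℝ} (hL0 : 0 ≤ L)
    (hL : ∀ x v : V, x ≠ v → ∃ u, G.Adj u v ∧ G.dist x v = G.dist x u + 1 ∧
      ∀ H H' : List (V × ℝ), Good H → Good H' →
        |cov μ H x v - cov μ H' x v| ≤
          L * (|mean μ H u - mean μ H' u| + |mean μ H v - mean μ H' v|) * θ ^ G.dist x u
            + θ * |cov μ H x u - cov μ H' x u|)
    {lam q C1 : ℝ} (hlam : 1 < lam) (hq0 : 0 < q) (hq1 : lam ^ 3 * θ ^ 2 ≤ q) (hC1 : 4 ≤ C1)
    (hC1' : lam / (lam - 1) * 2 * L ^ 2 * (1 + lam) ≤ C1 * q * (1 - 1 / lam))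
    {ε : ℝ} (hε0 : 0 ≤ ε) (hε : ε ≤ 1 / 2) (o : V) (R : ℕ) (A A' : Set V)
    (hAA : ∀ x, G.dist x o ≤ R → (x ∈ A ↔ x ∈ A')) (l : List (V × ℕ))
    {i : V × ℕ} (hi : i ∉ l) {M : ℝ} (hM0 : 0 ≤ M)
    (hM : ∀ w, phi μ ε (fl A l) (fl A' l) w ≤ M * lam ^ G.dist w o) (v : V) :
    phi μ ε (fl A (i :: l)) (fl A' (i :: l)) v ≤ phi μ ε (fl A l) (fl A' l) v +
      (ε ^ 2 * (8 * C1 + 32) * M + 4 * ε ^ 2 / lam ^ R) * lam ^ G.dist v o *
        q ^ G.dist i.1 v := by
  have hlam0 : 0 < lam := by linarith only [hlam]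
  have hW0 : 0 < lam ^ G.dist v o := by (clear * - hlam; positivity)
  have hR0 : 0 < lam ^ R := by positivity
  have hθlam : θ ^ 2 * lam ≤ q := by
    calc θ ^ 2 * lam = lam * θ ^ 2 := by ring
      _ ≤ lam ^ 3 * θ ^ 2 := by
        gcongr
        calc lam = lam ^ 1 := by ring
          _ ≤ lam ^ 3 := pow_le_pow_right₀ hlam.le (by norm_num)
      _ ≤ q := hq1
  have key : (θ ^ 2) ^ G.dist i.1 v * lam ^ G.dist i.1 o ≤
      q ^ G.dist i.1 v * lam ^ G.dist v o := by
    calc (θ ^ 2) ^ G.dist i.1 v * lam ^ G.dist i.1 o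
        ≤ (θ ^ 2) ^ G.dist i.1 v * lam ^ (G.dist i.1 v + G.dist v o) := by
          gcongr
          · exact hlam.le
          · exact hG.connected.dist_triangle
      _ = (θ ^ 2 * lam) ^ G.dist i.1 v * lam ^ G.dist v o := by
          rw [pow_add, mul_pow]; ring
      _ ≤ q ^ G.dist i.1 v * lam ^ G.dist v o := by (clear * - hlam hθlam; gcongr)
  have hfar : i.1 ∉ A ∨ i.1 ∉ A' → ¬ (i.1 ∉ A ∧ i.1 ∉ A') →
      4 * ε ^ 2 * (θ ^ 2) ^ G.dist i.1 v ≤
      (ε ^ 2 * (8 * C1 + 32) * M + 4 * ε ^ 2 / lam ^ R) * lam ^ G.dist v o *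
        q ^ G.dist i.1 v := by
    intro hor hnot
    have hdist : R ≤ G.dist i.1 o := by
      by_contra hlt
      have := hAA i.1 (by omega)
      (clear * - hor hnot this; tauto)
    have h3 : lam ^ R ≤ lam ^ G.dist i.1 o := pow_le_pow_right₀ hlam.le hdist
    have h4 : (θ ^ 2) ^ G.dist i.1 v ≤ q ^ G.dist i.1 v * lam ^ G.dist v o / lam ^ R := by
      rw [le_div_iff₀ hR0]
      calc _ ≤ (θ ^ 2) ^ G.dist i.1 v * lam ^ G.dist i.1 o := by (clear * - h3; gcongr)
        _ ≤ _ := key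
    have h5 : 0 ≤ ε ^ 2 * (8 * C1 + 32) * M * (lam ^ G.dist v o * q ^ G.dist i.1 v) := by
      (clear * - hC1 hM0 hlam hq0; positivity)
    calc 4 * ε ^ 2 * (θ ^ 2) ^ G.dist i.1 v
        ≤ 4 * ε ^ 2 * (q ^ G.dist i.1 v * lam ^ G.dist v o / lam ^ R) := by (clear * - h4; gcongr)
      _ ≤ 4 * ε ^ 2 * (q ^ G.dist i.1 v * lam ^ G.dist v o / lam ^ R) +
          ε ^ 2 * (8 * C1 + 32) * M * (lam ^ G.dist v o * q ^ G.dist i.1 v) :=
          le_add_of_nonneg_right h5
      _ = _ := by ring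
  have hnn : 0 ≤ (ε ^ 2 * (8 * C1 + 32) * M + 4 * ε ^ 2 / lam ^ R) * lam ^ G.dist v o *
        q ^ G.dist i.1 v := by (clear * - hC1 hM0 hlam hq0; positivity)
  by_cases ha : i.1 ∈ A <;> by_cases ha' : i.1 ∈ A'
  · rw [fl_cons_mem ha, fl_cons_mem ha']
    have h := phi_both_le (μ := μ) hG h0 h1 hμ hε0 hε l (fl A l) (fl A' l)
      (fun _ => mem_of_mem_fl) (fun _ => mem_of_mem_fl) hi v
    refine h.trans ?_
    gcongr
    have hE := eC_bound (μ := μ) hG h0 hL0 hL hlam hq0 hq1 hC1 hC1' hε0 hε (fl A l) (fl A' l) o hM0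
      hM _ i.1 v rfl
    have h6 : 0 ≤ 4 * ε ^ 2 / lam ^ R * (lam ^ G.dist v o * q ^ G.dist i.1 v) := by (clear * - hlam hq0; positivity)
    calc 8 * ε ^ 2 * eC μ ε (fl A l) (fl A' l) i.1 v
          + 32 * ε ^ 2 * (θ ^ 2) ^ G.dist i.1 v * phi μ ε (fl A l) (fl A' l) i.1
        ≤ 8 * ε ^ 2 * (C1 * M * lam ^ G.dist v o * q ^ G.dist i.1 v)
          + 32 * ε ^ 2 * (θ ^ 2) ^ G.dist i.1 v * (M * lam ^ G.dist i.1 o) := by
          gcongr
          exact hM i.1
      _ = 8 * ε ^ 2 * (C1 * M * lam ^ G.dist v o * q ^ G.dist i.1 v)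
          + 32 * ε ^ 2 * M * ((θ ^ 2) ^ G.dist i.1 v * lam ^ G.dist i.1 o) := by ring
      _ ≤ 8 * ε ^ 2 * (C1 * M * lam ^ G.dist v o * q ^ G.dist i.1 v)
          + 32 * ε ^ 2 * M * (q ^ G.dist i.1 v * lam ^ G.dist v o) := by (clear * - key hM0; gcongr)
      _ ≤ 8 * ε ^ 2 * (C1 * M * lam ^ G.dist v o * q ^ G.dist i.1 v)
          + 32 * ε ^ 2 * M * (q ^ G.dist i.1 v * lam ^ G.dist v o)
          + 4 * ε ^ 2 / lam ^ R * (lam ^ G.dist v o * q ^ G.dist i.1 v) :=
          le_add_of_nonneg_right h6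
      _ = _ := by ring
  · rw [fl_cons_mem ha, fl_cons_not_mem ha']
    refine (phi_left_le (μ := μ) hG h0 h1 hμ hε0 hε l (fl A l) (fl A' l)
      (fun _ => mem_of_mem_fl) (fun _ => mem_of_mem_fl) hi v).trans ?_
    have := hfar (Or.inr ha') (by (clear * - hfar ha; tauto))
    linarith only [this]
  · rw [fl_cons_not_mem ha, fl_cons_mem ha', phi_comm, phi_comm _ (fl A l)]
    refine (phi_left_le (μ := μ) hG h0 h1 hμ hε0 hε l (fl A' l) (fl A l)
      (fun _ => mem_of_mem_fl) (fun _ => mem_of_mem_fl) hi v).trans ?_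
    have := hfar (Or.inl ha) (by (clear * - hfar ha'; tauto))
    linarith only [this]
  · rw [fl_cons_not_mem ha, fl_cons_not_mem ha']
    linarith only [hnn]

theorem phi_fl_round [IsProbabilityMeasure μ] (hG : G.IsTree) {θ : ℝ} (h0 : 0 ≤ θ) (h1 : θ < 1)
    (hμ : EdgeSplit G θ μ) {L : ℝ} (hL0 : 0 ≤ L)
    (hL : ∀ x v : V, x ≠ v → ∃ u, G.Adj u v ∧ G.dist x v = G.dist x u + 1 ∧
      ∀ H H' : List (V × ℝ), Good H → Good H' →
        |cov μ H x v - cov μ H' x v| ≤
          L * (|mean μ H u - mean μ H' u| + |mean μ H v - mean μ H' v|) * θ ^ G.dist x u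
            + θ * |cov μ H x u - cov μ H' x u|)
    {lam q C1 : ℝ} (hlam : 1 < lam) (hq0 : 0 < q) (hq1 : lam ^ 3 * θ ^ 2 ≤ q) (hC1 : 4 ≤ C1)
    (hC1' : lam / (lam - 1) * 2 * L ^ 2 * (1 + lam) ≤ C1 * q * (1 - 1 / lam))
    {ε : ℝ} (hε0 : 0 ≤ ε) (hε : ε ≤ 1 / 2) (o : V) (R : ℕ) (A A' : Set V)
    (hAA : ∀ x, G.dist x o ≤ R → (x ∈ A ↔ x ∈ A')) (Lr l : List (V × ℕ))
    (hnd : (Lr ++ l).Nodup) {M : ℝ} (hM0 : 0 ≤ M)
    (hM : ∀ w, phi μ ε (fl A (Lr ++ l)) (fl A' (Lr ++ l)) w ≤ M * lam ^ G.dist w o) (v : V) :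
    phi μ ε (fl A (Lr ++ l)) (fl A' (Lr ++ l)) v ≤ phi μ ε (fl A l) (fl A' l) v +
      (ε ^ 2 * (8 * C1 + 32) * M + 4 * ε ^ 2 / lam ^ R) * lam ^ G.dist v o *
        (Lr.map (fun i => q ^ G.dist i.1 v)).sum := by
  induction Lr with
  | nil => simp only [List.nil_append, List.map_nil, List.sum_nil, mul_zero, add_zero, Std.le_refl]
  | cons i Lr ih =>
    rw [List.cons_append, List.nodup_cons] at hnd
    rw [List.cons_append] at hM ⊢
    have hM' : ∀ w, phi μ ε (fl A (Lr ++ l)) (fl A' (Lr ++ l)) w ≤ M * lam ^ G.dist w o :=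
      fun w => (phi_fl_mono hε0 hε A A' (Lr ++ l) hnd.1 w).trans (hM w)
    have h2 := phi_fl_step (μ := μ) hG h0 h1 hμ hL0 hL hlam hq0 hq1 hC1 hC1' hε0 hε o R A A' hAA
      (Lr ++ l) hnd.1 hM0 hM' v
    have h3 := ih hnd.2 hM'
    rw [List.map_cons, List.sum_cons]
    calc _ ≤ _ := h2
      _ ≤ _ := add_le_add_left h3 _
      _ = _ := by ring

theorem list_sum_le [G.LocallyFinite] (hG : G.IsTree) {d : ℕ} (hd : 2 ≤ d)
    (hreg : G.IsRegularOfDegree d) {q : ℝ} (hq0 : 0 ≤ q) (hq : ((d : ℝ) - 1) * q < 1)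
    (v : V) (Lr : List (V × ℕ)) (hL : (Lr.map Prod.fst).Nodup) :
    (Lr.map (fun i => q ^ G.dist i.1 v)).sum ≤ 2 * d / (1 - ((d : ℝ) - 1) * q) := by
  classical
  have e : (Lr.map (fun i => q ^ G.dist i.1 v)) =
      (Lr.map Prod.fst).map (fun x => q ^ G.dist v x) := by
    rw [List.map_map]
    apply List.map_congr_left
    intro i _
    simp [SimpleGraph.dist_comm]
  rw [e, ← List.sum_toFinset _ hL]
  exact sum_pow_dist_le hG hd hreg hq0 hq v _

/-- the constants in the main estimate -/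
noncomputable def Cs : ℕ → ℝ
  | 0 => 0
  | n + 1 => 2 * (Cs n + 1)

theorem main_round [IsProbabilityMeasure μ] [G.LocallyFinite] (hG : G.IsTree) {d : ℕ} (hd : 2 ≤ d)
    (hreg : G.IsRegularOfDegree d) {θ : ℝ} (h0 : 0 ≤ θ) (h1 : θ < 1)
    (hμ : EdgeSplit G θ μ) {L : ℝ} (hL0 : 0 ≤ L)
    (hL : ∀ x v : V, x ≠ v → ∃ u, G.Adj u v ∧ G.dist x v = G.dist x u + 1 ∧
      ∀ H H' : List (V × ℝ), Good H → Good H' →
        |cov μ H x v - cov μ H' x v| ≤
          L * (|mean μ H u - mean μ H' u| + |mean μ H v - mean μ H' v|) * θ ^ G.dist x u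
            + θ * |cov μ H x u - cov μ H' x u|)
    {lam q C1 : ℝ} (hlam : 1 < lam) (hq0 : 0 < q) (hqd : ((d : ℝ) - 1) * q < 1)
    (hq1 : lam ^ 3 * θ ^ 2 ≤ q) (hC1 : 4 ≤ C1)
    (hC1' : lam / (lam - 1) * 2 * L ^ 2 * (1 + lam) ≤ C1 * q * (1 - 1 / lam))
    {ε : ℝ} (hε0 : 0 ≤ ε) (hε : ε ≤ 1 / 2)
    {S : ℝ} (hSdef : S = 2 * (d : ℝ) / (1 - ((d : ℝ) - 1) * q)) (hS0 : 0 < S)
    (hsm1 : ε ^ 2 * (8 * C1 + 32) * S ≤ 1 / 2) (hsm2 : 4 * ε ^ 2 * S ≤ 1)
    (o : V) (R : ℕ) (A A' : Set V)
    (hAA : ∀ x, G.dist x o ≤ R → (x ∈ A ↔ x ∈ A')) (Lr l : List (V × ℕ))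
    (hnd : (Lr ++ l).Nodup) (hLr : (Lr.map Prod.fst).Nodup) {c : ℝ}
    (hc : ∀ w, phi μ ε (fl A l) (fl A' l) w ≤ c * lam ^ G.dist w o / lam ^ R) (v : V) :
    phi μ ε (fl A (Lr ++ l)) (fl A' (Lr ++ l)) v ≤
      2 * (c + 1) * lam ^ G.dist v o / lam ^ R := by
  have hlam0 : 0 < lam := by linarith only [hlam]
  have hR0 : 0 < lam ^ R := by positivity
  set F : V → ℝ := fun w => phi μ ε (fl A (Lr ++ l)) (fl A' (Lr ++ l)) w /
    lam ^ G.dist w o with hF
  have hFle : ∀ w, F w ≤ 4 := by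
    intro w
    simp only [hF]
    rw [div_le_iff₀ (by positivity)]
    have h7 := phi_le_four (μ := μ) hε0 hε (fl A (Lr ++ l)) (fl A' (Lr ++ l)) w
    have h8 : (1 : ℝ) ≤ lam ^ G.dist w o := one_le_pow₀ hlam.le
    linarith only [h7, h8]
  have hbdd : BddAbove (Set.range F) := ⟨4, by rintro _ ⟨w, rfl⟩; exact hFle w⟩
  set M := ⨆ w, F w with hMdef
  have hMle : ∀ w, phi μ ε (fl A (Lr ++ l)) (fl A' (Lr ++ l)) w ≤ M * lam ^ G.dist w o := by
    intro w
    have h := le_ciSup hbdd w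
    rwa [← hMdef, hF, div_le_iff₀ (by positivity)] at h
  have hM0 : 0 ≤ M := by
    have h9 : 0 ≤ F v := div_nonneg (phi_nonneg _ _ _ _) (by positivity)
    exact h9.trans (le_ciSup hbdd v)
  have hMrec : M ≤ c / lam ^ R + M / 2 + 1 / lam ^ R := by
    haveI : Nonempty V := ⟨v⟩
    apply ciSup_le
    intro w
    have h10 := phi_fl_round (μ := μ) hG h0 h1 hμ hL0 hL hlam hq0 hq1 hC1 hC1' hε0 hε o R
      A A' hAA Lr l hnd hM0 hMle w
    have h11 := list_sum_le (G := G) hG hd hreg hq0.le hqd w Lr hLr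
    rw [← hSdef] at h11
    have hW0 : 0 < lam ^ G.dist w o := by positivity
    rw [hF, div_le_iff₀ hW0]
    calc _ ≤ _ := h10
      _ ≤ c * lam ^ G.dist w o / lam ^ R +
          (ε ^ 2 * (8 * C1 + 32) * M + 4 * ε ^ 2 / lam ^ R) * lam ^ G.dist w o * S := by
          have h12 := hc w
          (clear * - h12 h11 hC1 hM0 hlam; gcongr)
      _ = (c / lam ^ R + (ε ^ 2 * (8 * C1 + 32) * S) * M + (4 * ε ^ 2 * S) / lam ^ R) *
          lam ^ G.dist w o := by ring
      _ ≤ (c / lam ^ R + (1 / 2) * M + 1 / lam ^ R) * lam ^ G.dist w o := by (clear * - hsm1 hM0 hsm2 hlam; gcongr)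
      _ = _ := by ring
  have hMfin : M ≤ 2 * (c + 1) / lam ^ R := by
    have : 2 * (c + 1) / lam ^ R = 2 * (c / lam ^ R + 1 / lam ^ R) := by ring
    rw [this]
    linarith only [hMrec]
  calc _ ≤ M * lam ^ G.dist v o := hMle v
    _ ≤ 2 * (c + 1) / lam ^ R * lam ^ G.dist v o := by (clear * - hMfin hlam; gcongr)
    _ = _ := by ring

theorem exists_constants {d : ℕ} (hd : 2 ≤ d) {θ : ℝ} (h1 : ((d : ℝ) - 1) * θ ^ 2 < 1)
    {L : ℝ} (hL0 : 0 ≤ L) :
    ∃ lam q C1 S ε : ℝ, 1 < lam ∧ 0 < q ∧ ((d : ℝ) - 1) * q < 1 ∧ lam ^ 3 * θ ^ 2 ≤ q ∧ 4 ≤ C1 ∧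
      lam / (lam - 1) * 2 * L ^ 2 * (1 + lam) ≤ C1 * q * (1 - 1 / lam) ∧ 0 < ε ∧ ε ≤ 1 / 2 ∧
      S = 2 * (d : ℝ) / (1 - ((d : ℝ) - 1) * q) ∧ 0 < S ∧ ε ^ 2 * (8 * C1 + 32) * S ≤ 1 / 2 ∧
      4 * ε ^ 2 * S ≤ 1 := by
  have hdr : (1 : ℝ) ≤ (d : ℝ) - 1 := by
    have : (2 : ℝ) ≤ d := by exact_mod_cast hd
    linarith only [this]
  have hd0 : (0 : ℝ) < (d : ℝ) - 1 := by linarith only [hdr]
  have hθ2 : θ ^ 2 < 1 / ((d : ℝ) - 1) := by
    rw [lt_div_iff₀ hd0]; linarith only [h1]
  have hθ1 : θ ^ 2 ≤ 1 := by (by_contra nlg; linarith only [nlg, mul_nonneg (le_of_lt (sub_pos.2 (not_le.1 nlg))) (sub_nonneg.2 hdr), mul_nonneg (sq_nonneg (θ : ℝ)) (sub_nonneg.2 hdr), hdr, h1])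
  obtain ⟨q, hq1, hq2⟩ := exists_between hθ2
  have hq0 : 0 < q := lt_of_le_of_lt (sq_nonneg θ) hq1
  have hqd : ((d : ℝ) - 1) * q < 1 := by
    rw [lt_div_iff₀ hd0] at hq2; linarith only [hq2]
  have hqle : q ≤ 1 := by nlinarith only [hqd, hdr]
  obtain ⟨δ, hδ⟩ : ∃ δ, δ = q - θ ^ 2 := ⟨_, rfl⟩
  have hδ0 : 0 < δ := by linarith only [hq1, hδ]
  have hδ1 : δ ≤ 1 := by nlinarith only [hqle, hδ]
  obtain ⟨lam, hlamdef⟩ : ∃ lam, lam = 1 + δ / 8 := ⟨_, rfl⟩
  have hlam : 1 < lam := by rw [hlamdef]; linarith only [hq1, hδ]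
  have hlam3 : lam ^ 3 * θ ^ 2 ≤ q := by
    have h3 : lam ^ 3 ≤ 1 + δ := by
      rw [hlamdef]
      have a1 : δ ^ 2 ≤ δ := by nlinarith only [hqle, hq1, hδ]
      have a2 : δ ^ 3 ≤ δ := by linarith only [mul_nonneg (sub_nonneg.2 a1) (sub_nonneg.2 a1), mul_nonneg (sq_nonneg (δ : ℝ)) (sub_nonneg.2 a1), a1]
      linarith only [mul_nonneg (sub_nonneg.2 a1) (sub_nonneg.2 a1), mul_nonneg (sq_nonneg (δ : ℝ)) (sub_nonneg.2 a1), mul_nonneg (sq_nonneg (δ : ℝ)) (sq_nonneg (δ : ℝ)), a1]
    calc lam ^ 3 * θ ^ 2 ≤ (1 + δ) * θ ^ 2 := by (clear * - h3; gcongr)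
      _ ≤ q := by nlinarith only [hδ, h1, hdr, hq1]
  have hlam0 : 0 < lam := by linarith only [hlam]
  have hl1 : 0 < 1 - 1 / lam := by
    have : 1 / lam < 1 := by rw [div_lt_one hlam0]; exact hlam
    linarith only [this]
  have hls : 0 ≤ lam / (lam - 1) := div_nonneg hlam0.le (by linarith only [hlam])
  obtain ⟨K, hK⟩ : ∃ K, K = lam / (lam - 1) * 2 * L ^ 2 * (1 + lam) := ⟨_, rfl⟩
  have hK0 : 0 ≤ K := by rw [hK]; (clear * - hlam; positivity)
  obtain ⟨P, hP⟩ : ∃ P, P = q * (1 - 1 / lam) := ⟨_, rfl⟩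
  have hP0 : 0 < P := by rw [hP]; (clear * - hq0 hl1; positivity)
  obtain ⟨C1, hC1def⟩ : ∃ C1, C1 = 4 + K / P := ⟨_, rfl⟩
  have hKP : 0 ≤ K / P := by (clear * - hK0 hP0; positivity)
  have hC1 : 4 ≤ C1 := by rw [hC1def]; linarith only [hKP]
  have hC1' : lam / (lam - 1) * 2 * L ^ 2 * (1 + lam) ≤ C1 * q * (1 - 1 / lam) := by
    rw [← hK, mul_assoc C1, ← hP, hC1def]
    have : K = K / P * P := by (clear * - hP0; field_simp)
    linarith only [this, hP0]
  obtain ⟨S, hSdef⟩ : ∃ S, S = 2 * (d : ℝ) / (1 - ((d : ℝ) - 1) * q) := ⟨_, rfl⟩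
  have hS0 : 0 < S := by
    rw [hSdef]
    have : 0 < 1 - ((d : ℝ) - 1) * q := by linarith only [hqd]
    have : (0 : ℝ) < d := by linarith only [hdr]
    positivity
  obtain ⟨B, hB⟩ : ∃ B, B = (8 * C1 + 32) * S + 4 * S + 4 := ⟨_, rfl⟩
  have hCS : 0 < (8 * C1 + 32) * S := by
    have : (0 : ℝ) < 8 * C1 + 32 := by linarith only [hC1def, hKP]
    (clear * - hC1 hS0; positivity)
  have hB0 : 4 ≤ B := by linarith only [hS0, hB, hCS]
  obtain ⟨ε, hεdef⟩ : ∃ ε, ε = 1 / B := ⟨_, rfl⟩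
  have hBpos : 0 < B := by linarith only [hS0, hB, hCS]
  have hε0 : 0 < ε := by rw [hεdef]; (clear * - hB0; positivity)
  have hε12 : ε ≤ 1 / 2 := by
    rw [hεdef]
    apply one_div_le_one_div_of_le (by norm_num)
    linarith only [hS0, hB, hCS]
  have hε2 : ε ^ 2 ≤ ε / 2 := by nlinarith only [hε0, hε12]
  have hεB : ε * B = 1 := by rw [hεdef]; (clear * - hB0; field_simp)
  have hsm1 : ε ^ 2 * (8 * C1 + 32) * S ≤ 1 / 2 := by
    have h5 : (8 * C1 + 32) * S ≤ B := by linarith only [hS0, hB]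
    calc ε ^ 2 * (8 * C1 + 32) * S = ε ^ 2 * ((8 * C1 + 32) * S) := by ring
      _ ≤ (ε / 2) * B := by (clear * - hε2 h5 hC1 hS0 hε0; gcongr)
      _ = 1 / 2 := by linarith only [hεB]
  have hsm2 : 4 * ε ^ 2 * S ≤ 1 := by
    have h5 : 4 * S ≤ B := by linarith only [hB, hCS]
    calc 4 * ε ^ 2 * S = ε ^ 2 * (4 * S) := by ring
      _ ≤ (ε / 2) * B := by (clear * - hε2 h5 hS0 hε0; gcongr)
      _ ≤ 1 := by linarith only [hεB]
  exact ⟨lam, q, C1, S, ε, hlam, hq0, hqd, hlam3, hC1, hC1', hε0, hε12, hSdef, hS0, hsm1, hsm2⟩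

/-- MAIN ESTIMATE. A schedule made of `N` rounds. -/
theorem main_estimate [G.LocallyFinite] (hG : G.IsTree) {d : ℕ} (hd : 2 ≤ d)
    (hreg : G.IsRegularOfDegree d) {θ : ℝ} (h0 : 0 ≤ θ) (h1 : ((d : ℝ) - 1) * θ ^ 2 < 1)
    (h1' : θ < 1) :
    ∃ ε : ℝ, 0 < ε ∧ ε ≤ 1 / 2 ∧ ∃ lam : ℝ, 1 < lam ∧ ∃ C : ℕ → ℝ,
      ∀ (μ : Measure (V → ℤˣ)) [IsProbabilityMeasure μ], EdgeSplit G θ μ →
      ∀ (Ls : List (List (V × ℕ))), Ls.flatten.Nodup →
        (∀ L ∈ Ls, (L.map Prod.fst).Nodup) →
      ∀ (A A' : Set V) (o : V) (R : ℕ), (∀ x, G.dist x o ≤ R → (x ∈ A ↔ x ∈ A')) →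
      ∀ v : V,
        ∫ U, (mean μ (run μ ε U (open Classical in Ls.flatten.filter (fun i => i.1 ∈ A))) v
          - mean μ (run μ ε U (open Classical in Ls.flatten.filter (fun i => i.1 ∈ A'))) v) ^ 2
            ∂(noise V) ≤ C Ls.length * lam ^ G.dist v o / lam ^ R := by
  obtain ⟨L, hL0, hL⟩ := cov_lip hG h0 h1'
  obtain ⟨lam, q, C1, S, ε, hlam, hq0, hqd, hlam3, hC1, hC1', hε0, hε12, hSdef, hS0, hsm1, hsm2⟩ :=
    exists_constants hd h1 hL0
  refine ⟨ε, hε0, hε12, lam, hlam, Cs, ?_⟩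
  intro μ hμp hμ Ls
  have hL' := hL μ hμ
  have key : Ls.flatten.Nodup → (∀ L ∈ Ls, (L.map Prod.fst).Nodup) →
      ∀ (A A' : Set V) (o : V) (R : ℕ), (∀ x, G.dist x o ≤ R → (x ∈ A ↔ x ∈ A')) →
      ∀ v : V, phi μ ε (fl A Ls.flatten) (fl A' Ls.flatten) v ≤
        Cs Ls.length * lam ^ G.dist v o / lam ^ R := by
    induction Ls with
    | nil =>
      intro _ _ A A' o R _ v
      simp only [phi, fl, List.flatten_nil, List.filter_nil, sub_self, ne_eq, OfNat.ofNat_ne_zero, not_false_eq_true, zero_pow, integral_zero, List.length_nil, Cs, zero_mul, zero_div, Std.le_refl]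
    | cons Lr Ls ih =>
      intro hnd hrounds A A' o R hAA v
      rw [List.flatten_cons] at hnd ⊢
      have ih' := ih (List.nodup_append.1 hnd).2.1
        (fun L hL => hrounds L (List.mem_cons_of_mem _ hL)) A A' o R hAA
      exact main_round (μ := μ) hG hd hreg h0 h1' hμ hL0 hL' hlam hq0 hqd hlam3 hC1 hC1' hε0.le
        hε12 hSdef hS0 hsm1 hsm2 o R A A' hAA Lr Ls.flatten hnd (hrounds Lr List.mem_cons_self)
        ih' v
  exact key

end Vale.Agent.P161
end
end

section

section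

open MeasureTheory

namespace Vale.Agent.P161

/-- i.i.d. families over a disjoint union -/
theorem infinitePi_sum {ι κ Ω : Type*} [MeasurableSpace Ω] (lam : Measure Ω)
    [IsProbabilityMeasure lam] :
    ((Measure.infinitePi fun _ : ι => lam).prod (Measure.infinitePi fun _ : κ => lam)).map
      (fun p : (ι → Ω) × (κ → Ω) => Sum.elim p.1 p.2) = Measure.infinitePi fun _ : ι ⊕ κ => lam := by
  have hm : Measurable (fun p : (ι → Ω) × (κ → Ω) => (Sum.elim p.1 p.2 : ι ⊕ κ → Ω)) := by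
    refine measurable_pi_iff.2 fun i => ?_
    cases i with
    | inl i => exact (measurable_pi_apply i).comp measurable_fst
    | inr i => exact (measurable_pi_apply i).comp measurable_snd
  refine Measure.eq_infinitePi _ fun s t ht => ?_
  rw [Measure.map_apply hm (MeasurableSet.pi s.countable_toSet fun i _ => ht i)]
  have : (fun p : (ι → Ω) × (κ → Ω) => (Sum.elim p.1 p.2 : ι ⊕ κ → Ω)) ⁻¹' (Set.pi s t) =
      (Set.pi (s.toLeft : Set ι) fun i => t (Sum.inl i)) ×ˢ
        (Set.pi (s.toRight : Set κ) fun i => t (Sum.inr i)) := by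
    ext p
    simp only [Set.mem_preimage, Set.mem_pi, Finset.mem_coe, Set.mem_prod, Finset.mem_toLeft,
      Finset.mem_toRight]
    constructor
    · intro h
      exact ⟨fun i hi => h _ hi, fun i hi => h _ hi⟩
    · rintro ⟨h1, h2⟩ i hi
      cases i with
      | inl i => exact h1 i hi
      | inr i => exact h2 i hi
  rw [this, Measure.prod_prod, Measure.infinitePi_pi _ (fun i _ => ht _),
    Measure.infinitePi_pi _ (fun i _ => ht _), Finset.prod_sum_eq_prod_toLeft_mul_prod_toRight]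

/-- the labels used for ordering and the noise, read off one array of labels -/
def unpack {V : Type*} (W : V × ℕ → unitInterval) : (V → unitInterval) × (V × ℕ → unitInterval) :=
  (fun v => W (v, 0), fun p => W (p.1, p.2 + 1))

theorem measurable_unpack {V : Type*} : Measurable (unpack : (V × ℕ → unitInterval) → _) := by
  refine Measurable.prodMk ?_ ?_
  · exact measurable_pi_iff.2 fun v => measurable_pi_apply _
  · exact measurable_pi_iff.2 fun v => measurable_pi_apply _

/-- law of labels and noise -/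
noncomputable abbrev noise2 (V : Type*) : Measure ((V → unitInterval) × (V × ℕ → unitInterval)) :=
  (Measure.infinitePi fun _ : V => (volume : Measure unitInterval)).prod (noise V)

theorem map_unpack {V : Type*} : Measure.map unpack (noise V) = noise2 V := by
  -- the reindexing
  let f : V × ℕ → V ⊕ (V × ℕ) := fun p => match p with
    | (v, 0) => Sum.inl v
    | (v, n + 1) => Sum.inr (v, n)
  have hf : Function.Injective f := by
    rintro ⟨v, n⟩ ⟨w, m⟩ h
    cases n <;> cases m <;> simp_all [f]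
  have h1 := infinitePi_sum (ι := V) (κ := V × ℕ) (volume : Measure unitInterval)
  have h2 := Measure.map_infinitePi_infinitePi_of_inj
    (P := fun _ : V ⊕ (V × ℕ) => (volume : Measure unitInterval)) hf
  have hm : Measurable (fun p : (V → unitInterval) × (V × ℕ → unitInterval) =>
      (Sum.elim p.1 p.2 : V ⊕ (V × ℕ) → unitInterval)) := by
    refine measurable_pi_iff.2 fun i => ?_
    cases i with
    | inl i => exact (measurable_pi_apply i).comp measurable_fst
    | inr i => exact (measurable_pi_apply i).comp measurable_snd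
  have hm2 : Measurable (fun (ω : V ⊕ (V × ℕ) → unitInterval) (i : V × ℕ) => ω (f i)) :=
    measurable_pi_iff.2 fun i => measurable_pi_apply _
  have h3 : noise V = (noise2 V).map (fun p (i : V × ℕ) => (Sum.elim p.1 p.2 : V ⊕ (V × ℕ) →
      unitInterval) (f i)) := by
    rw [← h1, Measure.map_map hm2 hm] at h2
    exact h2.symm
  rw [h3, Measure.map_map measurable_unpack]
  · have : (unpack ∘ fun (p : (V → unitInterval) × (V × ℕ → unitInterval)) (i : V × ℕ) =>
        (Sum.elim p.1 p.2 : V ⊕ (V × ℕ) → unitInterval) (f i)) = id := by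
      funext p
      rfl
    rw [this, Measure.map_id]
  · exact hm2.comp hm

/-- It is enough to construct the factor map with two families of labels. -/
theorem isFactorOfIID_of_two {V : Type*} {G : SimpleGraph V} {ν : Measure (V → ℤˣ)}
    (Ψ : (V → unitInterval) × (V × ℕ → unitInterval) → (V → ℤˣ)) (hΨ : Measurable Ψ)
    (heq : ∀ g : G ≃g G, ∀ᵐ p ∂(noise2 V),
      Ψ (fun v => p.1 (g.symm v), fun q => p.2 (g.symm q.1, q.2)) = fun v => Ψ p (g.symm v))
    (hlaw : Measure.map Ψ (noise2 V) = ν) : IsFactorOfIID G ν := by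
  obtain ⟨Ξ, hΞ, hΞl⟩ := exists_decode
  -- decoding
  let D : (V → unitInterval) → (V × ℕ → unitInterval) := fun x p => Ξ (x p.1) p.2
  have hD : Measurable D := by
    refine measurable_pi_iff.2 fun p => ?_
    exact (measurable_pi_apply p.2).comp (hΞ.comp (measurable_pi_apply p.1))
  have hDl : Measure.map D (Measure.infinitePi fun _ : V => (volume : Measure unitInterval)) =
      noise V := by
    have h1 := Measure.infinitePi_map_pi (fun _ : V => (volume : Measure unitInterval))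
      (f := fun _ => Ξ) (fun _ => hΞ)
    have h2 := Measure.infinitePi_map_curry_symm
      (fun (_ : V) (_ : ℕ) => (volume : Measure unitInterval))
    rw [hΞl] at h1
    have hm : Measurable (fun (x : V → unitInterval) (i : V) => Ξ (x i)) :=
      measurable_pi_iff.2 fun v => hΞ.comp (measurable_pi_apply v)
    rw [← h1, Measure.map_map (MeasurableEquiv.curry V ℕ unitInterval).symm.measurable hm] at h2
    exact h2
  have hU : Measure.map (unpack ∘ D)
      (Measure.infinitePi fun _ : V => (volume : Measure unitInterval)) = noise2 V := by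
    rw [← Measure.map_map measurable_unpack hD, hDl, map_unpack]
  refine ⟨Ψ ∘ (unpack ∘ D), hΨ.comp (measurable_unpack.comp hD), fun g => ?_, ?_⟩
  · have h := heq g
    rw [← hU] at h
    have h' := ae_of_ae_map (measurable_unpack.comp hD).aemeasurable h
    filter_upwards [h'] with x hx
    exact hx
  · rw [← Measure.map_map hΨ (measurable_unpack.comp hD), hU, hlaw]

end Vale.Agent.P161
end
end

section

section

/-! The schedule in continuous time and the label-time inequality. -/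

open MeasureTheory

namespace Vale.Agent.P161

section Key

variable {ι : Type*} [Encodable ι]

/-- order by the key, ties broken by a fixed enumeration -/
def kord (k : ι → ℝ) (x y : ι) : Prop :=
  toLex (k x, Encodable.encode x) ≤ toLex (k y, Encodable.encode y)

instance (k : ι → ℝ) : IsTrans ι (kord k) := ⟨fun _ _ _ h1 h2 => le_trans h1 h2⟩

instance (k : ι → ℝ) : Std.Total (kord k) := ⟨fun _ _ => le_total _ _⟩

instance (k : ι → ℝ) : Std.Antisymm (kord k) := ⟨fun x y h1 h2 => by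
  have h := le_antisymm h1 h2
  have h' : (k x, Encodable.encode x) = (k y, Encodable.encode y) := toLex.injective h
  exact Encodable.encode_injective (Prod.ext_iff.1 h').2⟩

theorem kord_iff (k : ι → ℝ) (x y : ι) :
    kord k x y ↔ k x < k y ∨ k x = k y ∧ Encodable.encode x ≤ Encodable.encode y := by
  unfold kord
  rw [Prod.Lex.toLex_le_toLex]

open Classical in
/-- the elements of `B` sorted by the key -/
noncomputable def ksrt (k : ι → ℝ) (B : Finset ι) : List ι := B.sort (kord k)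

theorem nodup_ksrt (k : ι → ℝ) (B : Finset ι) : (ksrt k B).Nodup := by
  classical
  exact Finset.sort_nodup _ _

@[simp] theorem mem_ksrt (k : ι → ℝ) (B : Finset ι) (x : ι) : x ∈ ksrt k B ↔ x ∈ B := by
  classical
  exact Finset.mem_sort _

theorem pairwise_ksrt (k : ι → ℝ) (B : Finset ι) : (ksrt k B).Pairwise (kord k) := by
  classical
  exact Finset.pairwise_sort _ _

theorem ksrt_eq_iff (k : ι → ℝ) (B : Finset ι) (l : List ι) :
    ksrt k B = l ↔ (l.Nodup ∧ ∀ x, x ∈ l ↔ x ∈ B) ∧ l.Pairwise (kord k) := by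
  constructor
  · rintro rfl
    exact ⟨⟨nodup_ksrt k B, fun x => mem_ksrt k B x⟩, pairwise_ksrt k B⟩
  · rintro ⟨⟨h1, h2⟩, h3⟩
    have hp : List.Perm (ksrt k B) l := by
      rw [List.perm_ext_iff_of_nodup (nodup_ksrt k B) h1]
      intro a
      rw [mem_ksrt, h2]
    exact hp.eq_of_pairwise' (pairwise_ksrt k B) h3

theorem ksrt_insert [DecidableEq ι] (k : ι → ℝ) {B : Finset ι} {i : ι} (hi : i ∉ B)
    (h : ∀ j ∈ B, k i < k j) : ksrt k (insert i B) = i :: ksrt k B := by
  rw [ksrt_eq_iff]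
  refine ⟨⟨?_, fun x => by simp⟩, ?_⟩
  · rw [List.nodup_cons]
    exact ⟨by simpa using hi, nodup_ksrt k B⟩
  · rw [List.pairwise_cons]
    refine ⟨fun j hj => ?_, pairwise_ksrt k B⟩
    rw [mem_ksrt] at hj
    rw [kord_iff]
    exact Or.inl (h j hj)

theorem ksrt_congr {k k' : ι → ℝ} {B : Finset ι} (h : ∀ j ∈ B, k j = k' j) :
    ksrt k B = ksrt k' B := by
  rw [ksrt_eq_iff]
  refine ⟨⟨nodup_ksrt k' B, fun x => mem_ksrt k' B x⟩, ?_⟩
  refine (pairwise_ksrt k' B).imp_of_mem ?_
  intro a b ha hb hab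
  rw [mem_ksrt] at ha hb
  rw [kord_iff] at hab ⊢
  rw [h a ha, h b hb]
  exact hab

theorem filter_ksrt {k : ι → ℝ} {B C : Finset ι} {p : ι → Bool}
    (h : ∀ x, x ∈ B ↔ x ∈ C ∧ p x = true) :
    (ksrt k C).filter p = ksrt k B := by
  symm
  rw [ksrt_eq_iff]
  refine ⟨⟨(nodup_ksrt k C).filter _, fun x => ?_⟩, (pairwise_ksrt k C).filter _⟩
  rw [List.mem_filter, mem_ksrt, h]

theorem measurableSet_kord {Ω : Type*} [MeasurableSpace Ω] {K : Ω → ι → ℝ}
    (hK : ∀ i, Measurable fun ω => K ω i) (a b : ι) : MeasurableSet {ω | kord (K ω) a b} := by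
  have : {ω | kord (K ω) a b} =
      {ω | K ω a < K ω b} ∪ ({ω | K ω a = K ω b} ∩
        {_ω | Encodable.encode a ≤ Encodable.encode b}) := by
    ext ω
    simp only [Set.mem_ofPred_eq, kord_iff, Set.mem_union, Set.mem_inter_iff]
  rw [this]
  exact (measurableSet_lt (hK a) (hK b)).union
    ((measurableSet_eq_fun (hK a) (hK b)).inter (MeasurableSet.const _))

theorem measurableSet_kpairwise {Ω : Type*} [MeasurableSpace Ω] {K : Ω → ι → ℝ}
    (hK : ∀ i, Measurable fun ω => K ω i) (l : List ι) :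
    MeasurableSet {ω | l.Pairwise (kord (K ω))} := by
  induction l with
  | nil => simp
  | cons a l ih =>
    have : {ω | (a :: l).Pairwise (kord (K ω))} =
        (⋂ b ∈ {b | b ∈ l}, {ω | kord (K ω) a b}) ∩ {ω | l.Pairwise (kord (K ω))} := by
      ext ω
      simp only [List.pairwise_cons, Set.mem_ofPred_eq, Set.mem_inter_iff, Set.mem_iInter]
    rw [this]
    exact (MeasurableSet.biInter (List.finite_toSet l).countable fun b _ =>
      measurableSet_kord hK a b).inter ih

theorem measurableSet_ksrt_eq {Ω : Type*} [MeasurableSpace Ω] {K : Ω → ι → ℝ}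
    (hK : ∀ i, Measurable fun ω => K ω i) {D : Ω → Finset ι}
    (hD : ∀ i, MeasurableSet {ω | i ∈ D ω}) (l : List ι) :
    MeasurableSet {ω | ksrt (K ω) (D ω) = l} := by
  have : {ω | ksrt (K ω) (D ω) = l} =
      ({_ω | l.Nodup} ∩ ⋂ x : ι, {ω | x ∈ l ↔ x ∈ D ω}) ∩ {ω | l.Pairwise (kord (K ω))} := by
    ext ω
    simp only [Set.mem_ofPred_eq, ksrt_eq_iff, Set.mem_inter_iff, Set.mem_iInter]
  rw [this]
  refine ((MeasurableSet.const _).inter (MeasurableSet.iInter fun x => ?_)).inter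
    (measurableSet_kpairwise hK l)
  by_cases hx : x ∈ l
  · simpa only [hx, true_iff, measurableSet_setOfPred] using hD x
  · have := (hD x).compl
    simpa only [hx, false_iff, measurableSet_setOfPred, Set.compl_def, Set.mem_ofPred_eq] using this

theorem measurable_ksrt_comp {Ω : Type*} [MeasurableSpace Ω] {K : Ω → ι → ℝ}
    (hK : ∀ i, Measurable fun ω => K ω i) {D : Ω → Finset ι}
    (hD : ∀ i, MeasurableSet {ω | i ∈ D ω}) {F : List ι → Ω → ℝ} (hF : ∀ l, Measurable (F l)) :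
    Measurable fun ω => F (ksrt (K ω) (D ω)) ω := by
  intro s hs
  have : (fun ω => F (ksrt (K ω) (D ω)) ω) ⁻¹' s =
      ⋃ l : List ι, ({ω | ksrt (K ω) (D ω) = l} ∩ (F l ⁻¹' s)) := by
    ext ω
    simp only [Set.mem_preimage, Set.mem_iUnion, Set.mem_inter_iff, Set.mem_ofPred_eq, exists_eq_left']
  rw [this]
  exact MeasurableSet.iUnion fun l => (measurableSet_ksrt_eq hK hD l).inter (hF l hs)

end Key

section State

variable {V : Type*}

/-- arrival time of the observation `i` -/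
noncomputable def arr (T : V × ℕ → unitInterval) (i : V × ℕ) : ℝ := (i.2 : ℝ) + (T i : ℝ)

open Classical in
/-- the observations of `S` made before time `t` -/
noncomputable def alive (T : V × ℕ → unitInterval) (S : Finset (V × ℕ)) (t : ℝ) :
    Finset (V × ℕ) :=
  S.filter fun i => (T i : ℝ) < 1 / 2 ∧ arr T i < t

theorem mem_alive {T : V × ℕ → unitInterval} {S : Finset (V × ℕ)} {t : ℝ} {i : V × ℕ} :
    i ∈ alive T S t ↔ i ∈ S ∧ (T i : ℝ) < 1 / 2 ∧ arr T i < t := by
  classical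
  simp only [alive, one_div, Finset.mem_filter]

theorem arr_inj {T : V × ℕ → unitInterval} (hT : Function.Injective T) {i j : V × ℕ}
    (hi : (T i : ℝ) < 1 / 2) (hj : (T j : ℝ) < 1 / 2) (h : arr T i = arr T j) : i = j := by
  unfold arr at h
  have h1 := (T i).2.1
  have h2 := (T j).2.1
  have h3 : i.2 = j.2 := by
    rcases lt_trichotomy i.2 j.2 with h4 | h4 | h4
    · exfalso
      have : (i.2 : ℝ) + 1 ≤ j.2 := by exact_mod_cast h4
      linarith only [this, h2, h, hi]
    · exact h4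
    · exfalso
      have : (j.2 : ℝ) + 1 ≤ i.2 := by exact_mod_cast h4
      linarith only [hj, h, h1, this]
  rw [h3] at h
  apply hT
  apply Subtype.ext
  linarith only [h]

theorem measurable_arr {Ω : Type*} [MeasurableSpace Ω] {T : Ω → V × ℕ → unitInterval}
    (hT : Measurable T) (i : V × ℕ) : Measurable fun ω => arr (T ω) i := by
  unfold arr
  exact measurable_const.add (measurable_subtype_coe.comp ((measurable_pi_apply i).comp hT))

variable [Encodable V]

/-- the list of the observations of `S` made before time `t`, the last one at the head -/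
noncomputable def stt (T : V × ℕ → unitInterval) (S : Finset (V × ℕ)) (t : ℝ) :
    List (V × ℕ) := ksrt (fun i => -arr T i) (alive T S t)

theorem nodup_stt (T : V × ℕ → unitInterval) (S : Finset (V × ℕ)) (t : ℝ) :
    (stt T S t).Nodup := nodup_ksrt _ _

theorem mem_stt {T : V × ℕ → unitInterval} {S : Finset (V × ℕ)} {t : ℝ} {i : V × ℕ} :
    i ∈ stt T S t ↔ i ∈ S ∧ (T i : ℝ) < 1 / 2 ∧ arr T i < t := by
  rw [stt, mem_ksrt, mem_alive]

theorem stt_congr {T T' : V × ℕ → unitInterval} {S S' : Finset (V × ℕ)} {t t' : ℝ}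
    (h : ∀ i, (i ∈ S ∧ (T i : ℝ) < 1 / 2 ∧ arr T i < t) ↔
      (i ∈ S' ∧ (T' i : ℝ) < 1 / 2 ∧ arr T' i < t'))
    (h' : ∀ i, (i ∈ S ∧ (T i : ℝ) < 1 / 2 ∧ arr T i < t) → T i = T' i) :
    stt T S t = stt T' S' t' := by
  have e : alive T S t = alive T' S' t' := by
    ext i
    rw [mem_alive, mem_alive, h]
  rw [stt, stt, e]
  apply ksrt_congr
  intro i hi
  rw [← e, mem_alive] at hi
  simp only [arr, h' i hi]

theorem measurable_stt_comp {Ω : Type*} [MeasurableSpace Ω] {T : Ω → V × ℕ → unitInterval}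
    (hT : Measurable T) {t : Ω → ℝ} (ht : Measurable t) (S : Finset (V × ℕ))
    {F : List (V × ℕ) → Ω → ℝ} (hF : ∀ l, Measurable (F l)) :
    Measurable fun ω => F (stt (T ω) S (t ω)) ω := by
  unfold stt
  refine measurable_ksrt_comp (fun i => (measurable_arr hT i).neg) ?_ hF
  intro i
  have : {ω | i ∈ alive (T ω) S (t ω)} =
      ({_ω | i ∈ S} ∩ {ω | (T ω i : ℝ) < 1 / 2}) ∩ {ω | arr (T ω) i < t ω} := by
    ext ω
    simp only [Set.mem_ofPred_eq, mem_alive, Set.mem_inter_iff, and_assoc]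
  rw [this]
  refine ((MeasurableSet.const _).inter ?_).inter ?_
  · exact measurableSet_lt (measurable_subtype_coe.comp ((measurable_pi_apply i).comp hT))
      measurable_const
  · exact measurableSet_lt (measurable_arr hT i) ht

/-- telescoping over the observations made between the times `t'` and `t` -/
theorem stt_telescope {T : V × ℕ → unitInterval} (hT : Function.Injective T)
    (S : Finset (V × ℕ)) {Φ : List (V × ℕ) → ℝ} {X : V × ℕ → List (V × ℕ) → ℝ}
    (hΦ : ∀ i l, (T i : ℝ) < 1 / 2 → (i :: l).Nodup → (∀ j ∈ i :: l, j ∈ S) →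
      Φ (i :: l) ≤ Φ l + X i l) {t' : ℝ} :
    ∀ t, t' ≤ t → Φ (stt T S t) ≤ Φ (stt T S t') +
      ∑ i ∈ S, (if (T i : ℝ) < 1 / 2 ∧ t' ≤ arr T i ∧ arr T i < t then
        X i (stt T S (arr T i)) else 0) := by
  classical
  have key : ∀ n : ℕ, ∀ t, t' ≤ t →
      (S.filter fun i => (T i : ℝ) < 1 / 2 ∧ t' ≤ arr T i ∧ arr T i < t).card = n →
      Φ (stt T S t) ≤ Φ (stt T S t') +
        ∑ i ∈ S.filter fun i => (T i : ℝ) < 1 / 2 ∧ t' ≤ arr T i ∧ arr T i < t,
        X i (stt T S (arr T i)) := by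
    intro n
    induction n with
    | zero =>
      intro t ht hn
      rw [Finset.card_eq_zero] at hn
      rw [hn, Finset.sum_empty, add_zero]
      have : stt T S t = stt T S t' := by
        apply stt_congr
        · intro i
          constructor
          · rintro ⟨h1, h2, h3⟩
            refine ⟨h1, h2, ?_⟩
            by_contra h4
            have : i ∈ S.filter fun i => (T i : ℝ) < 1 / 2 ∧ t' ≤ arr T i ∧ arr T i < t := by
              rw [Finset.mem_filter]
              exact ⟨h1, h2, not_lt.1 h4, h3⟩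
            rw [hn] at this
            simp at this
          · rintro ⟨h1, h2, h3⟩
            exact ⟨h1, h2, by linarith only [ht, h3]⟩
        · intro i _
          rfl
      rw [this]
    | succ n ih =>
      intro t ht hn
      obtain ⟨i, hi, hmax⟩ := Finset.exists_max_image
        (S.filter fun i => (T i : ℝ) < 1 / 2 ∧ t' ≤ arr T i ∧ arr T i < t) (arr T)
        (by rw [← Finset.card_pos]; omega)
      have hi' := hi
      rw [Finset.mem_filter] at hi'
      obtain ⟨hiS, hi1, hi2, hi3⟩ := hi'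
      have e1 : (S.filter fun j => (T j : ℝ) < 1 / 2 ∧ t' ≤ arr T j ∧ arr T j < arr T i) =
          (S.filter fun j => (T j : ℝ) < 1 / 2 ∧ t' ≤ arr T j ∧ arr T j < t).erase i := by
        ext j
        rw [Finset.mem_erase, Finset.mem_filter, Finset.mem_filter]
        constructor
        · rintro ⟨h1, h2, h3, h4⟩
          refine ⟨?_, h1, h2, h3, h4.trans hi3⟩
          rintro rfl
          exact lt_irrefl _ h4
        · rintro ⟨h1, h2, h3, h4, h5⟩
          refine ⟨h2, h3, h4, lt_of_le_of_ne ?_ ?_⟩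
          · exact hmax j (by rw [Finset.mem_filter]; exact ⟨h2, h3, h4, h5⟩)
          · intro h6
            exact h1 (arr_inj hT h3 hi1 h6)
      have e2 : stt T S t = i :: stt T S (arr T i) := by
        have : alive T S t = insert i (alive T S (arr T i)) := by
          ext j
          rw [Finset.mem_insert, mem_alive, mem_alive]
          constructor
          · rintro ⟨h1, h2, h3⟩
            by_cases hji : j = i
            · exact Or.inl hji
            · right
              refine ⟨h1, h2, ?_⟩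
              by_cases h4 : t' ≤ arr T j
              · refine lt_of_le_of_ne ?_ ?_
                · exact hmax j (by rw [Finset.mem_filter]; exact ⟨h1, h2, h4, h3⟩)
                · intro h6
                  exact hji (arr_inj hT h2 hi1 h6)
              · linarith only [hi2, h4]
          · rintro (rfl | ⟨h1, h2, h3⟩)
            · exact ⟨hiS, hi1, hi3⟩
            · exact ⟨h1, h2, h3.trans hi3⟩
        rw [stt, this, ksrt_insert]
        · rfl
        · rw [mem_alive]
          rintro ⟨-, -, h⟩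
          exact lt_irrefl _ h
        · intro j hj
          rw [mem_alive] at hj
          linarith only [hj]
      have hnd : (i :: stt T S (arr T i)).Nodup := by
        rw [← e2]
        exact nodup_stt _ _ _
      have hmem : ∀ j ∈ i :: stt T S (arr T i), j ∈ S := by
        rw [← e2]
        intro j hj
        rw [mem_stt] at hj
        exact hj.1
      have h1 := hΦ i _ hi1 hnd hmem
      have h2 := ih (arr T i) hi2 (by
        rw [e1, Finset.card_erase_of_mem hi, hn]
        rfl)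
      rw [e2]
      rw [e1] at h2
      have h3 := Finset.add_sum_erase
        (S.filter fun i => (T i : ℝ) < 1 / 2 ∧ t' ≤ arr T i ∧ arr T i < t)
        (fun i => X i (stt T S (arr T i))) hi
      linarith only [h3, h2, h1]
  intro t ht
  rw [← Finset.sum_filter]
  exact key _ t ht rfl

end State

section Average

variable {V : Type*} [Encodable V]

/-- a function of the labels and of a list which depends only on the labels in the list -/
structure LabF (Y : (V × ℕ → unitInterval) → List (V × ℕ) → ℝ) (C : ℝ) : Prop where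
  meas : ∀ l, Measurable fun T => Y T l
  dep : ∀ T T' l, (∀ j ∈ l, T j = T' j) → Y T l = Y T' l
  bdd : ∀ T l, |Y T l| ≤ C

/-- average over the labels of a function of the labels and of the list at time `r` -/
noncomputable def avT (S : Finset (V × ℕ)) (Y : (V × ℕ → unitInterval) → List (V × ℕ) → ℝ)
    (r : ℝ) : ℝ :=
  ∫ T, Y T (stt T S r) ∂(noise V)

variable {Y : (V × ℕ → unitInterval) → List (V × ℕ) → ℝ} {C : ℝ}

theorem measurable_stt_left (S : Finset (V × ℕ)) (hY : LabF Y C) (t : ℝ) :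
    Measurable fun T : V × ℕ → unitInterval => Y T (stt T S t) :=
  measurable_stt_comp measurable_id measurable_const S (F := fun l T => Y T l) hY.meas

theorem measurable_avT (S : Finset (V × ℕ)) (hY : LabF Y C) : Measurable (avT S Y) := by
  have h : Measurable fun p : ℝ × (V × ℕ → unitInterval) => Y p.2 (stt p.2 S p.1) :=
    measurable_stt_comp measurable_snd measurable_fst S (F := fun l p => Y p.2 l)
      fun l => (hY.meas l).comp measurable_snd
  exact (h.stronglyMeasurable.integral_prod_right' (ν := noise V)).measurable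

theorem integrable_stt (S : Finset (V × ℕ)) (hY : LabF Y C) (t : ℝ) :
    Integrable (fun T : V × ℕ → unitInterval => Y T (stt T S t)) (noise V) :=
  Integrable.of_bound (measurable_stt_left S hY t).aestronglyMeasurable C
    (Filter.Eventually.of_forall fun _ => hY.bdd _ _)

theorem abs_avT_le (S : Finset (V × ℕ)) (hY : LabF Y C) (r : ℝ) : |avT S Y r| ≤ C := by
  have := norm_integral_le_of_norm_le_const (μ := noise V)
    (f := fun T : V × ℕ → unitInterval => Y T (stt T S r)) (C := C)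
    (Filter.Eventually.of_forall fun _ => hY.bdd _ _)
  simpa only [avT, ge_iff_le, Real.norm_eq_abs, probReal_univ, mul_one] using this

theorem avT_nonneg (S : Finset (V × ℕ)) (hY0 : ∀ T l, 0 ≤ Y T l) (r : ℝ) :
    0 ≤ avT S Y r := integral_nonneg fun _ => hY0 _ _

theorem avT_mono (S : Finset (V × ℕ)) {Y' : (V × ℕ → unitInterval) → List (V × ℕ) → ℝ} {C' : ℝ}
    (hY : LabF Y C) (hY' : LabF Y' C') (h : ∀ T l, Y T l ≤ Y' T l) (r : ℝ) :
    avT S Y r ≤ avT S Y' r :=
  integral_mono (integrable_stt S hY r) (integrable_stt S hY' r) fun _ => h _ _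

theorem stt_update_eq [DecidableEq (V × ℕ)] (T : V × ℕ → unitInterval) (S : Finset (V × ℕ))
    (i : V × ℕ) {u u' : unitInterval} {r : ℝ} (hu : ¬ ((u : ℝ) < 1 / 2 ∧ (i.2 : ℝ) + u < r))
    (hu' : ¬ ((u' : ℝ) < 1 / 2 ∧ (i.2 : ℝ) + u' < r)) :
    stt (Function.update T i u) S r = stt (Function.update T i u') S r := by
  apply stt_congr
  · intro j
    by_cases hj : j = i
    · subst hj
      unfold arr
      simp only [Function.update_self]
      exact ⟨fun h => absurd h.2 hu, fun h => absurd h.2 hu'⟩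
    · unfold arr
      simp only [Function.update_of_ne hj]
  · intro j h
    by_cases hj : j = i
    · subst hj
      unfold arr at h
      simp only [Function.update_self] at h
      exact absurd h.2 hu
    · simp only [Function.update_of_ne hj]

theorem LabF.update_eq (hY : LabF Y C) [DecidableEq (V × ℕ)] (T : V × ℕ → unitInterval)
    (S : Finset (V × ℕ)) (i : V × ℕ) {u u' : unitInterval} {r : ℝ}
    (hu : ¬ ((u : ℝ) < 1 / 2 ∧ (i.2 : ℝ) + u < r))
    (hu' : ¬ ((u' : ℝ) < 1 / 2 ∧ (i.2 : ℝ) + u' < r)) :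
    Y (Function.update T i u) (stt (Function.update T i u) S r) =
      Y (Function.update T i u') (stt (Function.update T i u') S r) := by
  rw [stt_update_eq T S i hu hu']
  apply hY.dep
  intro j hj
  rw [mem_stt] at hj
  by_cases hji : j = i
  · subst hji
    unfold arr at hj
    simp only [Function.update_self] at hj
    exact absurd hj.2 hu'
  · simp only [Function.update_of_ne hji]

omit [Encodable V] in
theorem measurable_update_one [DecidableEq (V × ℕ)] (i : V × ℕ) (u : unitInterval) :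
    Measurable fun T : V × ℕ → unitInterval => Function.update T i u := by
  rw [measurable_pi_iff]
  intro j
  by_cases hj : j = i
  · subst hj
    simp only [Function.update_self]
    exact measurable_const
  · simp only [Function.update_of_ne hj]
    exact measurable_pi_apply j

theorem integral_stt_update_le [DecidableEq (V × ℕ)] (S : Finset (V × ℕ)) (hY : LabF Y C)
    (hY0 : ∀ T l, 0 ≤ Y T l) (i : V × ℕ) (r : ℝ) :
    ∫ T, Y (Function.update T i 1) (stt (Function.update T i 1) S r) ∂(noise V) ≤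
      2 * avT S Y r := by
  unfold avT
  rw [integral_fresh (volume : Measure unitInterval) i (fun T => Y T (stt T S r))
    (measurable_stt_left S hY r) (fun T => hY.bdd _ _), ← integral_const_mul]
  refine integral_mono ?_ ?_ ?_
  · refine Integrable.of_bound
      ((measurable_stt_left S hY r).comp (measurable_update_one i 1)).aestronglyMeasurable C ?_
    exact Filter.Eventually.of_forall fun _ => hY.bdd _ _
  · have hmeas : Measurable fun p : (V × ℕ → unitInterval) × unitInterval =>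
        Y (Function.update p.1 i p.2) (stt (Function.update p.1 i p.2) S r) :=
      (measurable_stt_left S hY r).comp (measurePreserving_update (volume : Measure unitInterval)
        i).measurable
    refine Integrable.const_mul ?_ 2
    refine Integrable.of_bound
      (hmeas.stronglyMeasurable.integral_prod_right' (ν := volume)).aestronglyMeasurable C ?_
    refine Filter.Eventually.of_forall fun T => ?_
    have := norm_integral_le_of_norm_le_const (μ := (volume : Measure unitInterval))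
      (f := fun u => Y (Function.update T i u) (stt (Function.update T i u) S r)) (C := C)
      (Filter.Eventually.of_forall fun _ => hY.bdd _ _)
    simpa only [Real.norm_eq_abs, ge_iff_le, probReal_univ, mul_one] using this
  · intro T
    simp only
    have h1 : ∀ u : unitInterval, (Set.Ici (⟨1 / 2, by norm_num, by norm_num⟩ : unitInterval)).indicator
        (fun _ => Y (Function.update T i 1) (stt (Function.update T i 1) S r)) u ≤
        Y (Function.update T i u) (stt (Function.update T i u) S r) := by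
      intro u
      by_cases hu : u ∈ Set.Ici (⟨1 / 2, by norm_num, by norm_num⟩ : unitInterval)
      · rw [Set.indicator_of_mem hu, hY.update_eq T S i (u := 1) (u' := u)]
        · norm_num
        · have : (1 / 2 : ℝ) ≤ u := hu
          rintro ⟨h, -⟩
          linarith
      · rw [Set.indicator_of_notMem hu]
        exact hY0 _ _
    have h2 : ∫ u : unitInterval,
        (Set.Ici (⟨1 / 2, by norm_num, by norm_num⟩ : unitInterval)).indicator
        (fun _ => Y (Function.update T i 1) (stt (Function.update T i 1) S r)) u =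
        1 / 2 * Y (Function.update T i 1) (stt (Function.update T i 1) S r) := by
      rw [integral_indicator measurableSet_Ici, setIntegral_const, measureReal_def,
        unitInterval.volume_Ici]
      norm_num
    have hmeasT : Measurable fun u : unitInterval =>
        Y (Function.update T i u) (stt (Function.update T i u) S r) := by
      refine (measurable_stt_left S hY r).comp ?_
      exact (measurePreserving_update (volume : Measure unitInterval)
        i).measurable.comp (measurable_const.prodMk measurable_id)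
    have h3 := integral_mono (μ := (volume : Measure unitInterval))
      ((integrable_const (Y (Function.update T i 1)
        (stt (Function.update T i 1) S r))).indicator measurableSet_Ici)
      (Integrable.of_bound hmeasT.aestronglyMeasurable C
        (Filter.Eventually.of_forall fun _ => hY.bdd _ _)) h1
    rw [h2] at h3
    linarith only [h3]

theorem integral_label (S : Finset (V × ℕ)) (i : V × ℕ) (hY : LabF Y C)
    (hY0 : ∀ T l, 0 ≤ Y T l) {w : ℝ → ℝ} (hw : Measurable w)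
    (hw0 : ∀ r, 0 ≤ r → r < 1 / 2 → 0 ≤ w r) {Cw : ℝ}
    (hwC : ∀ r, 0 ≤ r → r < 1 / 2 → w r ≤ Cw) {t' t : ℝ} (ht : t' ≤ t) :
    ∫ T, (if (T i : ℝ) < 1 / 2 ∧ t' ≤ arr T i ∧ arr T i < t then
        w (T i) * Y T (stt T S (arr T i)) else 0) ∂(noise V) ≤
      ∫ r in t'..t, (if (i.2 : ℝ) ≤ r ∧ r < i.2 + 1 / 2 then
        2 * (w (r - i.2) * avT S Y r) else 0) := by
  classical
  have hC0 : 0 ≤ C := (abs_nonneg _).trans (hY.bdd (fun _ => 0) [])
  have hCw0 : 0 ≤ Cw := (hw0 0 le_rfl (by norm_num)).trans (hwC 0 le_rfl (by norm_num))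
  have hset : MeasurableSet {T : V × ℕ → unitInterval |
      (T i : ℝ) < 1 / 2 ∧ t' ≤ arr T i ∧ arr T i < t} := by
    refine (measurableSet_lt (measurable_subtype_coe.comp (measurable_pi_apply i))
      measurable_const).inter ((measurableSet_le measurable_const
      (measurable_arr measurable_id i)).inter (measurableSet_lt
      (measurable_arr measurable_id i) measurable_const))
  have hg : Measurable fun T : V × ℕ → unitInterval =>
      (if (T i : ℝ) < 1 / 2 ∧ t' ≤ arr T i ∧ arr T i < t then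
        w (T i) * Y T (stt T S (arr T i)) else 0) := by
    refine Measurable.ite hset ?_ measurable_const
    refine (hw.comp (measurable_subtype_coe.comp (measurable_pi_apply i))).mul ?_
    exact measurable_stt_comp measurable_id (measurable_arr measurable_id i) S
      (F := fun l T => Y T l) hY.meas
  have hbd : ∀ (T : V × ℕ → unitInterval) (l : List (V × ℕ)) (x : ℝ), 0 ≤ x → x < 1 / 2 →
      |w x * Y T l| ≤ Cw * C := by
    intro T l x hx hx'
    rw [abs_mul, abs_of_nonneg (hw0 _ hx hx')]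
    exact mul_le_mul (hwC _ hx hx') (hY.bdd _ _) (abs_nonneg _) hCw0
  rw [integral_fresh (volume : Measure unitInterval) i _ hg (C := Cw * C) (fun T => by
    split_ifs with h
    · exact hbd _ _ _ (T i).2.1 h.1
    · simpa only [abs_zero] using mul_nonneg hCw0 hC0)]
  -- replace the state by the one without `i`
  have e1 : ∀ (T : V × ℕ → unitInterval) (u : unitInterval),
      (if ((Function.update T i u i : unitInterval) : ℝ) < 1 / 2 ∧
        t' ≤ arr (Function.update T i u) i ∧ arr (Function.update T i u) i < t then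
        w (Function.update T i u i : unitInterval) *
          Y (Function.update T i u) (stt (Function.update T i u) S
            (arr (Function.update T i u) i)) else 0) =
      (if (u : ℝ) < 1 / 2 ∧ t' ≤ (i.2 : ℝ) + u ∧ (i.2 : ℝ) + u < t then
        w u * Y (Function.update T i 1)
          (stt (Function.update T i 1) S ((i.2 : ℝ) + u)) else 0) := by
    intro T u
    have : arr (Function.update T i u) i = (i.2 : ℝ) + u := by simp only [arr, Function.update_self]
    rw [this, Function.update_self, hY.update_eq T S i (u := u) (u' := 1)]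
    · simp only [one_div, lt_self_iff_false, and_false, not_false_eq_true]
    · norm_num
  simp only [e1]
  have hset2 : MeasurableSet {u : unitInterval |
      (u : ℝ) < 1 / 2 ∧ t' ≤ (i.2 : ℝ) + u ∧ (i.2 : ℝ) + u < t} := by
    refine (measurableSet_lt measurable_subtype_coe measurable_const).inter
      ((measurableSet_le measurable_const (measurable_subtype_coe.const_add _)).inter
      (measurableSet_lt (measurable_subtype_coe.const_add _) measurable_const))
  have hm2 : Measurable fun p : (V × ℕ → unitInterval) × unitInterval =>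
      (if (p.2 : ℝ) < 1 / 2 ∧ t' ≤ (i.2 : ℝ) + p.2 ∧ (i.2 : ℝ) + p.2 < t then
        w p.2 * Y (Function.update p.1 i 1)
          (stt (Function.update p.1 i 1) S ((i.2 : ℝ) + p.2)) else 0) := by
    refine Measurable.ite (measurable_snd hset2) ?_ measurable_const
    refine (hw.comp (measurable_subtype_coe.comp measurable_snd)).mul ?_
    exact measurable_stt_comp ((measurable_update_one i 1).comp measurable_fst)
      ((measurable_subtype_coe.comp measurable_snd).const_add _) S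
      (F := fun l p => Y (Function.update p.1 i 1) l)
      fun l => (hY.meas l).comp ((measurable_update_one i 1).comp measurable_fst)
  have hb2 : ∀ (T : V × ℕ → unitInterval) (u : unitInterval),
      |(if (u : ℝ) < 1 / 2 ∧ t' ≤ (i.2 : ℝ) + u ∧ (i.2 : ℝ) + u < t then
        w u * Y (Function.update T i 1)
          (stt (Function.update T i 1) S ((i.2 : ℝ) + u)) else 0)| ≤ Cw * C := by
    intro T u
    split_ifs with h
    · exact hbd _ _ _ u.2.1 h.1
    · simpa only [abs_zero] using mul_nonneg hCw0 hC0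
  rw [integral_integral_swap (Integrable.of_bound hm2.aestronglyMeasurable (Cw * C)
    (Filter.Eventually.of_forall fun p => hb2 p.1 p.2))]
  -- bound for fixed u
  have e2 : ∀ u : unitInterval, ∫ T : V × ℕ → unitInterval,
      (if (u : ℝ) < 1 / 2 ∧ t' ≤ (i.2 : ℝ) + u ∧ (i.2 : ℝ) + u < t then
        w u * Y (Function.update T i 1)
          (stt (Function.update T i 1) S ((i.2 : ℝ) + u)) else 0) ∂(noise V) ≤
      (fun u : ℝ => if 0 ≤ u ∧ u < 1 / 2 ∧ t' ≤ (i.2 : ℝ) + u ∧ (i.2 : ℝ) + u < t then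
        2 * (w u * avT S Y ((i.2 : ℝ) + u)) else 0) u := by
    intro u
    simp only
    by_cases h : (u : ℝ) < 1 / 2 ∧ t' ≤ (i.2 : ℝ) + u ∧ (i.2 : ℝ) + u < t
    · rw [if_pos ⟨u.2.1, h⟩]
      simp only [if_pos h]
      rw [integral_const_mul]
      have h1 := integral_stt_update_le S hY hY0 i ((i.2 : ℝ) + u)
      have h2 := mul_le_mul_of_nonneg_left h1 (hw0 u u.2.1 h.1)
      linarith only [h2]
    · rw [if_neg (fun h' => h h'.2)]
      simp only [if_neg h]
      simp
  have hav := measurable_avT S hY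
  have hf : Measurable (fun u : ℝ => if 0 ≤ u ∧ u < 1 / 2 ∧ t' ≤ (i.2 : ℝ) + u ∧
      (i.2 : ℝ) + u < t then 2 * (w u * avT S Y ((i.2 : ℝ) + u)) else 0) := by
    refine Measurable.ite ?_ ((hw.mul (hav.comp (measurable_id.const_add _))).const_mul 2)
      measurable_const
    exact (measurableSet_le measurable_const measurable_id).inter
      ((measurableSet_lt measurable_id measurable_const).inter
      ((measurableSet_le measurable_const (measurable_id.const_add _)).inter
      (measurableSet_lt (measurable_id.const_add _) measurable_const)))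
  have hbw : ∀ x r : ℝ, 0 ≤ x → x < 1 / 2 → |2 * (w x * avT S Y r)| ≤ 2 * (Cw * C) := by
    intro x r hx hx'
    rw [abs_mul, abs_of_pos (by norm_num : (0 : ℝ) < 2), abs_mul, abs_of_nonneg (hw0 _ hx hx')]
    have := mul_le_mul (hwC _ hx hx') (abs_avT_le S hY r) (abs_nonneg _) hCw0
    linarith only [this]
  have hfb : ∀ u : ℝ, |(fun u : ℝ => if 0 ≤ u ∧ u < 1 / 2 ∧ t' ≤ (i.2 : ℝ) + u ∧
      (i.2 : ℝ) + u < t then 2 * (w u * avT S Y ((i.2 : ℝ) + u)) else 0) u| ≤
      2 * (Cw * C) := by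
    intro u
    simp only
    split_ifs with h
    · exact hbw _ _ h.1 h.2.1
    · simpa only [abs_zero, Nat.ofNat_pos, mul_nonneg_iff_of_pos_left] using mul_nonneg hCw0 hC0
  have e3 := integral_mono (μ := (volume : Measure unitInterval)) (by
      refine Integrable.of_bound
        (hm2.comp measurable_swap).stronglyMeasurable.integral_prod_right'.aestronglyMeasurable
        (Cw * C) (Filter.Eventually.of_forall fun u => ?_)
      have := norm_integral_le_of_norm_le_const (μ := noise V)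
        (f := fun T : V × ℕ → unitInterval =>
          (if (u : ℝ) < 1 / 2 ∧ t' ≤ (i.2 : ℝ) + u ∧ (i.2 : ℝ) + u < t then
          w u * Y (Function.update T i 1)
            (stt (Function.update T i 1) S ((i.2 : ℝ) + u)) else 0)) (C := Cw * C)
        (Filter.Eventually.of_forall fun T => hb2 T u)
      simpa only [one_div, Real.norm_eq_abs, ge_iff_le, probReal_univ, mul_one] using this)
    (Integrable.of_bound (hf.comp measurable_subtype_coe).aestronglyMeasurable (2 * (Cw * C))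
      (Filter.Eventually.of_forall fun u => hfb u)) e2
  refine e3.trans ?_
  have e3' := integral_unitInterval (fun u : ℝ =>
    if 0 ≤ u ∧ u < 1 / 2 ∧ t' ≤ (i.2 : ℝ) + u ∧ (i.2 : ℝ) + u < t then
        2 * (w u * avT S Y ((i.2 : ℝ) + u)) else 0)
  simp only [Function.comp_def]
  rw [e3']
  -- shift
  set F : ℝ → ℝ := fun r => if (i.2 : ℝ) ≤ r ∧ r < i.2 + 1 / 2 then
    2 * (w (r - i.2) * avT S Y r) else 0 with hF
  have hFm : Measurable F := by
    refine Measurable.ite ?_ (((hw.comp (measurable_id.sub_const _)).mul hav).const_mul 2)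
      measurable_const
    exact (measurableSet_le measurable_const measurable_id).inter
      (measurableSet_lt measurable_id measurable_const)
  have hFb : ∀ r, |F r| ≤ 2 * (Cw * C) := by
    intro r
    rw [hF]
    simp only
    split_ifs with h
    · exact hbw _ _ (by linarith only [h]) (by linarith only [h])
    · simpa only [abs_zero, Nat.ofNat_pos, mul_nonneg_iff_of_pos_left] using mul_nonneg hCw0 hC0
  have hF0 : ∀ r, 0 ≤ F r := by
    intro r
    rw [hF]
    simp only
    split_ifs with h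
    · have := mul_nonneg (hw0 (r - i.2) (by linarith only [h]) (by linarith only [h]))
        (avT_nonneg S hY0 r)
      linarith only [this]
    · exact le_rfl
  have e4 : ∫ u in (0 : ℝ)..1, (if 0 ≤ u ∧ u < 1 / 2 ∧ t' ≤ (i.2 : ℝ) + u ∧
        (i.2 : ℝ) + u < t then 2 * (w u * avT S Y ((i.2 : ℝ) + u)) else 0) =
      ∫ u in (0 : ℝ)..1, (Set.Ico t' t).indicator F ((i.2 : ℝ) + u) := by
    apply intervalIntegral.integral_congr
    intro u hu
    rw [Set.uIcc_of_le (by norm_num)] at hu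
    simp only
    by_cases h1 : 0 ≤ u ∧ u < 1 / 2 ∧ t' ≤ (i.2 : ℝ) + u ∧ (i.2 : ℝ) + u < t
    · have h3 : (i.2 : ℝ) + u ∈ Set.Ico t' t := ⟨h1.2.2.1, h1.2.2.2⟩
      rw [if_pos h1, Set.indicator_of_mem h3, hF]
      simp only
      rw [if_pos ⟨by linarith only [h1], by linarith only [h1]⟩, add_sub_cancel_left]
    · rw [if_neg h1]
      by_cases h2 : (i.2 : ℝ) + u ∈ Set.Ico t' t
      · rw [Set.indicator_of_mem h2, hF]
        simp only
        rw [if_neg]
        rintro ⟨-, h3⟩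
        exact h1 ⟨hu.1, by linarith only [h3], h2.1, h2.2⟩
      · rw [Set.indicator_of_notMem h2]
  rw [e4, intervalIntegral.integral_comp_add_left (fun r => (Set.Ico t' t).indicator F r),
    intervalIntegral.integral_of_le (by linarith only []), intervalIntegral.integral_of_le ht,
    ← integral_Ico_eq_integral_Ioc (x := t'), ← integral_indicator measurableSet_Ico]
  apply setIntegral_le_integral
  · refine (integrable_indicator_iff measurableSet_Ico).2 ?_
    refine Measure.integrableOn_of_bounded (M := 2 * (Cw * C)) (by simp only [Real.volume_Ico, ne_eq, ENNReal.ofReal_ne_top, not_false_eq_true])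
      hFm.aestronglyMeasurable ?_
    exact Filter.Eventually.of_forall fun r => hFb r
  · refine Filter.Eventually.of_forall fun r => ?_
    exact Set.indicator_nonneg (s := Set.Ico t' t) (fun r _ => hF0 r) r

/-- THE LABEL-TIME INEQUALITY -/
theorem label_time (S : Finset (V × ℕ)) {Φ : (V × ℕ → unitInterval) → List (V × ℕ) → ℝ}
    {g : V → (V × ℕ → unitInterval) → List (V × ℕ) → ℝ} {w : ℝ → ℝ} {C Cw : ℝ}
    (hΦ : LabF Φ C) (hg : ∀ v, LabF (g v) C) (hg0 : ∀ v T l, 0 ≤ g v T l)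
    (hw : Measurable w) (hw0 : ∀ r, 0 ≤ r → r < 1 / 2 → 0 ≤ w r)
    (hwC : ∀ r, 0 ≤ r → r < 1 / 2 → w r ≤ Cw)
    (hstep : ∀ T i l, (T i : ℝ) < 1 / 2 → (i :: l).Nodup → (∀ j ∈ i :: l, j ∈ S) →
      Φ T (i :: l) ≤ Φ T l + w (T i) * g i.1 T l)
    (B : Finset V) (hB : ∀ i ∈ S, i.1 ∈ B) {t' t : ℝ} (ht : t' ≤ t) :
    avT S Φ t ≤ avT S Φ t' +
      ∫ r in t'..t, (if Int.fract r < 1 / 2 then
        2 * (w (Int.fract r) * ∑ v ∈ B, avT S (g v) r) else 0) := by
  classical
  have hC0 : 0 ≤ C := (abs_nonneg _).trans (hΦ.bdd (fun _ => 0) [])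
  have hCw0 : 0 ≤ Cw := (hw0 0 le_rfl (by norm_num)).trans (hwC 0 le_rfl (by norm_num))
  have hset : ∀ i : V × ℕ, MeasurableSet {T : V × ℕ → unitInterval |
      (T i : ℝ) < 1 / 2 ∧ t' ≤ arr T i ∧ arr T i < t} := by
    intro i
    refine (measurableSet_lt (measurable_subtype_coe.comp (measurable_pi_apply i))
      measurable_const).inter ((measurableSet_le measurable_const
      (measurable_arr measurable_id i)).inter (measurableSet_lt
      (measurable_arr measurable_id i) measurable_const))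
  have hgi : ∀ i : V × ℕ, Integrable (fun T : V × ℕ → unitInterval =>
      (if (T i : ℝ) < 1 / 2 ∧ t' ≤ arr T i ∧ arr T i < t then
        w (T i) * g i.1 T (stt T S (arr T i)) else 0)) (noise V) := by
    intro i
    refine Integrable.of_bound (Measurable.ite (hset i) ?_ measurable_const).aestronglyMeasurable
      (Cw * C) (Filter.Eventually.of_forall fun T => ?_)
    · refine (hw.comp (measurable_subtype_coe.comp (measurable_pi_apply i))).mul ?_
      exact measurable_stt_comp measurable_id (measurable_arr measurable_id i) S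
        (F := fun l T => g i.1 T l) (hg i.1).meas
    · split_ifs with h
      · rw [Real.norm_eq_abs, abs_mul, abs_of_nonneg (hw0 _ (T i).2.1 h.1)]
        exact mul_le_mul (hwC _ (T i).2.1 h.1) ((hg i.1).bdd _ _) (abs_nonneg _) hCw0
      · simpa only [norm_zero] using mul_nonneg hCw0 hC0
  have h1 : avT S Φ t ≤ avT S Φ t' + ∑ i ∈ S, ∫ T,
      (if (T i : ℝ) < 1 / 2 ∧ t' ≤ arr T i ∧ arr T i < t then
        w (T i) * g i.1 T (stt T S (arr T i)) else 0) ∂(noise V) := by
    unfold avT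
    rw [← integral_finsetSum _ (fun i _ => hgi i),
      ← integral_add (integrable_stt S hΦ t') (integrable_finsetSum _ fun i _ => hgi i)]
    refine integral_mono_ae (integrable_stt S hΦ t)
      ((integrable_stt S hΦ t').add (integrable_finsetSum _ fun i _ => hgi i)) ?_
    have := Encodable.countable (α := V)
    filter_upwards [ae_injective_labels (ι := V × ℕ)] with T hT
    exact stt_telescope hT S (X := fun i l => w (T i) * g i.1 T l)
      (fun i l h0 h1 h2 => hstep T i l h0 h1 h2) t ht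
  refine h1.trans ?_
  have h2 : ∀ i ∈ S, ∫ T,
      (if (T i : ℝ) < 1 / 2 ∧ t' ≤ arr T i ∧ arr T i < t then
        w (T i) * g i.1 T (stt T S (arr T i)) else 0) ∂(noise V) ≤
      ∫ r in t'..t, (if (i.2 : ℝ) ≤ r ∧ r < i.2 + 1 / 2 then
        2 * (w (r - i.2) * avT S (g i.1) r) else 0) :=
    fun i _ => integral_label S i (hg i.1) (hg0 i.1) hw hw0 hwC ht
  have hFm : ∀ i : V × ℕ, Measurable fun r : ℝ =>
      (if (i.2 : ℝ) ≤ r ∧ r < i.2 + 1 / 2 then 2 * (w (r - i.2) * avT S (g i.1) r) else 0) := by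
    intro i
    refine Measurable.ite ?_ (((hw.comp (measurable_id.sub_const _)).mul
      (measurable_avT S (hg i.1))).const_mul 2) measurable_const
    exact (measurableSet_le measurable_const measurable_id).inter
      (measurableSet_lt measurable_id measurable_const)
  have hFi : ∀ i : V × ℕ, IntervalIntegrable (fun r : ℝ =>
      (if (i.2 : ℝ) ≤ r ∧ r < i.2 + 1 / 2 then 2 * (w (r - i.2) * avT S (g i.1) r) else 0))
      volume t' t := by
    intro i
    rw [intervalIntegrable_iff_integrableOn_Ioc_of_le ht]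
    refine Measure.integrableOn_of_bounded (M := 2 * (Cw * C)) (by simp only [Real.volume_Ioc, ne_eq, ENNReal.ofReal_ne_top, not_false_eq_true])
      (hFm i).aestronglyMeasurable ?_
    refine Filter.Eventually.of_forall fun r => ?_
    simp only [Real.norm_eq_abs]
    split_ifs with h
    · rw [abs_mul, abs_of_pos (by norm_num : (0 : ℝ) < 2), abs_mul,
        abs_of_nonneg (hw0 _ (by (clear * - h; linarith [h.1])) (by linarith only [h]))]
      have := mul_le_mul (hwC (r - i.2) (by linarith only [h]) (by linarith only [h]))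
        (abs_avT_le S (hg i.1) r) (abs_nonneg _) hCw0
      linarith only [this]
    · simpa only [abs_zero, Nat.ofNat_pos, mul_nonneg_iff_of_pos_left] using mul_nonneg hCw0 hC0
  have hGi : IntervalIntegrable (fun r : ℝ => (if Int.fract r < 1 / 2 then
        2 * (w (Int.fract r) * ∑ v ∈ B, avT S (g v) r) else 0)) volume t' t := by
    rw [intervalIntegrable_iff_integrableOn_Ioc_of_le ht]
    refine Measure.integrableOn_of_bounded (M := 2 * (Cw * (B.card * C))) (by simp only [Real.volume_Ioc, ne_eq, ENNReal.ofReal_ne_top, not_false_eq_true]) ?_ ?_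
    · refine (Measurable.ite (measurableSet_lt measurable_fract measurable_const)
        (((hw.comp measurable_fract).mul (Finset.measurable_sum _ fun v _ =>
          measurable_avT S (hg v))).const_mul 2) measurable_const).aestronglyMeasurable
    · refine Filter.Eventually.of_forall fun r => ?_
      simp only [Real.norm_eq_abs]
      split_ifs with h
      · rw [abs_mul, abs_of_pos (by norm_num : (0 : ℝ) < 2), abs_mul,
          abs_of_nonneg (hw0 _ (Int.fract_nonneg r) h)]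
        refine mul_le_mul_of_nonneg_left ?_ (by norm_num)
        refine mul_le_mul (hwC _ (Int.fract_nonneg r) h) ?_ (abs_nonneg _) hCw0
        refine (Finset.abs_sum_le_sum_abs _ _).trans ?_
        refine (Finset.sum_le_card_nsmul _ _ C fun v _ => abs_avT_le S (hg v) r).trans ?_
        rw [nsmul_eq_mul]
      · simp only [abs_zero]
        (clear * - hCw0 hC0; positivity)
  refine add_le_add le_rfl ?_
  refine (Finset.sum_le_sum h2).trans ?_
  rw [← intervalIntegral.integral_finsetSum fun i _ => hFi i]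
  refine intervalIntegral.integral_mono_on ht ?_ hGi fun r _ => ?_
  · have := IntervalIntegrable.sum S fun i _ => hFi i
    have e : (∑ i ∈ S, fun r : ℝ => (if (i.2 : ℝ) ≤ r ∧ r < i.2 + 1 / 2 then
        2 * (w (r - i.2) * avT S (g i.1) r) else 0)) =
        fun r => ∑ i ∈ S, (if (i.2 : ℝ) ≤ r ∧ r < i.2 + 1 / 2 then
        2 * (w (r - i.2) * avT S (g i.1) r) else 0) := by
      funext r
      rw [Finset.sum_apply]
    rw [e] at this
    exact this
  · rw [← Finset.sum_filter]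
    have hfr : ∀ i : V × ℕ, (i.2 : ℝ) ≤ r ∧ r < i.2 + 1 / 2 → Int.fract r = r - i.2 := by
      intro i hi
      rw [Int.fract_eq_iff]
      refine ⟨by linarith only [hi], by linarith only [hi], i.2, by simp only [sub_sub_cancel, Int.cast_natCast]⟩
    by_cases hr : Int.fract r < 1 / 2
    · rw [if_pos hr]
      have hinj : Set.InjOn Prod.fst
          (S.filter fun i : V × ℕ => (i.2 : ℝ) ≤ r ∧ r < i.2 + 1 / 2 : Set (V × ℕ)) := by
        intro i hi j hj hij
        simp only [Finset.coe_filter, Set.mem_ofPred_eq] at hi hj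
        refine Prod.ext hij ?_
        rcases lt_trichotomy i.2 j.2 with h4 | h4 | h4
        · exfalso
          have : (i.2 : ℝ) + 1 ≤ j.2 := by exact_mod_cast h4
          linarith only [hi, hj, this]
        · exact h4
        · exfalso
          have : (j.2 : ℝ) + 1 ≤ i.2 := by exact_mod_cast h4
          linarith only [hi, hj, this]
      have h5 : ∑ i ∈ S.filter fun i : V × ℕ => (i.2 : ℝ) ≤ r ∧ r < i.2 + 1 / 2,
          2 * (w (r - i.2) * avT S (g i.1) r) =
          ∑ v ∈ (S.filter fun i : V × ℕ => (i.2 : ℝ) ≤ r ∧ r < i.2 + 1 / 2).image Prod.fst,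
            2 * (w (Int.fract r) * avT S (g v) r) := by
        rw [Finset.sum_image hinj]
        refine Finset.sum_congr rfl fun i hi => ?_
        rw [hfr i (Finset.mem_filter.1 hi).2]
      rw [h5, Finset.mul_sum, Finset.mul_sum]
      refine Finset.sum_le_sum_of_subset_of_nonneg ?_ ?_
      · intro v hv
        rw [Finset.mem_image] at hv
        obtain ⟨i, hi, rfl⟩ := hv
        exact hB i (Finset.mem_filter.1 hi).1
      · intro v _ _
        have := mul_nonneg (hw0 _ (Int.fract_nonneg r) hr) (avT_nonneg S (hg0 v) r)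
        linarith only [this]
    · rw [if_neg hr]
      apply le_of_eq
      refine Finset.sum_eq_zero fun i hi => ?_
      exfalso
      have hi' := (Finset.mem_filter.1 hi).2
      rw [hfr i hi'] at hr
      exact hr (by linarith only [hi'])

end Average

end Vale.Agent.P161
end
end

section

section

open MeasureTheory

namespace Vale.Agent.P161

variable {V : Type*}

section Order

variable [Encodable V]

/-- the order of updates inside one round: by label, ties broken by a fixed enumeration -/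
def ord (T : V → unitInterval) (x y : V) : Prop :=
  toLex (T x, Encodable.encode x) ≤ toLex (T y, Encodable.encode y)

instance (T : V → unitInterval) : IsTrans V (ord T) := ⟨fun _ _ _ h1 h2 => le_trans h1 h2⟩

instance (T : V → unitInterval) : Std.Total (ord T) := ⟨fun _ _ => le_total _ _⟩

instance (T : V → unitInterval) : Std.Antisymm (ord T) := ⟨fun x y h1 h2 => by
  have h := le_antisymm h1 h2
  have h' : (T x, Encodable.encode x) = (T y, Encodable.encode y) := toLex.injective h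
  exact Encodable.encode_injective (Prod.ext_iff.1 h').2⟩

theorem ord_iff (T : V → unitInterval) (x y : V) :
    ord T x y ↔ T x < T y ∨ T x = T y ∧ Encodable.encode x ≤ Encodable.encode y := by
  unfold ord
  rw [Prod.Lex.toLex_le_toLex]

open Classical in
/-- the vertices of `B` in the order of updates -/
noncomputable def srt (T : V → unitInterval) (B : Finset V) : List V := B.sort (ord T)

theorem nodup_srt (T : V → unitInterval) (B : Finset V) : (srt T B).Nodup := by
  classical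
  exact Finset.sort_nodup _ _

@[simp] theorem mem_srt (T : V → unitInterval) (B : Finset V) (x : V) : x ∈ srt T B ↔ x ∈ B := by
  classical
  exact Finset.mem_sort _

theorem pairwise_srt (T : V → unitInterval) (B : Finset V) : (srt T B).Pairwise (ord T) := by
  classical
  exact Finset.pairwise_sort _ _

theorem srt_eq_iff (T : V → unitInterval) (B : Finset V) (l : List V) :
    srt T B = l ↔ (l.Nodup ∧ ∀ x, x ∈ l ↔ x ∈ B) ∧ l.Pairwise (ord T) := by
  constructor
  · rintro rfl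
    exact ⟨⟨nodup_srt T B, fun x => mem_srt T B x⟩, pairwise_srt T B⟩
  · rintro ⟨⟨h1, h2⟩, h3⟩
    have hp : List.Perm (srt T B) l := by
      rw [List.perm_ext_iff_of_nodup (nodup_srt T B) h1]
      intro a
      rw [mem_srt, h2]
    exact hp.eq_of_pairwise' (pairwise_srt T B) h3

theorem filter_srt (T : V → unitInterval) {B C : Finset V} {A : Set V}
    (h : ∀ x, x ∈ B ↔ x ∈ C ∧ x ∈ A) (p : V → Bool) (hp : ∀ x, p x = true ↔ x ∈ A) :
    (srt T C).filter p = srt T B := by
  symm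
  rw [srt_eq_iff]
  refine ⟨⟨(nodup_srt T C).filter _, fun x => ?_⟩, (pairwise_srt T C).filter _⟩
  rw [List.mem_filter, mem_srt, hp, h]

theorem srt_aut (T : V → unitInterval) (hT : Function.Injective T) (g : V ≃ V) {B B' : Finset V}
    (hB : ∀ x, g x ∈ B' ↔ x ∈ B) :
    srt (fun v => T (g.symm v)) B' = (srt T B).map g := by
  rw [srt_eq_iff]
  refine ⟨⟨(nodup_srt T B).map g.injective, fun x => ?_⟩, ?_⟩
  · rw [List.mem_map]
    constructor
    · rintro ⟨a, ha, rfl⟩
      rw [hB]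
      simpa using ha
    · intro hx
      refine ⟨g.symm x, ?_, by simp⟩
      rw [mem_srt, ← hB]
      simpa using hx
  · rw [List.pairwise_map]
    have h1 := pairwise_srt T B
    have h2 : (srt T B).Pairwise (· ≠ ·) := nodup_srt T B
    refine (h1.and h2).imp ?_
    rintro a b ⟨hab, hne⟩
    rw [ord_iff] at hab ⊢
    left
    simp only [Equiv.symm_apply_apply]
    rcases hab with h | h
    · exact h
    · exact absurd (hT h.1) hne

theorem measurableSet_ord (a b : V) : MeasurableSet {T : V → unitInterval | ord T a b} := by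
  have : {T : V → unitInterval | ord T a b} =
      {T | T a < T b} ∪ ({T | T a = T b} ∩ {_T | Encodable.encode a ≤ Encodable.encode b}) := by
    ext T
    simp only [Set.mem_ofPred_eq, ord_iff, Set.mem_union, Set.mem_inter_iff]
  rw [this]
  refine (measurableSet_lt (measurable_pi_apply a) (measurable_pi_apply b)).union
    ((measurableSet_eq_fun (measurable_pi_apply a) (measurable_pi_apply b)).inter
      (MeasurableSet.const _))

theorem measurableSet_pairwise (l : List V) :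
    MeasurableSet {T : V → unitInterval | l.Pairwise (ord T)} := by
  induction l with
  | nil => simp
  | cons a l ih =>
    have : {T : V → unitInterval | (a :: l).Pairwise (ord T)} =
        (⋂ b ∈ {b | b ∈ l}, {T | ord T a b}) ∩ {T | l.Pairwise (ord T)} := by
      ext T
      simp only [List.pairwise_cons, Set.mem_ofPred_eq, Set.mem_inter_iff, Set.mem_iInter]
    rw [this]
    exact (MeasurableSet.biInter (List.finite_toSet l).countable fun b _ =>
      measurableSet_ord a b).inter ih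

theorem measurable_srt_comp {Ω : Type*} [MeasurableSpace Ω] {B : Finset V} {F : List V → Ω → ℝ}
    (hF : ∀ l, Measurable (F l)) :
    Measurable fun p : (V → unitInterval) × Ω => F (srt p.1 B) p.2 := by
  intro s hs
  have : (fun p : (V → unitInterval) × Ω => F (srt p.1 B) p.2) ⁻¹' s =
      ⋃ l : List V, ({T | srt T B = l} ×ˢ (F l ⁻¹' s)) := by
    ext p
    simp only [Set.mem_preimage, Set.mem_iUnion, Set.mem_prod, Set.mem_ofPred_eq, exists_eq_left']
  rw [this]
  refine MeasurableSet.iUnion fun l => MeasurableSet.prod ?_ (hF l hs)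
  by_cases h : l.Nodup ∧ ∀ x, x ∈ l ↔ x ∈ B
  · have : {T : V → unitInterval | srt T B = l} = {T | l.Pairwise (ord T)} := by
      ext T
      simp only [Set.mem_ofPred_eq, srt_eq_iff]
      exact ⟨fun h' => h'.2, fun h' => ⟨h, h'⟩⟩
    rw [this]
    exact measurableSet_pairwise l
  · have : {T : V → unitInterval | srt T B = l} = ∅ := by
      ext T
      simp only [Set.mem_ofPred_eq, srt_eq_iff, Set.mem_empty_iff_false, iff_false]
      exact fun h' => h h'.1
    rw [this]
    exact MeasurableSet.empty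

end Order

/-- `n` rounds of updates at the sites of `S` -/
def rounds (S : List V) : ℕ → List (List (V × ℕ))
  | 0 => []
  | n + 1 => (S.map fun x => (x, n)) :: rounds S n

/-- the schedule made of `n` rounds over `S` -/
def sched (S : List V) (n : ℕ) : List (V × ℕ) := (rounds S n).flatten

@[simp] theorem length_rounds (S : List V) (n : ℕ) : (rounds S n).length = n := by
  induction n with
  | zero => rfl
  | succ n ih => simp only [rounds, List.length_cons, ih, Nat.add_left_cancel_iff]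

@[simp] theorem sched_zero (S : List V) : sched S 0 = [] := rfl

theorem sched_succ (S : List V) (n : ℕ) :
    sched S (n + 1) = (S.map fun x => (x, n)) ++ sched S n := by
  simp [sched, rounds]

theorem mem_sched (S : List V) (n : ℕ) (p : V × ℕ) : p ∈ sched S n ↔ p.1 ∈ S ∧ p.2 < n := by
  induction n with
  | zero => simp
  | succ n ih =>
    rw [sched_succ, List.mem_append, ih, List.mem_map]
    constructor
    · rintro (⟨x, hx, rfl⟩ | ⟨h1, h2⟩)
      · exact ⟨hx, Nat.lt_succ_self n⟩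
      · exact ⟨h1, h2.trans (Nat.lt_succ_self n)⟩
    · rintro ⟨h1, h2⟩
      rcases Nat.lt_succ_iff_lt_or_eq.1 h2 with h | h
      · exact Or.inr ⟨h1, h⟩
      · exact Or.inl ⟨p.1, h1, by rw [← h]⟩

theorem nodup_sched {S : List V} (hS : S.Nodup) (n : ℕ) : (sched S n).Nodup := by
  induction n with
  | zero => simp
  | succ n ih =>
    rw [sched_succ, List.nodup_append]
    refine ⟨hS.map (fun x y h => (Prod.ext_iff.1 h).1), ih, ?_⟩
    rintro a ha b hb rfl
    obtain ⟨x, _, rfl⟩ := List.mem_map.1 ha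
    exact absurd ((mem_sched S n _).1 hb).2 (lt_irrefl _)

theorem rounds_fst_nodup {S : List V} (hS : S.Nodup) (n : ℕ) :
    ∀ L ∈ rounds S n, (L.map Prod.fst).Nodup := by
  induction n with
  | zero => intro L hL; simp [rounds] at hL
  | succ n ih =>
    intro L hL
    rw [rounds, List.mem_cons] at hL
    rcases hL with rfl | hL
    · rw [List.map_map]
      have : (Prod.fst ∘ fun x : V => (x, n)) = id := rfl
      rw [this, List.map_id]
      exact hS
    · exact ih L hL

theorem filter_sched (S : List V) (n : ℕ) (p : V → Bool) :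
    (sched S n).filter (fun i => p i.1) = sched (S.filter p) n := by
  induction n with
  | zero => simp
  | succ n ih =>
    rw [sched_succ, sched_succ, List.filter_append, ih, List.filter_map]
    rfl

theorem sched_add (S : List V) (n m : ℕ) : ∃ l, sched S (n + m) = l ++ sched S n := by
  induction m with
  | zero => exact ⟨[], rfl⟩
  | succ m ih =>
    obtain ⟨l, hl⟩ := ih
    refine ⟨(S.map fun x => (x, n + m)) ++ l, ?_⟩
    rw [← add_assoc, sched_succ, hl, List.append_assoc]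

theorem length_filter_sched {S : List V} (hS : S.Nodup) {v : V} (hv : v ∈ S) (n : ℕ)
    (p : V × ℕ → Bool) (hp : ∀ i, p i = true ↔ i.1 = v) :
    ((sched S n).filter p).length = n := by
  classical
  have h1 : ∀ m : ℕ, ((S.map fun x => (x, m)).filter p).length = 1 := by
    intro m
    have h2 : (S.map fun x => (x, m)).filter p = [(v, m)] := by
      rw [List.filter_map]
      have h3 : S.filter (p ∘ fun x => (x, m)) = S.filter (fun x => decide (x = v)) := by
        refine List.filter_congr fun x _ => ?_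
        rw [Bool.eq_iff_iff]
        simp [hp]
      rw [h3, List.filter_eq, List.count_eq_one_of_mem hS hv]
      rfl
    rw [h2]
    rfl
  induction n with
  | zero => simp
  | succ n ih =>
    rw [sched_succ, List.filter_append, List.length_append, ih, h1, add_comm]

theorem map_sched (S : List V) (n : ℕ) (g : V → V) :
    (sched S n).map (fun p => (g p.1, p.2)) = sched (S.map g) n := by
  induction n with
  | zero => simp
  | succ n ih =>
    rw [sched_succ, sched_succ, List.map_append, ih, List.map_map, List.map_map]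
    rfl

end Vale.Agent.P161
end
end

section

section

open MeasureTheory

namespace Vale.Agent.P161

variable {V : Type*} {G : SimpleGraph V}

/-- a proper edge colouring of a `d`-regular graph by `Fin d`, presented by involutions -/
structure EdgeCol (G : SimpleGraph V) (d : ℕ) where
  N : Fin d → V → V
  inv : ∀ i v, N i (N i v) = v
  adj : ∀ i v, G.Adj v (N i v)
  surj : ∀ v w, G.Adj v w → ∃ i, N i v = w
  inj : ∀ i j v, N i v = N j v → i = j

theorem exists_equiv_prescribed {α β : Type*} (e : α ≃ β) (a : α) (b : β) :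
    ∃ e' : α ≃ β, e' a = b := by
  classical
  exact ⟨e.trans (Equiv.swap (e a) b), by simp⟩

theorem exists_edgeCol [G.LocallyFinite] (hG : G.IsTree) {d : ℕ} (hd : 1 ≤ d)
    (hreg : G.IsRegularOfDegree d) : Nonempty (EdgeCol G d) := by
  classical
  obtain ⟨r⟩ := hG.connected.nonempty
  have c0 : Fin d := ⟨0, hd⟩
  -- parents
  have hpar : ∀ v, ∃ u, r ≠ v → (G.Adj u v ∧ G.dist r u + 1 = G.dist r v) := by
    intro v
    by_cases h : r = v
    · exact ⟨v, fun h' => absurd h h'⟩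
    · obtain ⟨u, hu⟩ := exists_adj_dist hG.connected h
      exact ⟨u, fun _ => hu⟩
  choose par hpar using hpar
  -- bijections of the neighbourhoods
  have hE : ∀ (v : V) (c : Fin d), ∃ e : G.neighborSet v ≃ Fin d,
      ∀ h : G.Adj v (par v), e ⟨par v, h⟩ = c := by
    intro v c
    have hcard : Fintype.card (G.neighborSet v) = d := by
      rw [SimpleGraph.card_neighborSet_eq_degree]; exact hreg v
    have e0 : G.neighborSet v ≃ Fin d := Fintype.equivFinOfCardEq hcard
    by_cases h : G.Adj v (par v)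
    · obtain ⟨e, he⟩ := exists_equiv_prescribed e0 ⟨par v, h⟩ c
      exact ⟨e, fun _ => he⟩
    · exact ⟨e0, fun h' => absurd h' h⟩
  choose E hE using hE
  -- colour of the edge to the parent
  let P : ℕ → V → Fin d := fun n => Nat.rec (fun _ => c0)
    (fun n Pn v => if h : G.Adj (par v) v then E (par v) (Pn (par v)) ⟨v, h⟩ else c0) n
  let pc : V → Fin d := fun v => P (G.dist r v) v
  have hpc : ∀ v (h : G.Adj (par v) v), r ≠ v → pc v = E (par v) (pc (par v)) ⟨v, h⟩ := by
    intro v h hrv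
    have hd' := (hpar v hrv).2
    show P (G.dist r v) v = E (par v) (P (G.dist r (par v)) (par v)) ⟨v, h⟩
    rw [← hd']
    show (if h : G.Adj (par v) v then E (par v) (P (G.dist r (par v)) (par v)) ⟨v, h⟩ else c0) = _
    rw [dif_pos h]
  let e : ∀ v, G.neighborSet v ≃ Fin d := fun v => E v (pc v)
  have hsym1 : ∀ u v (huv : G.Adj u v), G.dist r v = G.dist r u + 1 →
      e v ⟨u, huv.symm⟩ = e u ⟨v, huv⟩ := by
    intro u v huv hdist
    have hrv : r ≠ v := by
      rintro rfl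
      simp at hdist
    obtain ⟨hadj, hd'⟩ := hpar v hrv
    have hu : par v = u := adj_dist_unique hG hadj huv hd' hdist.symm
    subst hu
    rw [show e v ⟨par v, huv.symm⟩ = pc v from hE v (pc v) huv.symm]
    exact hpc v huv hrv
  have hsym : ∀ u v (huv : G.Adj u v), e v ⟨u, huv.symm⟩ = e u ⟨v, huv⟩ := by
    intro u v huv
    rcases dist_adj_cases hG huv r with h | h
    · exact hsym1 u v huv h
    · exact (hsym1 v u huv.symm h).symm
  refine ⟨⟨fun i v => ((e v).symm i : V), ?_, ?_, ?_, ?_⟩⟩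
  · intro i v
    have hadj : G.Adj v ((e v).symm i : V) := ((e v).symm i).2
    have h1 : e v ⟨((e v).symm i : V), hadj⟩ = i := (e v).apply_symm_apply i
    have h2 := hsym v ((e v).symm i : V) hadj
    rw [h1] at h2
    have h3 : (e ((e v).symm i : V)).symm i = ⟨v, hadj.symm⟩ :=
      (Equiv.symm_apply_eq _).2 h2.symm
    exact congrArg Subtype.val h3
  · intro i v
    exact ((e v).symm i).2
  · intro v w hvw
    exact ⟨e v ⟨w, hvw⟩, by simp⟩
  · intro i j v h
    exact (e v).symm.injective (Subtype.ext h)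

/-- maps commuting with the colouring -/
def ColMap {d : ℕ} (c : EdgeCol G d) (φ : V → V) : Prop := ∀ i v, φ (c.N i v) = c.N i (φ v)

theorem ColMap.unique {d : ℕ} {c : EdgeCol G d} (hG : G.Connected) {φ ψ : V → V}
    (hφ : ColMap c φ) (hψ : ColMap c ψ) {x : V} (hx : φ x = ψ x) : φ = ψ := by
  funext v
  have hr : G.Reachable x v := hG.preconnected x v
  obtain ⟨p⟩ := hr
  induction p with
  | nil => exact hx
  | @cons a b w hab p ih =>
    apply ih
    obtain ⟨i, hi⟩ := c.surj a b hab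
    rw [← hi, hφ, hψ, hx]

theorem ColMap.comp {d : ℕ} {c : EdgeCol G d} {φ ψ : V → V} (hφ : ColMap c φ)
    (hψ : ColMap c ψ) : ColMap c (φ ∘ ψ) := by
  intro i v
  simp only [Function.comp]
  rw [hψ, hφ]

theorem exists_colMap [G.LocallyFinite] (hG : G.IsTree) {d : ℕ} (c : EdgeCol G d) (x y : V) :
    ∃ φ : V → V, ColMap c φ ∧ φ x = y := by
  classical
  have hpar : ∀ v, ∃ u, x ≠ v → (G.Adj u v ∧ G.dist x u + 1 = G.dist x v) := by
    intro v
    by_cases h : x = v
    · exact ⟨v, fun h' => absurd h h'⟩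
    · obtain ⟨u, hu⟩ := exists_adj_dist hG.connected h
      exact ⟨u, fun _ => hu⟩
  choose par hpar using hpar
  -- the map, by recursion on the distance
  let F : ℕ → V → V := fun n => Nat.rec (fun _ => y)
    (fun n Fn v => if h : ∃ i, c.N i (par v) = v then c.N h.choose (Fn (par v)) else y) n
  let φ : V → V := fun v => F (G.dist x v) v
  have hφ0 : φ x = y := by
    show F (G.dist x x) x = y
    rw [SimpleGraph.dist_self]
    rfl
  have hstep : ∀ i v, G.dist x (c.N i v) = G.dist x v + 1 → φ (c.N i v) = c.N i (φ v) := by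
    intro i v hdist
    have hne : x ≠ c.N i v := by
      intro h
      rw [← h] at hdist
      simp only [SimpleGraph.dist_self, Nat.right_eq_add, Nat.add_eq_zero_iff, SimpleGraph.dist_eq_zero_iff_eq_or_not_reachable, one_ne_zero, and_false] at hdist
    obtain ⟨hadj, hd'⟩ := hpar _ hne
    have hp : par (c.N i v) = v :=
      adj_dist_unique hG hadj (c.adj i v) hd' hdist.symm
    show F (G.dist x (c.N i v)) (c.N i v) = c.N i (F (G.dist x v) v)
    rw [hdist]
    show (if h : ∃ j, c.N j (par (c.N i v)) = c.N i v then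
      c.N h.choose (F (G.dist x v) (par (c.N i v))) else y) = _
    have hex : ∃ j, c.N j (par (c.N i v)) = c.N i v := ⟨i, by rw [hp]⟩
    rw [dif_pos hex]
    have hj : c.N hex.choose v = c.N i v := by
      have h0 := hex.choose_spec
      exact (congrArg (c.N hex.choose) hp).symm.trans h0
    rw [c.inj _ _ _ hj, hp]
  refine ⟨φ, ?_, hφ0⟩
  intro i v
  rcases dist_adj_cases hG (c.adj i v) x with h | h
  · exact hstep i v h
  · have h2 := hstep i (c.N i v) (by rw [c.inv]; exact h)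
    rw [c.inv] at h2
    rw [h2, c.inv]

/-- the automorphism preserving colours and mapping `x` to `y` -/
theorem exists_tau [G.LocallyFinite] (hG : G.IsTree) {d : ℕ} (c : EdgeCol G d) :
    ∃ τ : V → V → (G ≃g G), (∀ x y, τ x y x = y) ∧ (∀ x y, ColMap c (τ x y)) := by
  classical
  choose f hf hf1 using fun x y => exists_colMap hG c x y
  have hinv : ∀ x y v, f y x (f x y v) = v := by
    intro x y v
    have h1 : f y x ∘ f x y = id := by
      apply ColMap.unique hG.connected (c := c) ((hf y x).comp (hf x y)) (fun _ _ => rfl) (x := x)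
      simp [hf1]
    exact congrFun h1 v
  have hadj : ∀ x y a b, G.Adj a b → G.Adj (f x y a) (f x y b) := by
    intro x y a b hab
    obtain ⟨i, hi⟩ := c.surj a b hab
    rw [← hi, hf x y]
    exact c.adj i _
  refine ⟨fun x y => ⟨⟨f x y, f y x, hinv x y, hinv y x⟩, ?_⟩, fun x y => hf1 x y, fun x y => hf x y⟩
  intro a b
  constructor
  · intro h
    have := hadj y x _ _ h
    simpa [hinv] using this
  · exact hadj x y a b

end Vale.Agent.P161
end
end

section

section

open MeasureTheory Filter Topology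

namespace Vale.Agent.P161

variable {V : Type*} {G : SimpleGraph V}

section Adj

variable [G.LocallyFinite]

/-- adjacency sum -/
noncomputable def nb (G : SimpleGraph V) [G.LocallyFinite] (ψ : V → ℝ) (v : V) : ℝ :=
  ∑ u ∈ G.neighborFinset v, ψ u

theorem nb_mono {ψ φ : V → ℝ} (h : ∀ v, ψ v ≤ φ v) (v : V) : nb G ψ v ≤ nb G φ v :=
  Finset.sum_le_sum fun u _ => h u

theorem nb_iter_mono {ψ φ : V → ℝ} (h : ∀ v, ψ v ≤ φ v) (n : ℕ) (v : V) :
    (nb G)^[n] ψ v ≤ (nb G)^[n] φ v := by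
  induction n generalizing v with
  | zero => exact h v
  | succ n ih =>
    rw [Function.iterate_succ_apply', Function.iterate_succ_apply']
    exact nb_mono ih v

theorem nb_const_mul (a : ℝ) (ψ : V → ℝ) : nb G (fun v => a * ψ v) = fun v => a * nb G ψ v := by
  funext v
  unfold nb
  rw [Finset.mul_sum]

theorem nb_iter_eigen {ψ : V → ℝ} {a : ℝ} (h : ∀ v, nb G ψ v = a * ψ v) (n : ℕ) (v : V) :
    (nb G)^[n] ψ v = a ^ n * ψ v := by
  induction n generalizing v with
  | zero => simp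
  | succ n ih =>
    rw [Function.iterate_succ_apply', show (nb G)^[n] ψ = fun v => a ^ n * ψ v from funext ih,
      nb_const_mul]
    simp only [h]
    ring

theorem nb_iter_super {ψ : V → ℝ} {a : ℝ} (ha : 0 ≤ a) (h : ∀ v, nb G ψ v ≤ a * ψ v) (n : ℕ)
    (v : V) : (nb G)^[n] ψ v ≤ a ^ n * ψ v := by
  induction n generalizing v with
  | zero => simp
  | succ n ih =>
    rw [Function.iterate_succ_apply']
    calc nb G ((nb G)^[n] ψ) v ≤ nb G (fun v => a ^ n * ψ v) v := nb_mono ih v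
      _ = a ^ n * nb G ψ v := by rw [nb_const_mul]
      _ ≤ a ^ n * (a * ψ v) := mul_le_mul_of_nonneg_left (h v) (pow_nonneg ha n)
      _ = a ^ (n + 1) * ψ v := by ring

theorem nb_dist_self {d : ℕ} (hreg : G.IsRegularOfDegree d) (o : V) (F : ℕ → ℝ) :
    nb G (fun u => F (G.dist o u)) o = d * F 1 := by
  unfold nb
  have h : ∀ u ∈ G.neighborFinset o, F (G.dist o u) = F 1 := by
    intro u hu
    rw [SimpleGraph.mem_neighborFinset] at hu
    rw [SimpleGraph.dist_eq_one_iff_adj.2 hu]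
  rw [Finset.sum_congr rfl h, Finset.sum_const, SimpleGraph.card_neighborFinset_eq_degree, hreg o,
    nsmul_eq_mul]

theorem nb_dist_ne (hG : G.IsTree) {d : ℕ} (hreg : G.IsRegularOfDegree d) {o v : V} {n : ℕ}
    (hv : G.dist o v = n + 1) (F : ℕ → ℝ) :
    nb G (fun u => F (G.dist o u)) v = F n + ((d : ℝ) - 1) * F (n + 2) := by
  classical
  have hne : o ≠ v := by
    rintro rfl
    simp only [SimpleGraph.dist_self, Nat.right_eq_add, Nat.add_eq_zero_iff, one_ne_zero, and_false] at hv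
  obtain ⟨p, hp, hpd⟩ := exists_adj_dist hG.connected hne
  have hmem : p ∈ G.neighborFinset v := by
    rw [SimpleGraph.mem_neighborFinset]; exact hp.symm
  unfold nb
  rw [← Finset.add_sum_erase _ _ hmem]
  have hpn : G.dist o p = n := by omega
  rw [hpn]
  congr 1
  have h : ∀ u ∈ (G.neighborFinset v).erase p, F (G.dist o u) = F (n + 2) := by
    intro u hu
    rw [Finset.mem_erase, SimpleGraph.mem_neighborFinset] at hu
    rcases dist_adj_cases hG hu.2 o with h1 | h1
    · rw [h1, hv]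
    · exact absurd (adj_dist_unique hG hu.2.symm hp (by (clear * - hv hpd h1; omega)) hpd) hu.1
  rw [Finset.sum_congr rfl h, Finset.sum_const, Finset.card_erase_of_mem hmem,
    SimpleGraph.card_neighborFinset_eq_degree, hreg v, nsmul_eq_mul]
  have hd1 : 1 ≤ d := by
    rw [← hreg v, ← SimpleGraph.card_neighborFinset_eq_degree]
    exact Finset.card_pos.2 ⟨p, hmem⟩
  rw [Nat.cast_sub hd1, Nat.cast_one]

/-- super-solution -/
theorem nb_zeta_le (hG : G.IsTree) {d : ℕ} (hd : 2 ≤ d) (hreg : G.IsRegularOfDegree d)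
    {s : ℝ} (hs : 0 < s) (hs2 : ((d : ℝ) - 1) * s ^ 2 = 1) (o v : V) :
    nb G (fun u => s ^ G.dist o u) v ≤ (2 / s) * s ^ G.dist o v := by
  have hd2 : (2 : ℝ) ≤ d := by exact_mod_cast hd
  by_cases h : o = v
  · subst h
    rw [nb_dist_self hreg o (fun k => s ^ k), SimpleGraph.dist_self, pow_one, pow_zero, mul_one,
      le_div_iff₀ hs]
    linarith [mul_eq_zero_of_left (sub_eq_zero.2 hs2) (↑d - (2)), mul_nonneg (sq_nonneg (s : ℝ)) (sub_nonneg.2 hd2)]
  · obtain ⟨n, hn⟩ : ∃ n, G.dist o v = n + 1 := by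
      have : 0 < G.dist o v := hG.connected.pos_dist_of_ne h
      exact ⟨G.dist o v - 1, by omega⟩
    rw [nb_dist_ne hG hreg hn (fun k => s ^ k), hn]
    apply le_of_eq
    rw [div_mul_eq_mul_div, eq_div_iff hs.ne']
    calc (s ^ n + ((d : ℝ) - 1) * s ^ (n + 2)) * s
        = s ^ (n + 1) * (1 + ((d : ℝ) - 1) * s ^ 2) := by ring
      _ = 2 * s ^ (n + 1) := by rw [hs2]; ring

/-- eigenfunction below `θ ^ dist` -/
theorem exists_eigen (hG : G.IsTree) {d : ℕ} (hd : 2 ≤ d) (hreg : G.IsRegularOfDegree d)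
    {θ : ℝ} (h0 : 0 < θ) (h1 : θ < 1) (hs : 1 < ((d : ℝ) - 1) * θ ^ 2) (o : V) :
    ∃ φ : V → ℝ, 0 < φ o ∧ (∀ v, φ v ≤ θ ^ G.dist o v) ∧
      ∀ v, nb G φ v = (((d : ℝ) - 1) * θ + 1 / θ) * φ v := by
  set b : ℝ := (d : ℝ) - 1 with hb
  have hd2 : (2 : ℝ) ≤ d := by exact_mod_cast hd
  have hb1 : 1 ≤ b := by rw [hb]; linarith only [hd2]
  set ρ : ℝ := 1 / (b * θ) with hρ
  have hbθ : 0 < b * θ := by (clear * - hb1 h0; positivity)
  have hbθ1 : 1 < b * θ := by (by_contra nlg; linarith only [nlg, mul_pos (sub_pos.2 h1) (sub_pos.2 hs), mul_pos (sub_pos.2 h1) (sub_pos.2 h1), mul_pos (sub_pos.2 h0) (sub_pos.2 hs), mul_pos (sub_pos.2 h0) (sub_pos.2 h1), mul_nonneg (sub_nonneg.2 (not_lt.1 nlg)) (le_of_lt (sub_pos.2 h0))])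
  have hρ0 : 0 < ρ := by positivity
  have hden : 0 < b * θ - 1 / (b * θ) := by
    have : 1 / (b * θ) < 1 := by rw [div_lt_one hbθ]; exact hbθ1
    linarith only [hbθ1, this]
  set γ : ℝ := (1 / θ - θ) / (b * θ - 1 / (b * θ)) with hγ
  have hθi : 1 < 1 / θ := by rw [lt_div_iff₀ h0]; linarith only [h1]
  have hγ0 : 0 ≤ γ := by
    apply div_nonneg _ hden.le
    linarith only [h1, hθi]
  have hγ1 : γ < 1 := by
    rw [hγ, div_lt_one hden]
    have e : (b * θ - 1 / (b * θ)) - (1 / θ - θ) = ((b + 1) * (b * θ ^ 2 - 1)) / (b * θ) := by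
      field_simp
      ring
    have : 0 < ((b + 1) * (b * θ ^ 2 - 1)) / (b * θ) := by
      apply div_pos _ hbθ
      apply mul_pos <;> nlinarith only [hd2, hs]
    linarith only [e, this]
  refine ⟨fun v => θ ^ G.dist o v - γ * ρ ^ G.dist o v, ?_, ?_, ?_⟩
  · simp only [SimpleGraph.dist_self, pow_zero]
    linarith only [hγ1]
  · intro v
    have : 0 ≤ γ * ρ ^ G.dist o v := by (clear * - hγ0 hb1 h0; positivity)
    linarith only [this]
  · intro v
    by_cases h : o = v
    · subst h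
      rw [nb_dist_self hreg o (fun k => θ ^ k - γ * ρ ^ k)]
      simp only [SimpleGraph.dist_self, pow_zero, pow_one]
      have hdb : (d : ℝ) = b + 1 := by rw [hb]; ring
      rw [hdb]
      have hden' : b * θ - 1 / (b * θ) ≠ 0 := hden.ne'
      have e1 : γ * (b * θ - 1 / (b * θ)) = 1 / θ - θ := by
        rw [hγ]; exact div_mul_cancel₀ _ hden'
      have e2 : ρ * (b + 1) = 1 / θ + 1 / (b * θ) := by
        rw [hρ]; (clear * - hb1 h0; field_simp)
      have e3 : (b + 1) * (θ - γ * ρ) = (b + 1) * θ - γ * (ρ * (b + 1)) := by ring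
      rw [e3, e2]
      linear_combination e1
    · obtain ⟨n, hn⟩ : ∃ n, G.dist o v = n + 1 := by
        have : 0 < G.dist o v := hG.connected.pos_dist_of_ne h
        exact ⟨G.dist o v - 1, by omega⟩
      rw [nb_dist_ne hG hreg hn (fun k => θ ^ k - γ * ρ ^ k)]
      show _ = _ * (θ ^ G.dist o v - γ * ρ ^ G.dist o v)
      rw [hn, ← hb]
      have e1 : b * θ * ρ = 1 := by rw [hρ]; field_simp
      have e2 : 1 / θ = b * ρ := by rw [hρ]; field_simp
      have e3 : θ * (b * ρ) = 1 := by linarith only [e1]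
      rw [e2]
      have t1 : θ ^ n + b * θ ^ (n + 2) = (b * θ + b * ρ) * θ ^ (n + 1) := by
        calc θ ^ n + b * θ ^ (n + 2) = θ ^ n * 1 + b * θ ^ (n + 2) := by ring
          _ = θ ^ n * (θ * (b * ρ)) + b * θ ^ (n + 2) := by rw [e3]
          _ = (b * θ + b * ρ) * θ ^ (n + 1) := by ring
      have t2 : ρ ^ n + b * ρ ^ (n + 2) = (b * θ + b * ρ) * ρ ^ (n + 1) := by
        calc ρ ^ n + b * ρ ^ (n + 2) = ρ ^ n * 1 + b * ρ ^ (n + 2) := by ring
          _ = ρ ^ n * (b * θ * ρ) + b * ρ ^ (n + 2) := by rw [e1]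
          _ = (b * θ + b * ρ) * ρ ^ (n + 1) := by ring
      linear_combination t1 - γ * t2

end Adj

/-- log-convexity -/
theorem logconvex_bound {N : ℕ → ℝ} (h0 : ∀ n, 0 ≤ N n) (hlc : ∀ n, N (n + 1) ^ 2 ≤ N n * N (n + 2))
    {r K : ℝ} (hr : 0 < r) (hK : ∀ n, N n ≤ K * r ^ n) (n : ℕ) : N n ≤ r ^ n * N 0 := by
  have step : ∀ m, N (m + 1) ≤ r * N m := by
    intro m
    by_contra hcon
    push Not at hcon
    have hm0 : 0 < N m := by
      rcases (h0 m).lt_or_eq with h | h
      · exact h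
      · exfalso
        have h2 := hlc m
        rw [← h] at h2 hcon
        have : N (m + 1) = 0 := by nlinarith only [h2]
        rw [this] at hcon
        simp at hcon
    set q := N (m + 1) / N m with hq
    have hqr : r < q := by rw [hq, lt_div_iff₀ hm0]; exact hcon
    have hq0 : 0 < q := hr.trans hqr
    have hgrow : ∀ j, 0 < N (m + j) ∧ q * N (m + j) ≤ N (m + j + 1) := by
      intro j
      induction j with
      | zero =>
        refine ⟨hm0, le_of_eq ?_⟩
        show q * N m = N (m + 1)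
        rw [hq]; (clear * - hm0; field_simp)
      | succ j ih =>
        obtain ⟨ih1, ih2⟩ := ih
        have hpos : 0 < N (m + j + 1) := lt_of_lt_of_le (mul_pos hq0 ih1) ih2
        refine ⟨hpos, ?_⟩
        have h3 := hlc (m + j)
        show q * N (m + j + 1) ≤ N (m + j + 2)
        have h4 : q * N (m + j) * N (m + j + 1) ≤ N (m + j + 1) ^ 2 := by
          rw [pow_two]; exact mul_le_mul_of_nonneg_right ih2 hpos.le
        have h5 : N (m + j) * (q * N (m + j + 1)) ≤ N (m + j) * N (m + j + 2) := by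
          calc N (m + j) * (q * N (m + j + 1)) = q * N (m + j) * N (m + j + 1) := by ring
            _ ≤ N (m + j + 1) ^ 2 := h4
            _ ≤ _ := h3
        exact le_of_mul_le_mul_left h5 ih1
    have hexp : ∀ j, q ^ j * N m ≤ N (m + j) := by
      intro j
      induction j with
      | zero => simp
      | succ j ih =>
        calc q ^ (j + 1) * N m = q * (q ^ j * N m) := by ring
          _ ≤ q * N (m + j) := mul_le_mul_of_nonneg_left ih hq0.le
          _ ≤ N (m + j + 1) := (hgrow j).2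
    have hbd : ∀ j, (q / r) ^ j ≤ K * r ^ m / N m := by
      intro j
      rw [le_div_iff₀ hm0, div_pow, div_mul_eq_mul_div, div_le_iff₀ (pow_pos hr j)]
      calc q ^ j * N m ≤ N (m + j) := hexp j
        _ ≤ K * r ^ (m + j) := hK _
        _ = K * r ^ m * r ^ j := by ring
    have hqr1 : 1 < q / r := by rw [one_lt_div hr]; exact hqr
    obtain ⟨j, hj⟩ := pow_unbounded_of_one_lt (K * r ^ m / N m) hqr1
    exact absurd (hbd j) (not_le.2 hj)
  induction n with
  | zero => simp
  | succ n ih =>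
    calc N (n + 1) ≤ r * N n := step n
      _ ≤ r * (r ^ n * N 0) := mul_le_mul_of_nonneg_left ih hr.le
      _ = r ^ (n + 1) * N 0 := by ring

end Vale.Agent.P161
end
end

section

section

/-! Static facts in finite volume: the planted law of the observations.

`Q` is a reference law for the observation values `w : V × ℕ → ℝ` (independent coordinates,
symmetric, bounded by `1/2`), the planted law has density `WW μ S w 1` with respect to `Q`. -/

open MeasureTheory

namespace Vale.Agent.P161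

open Classical in
/-- use `w` on `A` and `w'` off `A` -/
noncomputable def mixc {ι α : Type*} (A : Set ι) (w w' : ι → α) : ι → α :=
  fun i => if i ∈ A then w i else w' i

theorem mixc_of_mem {ι α : Type*} {A : Set ι} {w w' : ι → α} {i : ι} (h : i ∈ A) :
    mixc A w w' i = w i := by simp only [mixc, h, ↓reduceIte]

theorem mixc_of_notMem {ι α : Type*} {A : Set ι} {w w' : ι → α} {i : ι} (h : i ∉ A) :
    mixc A w w' i = w' i := by simp [mixc, h]

variable {V : Type*}

/-- a reference law of the observation values -/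
structure RefLaw (Q : Measure (V × ℕ → ℝ)) : Prop where
  prob : IsProbabilityMeasure Q
  mixp : ∀ A : Set (V × ℕ), MeasurePreserving
    (fun p : (V × ℕ → ℝ) × (V × ℕ → ℝ) => mixc A p.1 p.2) (Q.prod Q) Q
  negp : MeasurePreserving (fun w : V × ℕ → ℝ => -w) Q Q
  bdd : ∀ᵐ w ∂Q, ∀ i, |w i| ≤ 1 / 2

/-- density of the observations in the finite set of items `S` given the spins -/
noncomputable def lk (S : Finset (V × ℕ)) (w : V × ℕ → ℝ) (σ : V → ℤˣ) : ℝ :=
  ∏ i ∈ S, (1 + w i * sp σ i.1)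

/-- weighted integral -/
noncomputable def WW (μ : Measure (V → ℤˣ)) (S : Finset (V × ℕ)) (w : V × ℕ → ℝ)
    (f : (V → ℤˣ) → ℝ) : ℝ := ∫ σ, f σ * lk S w σ ∂μ

/-- total weight -/
noncomputable def ZZ (μ : Measure (V → ℤˣ)) (S : Finset (V × ℕ)) (w : V × ℕ → ℝ) : ℝ :=
  WW μ S w fun _ => 1

/-- weight of the spin at `x` -/
noncomputable def NN (μ : Measure (V → ℤˣ)) (S : Finset (V × ℕ)) (x : V) (w : V × ℕ → ℝ) : ℝ :=
  WW μ S w fun σ => sp σ x

open Classical in
/-- the items of `S` with sites in `A` -/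
noncomputable def onS (S : Finset (V × ℕ)) (A : Set V) : Finset (V × ℕ) :=
  S.filter fun i => i.1 ∈ A

theorem mem_onS {S : Finset (V × ℕ)} {A : Set V} {i : V × ℕ} :
    i ∈ onS S A ↔ i ∈ S ∧ i.1 ∈ A := by simp only [onS, Finset.mem_filter]

/-- posterior mean of the spin at `x` -/
noncomputable def pmn (μ : Measure (V → ℤˣ)) (S : Finset (V × ℕ)) (x : V) (w : V × ℕ → ℝ) : ℝ :=
  NN μ S x w / ZZ μ S w

/-- message from `x` to `y`: posterior mean of the spin at `x` given the data on the side of `x` -/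
noncomputable def msg (G : SimpleGraph V) (μ : Measure (V → ℤˣ)) (S : Finset (V × ℕ)) (x y : V)
    (w : V × ℕ → ℝ) : ℝ := pmn μ (onS S (side G x y)) x w

/-- admissible values -/
def Gd (w : V × ℕ → ℝ) : Prop := ∀ i, |w i| ≤ 1 / 2

/-- measurable, and bounded on admissible values -/
def BF (F : (V × ℕ → ℝ) → ℝ) : Prop := Measurable F ∧ ∃ C, ∀ w, Gd w → |F w| ≤ C

/-- items over a set of sites -/
def itm (A : Set V) : Set (V × ℕ) := {i | i.1 ∈ A}

section BFapi

variable {F F' : (V × ℕ → ℝ) → ℝ}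

theorem BF.const (c : ℝ) : BF (fun _ : V × ℕ → ℝ => c) := ⟨measurable_const, |c|, fun _ _ => le_rfl⟩

theorem BF.coord (i : V × ℕ) : BF (fun w : V × ℕ → ℝ => w i) :=
  ⟨measurable_pi_apply i, 1 / 2, fun _ hw => hw i⟩

theorem BF.add (h : BF F) (h' : BF F') : BF fun w => F w + F' w := by
  obtain ⟨h1, C, hC⟩ := h
  obtain ⟨h2, C', hC'⟩ := h'
  exact ⟨h1.add h2, C + C', fun w hw => (abs_add_le _ _).trans (add_le_add (hC w hw) (hC' w hw))⟩

theorem BF.sub (h : BF F) (h' : BF F') : BF fun w => F w - F' w := by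
  obtain ⟨h1, C, hC⟩ := h
  obtain ⟨h2, C', hC'⟩ := h'
  exact ⟨h1.sub h2, C + C', fun w hw => (abs_sub _ _).trans (add_le_add (hC w hw) (hC' w hw))⟩

theorem BF.mul (h : BF F) (h' : BF F') : BF fun w => F w * F' w := by
  obtain ⟨h1, C, hC⟩ := h
  obtain ⟨h2, C', hC'⟩ := h'
  refine ⟨h1.mul h2, |C| * |C'|, fun w hw => ?_⟩
  rw [abs_mul]
  exact mul_le_mul ((hC w hw).trans (le_abs_self _)) ((hC' w hw).trans (le_abs_self _))
    (abs_nonneg _) (abs_nonneg _)

theorem BF.pow (h : BF F) (n : ℕ) : BF fun w => F w ^ n := by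
  induction n with
  | zero => simpa using BF.const 1
  | succ n ih => simpa only [pow_succ] using ih.mul h

theorem BF.sum {ι : Type*} (s : Finset ι) {F : ι → (V × ℕ → ℝ) → ℝ} (h : ∀ i ∈ s, BF (F i)) :
    BF fun w => ∑ i ∈ s, F i w := by
  classical
  induction s using Finset.induction_on with
  | empty => simpa using BF.const 0
  | insert a s ha ih =>
    simp only [Finset.sum_insert ha]
    exact (h a (Finset.mem_insert_self _ _)).add
      (ih fun i hi => h i (Finset.mem_insert_of_mem hi))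

theorem BF.integrable {Q : Measure (V × ℕ → ℝ)} (hQ : RefLaw Q) (h : BF F) : Integrable F Q := by
  have := hQ.prob
  obtain ⟨h1, C, hC⟩ := h
  refine Integrable.of_bound h1.aestronglyMeasurable C ?_
  filter_upwards [hQ.bdd] with w hw
  exact hC w hw

end BFapi

/-! ### dependence -/

theorem DependsOn.mulc {ι : Type*} {A : Set ι} {F F' : (ι → ℝ) → ℝ} (h : DependsOn F A)
    (h' : DependsOn F' A) : DependsOn (fun w => F w * F' w) A := fun x y hxy => by
  simp only [h hxy, h' hxy]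

theorem DependsOn.powc {ι : Type*} {A : Set ι} {F : (ι → ℝ) → ℝ} (h : DependsOn F A) (n : ℕ) :
    DependsOn (fun w => F w ^ n) A := fun x y hxy => by
  simp only [h hxy]

theorem DependsOn.monoc {ι : Type*} {A B : Set ι} {F : (ι → ℝ) → ℝ} (h : DependsOn F A)
    (hAB : A ⊆ B) : DependsOn F B := fun _ _ hxy => h fun i hi => hxy i (hAB hi)

theorem DependsOn.compc {ι : Type*} {A : Set ι} {F : (ι → ℝ) → ℝ} (h : DependsOn F A) (φ : ℝ → ℝ) :
    DependsOn (fun w => φ (F w)) A := fun x y hxy => by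
  simp only [h hxy]

section Basic

variable {μ : Measure (V → ℤˣ)} {S : Finset (V × ℕ)} {w : V × ℕ → ℝ}

theorem lk_congr {w' : V × ℕ → ℝ} (h : ∀ i ∈ S, w i = w' i) (σ : V → ℤˣ) :
    lk S w σ = lk S w' σ := Finset.prod_congr rfl fun i hi => by rw [h i hi]

theorem lk_pos (h : Gd w) (σ : V → ℤˣ) : 0 < lk S w σ :=
  Finset.prod_pos fun i _ => factor_pos (h i) (abs_sp σ i.1).le

theorem lk_le (h : Gd w) (σ : V → ℤˣ) : lk S w σ ≤ 2 ^ S.card := by
  unfold lk
  rw [← Finset.prod_const]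
  refine Finset.prod_le_prod (fun i _ => (factor_pos (h i) (abs_sp σ i.1).le).le) fun i _ => ?_
  have h1 : |w i * sp σ i.1| ≤ 1 / 2 := by
    rw [abs_mul, abs_sp, mul_one]
    exact h i
  linarith only [(abs_le.1 h1).2]

theorem localP_lk {A : Set V} (h : ∀ i ∈ S, i.1 ∈ A) : LocalOn A (lk S w) := by
  classical
  refine ⟨S.image Prod.fst, ?_, ?_⟩
  · intro x hx
    simp only [Finset.coe_image, Set.mem_image, Finset.mem_coe] at hx
    obtain ⟨i, hi, rfl⟩ := hx
    exact h i hi
  · intro x y hxy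
    unfold lk
    refine Finset.prod_congr rfl fun i hi => ?_
    have : x i.1 = y i.1 := hxy i.1 (by
      simp only [Finset.coe_image, Set.mem_image, Finset.mem_coe]
      exact ⟨i, hi, rfl⟩)
    simp only [sp, this]

theorem localP_lk_univ (S : Finset (V × ℕ)) (w : V × ℕ → ℝ) : LocalOn Set.univ (lk S w) :=
  localP_lk fun _ _ => Set.mem_univ _

theorem int_mul_lk [IsFiniteMeasure μ] (S : Finset (V × ℕ)) (w : V × ℕ → ℝ)
    {f : (V → ℤˣ) → ℝ} (hf : LocalOn Set.univ f) : Integrable (fun σ => f σ * lk S w σ) μ :=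
  (localP_mul hf (localP_lk_univ S w)).integrable μ

theorem LocalOn.measurable {A : Set V} {f : (V → ℤˣ) → ℝ} (hf : LocalOn A f) : Measurable f := by
  obtain ⟨D, -, hD⟩ := hf
  exact dependsOn_measurable hD

theorem measurable_spin1 (v : V) : Measurable fun σ : V → ℤˣ => sp σ v :=
  (localP_sp (Set.mem_univ v)).measurable

theorem measurable_joint {f : (V → ℤˣ) → ℝ} (hf : LocalOn Set.univ f) (S : Finset (V × ℕ)) :
    Measurable fun p : (V × ℕ → ℝ) × (V → ℤˣ) => f p.2 * lk S p.1 p.2 := by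
  unfold lk
  refine (hf.measurable.comp measurable_snd).mul (Finset.measurable_prod _ fun i _ => ?_)
  exact measurable_const.add (((measurable_pi_apply i).comp measurable_fst).mul
    ((measurable_spin1 i.1).comp measurable_snd))

theorem LocalOn.exists_bd {A : Set V} {f : (V → ℤˣ) → ℝ} (hf : LocalOn A f) :
    ∃ C, 0 ≤ C ∧ ∀ σ, |f σ| ≤ C := by
  classical
  obtain ⟨D, -, hD⟩ := hf
  let ext : (D → ℤˣ) → (V → ℤˣ) := fun τ v => if h : v ∈ D then τ ⟨v, h⟩ else 1
  refine ⟨∑ τ : D → ℤˣ, |f (ext τ)|, Finset.sum_nonneg fun _ _ => abs_nonneg _, fun σ => ?_⟩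
  have : f σ = f (ext fun v => σ v) := by
    apply hD
    intro v hv
    have hv' : v ∈ D := hv
    simp only [hv', ↓reduceDIte, ext]
  rw [this]
  exact Finset.single_le_sum (f := fun τ : D → ℤˣ => |f (ext τ)|) (fun _ _ => abs_nonneg _)
    (Finset.mem_univ (fun v : D => σ v))

theorem BF_WW [IsProbabilityMeasure μ] (S : Finset (V × ℕ)) {f : (V → ℤˣ) → ℝ}
    (hf : LocalOn Set.univ f) : BF fun w => WW μ S w f := by
  refine ⟨?_, ?_⟩
  · unfold WW
    exact ((measurable_joint hf S).stronglyMeasurable.integral_prod_right' (ν := μ)).measurable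
  · obtain ⟨C, hC0, hC⟩ := hf.exists_bd
    refine ⟨C * 2 ^ S.card, fun w hw => ?_⟩
    have := norm_integral_le_of_norm_le_const (μ := μ) (f := fun σ => f σ * lk S w σ)
      (C := C * 2 ^ S.card) (Filter.Eventually.of_forall fun σ => by
        rw [Real.norm_eq_abs, abs_mul, abs_of_pos (lk_pos hw σ)]
        exact mul_le_mul (hC σ) (lk_le hw σ) (lk_pos hw σ).le hC0)
    simpa only [WW, ge_iff_le, Real.norm_eq_abs, probReal_univ, mul_one] using this

theorem WW_congr {w' : V × ℕ → ℝ} (h : ∀ i ∈ S, w i = w' i) (f : (V → ℤˣ) → ℝ) :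
    WW μ S w f = WW μ S w' f := by
  unfold WW
  congr 1
  funext σ
  rw [lk_congr h]

theorem WW_dep (S : Finset (V × ℕ)) (f : (V → ℤˣ) → ℝ) {A : Set (V × ℕ)} (h : ∀ i ∈ S, i ∈ A) :
    DependsOn (fun w => WW μ S w f) A := fun _ _ hxy => WW_congr (fun i hi => hxy i (h i hi)) f

theorem ZZ_pos [IsProbabilityMeasure μ] (hw : Gd w) : 0 < ZZ μ S w := by
  unfold ZZ WW
  simp only [one_mul]
  have hint : Integrable (fun σ => lk S w σ) μ := (localP_lk_univ S w).integrable μ
  rw [integral_pos_iff_support_of_nonneg (fun σ => (lk_pos hw σ).le) hint]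
  have : Function.support (fun σ => lk S w σ) = Set.univ := by
    ext σ
    simp [(lk_pos (S := S) hw σ).ne']
  rw [this]
  simp

theorem abs_WW_le [IsProbabilityMeasure μ] (hw : Gd w) {f : (V → ℤˣ) → ℝ} {C : ℝ}
    (hC : ∀ σ, |f σ| ≤ C) : |WW μ S w f| ≤ C * ZZ μ S w := by
  unfold ZZ WW
  rw [← integral_const_mul]
  refine (abs_integral_le_integral_abs).trans ?_
  refine integral_mono_of_nonneg (Filter.Eventually.of_forall fun σ => abs_nonneg _)
    ((int_mul_lk S w (localP_const 1)).const_mul C) (Filter.Eventually.of_forall fun σ => ?_)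
  simp only [one_mul]
  rw [abs_mul, abs_of_pos (lk_pos hw σ)]
  exact mul_le_mul_of_nonneg_right (hC σ) (lk_pos hw σ).le

theorem abs_pmn_le [IsProbabilityMeasure μ] (hw : Gd w) (x : V) : |pmn μ S x w| ≤ 1 := by
  unfold pmn
  rw [abs_div, abs_of_pos (ZZ_pos hw), div_le_one (ZZ_pos hw)]
  have := abs_WW_le (μ := μ) (S := S) (f := fun σ => sp σ x) hw (C := 1)
    fun σ => (abs_sp σ x).le
  rw [one_mul] at this
  exact this

theorem pmn_mul [IsProbabilityMeasure μ] (hw : Gd w) (x : V) :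
    pmn μ S x w * ZZ μ S w = NN μ S x w := by
  unfold pmn
  rw [div_mul_cancel₀ _ (ZZ_pos hw).ne']

theorem BF_ZZ [IsProbabilityMeasure μ] (S : Finset (V × ℕ)) : BF fun w => ZZ μ S w :=
  BF_WW S (localP_const 1)

theorem BF_NN [IsProbabilityMeasure μ] (S : Finset (V × ℕ)) (x : V) : BF fun w => NN μ S x w :=
  BF_WW S (localP_sp (Set.mem_univ x))

theorem BF_pmn [IsProbabilityMeasure μ] (S : Finset (V × ℕ)) (x : V) : BF fun w => pmn μ S x w :=
  ⟨(BF_NN S x).1.div (BF_ZZ S).1, 1, fun _ hw => abs_pmn_le hw x⟩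

theorem ZZ_dep (S : Finset (V × ℕ)) {A : Set (V × ℕ)} (h : ∀ i ∈ S, i ∈ A) :
    DependsOn (fun w => ZZ μ S w) A := WW_dep S _ h

theorem NN_dep (S : Finset (V × ℕ)) (x : V) {A : Set (V × ℕ)} (h : ∀ i ∈ S, i ∈ A) :
    DependsOn (fun w => NN μ S x w) A := WW_dep S _ h

theorem pmn_dep (S : Finset (V × ℕ)) (x : V) {A : Set (V × ℕ)} (h : ∀ i ∈ S, i ∈ A) :
    DependsOn (fun w => pmn μ S x w) A := fun a b hab => by
  have h1 : NN μ S x a = NN μ S x b := NN_dep S x h hab
  have h2 : ZZ μ S a = ZZ μ S b := ZZ_dep S h hab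
  simp only [pmn, h1, h2]

theorem msg_dep (G : SimpleGraph V) (S : Finset (V × ℕ)) (x y : V) :
    DependsOn (msg G μ S x y) (itm (side G x y)) :=
  pmn_dep _ x fun _ hi => (mem_onS.1 hi).2

theorem BF_msg [IsProbabilityMeasure μ] (G : SimpleGraph V) (S : Finset (V × ℕ)) (x y : V) :
    BF (msg G μ S x y) := BF_pmn _ x

theorem abs_msg_le [IsProbabilityMeasure μ] (G : SimpleGraph V) (hw : Gd w) (x y : V) :
    |msg G μ S x y w| ≤ 1 := abs_pmn_le hw x

end Basic

section Ref

variable {μ : Measure (V → ℤˣ)} {Q : Measure (V × ℕ → ℝ)}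

theorem indep_mul (hQ : RefLaw Q) {A : Set (V × ℕ)} {F H : (V × ℕ → ℝ) → ℝ} (hF : Measurable F)
    (hH : Measurable H) (hFA : DependsOn F A) (hHA : DependsOn H Aᶜ) :
    ∫ w, F w * H w ∂Q = (∫ w, F w ∂Q) * ∫ w, H w ∂Q := by
  have := hQ.prob
  have hmp := hQ.mixp A
  have e : ∫ w, F w * H w ∂Q = ∫ p, F (mixc A p.1 p.2) * H (mixc A p.1 p.2) ∂(Q.prod Q) := by
    have h1 := integral_map (μ := Q.prod Q) hmp.measurable.aemeasurable
      (f := fun w => F w * H w) (hF.mul hH).aestronglyMeasurable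
    rw [hmp.map_eq] at h1
    exact h1
  rw [e, ← integral_prod_mul]
  congr 1
  funext p
  rw [hFA (x := mixc A p.1 p.2) (y := p.1) fun i hi => mixc_of_mem hi,
    hHA (x := mixc A p.1 p.2) (y := p.2) fun i hi => mixc_of_notMem hi]

theorem int_add (hQ : RefLaw Q) {F H : (V × ℕ → ℝ) → ℝ} (hF : BF F) (hH : BF H) :
    ∫ w, (F w + H w) ∂Q = ∫ w, F w ∂Q + ∫ w, H w ∂Q :=
  integral_add (hF.integrable hQ) (hH.integrable hQ)

theorem int_sub (hQ : RefLaw Q) {F H : (V × ℕ → ℝ) → ℝ} (hF : BF F) (hH : BF H) :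
    ∫ w, (F w - H w) ∂Q = ∫ w, F w ∂Q - ∫ w, H w ∂Q :=
  integral_sub (hF.integrable hQ) (hH.integrable hQ)

theorem integral_neg_eq (hQ : RefLaw Q) {F : (V × ℕ → ℝ) → ℝ} (hF : Measurable F) :
    ∫ w, F (-w) ∂Q = ∫ w, F w ∂Q := by
  have hmp := hQ.negp
  conv_rhs => rw [← hmp.map_eq]
  rw [integral_map hmp.measurable.aemeasurable hF.aestronglyMeasurable]

theorem integral_odd (hQ : RefLaw Q) {F : (V × ℕ → ℝ) → ℝ} (hF : Measurable F)
    (hodd : ∀ w, F (-w) = -F w) : ∫ w, F w ∂Q = 0 := by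
  have h := integral_neg_eq hQ hF
  simp only [hodd, integral_neg] at h
  linarith only [h]

theorem integral_coord (hQ : RefLaw Q) (i : V × ℕ) : ∫ w, w i ∂Q = 0 :=
  integral_odd hQ (measurable_pi_apply i) fun _ => rfl

theorem integral_lk (hQ : RefLaw Q) (S : Finset (V × ℕ)) (σ : V → ℤˣ) :
    ∫ w, lk S w σ ∂Q = 1 := by
  classical
  have := hQ.prob
  induction S using Finset.induction_on with
  | empty => simp only [lk, Finset.prod_empty, integral_const, probReal_univ, smul_eq_mul, mul_one]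
  | insert a S ha ih =>
    have e : ∀ w : V × ℕ → ℝ, lk (insert a S) w σ = (1 + w a * sp σ a.1) * lk S w σ := by
      intro w
      unfold lk
      rw [Finset.prod_insert ha]
    simp only [e]
    have hm : Measurable fun w : V × ℕ → ℝ => 1 + w a * sp σ a.1 :=
      measurable_const.add ((measurable_pi_apply a).mul_const _)
    have hm2 : Measurable fun w : V × ℕ → ℝ => lk S w σ := by
      unfold lk
      exact Finset.measurable_prod _ fun i _ =>
        measurable_const.add ((measurable_pi_apply i).mul_const _)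
    rw [indep_mul hQ (A := {a}) hm hm2 (fun x y hxy => by simp only [hxy a rfl])
      (fun x y hxy => lk_congr (fun i hi => hxy i (by
        rintro rfl
        exact ha hi)) σ), ih, mul_one,
      integral_add (integrable_const _) ((BF.coord a).integrable hQ |>.mul_const _),
      integral_mul_const, integral_coord hQ]
    simp

open Classical in
/-- marginalisation of the planted law -/
theorem marg (hQ : RefLaw Q) [IsProbabilityMeasure μ] (S : Finset (V × ℕ)) (A : Set (V × ℕ))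
    {h : (V × ℕ → ℝ) → ℝ} (hh : BF h) (hd : DependsOn h A) {f : (V → ℤˣ) → ℝ}
    (hf : LocalOn Set.univ f) :
    ∫ w, h w * WW μ S w f ∂Q = ∫ w, h w * WW μ (S.filter (· ∈ A)) w f ∂Q := by
  have := hQ.prob
  obtain ⟨hm, C, hC⟩ := hh
  obtain ⟨B, hB0, hB⟩ := hf.exists_bd
  have key : ∀ S' : Finset (V × ℕ), ∫ w, h w * WW μ S' w f ∂Q =
      ∫ σ, f σ * (∫ w, h w * lk S' w σ ∂Q) ∂μ := by
    intro S'
    unfold WW
    have e1 : ∀ w : V × ℕ → ℝ, h w * ∫ σ, f σ * lk S' w σ ∂μ =
        ∫ σ, h w * (f σ * lk S' w σ) ∂μ := fun w => (integral_const_mul _ _).symm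
    have e2 : ∀ σ : V → ℤˣ, f σ * ∫ w, h w * lk S' w σ ∂Q =
        ∫ w, h w * (f σ * lk S' w σ) ∂Q := by
      intro σ
      rw [← integral_const_mul]
      congr 1
      funext w
      ring
    simp only [e1, e2]
    rw [integral_integral_swap]
    refine Integrable.of_bound ((hm.comp measurable_fst).mul
      (measurable_joint hf S')).aestronglyMeasurable (C * (B * 2 ^ S'.card)) ?_
    have hae : ∀ᵐ p ∂(Q.prod μ), Gd p.1 := by
      have := hQ.bdd
      exact (Measure.quasiMeasurePreserving_fst (μ := Q) (ν := μ)).ae this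
    filter_upwards [hae] with p hp
    simp only [Function.uncurry, Real.norm_eq_abs]
    rw [abs_mul, abs_mul, abs_of_pos (lk_pos hp p.2)]
    have hC0 : 0 ≤ C := (abs_nonneg _).trans (hC p.1 hp)
    exact mul_le_mul (hC _ hp) (mul_le_mul (hB _) (lk_le hp _) (lk_pos hp _).le hB0)
      (mul_nonneg (abs_nonneg _) (lk_pos hp _).le) hC0
  rw [key, key]
  congr 1
  funext σ
  congr 1
  have e : ∀ w : V × ℕ → ℝ, h w * lk S w σ =
      (h w * lk (S.filter (· ∈ A)) w σ) * lk (S.filter (¬ · ∈ A)) w σ := by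
    intro w
    unfold lk
    rw [mul_assoc, Finset.prod_filter_mul_prod_filter_not]
  simp only [e]
  have hm2 : ∀ S' : Finset (V × ℕ), Measurable fun w : V × ℕ → ℝ => lk S' w σ := by
    intro S'
    unfold lk
    exact Finset.measurable_prod _ fun i _ =>
      measurable_const.add ((measurable_pi_apply i).mul_const _)
  have h3 := indep_mul hQ (A := A) (F := fun w => h w * lk (S.filter (· ∈ A)) w σ)
    (H := fun w => lk (S.filter (¬ · ∈ A)) w σ) (hm.mul (hm2 _)) (hm2 _)
    (fun x y hxy => by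
      simp only
      rw [hd hxy, lk_congr (fun i hi => hxy i (Finset.mem_filter.1 hi).2) σ])
    (fun x y hxy => lk_congr (fun i hi => hxy i (Finset.mem_filter.1 hi).2) σ)
  rw [h3, integral_lk hQ, mul_one]

theorem marg_le (hQ : RefLaw Q) [IsProbabilityMeasure μ] {S S' : Finset (V × ℕ)} (hSS : S' ⊆ S)
    {h : (V × ℕ → ℝ) → ℝ} (hh : BF h) (hd : DependsOn h (S' : Set (V × ℕ)))
    {f : (V → ℤˣ) → ℝ} (hf : LocalOn Set.univ f) :
    ∫ w, h w * WW μ S w f ∂Q = ∫ w, h w * WW μ S' w f ∂Q := by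
  classical
  rw [marg hQ S (S' : Set (V × ℕ)) hh hd hf]
  have : S.filter (· ∈ (S' : Set (V × ℕ))) = S' := by
    ext i
    simp only [Finset.mem_filter, Finset.mem_coe]
    exact ⟨fun h => h.2, fun h => ⟨hSS h, h⟩⟩
  congr 1
  funext w
  congr 2
  convert this

theorem marg_on (hQ : RefLaw Q) [IsProbabilityMeasure μ] (S : Finset (V × ℕ)) (A : Set V)
    {h : (V × ℕ → ℝ) → ℝ} (hh : BF h) (hd : DependsOn h (itm A))
    {f : (V → ℤˣ) → ℝ} (hf : LocalOn Set.univ f) :
    ∫ w, h w * WW μ S w f ∂Q = ∫ w, h w * WW μ (onS S A) w f ∂Q := by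
  classical
  rw [marg hQ S (itm A) hh hd hf]
  rfl

theorem marg_onZ (hQ : RefLaw Q) [IsProbabilityMeasure μ] (S : Finset (V × ℕ)) (A : Set V)
    {h : (V × ℕ → ℝ) → ℝ} (hh : BF h) (hd : DependsOn h (itm A)) :
    ∫ w, h w * ZZ μ S w ∂Q = ∫ w, h w * ZZ μ (onS S A) w ∂Q :=
  marg_on hQ S A hh hd (localP_const 1)

theorem marg_onN (hQ : RefLaw Q) [IsProbabilityMeasure μ] (S : Finset (V × ℕ)) (A : Set V)
    {h : (V × ℕ → ℝ) → ℝ} (hh : BF h) (hd : DependsOn h (itm A)) (x : V) :
    ∫ w, h w * NN μ S x w ∂Q = ∫ w, h w * NN μ (onS S A) x w ∂Q :=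
  marg_on hQ S A hh hd (localP_sp (Set.mem_univ x))

end Ref

section Flip

variable {μ : Measure (V → ℤˣ)} {S : Finset (V × ℕ)}

/-- invariance under the global flip of the spins -/
def FlipInv (μ : Measure (V → ℤˣ)) : Prop :=
  ∀ f : (V → ℤˣ) → ℝ, LocalOn Set.univ f → ∫ σ, f (-σ) ∂μ = ∫ σ, f σ ∂μ

theorem sp_neg (σ : V → ℤˣ) (v : V) : sp (-σ) v = -sp σ v := by
  simp only [sp, Pi.neg_apply, Units.val_neg, Int.cast_neg]

theorem lk_neg (w : V × ℕ → ℝ) (σ : V → ℤˣ) : lk S (-w) σ = lk S w (-σ) := by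
  unfold lk
  refine Finset.prod_congr rfl fun i _ => ?_
  rw [sp_neg, Pi.neg_apply]
  ring

theorem ZZ_neg (hμ : FlipInv μ) (w : V × ℕ → ℝ) : ZZ μ S (-w) = ZZ μ S w := by
  unfold ZZ WW
  rw [← hμ _ (localP_mul (localP_const 1) (localP_lk_univ S w))]
  simp only [lk_neg]

theorem NN_neg (hμ : FlipInv μ) (x : V) (w : V × ℕ → ℝ) : NN μ S x (-w) = -NN μ S x w := by
  unfold NN WW
  rw [← hμ _ (localP_mul (localP_sp (Set.mem_univ x)) (localP_lk_univ S w)), ← integral_neg]
  congr 1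
  funext σ
  rw [lk_neg, sp_neg]
  ring

theorem pmn_neg (hμ : FlipInv μ) (x : V) (w : V × ℕ → ℝ) : pmn μ S x (-w) = -pmn μ S x w := by
  unfold pmn
  rw [NN_neg hμ, ZZ_neg hμ, neg_div]

theorem msg_neg {G : SimpleGraph V} (hμ : FlipInv μ) (x y : V) (w : V × ℕ → ℝ) :
    msg G μ S x y (-w) = -msg G μ S x y w := pmn_neg hμ x w

theorem integral_sp (hμ : FlipInv μ) (x : V) : ∫ σ, sp σ x ∂μ = 0 := by
  have h := hμ _ (localP_sp (Set.mem_univ x))
  simp only [sp_neg, integral_neg] at h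
  linarith only [h]

end Flip

section Edge

variable {G : SimpleGraph V} {μ : Measure (V → ℤˣ)} {Q : Measure (V × ℕ → ℝ)} {θ : ℝ}
  {S : Finset (V × ℕ)}

theorem mem_side_self {u v : V} (huv : G.Adj u v) : u ∈ side G u v := by
  have hd : G.dist u v = 1 := SimpleGraph.dist_eq_one_iff_adj.2 huv
  simp only [side, Set.mem_ofPred_eq, SimpleGraph.dist_self, hd]
  norm_num

theorem side_disjoint {u v x : V} (h : x ∈ side G u v) : x ∉ side G v u := by
  simp only [side, Set.mem_ofPred_eq] at h ⊢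
  omega

theorem lk_onS_mul (hG : G.IsTree) {u v : V} (huv : G.Adj u v) (w : V × ℕ → ℝ) (σ : V → ℤˣ) :
    lk S w σ = lk (onS S (side G u v)) w σ * lk (onS S (side G v u)) w σ := by
  classical
  have h : onS S (side G v u) = S.filter fun i => ¬ (i.1 ∈ side G u v) := by
    ext i
    rw [mem_onS, Finset.mem_filter, ← side_compl hG huv, Set.mem_compl_iff]
  rw [h]
  unfold lk onS
  rw [Finset.prod_filter_mul_prod_filter_not]

theorem onS_onS (A B : Set V) : onS (onS S A) B = onS S (A ∩ B) := by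
  ext i
  simp only [mem_onS, Set.mem_inter_iff, and_assoc]

theorem onS_onS_of_subset {A B : Set V} (h : B ⊆ A) : onS (onS S A) B = onS S B := by
  rw [onS_onS, Set.inter_eq_self_of_subset_right h]

/-- splitting of the weights over an edge -/
theorem WW_edge (hG : G.IsTree) (hμ : EdgeSplit G θ μ) {u v : V} (huv : G.Adj u v)
    (w : V × ℕ → ℝ) {f g : (V → ℤˣ) → ℝ} (hf : LocalOn (side G u v) f)
    (hg : LocalOn (side G v u) g) :
    WW μ S w (fun σ => f σ * g σ) =
      WW μ (onS S (side G u v)) w f * WW μ (onS S (side G v u)) w g +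
      θ * WW μ (onS S (side G u v)) w (fun σ => f σ * sp σ u) *
        WW μ (onS S (side G v u)) w (fun σ => g σ * sp σ v) := by
  have h1 := hμ u v huv (fun σ => f σ * lk (onS S (side G u v)) w σ)
    (fun σ => g σ * lk (onS S (side G v u)) w σ)
    (localP_mul hf (localP_lk fun i hi => (mem_onS.1 hi).2))
    (localP_mul hg (localP_lk fun i hi => (mem_onS.1 hi).2))
  unfold WW
  have e : ∀ σ, f σ * g σ * lk S w σ = f σ * lk (onS S (side G u v)) w σ *
      (g σ * lk (onS S (side G v u)) w σ) := by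
    intro σ
    rw [lk_onS_mul hG huv]
    ring
  simp only [e, h1]
  congr 2
  · congr 1
    congr 1
    funext σ
    ring
  · congr 1
    funext σ
    ring

theorem ZZ_edge (hG : G.IsTree) (hμ : EdgeSplit G θ μ) {u v : V} (huv : G.Adj u v)
    (w : V × ℕ → ℝ) : ZZ μ S w =
      ZZ μ (onS S (side G u v)) w * ZZ μ (onS S (side G v u)) w +
      θ * NN μ (onS S (side G u v)) u w * NN μ (onS S (side G v u)) v w := by
  have h := WW_edge (S := S) hG hμ huv w (localP_const 1) (localP_const 1)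
  simp only [one_mul] at h
  exact h

theorem NN_edge (hG : G.IsTree) (hμ : EdgeSplit G θ μ) {u v : V} (huv : G.Adj u v)
    (w : V × ℕ → ℝ) : NN μ S u w =
      NN μ (onS S (side G u v)) u w * ZZ μ (onS S (side G v u)) w +
      θ * ZZ μ (onS S (side G u v)) w * NN μ (onS S (side G v u)) v w := by
  have h := WW_edge (S := S) hG hμ huv w (localP_sp (mem_side_self huv)) (localP_const 1)
  simp only [one_mul, mul_one, sp_mul_self] at h
  exact h

/-- spin just outside of the support of the data -/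
theorem NN_outside [IsProbabilityMeasure μ] (hG : G.IsTree) (hμ : EdgeSplit G θ μ)
    (hF : FlipInv μ) {u v : V} (huv : G.Adj u v) (w : V × ℕ → ℝ)
    (hS : ∀ i ∈ S, i.1 ∈ side G v u) : NN μ S u w = θ * NN μ S v w := by
  have h := NN_edge (S := S) hG hμ huv w
  have e1 : onS S (side G u v) = ∅ := by
    ext i
    simp only [mem_onS, Finset.notMem_empty, iff_false, not_and]
    intro hi hi'
    exact side_disjoint hi' (hS i hi)
  have e2 : onS S (side G v u) = S := by
    ext i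
    simp only [mem_onS, and_iff_left_iff_imp]
    exact hS i
  have e3 : NN μ ∅ u w = 0 := by
    unfold NN WW lk
    simp only [Finset.prod_empty, mul_one]
    exact integral_sp hF u
  have e4 : ZZ μ ∅ w = 1 := by
    unfold ZZ WW lk
    simp
  rw [e1, e2, e3, e4] at h
  linarith only [h]

theorem side_subset (hG : G.IsTree) {u v p : V} (huv : G.Adj u v) (hup : G.Adj u p)
    (hne : v ≠ p) : side G v u ⊆ side G u p := by
  intro x hx
  simp only [side, Set.mem_ofPred_eq] at hx ⊢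
  by_contra h
  rcases dist_adj_cases hG huv x with h1 | h1
  · (clear * - hx h1; omega)
  · rcases dist_adj_cases hG hup x with h2 | h2
    · omega
    · exact hne (adj_dist_unique hG huv.symm hup.symm h1.symm h2.symm)

theorem itm_compl (hG : G.IsTree) {u v : V} (huv : G.Adj u v) :
    (itm (side G u v))ᶜ = itm (side G v u) := by
  ext i
  simp only [itm, Set.mem_compl_iff, Set.mem_ofPred_eq]
  rw [← side_compl hG huv, Set.mem_compl_iff]

theorem ZZ_dep_on (S : Finset (V × ℕ)) (A : Set V) :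
    DependsOn (fun w => ZZ μ (onS S A) w) (itm A) := ZZ_dep _ fun _ hi => (mem_onS.1 hi).2

theorem NN_dep_on (S : Finset (V × ℕ)) (A : Set V) (x : V) :
    DependsOn (fun w => NN μ (onS S A) x w) (itm A) := NN_dep _ x fun _ hi => (mem_onS.1 hi).2

/-- the planted expectation of a product of functions of the data on the two sides of an edge -/
theorem edge_integral [IsProbabilityMeasure μ] (hG : G.IsTree) (hμ : EdgeSplit G θ μ)
    (hQ : RefLaw Q) (S : Finset (V × ℕ)) {u v : V} (huv : G.Adj u v)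
    {f g : (V × ℕ → ℝ) → ℝ} (hf : BF f) (hg : BF g) (hfd : DependsOn f (itm (side G u v)))
    (hgd : DependsOn g (itm (side G v u))) :
    ∫ w, f w * g w * ZZ μ S w ∂Q =
      (∫ w, f w * ZZ μ (onS S (side G u v)) w ∂Q) * (∫ w, g w * ZZ μ (onS S (side G v u)) w ∂Q) +
      θ * (∫ w, f w * NN μ (onS S (side G u v)) u w ∂Q) *
        (∫ w, g w * NN μ (onS S (side G v u)) v w ∂Q) := by
  have hgd' : ∀ {F : (V × ℕ → ℝ) → ℝ}, DependsOn F (itm (side G v u)) →
      DependsOn F (itm (side G u v))ᶜ := fun h => by rw [itm_compl hG huv]; exact h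
  rw [← indep_mul hQ (hf.mul (BF_ZZ _)).1 (hg.mul (BF_ZZ _)).1
    (DependsOn.mulc hfd (ZZ_dep_on S _)) (hgd' (DependsOn.mulc hgd (ZZ_dep_on S _))), mul_assoc,
    ← indep_mul hQ (hf.mul (BF_NN _ u)).1 (hg.mul (BF_NN _ v)).1
    (DependsOn.mulc hfd (NN_dep_on S _ u)) (hgd' (DependsOn.mulc hgd (NN_dep_on S _ v))),
    ← integral_const_mul, ← integral_add
    (((hf.mul (BF_ZZ _)).mul (hg.mul (BF_ZZ _))).integrable hQ)
    ((((hf.mul (BF_NN _ u)).mul (hg.mul (BF_NN _ v))).integrable hQ).const_mul θ)]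
  congr 1
  funext w
  rw [ZZ_edge hG hμ huv w]
  ring

/-- same with the spin at `u` -/
theorem edge_integral_N [IsProbabilityMeasure μ] (hG : G.IsTree) (hμ : EdgeSplit G θ μ)
    (hQ : RefLaw Q) (S : Finset (V × ℕ)) {u v : V} (huv : G.Adj u v)
    {f g : (V × ℕ → ℝ) → ℝ} (hf : BF f) (hg : BF g) (hfd : DependsOn f (itm (side G u v)))
    (hgd : DependsOn g (itm (side G v u))) :
    ∫ w, f w * g w * NN μ S u w ∂Q =
      (∫ w, f w * NN μ (onS S (side G u v)) u w ∂Q) *
        (∫ w, g w * ZZ μ (onS S (side G v u)) w ∂Q) +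
      θ * (∫ w, f w * ZZ μ (onS S (side G u v)) w ∂Q) *
        (∫ w, g w * NN μ (onS S (side G v u)) v w ∂Q) := by
  have hgd' : ∀ {F : (V × ℕ → ℝ) → ℝ}, DependsOn F (itm (side G v u)) →
      DependsOn F (itm (side G u v))ᶜ := fun h => by rw [itm_compl hG huv]; exact h
  rw [← indep_mul hQ (hf.mul (BF_NN _ u)).1 (hg.mul (BF_ZZ _)).1
    (DependsOn.mulc hfd (NN_dep_on S _ u)) (hgd' (DependsOn.mulc hgd (ZZ_dep_on S _))), mul_assoc,
    ← indep_mul hQ (hf.mul (BF_ZZ _)).1 (hg.mul (BF_NN _ v)).1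
    (DependsOn.mulc hfd (ZZ_dep_on S _)) (hgd' (DependsOn.mulc hgd (NN_dep_on S _ v))),
    ← integral_const_mul, ← integral_add
    (((hf.mul (BF_NN _ u)).mul (hg.mul (BF_ZZ _))).integrable hQ)
    ((((hf.mul (BF_ZZ _)).mul (hg.mul (BF_NN _ v))).integrable hQ).const_mul θ)]
  congr 1
  funext w
  rw [NN_edge hG hμ huv w]
  ring

/-- an even function times the weight of a spin integrates to zero -/
theorem integral_even_NN [IsProbabilityMeasure μ] (hF : FlipInv μ) (hQ : RefLaw Q)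
    (S : Finset (V × ℕ)) (x : V) {f : (V × ℕ → ℝ) → ℝ} (hf : BF f) (hev : ∀ w, f (-w) = f w) :
    ∫ w, f w * NN μ S x w ∂Q = 0 :=
  integral_odd hQ (hf.mul (BF_NN S x)).1 fun w => by rw [hev, NN_neg hF]; ring

/-- an odd function times the total weight integrates to zero -/
theorem integral_odd_ZZ [IsProbabilityMeasure μ] (hF : FlipInv μ) (hQ : RefLaw Q)
    (S : Finset (V × ℕ)) {f : (V × ℕ → ℝ) → ℝ} (hf : BF f) (hodd : ∀ w, f (-w) = -f w) :
    ∫ w, f w * ZZ μ S w ∂Q = 0 :=
  integral_odd hQ (hf.mul (BF_ZZ S)).1 fun w => by rw [hodd, ZZ_neg hF]; ring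

/-- S2 : an even function of the data on one side of an edge is independent of the data on the
other side, under the planted law -/
theorem planted_indep [IsProbabilityMeasure μ] (hG : G.IsTree) (hμ : EdgeSplit G θ μ)
    (hF : FlipInv μ) (hQ : RefLaw Q) (S : Finset (V × ℕ)) {u v : V} (huv : G.Adj u v)
    {f g : (V × ℕ → ℝ) → ℝ} (hf : BF f) (hg : BF g) (hfd : DependsOn f (itm (side G u v)))
    (hgd : DependsOn g (itm (side G v u))) (hev : ∀ w, f (-w) = f w) :
    ∫ w, f w * g w * ZZ μ S w ∂Q = (∫ w, f w * ZZ μ S w ∂Q) * (∫ w, g w * ZZ μ S w ∂Q) := by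
  rw [edge_integral hG hμ hQ S huv hf hg hfd hgd, integral_even_NN hF hQ _ u hf hev,
    marg_onZ hQ S _ hf hfd, marg_onZ hQ S _ hg hgd]
  ring

/-- two branches -/
theorem branch_integral [IsProbabilityMeasure μ] (hG : G.IsTree) (hμ : EdgeSplit G θ μ)
    (hF : FlipInv μ) (hQ : RefLaw Q) (S : Finset (V × ℕ)) {u v z : V} (huv : G.Adj u v)
    (huz : G.Adj u z) (hvz : v ≠ z) {f h : (V × ℕ → ℝ) → ℝ} (hf : BF f) (hh : BF h)
    (hfd : DependsOn f (itm (side G v u))) (hhd : DependsOn h (itm (side G z u))) :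
    ∫ w, h w * f w * ZZ μ S w ∂Q =
      (∫ w, f w * ZZ μ (onS S (side G v u)) w ∂Q) * (∫ w, h w * ZZ μ (onS S (side G z u)) w ∂Q) +
      θ ^ 2 * (∫ w, f w * NN μ (onS S (side G v u)) v w ∂Q) *
        (∫ w, h w * NN μ (onS S (side G z u)) z w ∂Q) := by
  have hsub : side G z u ⊆ side G u v := side_subset hG huz huv hvz.symm
  have hhd' : DependsOn h (itm (side G u v)) := DependsOn.monoc hhd fun i hi => hsub hi
  rw [edge_integral hG hμ hQ S huv hh hf hhd' hfd, marg_onZ hQ _ (side G z u) hh hhd,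
    marg_onN hQ _ (side G z u) hh hhd u, onS_onS_of_subset hsub]
  have e : ∀ w, NN μ (onS S (side G z u)) u w = θ * NN μ (onS S (side G z u)) z w := fun w =>
    NN_outside hG hμ hF huz w fun i hi => (mem_onS.1 hi).2
  simp only [e]
  have e2 : ∫ w, h w * (θ * NN μ (onS S (side G z u)) z w) ∂Q =
      θ * ∫ w, h w * NN μ (onS S (side G z u)) z w ∂Q := by
    rw [← integral_const_mul]
    congr 1
    funext w
    ring
  rw [e2]
  ring

theorem branch_integral_N [IsProbabilityMeasure μ] (hG : G.IsTree) (hμ : EdgeSplit G θ μ)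
    (hF : FlipInv μ) (hQ : RefLaw Q) (S : Finset (V × ℕ)) {u v z : V} (huv : G.Adj u v)
    (huz : G.Adj u z) (hvz : v ≠ z) {f h : (V × ℕ → ℝ) → ℝ} (hf : BF f) (hh : BF h)
    (hfd : DependsOn f (itm (side G v u))) (hhd : DependsOn h (itm (side G z u))) :
    ∫ w, h w * f w * NN μ S u w ∂Q =
      θ * (∫ w, f w * ZZ μ (onS S (side G v u)) w ∂Q) *
        (∫ w, h w * NN μ (onS S (side G z u)) z w ∂Q) +
      θ * (∫ w, f w * NN μ (onS S (side G v u)) v w ∂Q) *
        (∫ w, h w * ZZ μ (onS S (side G z u)) w ∂Q) := by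
  have hsub : side G z u ⊆ side G u v := side_subset hG huz huv hvz.symm
  have hhd' : DependsOn h (itm (side G u v)) := DependsOn.monoc hhd fun i hi => hsub hi
  rw [edge_integral_N hG hμ hQ S huv hh hf hhd' hfd, marg_onZ hQ _ (side G z u) hh hhd,
    marg_onN hQ _ (side G z u) hh hhd u, onS_onS_of_subset hsub]
  have e : ∀ w, NN μ (onS S (side G z u)) u w = θ * NN μ (onS S (side G z u)) z w := fun w =>
    NN_outside hG hμ hF huz w fun i hi => (mem_onS.1 hi).2
  simp only [e]
  have e2 : ∫ w, h w * (θ * NN μ (onS S (side G z u)) z w) ∂Q =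
      θ * ∫ w, h w * NN μ (onS S (side G z u)) z w ∂Q := by
    rw [← integral_const_mul]
    congr 1
    funext w
    ring
  rw [e2]
  ring

theorem integral_congr_gd (hQ : RefLaw Q) {F F' : (V × ℕ → ℝ) → ℝ} (h : ∀ w, Gd w → F w = F' w) :
    ∫ w, F w ∂Q = ∫ w, F' w ∂Q := by
  apply integral_congr_ae
  filter_upwards [hQ.bdd] with w hw
  exact h w hw

theorem integral_mul_msg_ZZ [IsProbabilityMeasure μ] (hQ : RefLaw Q) (S : Finset (V × ℕ))
    (x y : V) (h : (V × ℕ → ℝ) → ℝ) :
    ∫ w, h w * msg G μ S x y w * ZZ μ (onS S (side G x y)) w ∂Q =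
      ∫ w, h w * NN μ (onS S (side G x y)) x w ∂Q := by
  apply integral_congr_gd hQ
  intro w hw
  rw [mul_assoc]
  congr 1
  exact pmn_mul hw x

/-- S1 : one-step lower bound for the second moment of a message, given the data of one branch -/
theorem planted_step [IsProbabilityMeasure μ] (hG : G.IsTree) (h0 : 0 ≤ θ) (h1 : θ < 1)
    (hμ : EdgeSplit G θ μ) (hF : FlipInv μ) (hQ : RefLaw Q) (S : Finset (V × ℕ)) {u v p z : V}
    (huv : G.Adj u v) (hup : G.Adj u p) (huz : G.Adj u z) (hvp : v ≠ p) (hzv : z ≠ v)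
    (hzp : z ≠ p) {g : (V × ℕ → ℝ) → ℝ} (hg : BF g) (hgd : DependsOn g (itm (side G v u)))
    (hg0 : ∀ w, Gd w → 0 ≤ g w) :
    θ ^ 2 * (1 - θ ^ 2) ^ 2 * (∫ w, msg G μ S z u w ^ 2 * ZZ μ S w ∂Q) *
      (∫ w, g w * ZZ μ S w ∂Q) ≤ ∫ w, g w * msg G μ S u p w ^ 2 * ZZ μ S w ∂Q := by
  have hsubB : side G v u ⊆ side G u p := side_subset hG huv hup hvp
  have hsubC : side G z u ⊆ side G u p := side_subset hG huz hup hzp
  set D := onS S (side G u p) with hD
  set B := onS S (side G v u) with hB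
  set C := onS S (side G z u) with hC
  have hDB : onS D (side G v u) = B := onS_onS_of_subset hsubB
  have hDC : onS D (side G z u) = C := onS_onS_of_subset hsubC
  set m := msg G μ S u p with hm
  set k := msg G μ S z u with hk
  set mv := msg G μ S v u with hmv
  have bm : BF m := BF_msg G S u p
  have bk : BF k := BF_msg G S z u
  have bv : BF mv := BF_msg G S v u
  have dk : DependsOn k (itm (side G z u)) := msg_dep G S z u
  have dv : DependsOn mv (itm (side G v u)) := msg_dep G S v u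
  have dm : DependsOn m (itm (side G u p)) := msg_dep G S u p
  -- prior mean and coefficient
  set a : (V × ℕ → ℝ) → ℝ := fun w => θ * mv w with ha
  set lam : (V × ℕ → ℝ) → ℝ := fun w => θ * (1 - a w ^ 2) with hlam
  have ba : BF a := (BF.const θ).mul bv
  have bl : BF lam := (BF.const θ).mul ((BF.const 1).sub (ba.pow 2))
  have da : DependsOn a (itm (side G v u)) := DependsOn.compc dv fun x => θ * x
  have dl : DependsOn lam (itm (side G v u)) := DependsOn.compc da fun x => θ * (1 - x ^ 2)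
  set q := ∫ w, k w ^ 2 * ZZ μ C w ∂Q with hq
  -- reduction of all the integrals to the data sets D, B, C
  have r1 : ∫ w, k w ^ 2 * ZZ μ S w ∂Q = q := marg_onZ hQ S _ (bk.pow 2) (DependsOn.powc dk 2)
  have r2 : ∫ w, g w * ZZ μ S w ∂Q = ∫ w, g w * ZZ μ B w ∂Q := marg_onZ hQ S _ hg hgd
  have r3 : ∫ w, g w * m w ^ 2 * ZZ μ S w ∂Q = ∫ w, g w * m w ^ 2 * ZZ μ D w ∂Q :=
    marg_onZ hQ S _ (hg.mul (bm.pow 2)) (DependsOn.mulc
      (DependsOn.monoc hgd fun i hi => hsubB hi) (DependsOn.powc dm 2))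
  rw [r1, r2, r3]
  -- basic integrals over C
  have c1 : ∫ w, k w * ZZ μ C w ∂Q = 0 := integral_odd_ZZ hF hQ C bk fun w => msg_neg hF z u w
  have c2 : ∫ w, k w * NN μ C z w ∂Q = q := by
    rw [← integral_mul_msg_ZZ (G := G) hQ S z u k, hq]
    congr 1
    funext w
    ring
  have c3 : ∫ w, k w ^ 2 * NN μ C z w ∂Q = 0 :=
    integral_even_NN hF hQ C z (bk.pow 2) fun w => by
      have : k (-w) = -k w := msg_neg hF z u w
      rw [this]
      ring
  -- theta * N_B = a * Z_B
  have aB : ∀ w, Gd w → θ * NN μ B v w = a w * ZZ μ B w := by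
    intro w hw
    rw [ha]
    simp only
    have : mv w * ZZ μ B w = NN μ B v w := pmn_mul hw v
    rw [mul_assoc, this]
  -- the six integrals
  have t2 : ∫ w, g w * a w ^ 2 * ZZ μ D w ∂Q = ∫ w, g w * a w ^ 2 * ZZ μ B w ∂Q := by
    have := marg_onZ (μ := μ) hQ D (side G v u) (hg.mul (ba.pow 2))
      (DependsOn.mulc hgd (DependsOn.powc da 2))
    rw [hDB] at this
    exact this
  have t3 : ∫ w, k w ^ 2 * (g w * lam w ^ 2) * ZZ μ D w ∂Q =
      q * ∫ w, g w * lam w ^ 2 * ZZ μ B w ∂Q := by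
    rw [branch_integral hG hμ hF hQ D huv huz hzv.symm (hg.mul (bl.pow 2)) (bk.pow 2)
      (DependsOn.mulc hgd (DependsOn.powc dl 2)) (DependsOn.powc dk 2), hDB, hDC, c3]
    ring
  have t4 : ∫ w, g w * a w * m w * ZZ μ D w ∂Q = ∫ w, g w * a w ^ 2 * ZZ μ B w ∂Q := by
    rw [integral_mul_msg_ZZ hQ S u p (fun w => g w * a w)]
    have h2 := marg_onN (μ := μ) hQ D (side G v u) (hg.mul ba) (DependsOn.mulc hgd da) u
    rw [hDB] at h2
    rw [h2]
    apply integral_congr_gd hQ
    intro w hw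
    rw [NN_outside hG hμ hF huv w fun i hi => (mem_onS.1 hi).2, aB w hw]
    ring
  have t5 : ∫ w, k w * (g w * lam w) * m w * ZZ μ D w ∂Q =
      θ * q * ∫ w, g w * lam w * ZZ μ B w ∂Q := by
    rw [integral_mul_msg_ZZ hQ S u p (fun w => k w * (g w * lam w)),
      branch_integral_N hG hμ hF hQ D huv huz hzv.symm (hg.mul bl) bk
      (DependsOn.mulc hgd dl) dk, hDB, hDC, c1, c2]
    ring
  have t6 : ∫ w, k w * (g w * a w * lam w) * ZZ μ D w ∂Q =
      θ * q * ∫ w, g w * lam w * a w ^ 2 * ZZ μ B w ∂Q := by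
    rw [branch_integral hG hμ hF hQ D huv huz hzv.symm ((hg.mul ba).mul bl) bk
      (DependsOn.mulc (DependsOn.mulc hgd da) dl) dk, hDB, hDC, c1, c2]
    have e : θ * ∫ w, g w * a w * lam w * NN μ B v w ∂Q =
        ∫ w, g w * lam w * a w ^ 2 * ZZ μ B w ∂Q := by
      rw [← integral_const_mul]
      apply integral_congr_gd hQ
      intro w hw
      have := aB w hw
      calc θ * (g w * a w * lam w * NN μ B v w) = g w * a w * lam w * (θ * NN μ B v w) := by ring
        _ = _ := by rw [this]; ring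
    rw [← e]
    ring
  -- positivity
  have hpos : 0 ≤ ∫ w, g w * (m w - a w - lam w * k w) ^ 2 * ZZ μ D w ∂Q := by
    apply integral_nonneg_of_ae
    filter_upwards [hQ.bdd] with w hw
    exact mul_nonneg (mul_nonneg (hg0 w hw) (sq_nonneg _)) (ZZ_pos hw).le
  have bZ : BF fun w => ZZ μ D w := BF_ZZ D
  have i1 := (hg.mul (bm.pow 2)).mul bZ
  have i2 := (hg.mul (ba.pow 2)).mul bZ
  have i3 := ((bk.pow 2).mul (hg.mul (bl.pow 2))).mul bZ
  have i4 := ((hg.mul ba).mul bm).mul bZ
  have i5 := ((bk.mul (hg.mul bl)).mul bm).mul bZ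
  have i6 := (bk.mul ((hg.mul ba).mul bl)).mul bZ
  have hexp : ∫ w, g w * (m w - a w - lam w * k w) ^ 2 * ZZ μ D w ∂Q =
      (∫ w, g w * m w ^ 2 * ZZ μ D w ∂Q) + (∫ w, g w * a w ^ 2 * ZZ μ D w ∂Q) +
      (∫ w, k w ^ 2 * (g w * lam w ^ 2) * ZZ μ D w ∂Q) -
      2 * (∫ w, g w * a w * m w * ZZ μ D w ∂Q) -
      2 * (∫ w, k w * (g w * lam w) * m w * ZZ μ D w ∂Q) +
      2 * (∫ w, k w * (g w * a w * lam w) * ZZ μ D w ∂Q) := by
    rw [← integral_const_mul, ← integral_const_mul, ← integral_const_mul, ← int_add hQ i1 i2,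
      ← int_add hQ (i1.add i2) i3, ← int_sub hQ ((i1.add i2).add i3) ((BF.const 2).mul i4),
      ← int_sub hQ (((i1.add i2).add i3).sub ((BF.const 2).mul i4)) ((BF.const 2).mul i5),
      ← int_add hQ ((((i1.add i2).add i3).sub ((BF.const 2).mul i4)).sub
        ((BF.const 2).mul i5)) ((BF.const 2).mul i6)]
    congr 1
    funext w
    ring
  rw [hexp, t2, t3, t4, t5, t6] at hpos
  -- combine the integrals over B
  have j1 := (hg.mul (bl.pow 2)).mul (BF_ZZ (μ := μ) B)
  have j2 := (hg.mul bl).mul (BF_ZZ (μ := μ) B)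
  have j3 := ((hg.mul bl).mul (ba.pow 2)).mul (BF_ZZ (μ := μ) B)
  have hcomb : (∫ w, g w * lam w ^ 2 * ZZ μ B w ∂Q) -
      2 * θ * (∫ w, g w * lam w * ZZ μ B w ∂Q) +
      2 * θ * (∫ w, g w * lam w * a w ^ 2 * ZZ μ B w ∂Q) =
      -∫ w, g w * lam w ^ 2 * ZZ μ B w ∂Q := by
    rw [← integral_const_mul, ← integral_const_mul,
      ← int_sub hQ j1 ((BF.const (2 * θ)).mul j2),
      ← int_add hQ (j1.sub ((BF.const (2 * θ)).mul j2)) ((BF.const (2 * θ)).mul j3),
      ← integral_neg]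
    congr 1
    funext w
    simp only [hlam]
    ring
  have hlow : θ ^ 2 * (1 - θ ^ 2) ^ 2 * ∫ w, g w * ZZ μ B w ∂Q ≤
      ∫ w, g w * lam w ^ 2 * ZZ μ B w ∂Q := by
    rw [← integral_const_mul]
    apply integral_mono_ae (((hg.mul (BF_ZZ (μ := μ) B)).integrable hQ).const_mul _)
      (j1.integrable hQ)
    filter_upwards [hQ.bdd] with w hw
    have hz := (ZZ_pos (μ := μ) (S := B) hw).le
    have hgw := hg0 w hw
    have h2 : a w ^ 2 ≤ θ ^ 2 := by
      rw [ha]
      simp only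
      rw [mul_pow]
      have : mv w ^ 2 ≤ 1 := by
        rw [← sq_abs]
        exact pow_le_one₀ (abs_nonneg _) (abs_msg_le G hw v u)
      linarith only [mul_nonneg (sq_nonneg (θ : ℝ)) (sub_nonneg.2 this)]
    have h3 : (1 - θ ^ 2) ^ 2 ≤ (1 - a w ^ 2) ^ 2 := by
      have h4 : 0 ≤ 1 - θ ^ 2 := by nlinarith only [h1, h0]
      exact pow_le_pow_left₀ h4 (by linarith only [h2]) 2
    have h5 : θ ^ 2 * (1 - θ ^ 2) ^ 2 ≤ lam w ^ 2 := by
      rw [hlam]
      simp only
      rw [mul_pow]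
      exact mul_le_mul_of_nonneg_left h3 (sq_nonneg θ)
    calc θ ^ 2 * (1 - θ ^ 2) ^ 2 * (g w * ZZ μ B w) = g w * (θ ^ 2 * (1 - θ ^ 2) ^ 2) * ZZ μ B w := by
          ring
      _ ≤ g w * lam w ^ 2 * ZZ μ B w :=
          mul_le_mul_of_nonneg_right (mul_le_mul_of_nonneg_left h5 hgw) hz
  have hq0 : 0 ≤ q := by
    rw [hq]
    apply integral_nonneg_of_ae
    filter_upwards [hQ.bdd] with w hw
    exact mul_nonneg (sq_nonneg _) (ZZ_pos hw).le
  have h9 := mul_le_mul_of_nonneg_left hlow hq0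
  have h10 : q * (∫ w, g w * lam w ^ 2 * ZZ μ B w ∂Q) -
      2 * (θ * q * ∫ w, g w * lam w * ZZ μ B w ∂Q) +
      2 * (θ * q * ∫ w, g w * lam w * a w ^ 2 * ZZ μ B w ∂Q) =
      -(q * ∫ w, g w * lam w ^ 2 * ZZ μ B w ∂Q) := by
    linear_combination q * hcomb
  have h11 : 0 ≤ ∫ w, g w * a w ^ 2 * ZZ μ B w ∂Q := by
    apply integral_nonneg_of_ae
    filter_upwards [hQ.bdd] with w hw
    exact mul_nonneg (mul_nonneg (hg0 w hw) (sq_nonneg _)) (ZZ_pos hw).le
  linarith only [h11, h10, h9, hpos]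

/-- covariance of a message with an observation at its site -/
theorem integral_coord_NN [IsProbabilityMeasure μ] (hF : FlipInv μ) (hQ : RefLaw Q)
    (S : Finset (V × ℕ)) {i : V × ℕ} (hi : i ∈ S) :
    ∫ w, w i * NN μ S i.1 w ∂Q = ∫ w, w i ^ 2 ∂Q := by
  have hsub : ({i} : Finset (V × ℕ)) ⊆ S := by simpa only [Finset.singleton_subset_iff] using hi
  have h := marg_le (μ := μ) hQ hsub (BF.coord i) (fun x y hxy => hxy i (by simp))
    (localP_sp (Set.mem_univ i.1))
  unfold NN
  rw [h]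
  congr 1
  funext w
  unfold WW lk
  simp only [Finset.prod_singleton]
  have e : ∀ σ : V → ℤˣ, sp σ i.1 * (1 + w i * sp σ i.1) = sp σ i.1 + w i := by
    intro σ
    have := sp_mul_self σ i.1
    linear_combination w i * this
  simp only [e]
  rw [integral_add ((localP_sp (Set.mem_univ i.1)).integrable μ) (integrable_const _),
    integral_sp hF]
  simp only [integral_const, probReal_univ, smul_eq_mul, one_mul, zero_add]
  ring

theorem integral_coord_sq_ZZ [IsProbabilityMeasure μ] (hF : FlipInv μ) (hQ : RefLaw Q)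
    (S : Finset (V × ℕ)) {i : V × ℕ} (hi : i ∈ S) :
    ∫ w, w i ^ 2 * ZZ μ S w ∂Q = ∫ w, w i ^ 2 ∂Q := by
  have hsub : ({i} : Finset (V × ℕ)) ⊆ S := by simpa only [Finset.singleton_subset_iff] using hi
  have h := marg_le (μ := μ) hQ hsub ((BF.coord i).pow 2)
    (fun x y hxy => by simp only [hxy i (by simp)]) (localP_const 1)
  unfold ZZ
  rw [h]
  congr 1
  funext w
  unfold WW lk
  simp only [Finset.prod_singleton, one_mul]
  rw [integral_add (integrable_const _) (((localP_sp (Set.mem_univ i.1)).integrable μ).const_mul _),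
    integral_const_mul, integral_sp hF]
  simp

/-- lower bound for the second moment of a message by the second moments of the messages of the
children and the information of one observation -/
theorem planted_lower [IsProbabilityMeasure μ] (hG : G.IsTree) (hμ : EdgeSplit G θ μ)
    (hF : FlipInv μ) (hQ : RefLaw Q) (S : Finset (V × ℕ)) {x p : V}
    (hxp : G.Adj x p) {j : ℕ} (hi : (x, j) ∈ S) (Ch : Finset V)
    (hCh : ∀ z ∈ Ch, G.Adj x z ∧ z ≠ p) {e : ℝ} (he : e = ∫ w, w (x, j) ^ 2 ∂Q) {s : ℝ}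
    (hs : s = e + θ ^ 2 * ∑ z ∈ Ch, ∫ w, msg G μ S z x w ^ 2 * ZZ μ S w ∂Q) :
    s / (1 + s) ≤ ∫ w, msg G μ S x p w ^ 2 * ZZ μ S w ∂Q := by
  classical
  set D := onS S (side G x p) with hD
  set m := msg G μ S x p with hm
  have bm : BF m := BF_msg G S x p
  have dm : DependsOn m (itm (side G x p)) := msg_dep G S x p
  have bk : ∀ z, BF (msg G μ S z x) := fun z => BF_msg G S z x
  have dk : ∀ z, DependsOn (msg G μ S z x) (itm (side G z x)) := fun z => msg_dep G S z x
  have hsub : ∀ z ∈ Ch, side G z x ⊆ side G x p := fun z hz =>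
    side_subset hG (hCh z hz).1 hxp (hCh z hz).2
  have hDz : ∀ z ∈ Ch, onS D (side G z x) = onS S (side G z x) := fun z hz =>
    onS_onS_of_subset (hsub z hz)
  have hiD : (x, j) ∈ D := by
    rw [hD, mem_onS]
    exact ⟨hi, mem_side_self hxp⟩
  set q : V → ℝ := fun z => ∫ w, msg G μ S z x w ^ 2 * ZZ μ S w ∂Q with hq
  have q_eq : ∀ z, q z = ∫ w, msg G μ S z x w ^ 2 * ZZ μ (onS S (side G z x)) w ∂Q := fun z =>
    marg_onZ hQ S _ ((bk z).pow 2) (DependsOn.powc (dk z) 2)
  have q_nonneg : ∀ z, 0 ≤ q z := fun z => by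
    apply integral_nonneg_of_ae
    filter_upwards [hQ.bdd] with w hw
    exact mul_nonneg (sq_nonneg _) (ZZ_pos hw).le
  have he0 : 0 ≤ e := by
    rw [he]
    exact integral_nonneg fun w => sq_nonneg _
  have hs' : s = e + θ ^ 2 * ∑ z ∈ Ch, q z := hs
  have hq0 : 0 ≤ ∑ z ∈ Ch, q z := Finset.sum_nonneg fun z _ => q_nonneg z
  have hs0 : 0 ≤ s := by rw [hs']; (clear * - he0 hq0; positivity)
  have c1 : ∀ z, ∫ w, msg G μ S z x w * ZZ μ (onS S (side G z x)) w ∂Q = 0 := fun z =>
    integral_odd_ZZ hF hQ _ (bk z) fun w => msg_neg hF z x w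
  have c2 : ∀ z, ∫ w, msg G μ S z x w * NN μ (onS S (side G z x)) z w ∂Q = q z := by
    intro z
    rw [← integral_mul_msg_ZZ (G := G) hQ S z x (msg G μ S z x), q_eq]
    congr 1
    funext w
    ring
  -- the estimator
  set k : (V × ℕ → ℝ) → ℝ := fun w => ∑ z ∈ Ch, msg G μ S z x w with hk
  have bk' : BF k := BF.sum Ch fun z _ => bk z
  set f : (V × ℕ → ℝ) → ℝ := fun w => w (x, j) + θ * k w with hf
  have bi : BF fun w : V × ℕ → ℝ => w (x, j) := BF.coord _
  have bf : BF f := bi.add ((BF.const θ).mul bk')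
  have bZ : BF fun w => ZZ μ D w := BF_ZZ D
  have bN : BF fun w => NN μ D x w := BF_NN D x
  -- correlation with the message
  have t1 : ∫ w, f w * NN μ D x w ∂Q = s := by
    have e1 : ∫ w, f w * NN μ D x w ∂Q =
        ∫ w, w (x, j) * NN μ D x w ∂Q + θ * ∑ z ∈ Ch, ∫ w, msg G μ S z x w * NN μ D x w ∂Q := by
      rw [← integral_finsetSum Ch fun z _ => ((bk z).mul bN).integrable hQ,
        ← integral_const_mul, ← int_add hQ (bi.mul bN)
        ((BF.const θ).mul (BF.sum Ch fun z _ => (bk z).mul bN))]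
      congr 1
      funext w
      rw [hf, ← Finset.sum_mul]
      ring
    have e2 : ∀ z ∈ Ch, ∫ w, msg G μ S z x w * NN μ D x w ∂Q = θ * q z := by
      intro z hz
      rw [marg_onN hQ D (side G z x) (bk z) (dk z) x, hDz z hz, ← c2 z, ← integral_const_mul]
      congr 1
      funext w
      rw [NN_outside hG hμ hF (hCh z hz).1 w fun i hi => (mem_onS.1 hi).2]
      ring
    rw [e1, Finset.sum_congr rfl e2, integral_coord_NN hF hQ D hiD, ← he, ← Finset.mul_sum, hs']
    ring
  -- second moment of the estimator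
  have t2 : ∫ w, f w ^ 2 * ZZ μ D w ∂Q ≤ s + s ^ 2 := by
    have e3 : ∀ z ∈ Ch, ∫ w, msg G μ S z x w * w (x, j) * ZZ μ D w ∂Q = θ * e * q z := by
      intro z hz
      have hxz := (hCh z hz).1
      have hdx : DependsOn (fun w : V × ℕ → ℝ => w (x, j)) (itm (side G x z)) := fun a b hab =>
        hab (x, j) (mem_side_self hxz)
      rw [edge_integral hG hμ hQ D hxz.symm (bk z) bi (dk z) hdx, hDz z hz, c1, c2]
      have hiD' : (x, j) ∈ onS D (side G x z) := by
        rw [mem_onS]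
        exact ⟨hiD, mem_side_self hxz⟩
      rw [integral_coord_NN hF hQ _ hiD', ← he]
      ring
    have e4 : ∀ z ∈ Ch, ∀ z' ∈ Ch, ∫ w, msg G μ S z x w * msg G μ S z' x w * ZZ μ D w ∂Q ≤
        (if z = z' then q z else 0) + θ ^ 2 * (q z * q z') := by
      intro z hz z' hz'
      by_cases hzz : z = z'
      · subst hzz
        rw [if_pos rfl]
        have : ∫ w, msg G μ S z x w * msg G μ S z x w * ZZ μ D w ∂Q = q z := by
          have e5 : ∀ w, msg G μ S z x w * msg G μ S z x w * ZZ μ D w =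
              msg G μ S z x w ^ 2 * ZZ μ D w := fun w => by ring
          simp only [e5]
          rw [marg_onZ hQ D (side G z x) ((bk z).pow 2) (DependsOn.powc (dk z) 2), hDz z hz,
            q_eq]
        rw [this]
        have := mul_nonneg (sq_nonneg θ) (mul_nonneg (q_nonneg z) (q_nonneg z))
        linarith only [this]
      · rw [if_neg hzz, branch_integral hG hμ hF hQ D (hCh z' hz').1 (hCh z hz).1
          (fun h => hzz h.symm) (bk z') (bk z) (dk z') (dk z), hDz z hz, hDz z' hz', c1, c1, c2,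
          c2]
        apply le_of_eq
        ring
    have e6 : ∫ w, f w ^ 2 * ZZ μ D w ∂Q = ∫ w, w (x, j) ^ 2 * ZZ μ D w ∂Q +
        2 * θ * (∑ z ∈ Ch, ∫ w, msg G μ S z x w * w (x, j) * ZZ μ D w ∂Q) +
        θ ^ 2 * ∑ z ∈ Ch, ∑ z' ∈ Ch, ∫ w, msg G μ S z x w * msg G μ S z' x w * ZZ μ D w ∂Q := by
      have e7 : ∀ z ∈ Ch, ∑ z' ∈ Ch, ∫ w, msg G μ S z x w * msg G μ S z' x w * ZZ μ D w ∂Q =
          ∫ w, ∑ z' ∈ Ch, msg G μ S z x w * msg G μ S z' x w * ZZ μ D w ∂Q := fun z _ =>
        (integral_finsetSum Ch fun z' _ => (((bk z).mul (bk z')).mul bZ).integrable hQ).symm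
      rw [Finset.sum_congr rfl e7,
        ← integral_finsetSum Ch fun z _ => (((bk z).mul bi).mul bZ).integrable hQ,
        ← integral_finsetSum Ch fun z _ => (BF.sum Ch fun z' _ =>
          ((bk z).mul (bk z')).mul bZ).integrable hQ,
        ← integral_const_mul, ← integral_const_mul,
        ← int_add hQ ((bi.pow 2).mul bZ) ((BF.const (2 * θ)).mul
          (BF.sum Ch fun z _ => ((bk z).mul bi).mul bZ)),
        ← int_add hQ (((bi.pow 2).mul bZ).add ((BF.const (2 * θ)).mul
          (BF.sum Ch fun z _ => ((bk z).mul bi).mul bZ))) ((BF.const (θ ^ 2)).mul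
          (BF.sum Ch fun z _ => BF.sum Ch fun z' _ => ((bk z).mul (bk z')).mul bZ))]
      congr 1
      funext w
      have s1 : ∑ z ∈ Ch, msg G μ S z x w * w (x, j) * ZZ μ D w = k w * w (x, j) * ZZ μ D w := by
        rw [← Finset.sum_mul, ← Finset.sum_mul]
      have s2 : ∑ z ∈ Ch, ∑ z' ∈ Ch, msg G μ S z x w * msg G μ S z' x w * ZZ μ D w =
          k w * k w * ZZ μ D w := by
        rw [hk, Finset.sum_mul_sum, Finset.sum_mul]
        refine Finset.sum_congr rfl fun z _ => ?_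
        rw [Finset.sum_mul]
      rw [s1, s2, hf]
      ring
    have e8 : ∑ z ∈ Ch, ∑ z' ∈ Ch, ∫ w, msg G μ S z x w * msg G μ S z' x w * ZZ μ D w ∂Q ≤
        ∑ z ∈ Ch, q z + θ ^ 2 * (∑ z ∈ Ch, q z) ^ 2 := by
      refine (Finset.sum_le_sum fun z hz => Finset.sum_le_sum fun z' hz' =>
        e4 z hz z' hz').trans ?_
      apply le_of_eq
      simp only [Finset.sum_add_distrib, ← Finset.mul_sum]
      rw [sq (∑ z ∈ Ch, q z), Finset.sum_mul]
      congr 1
      refine Finset.sum_congr rfl fun z hz => ?_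
      rw [Finset.sum_ite_eq]
      simp [hz]
    rw [e6, integral_coord_sq_ZZ hF hQ D hiD, ← he, Finset.sum_congr rfl e3, ← Finset.mul_sum]
    have e9 := mul_le_mul_of_nonneg_left e8 (sq_nonneg θ)
    rw [hs']
    set R := ∑ z ∈ Ch, q z with hR
    have h3 : 0 ≤ e ^ 2 := sq_nonneg e
    linarith only [h3, e9]
  -- positivity
  set lam := 1 / (1 + s) with hlam
  have hpos : 0 ≤ ∫ w, (m w - lam * f w) ^ 2 * ZZ μ D w ∂Q := by
    apply integral_nonneg_of_ae
    filter_upwards [hQ.bdd] with w hw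
    exact mul_nonneg (sq_nonneg _) (ZZ_pos hw).le
  have hexp : ∫ w, (m w - lam * f w) ^ 2 * ZZ μ D w ∂Q =
      ∫ w, m w ^ 2 * ZZ μ D w ∂Q - 2 * lam * (∫ w, f w * m w * ZZ μ D w ∂Q) +
      lam ^ 2 * ∫ w, f w ^ 2 * ZZ μ D w ∂Q := by
    rw [← integral_const_mul, ← integral_const_mul, ← int_sub hQ ((bm.pow 2).mul bZ)
      ((BF.const (2 * lam)).mul ((bf.mul bm).mul bZ)),
      ← int_add hQ (((bm.pow 2).mul bZ).sub ((BF.const (2 * lam)).mul ((bf.mul bm).mul bZ)))
      ((BF.const (lam ^ 2)).mul ((bf.pow 2).mul bZ))]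
    congr 1
    funext w
    ring
  rw [hexp, integral_mul_msg_ZZ hQ S x p f, ← hD, t1] at hpos
  rw [marg_onZ hQ S (side G x p) (bm.pow 2) (DependsOn.powc dm 2), ← hD]
  have h2 : lam ^ 2 * ∫ w, f w ^ 2 * ZZ μ D w ∂Q ≤ lam ^ 2 * (s + s ^ 2) :=
    mul_le_mul_of_nonneg_left t2 (sq_nonneg _)
  have h3 : s / (1 + s) = 2 * lam * s - lam ^ 2 * (s + s ^ 2) := by
    rw [hlam]
    field_simp
    ring
  rw [h3]
  linarith only [hpos, h2]

end Edge

end Vale.Agent.P161
end
end

section

section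

/-! Higher moments: Hölder's inequality, summation over the tree, closing. -/

open MeasureTheory Set

namespace Vale.Agent.P161

/-! ### Closing -/

theorem moment_close (K : ℕ) {D y t : ℝ} (hD : 0 ≤ D) (ht : 0 ≤ t) (hy : 0 ≤ y)
    (h : y ≤ D * t * (y ^ ((K : ℝ) / (K + 1)) + t ^ K)) : y ≤ ((2 * D + 1) * t) ^ (K + 1) := by
  set a : ℝ := y ^ ((1 : ℝ) / (K + 1)) with ha
  have ha0 : 0 ≤ a := Real.rpow_nonneg hy _
  have hK1 : ((K : ℝ) + 1) ≠ 0 := by (clear * -; positivity)
  have hy1 : y = a ^ (K + 1) := by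
    rw [ha, ← Real.rpow_natCast, ← Real.rpow_mul hy]
    push_cast
    rw [one_div, inv_mul_cancel₀ hK1, Real.rpow_one]
  have hy2 : y ^ ((K : ℝ) / (K + 1)) = a ^ K := by
    rw [ha, ← Real.rpow_natCast, ← Real.rpow_mul hy]
    congr 1
    field_simp
  rw [hy2, hy1] at h
  rw [hy1]
  refine pow_le_pow_left₀ ha0 ?_ _
  by_contra hcon
  push Not at hcon
  have hD1 : 0 < 2 * D + 1 := by linarith only [hD]
  have hapos : 0 < a := lt_of_le_of_lt (by (clear * - hD ht; positivity)) hcon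
  have ht1 : t < a / (2 * D + 1) := by
    rw [lt_div_iff₀ hD1]
    linarith only [hcon]
  have hta : t ≤ a := ht1.le.trans (div_le_self ha0 (by linarith only [hD]))
  have h1 : a ^ K + t ^ K ≤ 2 * a ^ K := by
    have := pow_le_pow_left₀ ht hta K
    linarith only [this]
  have h2 : D * t * (a ^ K + t ^ K) ≤ D * (a / (2 * D + 1)) * (2 * a ^ K) :=
    mul_le_mul (mul_le_mul_of_nonneg_left ht1.le hD) h1 (by (clear * - hapos ht; positivity)) (by (clear * - hD hapos; positivity))
  have h3 : D * (a / (2 * D + 1)) * (2 * a ^ K) = 2 * D / (2 * D + 1) * a ^ (K + 1) := by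
    field_simp
    ring
  have h4 : 2 * D / (2 * D + 1) < 1 := by
    rw [div_lt_one hD1]
    linarith only []
  have h5 : 2 * D / (2 * D + 1) * a ^ (K + 1) < 1 * a ^ (K + 1) :=
    mul_lt_mul_of_pos_right h4 (by (clear * - hapos; positivity))
  linarith only [h5, h3, h2, h]

/-! ### Hölder -/

theorem holder_mom {Ω : Type*} [MeasurableSpace Ω] {P : Measure Ω} [IsProbabilityMeasure P]
    {m c : Ω → ℝ} (hm : AEStronglyMeasurable m P) (hc : AEStronglyMeasurable c P) {A B : ℝ}
    (bm : ∀ ω, |m ω| ≤ A) (bc : ∀ ω, |c ω| ≤ B) (K : ℕ) :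
    ∫ ω, m ω ^ (2 * K) * c ω ^ 2 ∂P ≤ (∫ ω, m ω ^ (2 * K + 2) ∂P) ^ ((K : ℝ) / (K + 1)) *
      (∫ ω, c ω ^ (2 * K + 2) ∂P) ^ ((1 : ℝ) / (K + 1)) := by
  rcases Nat.eq_zero_or_pos K with hK | hK
  · subst hK
    simp only [mul_zero, pow_zero, one_mul, zero_add, CharP.cast_eq_zero, div_one, Real.rpow_zero, ne_eq, one_ne_zero, not_false_eq_true, div_self, Real.rpow_one, Std.le_refl]
  have hKr : (0 : ℝ) < K := by exact_mod_cast hK
  set p : ℝ := ((K : ℝ) + 1) / K with hp
  set q : ℝ := (K : ℝ) + 1 with hq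
  have hpq : p.HolderConjugate q := by
    rw [Real.holderConjugate_iff]
    constructor
    · rw [hp, one_lt_div hKr]; linarith only []
    · rw [hp, hq, inv_div]
      field_simp
  have hA : ∀ ω, |m ω ^ (2 * K)| ≤ A ^ (2 * K) := fun ω => by
    rw [abs_pow]; exact pow_le_pow_left₀ (abs_nonneg _) (bm ω) _
  have hB : ∀ ω, |c ω ^ 2| ≤ B ^ 2 := fun ω => by
    rw [abs_pow]; exact pow_le_pow_left₀ (abs_nonneg _) (bc ω) _
  have h := integral_mul_le_Lp_mul_Lq_of_nonneg (μ := P) hpq (f := fun ω => m ω ^ (2 * K))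
    (g := fun ω => c ω ^ 2)
    (Filter.Eventually.of_forall fun ω => by
      change 0 ≤ m ω ^ (2 * K)
      rw [pow_mul]; (clear * -; positivity))
    (Filter.Eventually.of_forall fun ω => sq_nonneg _)
    (MemLp.of_bound (hm.pow _) (A ^ (2 * K)) (Filter.Eventually.of_forall hA))
    (MemLp.of_bound (hc.pow _) (B ^ 2) (Filter.Eventually.of_forall hB))
  refine h.trans (le_of_eq ?_)
  have e1 : ∀ ω, (m ω ^ (2 * K)) ^ p = m ω ^ (2 * K + 2) := fun ω => by
    have h1 : m ω ^ (2 * K) = |m ω| ^ (2 * K) := by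
      rw [pow_mul, pow_mul, sq_abs]
    have h2 : m ω ^ (2 * K + 2) = |m ω| ^ (2 * K + 2) := by
      rw [show 2 * K + 2 = 2 * (K + 1) by ring, pow_mul, pow_mul, sq_abs]
    rw [h1, h2, ← Real.rpow_natCast, ← Real.rpow_mul (abs_nonneg _), ← Real.rpow_natCast]
    congr 1
    rw [hp]
    push_cast
    field_simp
    exact hq
  have e2 : ∀ ω, (c ω ^ 2) ^ q = c ω ^ (2 * K + 2) := fun ω => by
    have h1 : q = ((K + 1 : ℕ) : ℝ) := by rw [hq]; push_cast; ring
    rw [h1, show 2 * K + 2 = 2 * (K + 1) by ring, pow_mul, Real.rpow_natCast]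
  simp_rw [e1, e2]
  congr 2
  rw [hp, one_div_div]

/-! ### Summation over the tree -/

variable {V : Type*} {G : SimpleGraph V}

/-- `(1-x)^(1/(K+1)) ≤ 1 - x/(K+1)` -/
theorem rpow_one_sub_le (K : ℕ) {x : ℝ} (hx1 : x ≤ 1) :
    (1 - x) ^ ((1 : ℝ) / (K + 1)) ≤ 1 - x / (K + 1) := by
  have h := rpow_one_add_le_one_add_mul_self (s := -x) (p := (1 : ℝ) / (K + 1))
    (by linarith) (by positivity) (by
      rw [div_le_one (by positivity)]
      have : (0 : ℝ) ≤ K := Nat.cast_nonneg K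
      linarith only [])
  calc (1 - x) ^ ((1 : ℝ) / (K + 1)) = (1 + -x) ^ ((1 : ℝ) / (K + 1)) := by ring_nf
    _ ≤ 1 + 1 / (K + 1) * -x := h
    _ = _ := by ring

/-- THE MOMENT BOUND from the evolution inequality and the decay of the covariances. -/
theorem moments_abstract [G.LocallyFinite] (hG : G.IsTree) {d : ℕ} (hd : 2 ≤ d)
    (hreg : G.IsRegularOfDegree d) {θ : ℝ} (h0 : 0 ≤ θ) (hθ : ((d : ℝ) - 1) * θ ^ 2 ≤ 1)
    {Ω : Type*} [MeasurableSpace Ω] {P : Measure Ω} [IsProbabilityMeasure P]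
    {M : ℝ → Ω → ℝ} {C : ℝ → V → Ω → ℝ} {o : V} {t : ℝ} (ht : 0 < t)
    (hM : ∀ r, AEStronglyMeasurable (M r) P) (hC : ∀ r v, AEStronglyMeasurable (C r v) P)
    (bM : ∀ r ω, |M r ω| ≤ 1) (bC : ∀ r v ω, |C r v ω| ≤ 2) (K : ℕ)
    (hevol : ∫ ω, M t ω ^ (2 * K + 2) ∂P ≤ ∫ r in (0 : ℝ)..t, 2 * (r * ∑' v,
      16 ^ (K + 1) * ∫ ω, (M r ω ^ (2 * K) * C r v ω ^ 2 + t ^ K * C r v ω ^ (2 * K + 2)) ∂P))
    (hmono : ∀ r ∈ Ioc 0 t, ∫ ω, M r ω ^ (2 * K + 2) ∂P ≤ ∫ ω, M t ω ^ (2 * K + 2) ∂P)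
    {A c : ℝ} {β : ℝ → ℝ} (hA : 1 ≤ A) (hc : 0 < c)
    (hβ : ∀ r ∈ Ioc 0 t, 0 ≤ β r ∧ ((d : ℝ) - 1) * θ ^ 2 * β r ≤ 1 - c * r)
    (hdecay : ∀ r ∈ Ioc 0 t, ∀ v, ∫ ω, C r v ω ^ (2 * K + 2) ∂P ≤
      A * ((θ ^ 2) ^ (K + 1) * β r) ^ G.dist o v) :
    ∫ ω, M t ω ^ (2 * K + 2) ∂P ≤
      ((2 * (16 ^ (K + 1) * (A * (4 * d * (K + 1) / c))) + 1) * t) ^ (K + 1) := by
  set y : ℝ := ∫ ω, M t ω ^ (2 * K + 2) ∂P with hy
  have hevn : ∀ x : ℝ, 0 ≤ x ^ (2 * K + 2) := fun x => by
    rw [show 2 * K + 2 = 2 * (K + 1) by ring, pow_mul]; (clear * -; positivity)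
  have hy0 : 0 ≤ y := integral_nonneg fun ω => hevn _
  have hK1 : (0 : ℝ) < (K : ℝ) + 1 := by (clear * -; positivity)
  have hd0 : (2 : ℝ) ≤ d := by exact_mod_cast hd
  have hθ2 : θ ^ 2 ≤ 1 := by linarith only [mul_nonneg (sq_nonneg (θ : ℝ)) (sub_nonneg.2 hd0), hθ]
  set D : ℝ := 16 ^ (K + 1) * (A * (4 * d * (K + 1) / c)) with hD
  have hD0 : 0 ≤ D := by (clear * - hA hd hc; (clear * - hA hd hc; positivity))
  refine moment_close K hD0 ht.le hy0 (hevol.trans ?_)
  have hbd : ∀ r ∈ Ioc 0 t, |2 * (r * ∑' v, 16 ^ (K + 1) *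
      ∫ ω, (M r ω ^ (2 * K) * C r v ω ^ 2 + t ^ K * C r v ω ^ (2 * K + 2)) ∂P)| ≤
      D * (y ^ ((K : ℝ) / (K + 1)) + t ^ K) := by
    intro r hr
    have hr0 : 0 < r := hr.1
    obtain ⟨hβ0, hβ1⟩ := hβ r hr
    have hx0 : 0 ≤ ((d : ℝ) - 1) * θ ^ 2 := mul_nonneg (by linarith only [hd0]) (sq_nonneg θ)
    have hcr0 : 0 < c * r := by (clear * - hc hr0; positivity)
    have hcr : c * r ≤ 1 := by
      have := mul_nonneg hx0 hβ0
      linarith only [hβ1, this]
    have h1c : 0 ≤ 1 - c * r := by linarith only [hcr]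
    -- the two ratios
    set s : ℝ := β r ^ ((1 : ℝ) / (K + 1)) with hs
    have hs0 : 0 ≤ s := Real.rpow_nonneg hβ0 _
    set q1 : ℝ := θ ^ 2 * s with hq1
    set q2 : ℝ := (θ ^ 2) ^ (K + 1) * β r with hq2
    have hq1n : 0 ≤ q1 := by (clear * - hβ0; positivity)
    have hq2n : 0 ≤ q2 := by (clear * - hβ0; positivity)
    have hcK : 0 < c * r / (K + 1) := by (clear * - hc hr0; positivity)
    have hq1l : ((d : ℝ) - 1) * q1 ≤ 1 - c * r / (K + 1) := by
      have : ((d : ℝ) - 1) * q1 = (((d : ℝ) - 1) * θ ^ 2) * s := by rw [hq1]; ring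
      rw [this]
      have h2 : ((d : ℝ) - 1) * θ ^ 2 ≤ (((d : ℝ) - 1) * θ ^ 2) ^ ((1 : ℝ) / (K + 1)) := by
        rcases hx0.eq_or_lt with h | h
        · rw [← h]
          exact Real.rpow_nonneg le_rfl _
        · calc ((d : ℝ) - 1) * θ ^ 2 = (((d : ℝ) - 1) * θ ^ 2) ^ (1 : ℝ) := (Real.rpow_one _).symm
            _ ≤ _ := Real.rpow_le_rpow_of_exponent_ge h hθ (by
                rw [div_le_one hK1]
                have : (0 : ℝ) ≤ K := Nat.cast_nonneg K
                linarith only [])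
      calc (((d : ℝ) - 1) * θ ^ 2) * s ≤ (((d : ℝ) - 1) * θ ^ 2) ^ ((1 : ℝ) / (K + 1)) * s :=
            mul_le_mul_of_nonneg_right h2 hs0
        _ = (((d : ℝ) - 1) * θ ^ 2 * β r) ^ ((1 : ℝ) / (K + 1)) := by
            rw [hs, Real.mul_rpow hx0 hβ0]
        _ ≤ (1 - c * r) ^ ((1 : ℝ) / (K + 1)) :=
            Real.rpow_le_rpow (mul_nonneg hx0 hβ0) hβ1 (by (clear * -; positivity))
        _ ≤ _ := rpow_one_sub_le K hcr
    have hq2l : ((d : ℝ) - 1) * q2 ≤ 1 - c * r := by
      have h2 : (θ ^ 2) ^ (K + 1) ≤ θ ^ 2 := by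
        rw [pow_succ]
        have := pow_le_one₀ (n := K) (sq_nonneg θ) hθ2
        linarith only [mul_nonneg (sq_nonneg (θ : ℝ)) (sub_nonneg.2 this)]
      calc ((d : ℝ) - 1) * q2 = (((d : ℝ) - 1) * (θ ^ 2) ^ (K + 1)) * β r := by
            rw [hq2]; ring
        _ ≤ (((d : ℝ) - 1) * θ ^ 2) * β r :=
            mul_le_mul_of_nonneg_right (mul_le_mul_of_nonneg_left h2 (by linarith only [hd0])) hβ0
        _ ≤ _ := hβ1
    have hS1s := summable_pow_dist hG (fun v => hreg v) (by omega) hq1n (by linarith only [hq1l, hcK]) o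
    have hS2s := summable_pow_dist hG (fun v => hreg v) (by omega) hq2n (by linarith only [hcr0, hq2l]) o
    have hS1 : ∑' v, q1 ^ G.dist o v ≤ 2 * d * (K + 1) / (c * r) := by
      have h1 : ∑' v, q1 ^ G.dist o v ≤ 2 * d / (1 - ((d : ℝ) - 1) * q1) :=
        hS1s.tsum_le_of_sum_le fun B => sum_pow_dist_le hG hd hreg hq1n (by linarith only [hcK, hq1l]) o B
      refine h1.trans ?_
      calc 2 * (d : ℝ) / (1 - ((d : ℝ) - 1) * q1) ≤ 2 * d / (c * r / (K + 1)) := by
            gcongr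
            linarith only [hq1l]
        _ = _ := by (clear * - hr0 hc hd; field_simp)
    have hS2 : ∑' v, q2 ^ G.dist o v ≤ 2 * d / (c * r) := by
      have h1 : ∑' v, q2 ^ G.dist o v ≤ 2 * d / (1 - ((d : ℝ) - 1) * q2) :=
        hS2s.tsum_le_of_sum_le fun B => sum_pow_dist_le hG hd hreg hq2n (by linarith only [hcr0, hq2l]) o B
      refine h1.trans ?_
      gcongr
      linarith only [hq2l]
    -- pointwise in `v`
    have hyr : (∫ ω, M r ω ^ (2 * K + 2) ∂P) ^ ((K : ℝ) / (K + 1)) ≤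
        y ^ ((K : ℝ) / (K + 1)) :=
      Real.rpow_le_rpow (integral_nonneg fun ω => hevn _) (hmono r hr) (by (clear * -; positivity))
    have hyn : 0 ≤ y ^ ((K : ℝ) / (K + 1)) := Real.rpow_nonneg hy0 _
    have hv : ∀ v, ∫ ω, (M r ω ^ (2 * K) * C r v ω ^ 2 + t ^ K * C r v ω ^ (2 * K + 2)) ∂P ≤
        A * (y ^ ((K : ℝ) / (K + 1)) * q1 ^ G.dist o v + t ^ K * q2 ^ G.dist o v) := by
      intro v
      have hMK : ∀ ω, |M r ω ^ (2 * K)| ≤ 1 := fun ω => by
        rw [abs_pow]; exact pow_le_one₀ (abs_nonneg _) (bM r ω)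
      have hC2 : ∀ (n : ℕ) ω, |C r v ω ^ n| ≤ 2 ^ n := fun n ω => by
        rw [abs_pow]; exact pow_le_pow_left₀ (abs_nonneg _) (bC r v ω) n
      have i1 : Integrable (fun ω => M r ω ^ (2 * K) * C r v ω ^ 2) P :=
        Integrable.of_bound (((hM r).pow _).mul ((hC r v).pow _)) (1 * 2 ^ 2)
          (Filter.Eventually.of_forall fun ω => by
            rw [Real.norm_eq_abs, abs_mul]
            exact mul_le_mul (hMK ω) (hC2 2 ω) (abs_nonneg _) (by norm_num))
      have i2 : Integrable (fun ω => C r v ω ^ (2 * K + 2)) P :=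
        Integrable.of_bound ((hC r v).pow _) (2 ^ (2 * K + 2))
          (Filter.Eventually.of_forall fun ω => hC2 _ ω)
      rw [integral_add i1 (i2.const_mul _), integral_const_mul]
      have h1 := holder_mom (hM r) (hC r v) (bM r) (bC r v) K
      have h2 := hdecay r hr v
      have h3 : 0 ≤ ∫ ω, C r v ω ^ (2 * K + 2) ∂P := integral_nonneg fun ω => hevn _
      have h4 : (∫ ω, C r v ω ^ (2 * K + 2) ∂P) ^ ((1 : ℝ) / (K + 1)) ≤
          A * q1 ^ G.dist o v := by
        have h5 := Real.rpow_le_rpow h3 h2 (z := (1 : ℝ) / (K + 1)) (by (clear * -; positivity))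
        refine h5.trans ?_
        rw [Real.mul_rpow (by linarith only [hA]) (by (clear * - hβ0; positivity))]
        refine mul_le_mul ?_ ?_ (by (clear * - hβ0; positivity)) (by linarith only [hA])
        · calc A ^ ((1 : ℝ) / (K + 1)) ≤ A ^ (1 : ℝ) :=
                Real.rpow_le_rpow_of_exponent_le hA (by
                  rw [div_le_one hK1]
                  have : (0 : ℝ) ≤ K := Nat.cast_nonneg K
                  linarith only [])
            _ = A := Real.rpow_one A
        · have h6 : (((θ ^ 2) ^ (K + 1) * β r) ^ G.dist o v) ^ ((1 : ℝ) / (K + 1)) =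
              q1 ^ G.dist o v := by
            rw [← Real.rpow_natCast, ← Real.rpow_mul (by (clear * - hβ0; positivity)), mul_comm (G.dist o v : ℝ),
              Real.rpow_mul (by (clear * - hβ0; positivity)), Real.rpow_natCast]
            congr 1
            rw [Real.mul_rpow (by (clear * -; positivity)) hβ0, hq1]
            congr 1
            rw [← Real.rpow_natCast, ← Real.rpow_mul (sq_nonneg θ)]
            push_cast
            rw [mul_one_div_cancel hK1.ne', Real.rpow_one]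
          exact h6.le
      have h7 : (∫ ω, M r ω ^ (2 * K + 2) ∂P) ^ ((K : ℝ) / (K + 1)) *
          (∫ ω, C r v ω ^ (2 * K + 2) ∂P) ^ ((1 : ℝ) / (K + 1)) ≤
          y ^ ((K : ℝ) / (K + 1)) * (A * q1 ^ G.dist o v) :=
        mul_le_mul hyr h4 (Real.rpow_nonneg h3 _) hyn
      have h8 := mul_le_mul_of_nonneg_left h2 (pow_nonneg ht.le K)
      linarith only [h1, h7, h8]
    have hvn : ∀ v, 0 ≤ ∫ ω, (M r ω ^ (2 * K) * C r v ω ^ 2 +
        t ^ K * C r v ω ^ (2 * K + 2)) ∂P := fun v => integral_nonneg fun ω => by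
      have h1 : 0 ≤ M r ω ^ (2 * K) := by rw [pow_mul]; (clear * -; positivity)
      have h2 := hevn (C r v ω)
      change 0 ≤ M r ω ^ (2 * K) * C r v ω ^ 2 + t ^ K * C r v ω ^ (2 * K + 2)
      (clear * - h1 ht h2; positivity)
    have hmaj : Summable fun v => 16 ^ (K + 1) * (A * (y ^ ((K : ℝ) / (K + 1)) *
        q1 ^ G.dist o v + t ^ K * q2 ^ G.dist o v)) :=
      (((hS1s.mul_left _).add (hS2s.mul_left _)).mul_left A).mul_left _
    have hsum : ∑' v, 16 ^ (K + 1) * ∫ ω, (M r ω ^ (2 * K) * C r v ω ^ 2 +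
        t ^ K * C r v ω ^ (2 * K + 2)) ∂P ≤ 16 ^ (K + 1) * (A * (y ^ ((K : ℝ) / (K + 1)) *
        (2 * d * (K + 1) / (c * r)) + t ^ K * (2 * d / (c * r)))) := by
      have h1 : ∑' v, 16 ^ (K + 1) * ∫ ω, (M r ω ^ (2 * K) * C r v ω ^ 2 +
          t ^ K * C r v ω ^ (2 * K + 2)) ∂P ≤ ∑' v, 16 ^ (K + 1) *
          (A * (y ^ ((K : ℝ) / (K + 1)) * q1 ^ G.dist o v + t ^ K * q2 ^ G.dist o v)) := by
        refine Summable.tsum_le_tsum (fun v => mul_le_mul_of_nonneg_left (hv v) (by positivity))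
          (Summable.of_nonneg_of_le (fun v => mul_nonneg (by positivity) (hvn v))
            (fun v => mul_le_mul_of_nonneg_left (hv v) (by positivity)) hmaj) hmaj
      refine h1.trans ?_
      rw [tsum_mul_left, tsum_mul_left, (hS1s.mul_left _).tsum_add (hS2s.mul_left _),
        tsum_mul_left, tsum_mul_left]
      (clear * - hS1 hy0 hS2 ht hA; gcongr)
    have hsn : 0 ≤ ∑' v, 16 ^ (K + 1) * ∫ ω, (M r ω ^ (2 * K) * C r v ω ^ 2 +
        t ^ K * C r v ω ^ (2 * K + 2)) ∂P := tsum_nonneg fun v => mul_nonneg (by positivity) (hvn v)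
    rw [abs_of_nonneg (by (clear * - hr0 hsn; positivity))]
    calc 2 * (r * ∑' v, 16 ^ (K + 1) *
          ∫ ω, (M r ω ^ (2 * K) * C r v ω ^ 2 + t ^ K * C r v ω ^ (2 * K + 2)) ∂P)
        ≤ 2 * (r * (16 ^ (K + 1) * (A * (y ^ ((K : ℝ) / (K + 1)) *
        (2 * d * (K + 1) / (c * r)) + t ^ K * (2 * d / (c * r)))))) := by (clear * - hsum hr0; gcongr)
      _ = 16 ^ (K + 1) * (A * (y ^ ((K : ℝ) / (K + 1)) * (4 * d * (K + 1) / c) +
        t ^ K * (4 * d / c))) := by
          field_simp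
          ring
      _ ≤ 16 ^ (K + 1) * (A * (y ^ ((K : ℝ) / (K + 1)) * (4 * d * (K + 1) / c) +
        t ^ K * (4 * d * (K + 1) / c))) := by
          have h1 : 4 * (d : ℝ) / c ≤ 4 * d * (K + 1) / c := by
            rw [div_le_div_iff_of_pos_right hc]
            have : (0 : ℝ) ≤ K := Nat.cast_nonneg K
            nlinarith only []
          (clear * - h1 ht hA; gcongr)
      _ = D * (y ^ ((K : ℝ) / (K + 1)) + t ^ K) := by rw [hD]; ring
  have h1 := intervalIntegral.norm_integral_le_of_norm_le_const (a := 0) (b := t)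
    (f := fun r => 2 * (r * ∑' v, 16 ^ (K + 1) *
      ∫ ω, (M r ω ^ (2 * K) * C r v ω ^ 2 + t ^ K * C r v ω ^ (2 * K + 2)) ∂P))
    (C := D * (y ^ ((K : ℝ) / (K + 1)) + t ^ K)) (fun r hr => by
      rw [uIoc_of_le ht.le] at hr
      exact hbd r hr)
  rw [sub_zero, abs_of_pos ht] at h1
  refine (le_abs_self _).trans (h1.trans (le_of_eq ?_))
  ring

end Vale.Agent.P161
end
end

section

section

/-! A compactness lemma: a sequence of families of `[-1,1]`-valued random variables, equicontinuous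
in the parameter, has a subsequence whose laws converge for every value of the parameter. -/

open MeasureTheory Filter Topology Set

namespace Vale.Agent.P161

theorem exists_subseq_law {Ω : Type*} [MeasurableSpace Ω] {P : Measure Ω} [IsProbabilityMeasure P]
    (X : ℕ → ℝ → Ω → ℝ) (hm : ∀ n r, Measurable (X n r)) (hb : ∀ n r ω, |X n r ω| ≤ 1)
    (hequi : ∀ r : ℝ, 0 < r → ∀ δ : ℝ, 0 < δ → ∃ η : ℝ, 0 < η ∧ ∀ s : ℝ, |s - r| < η →
      ∀ n, ∫ ω, |X n s ω - X n r ω| ∂P ≤ δ) :
    ∃ φ : ℕ → ℕ, StrictMono φ ∧ ∀ r : ℝ, 0 < r → ∀ f : ℝ → ℝ, ContinuousOn f (Icc (-1) 1) →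
      CauchySeq fun n => ∫ ω, f (X (φ n) r ω) ∂P := by
  -- the moments at rational parameters
  let a : ℕ → ℚ × ℕ → ℝ := fun n p => ∫ ω, X n (p.1 : ℝ) ω ^ p.2 ∂P
  have hpow : ∀ n r k ω, |X n r ω ^ k| ≤ 1 := fun n r k ω => by
    rw [abs_pow]; exact pow_le_one₀ (abs_nonneg _) (hb n r ω)
  have ha : ∀ n, a n ∈ Set.pi univ fun _ : ℚ × ℕ => Icc (-1 : ℝ) 1 := by
    intro n p _
    show -1 ≤ a n p ∧ a n p ≤ 1
    rw [← abs_le]
    have := norm_integral_le_of_norm_le_const (μ := P)
      (f := fun ω => X n (p.1 : ℝ) ω ^ p.2) (C := 1)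
      (Eventually.of_forall fun ω => by simpa only [norm_pow, Real.norm_eq_abs, abs_pow] using hpow n _ p.2 ω)
    simpa only [ge_iff_le, Real.norm_eq_abs, probReal_univ, mul_one] using this
  obtain ⟨A, -, φ, hφ, hlim⟩ :=
    (isCompact_univ_pi fun _ : ℚ × ℕ => isCompact_Icc (a := (-1 : ℝ)) (b := 1)).tendsto_subseq ha
  refine ⟨φ, hφ, fun r hr f hf => ?_⟩
  have hint : ∀ n s (g : ℝ → ℝ), Measurable g → ∀ C, (∀ x ∈ Icc (-1 : ℝ) 1, |g x| ≤ C) →
      Integrable (fun ω => g (X n s ω)) P := by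
    intro n s g hg C hC
    refine Integrable.of_bound (hg.comp (hm n s)).aestronglyMeasurable C
      (Eventually.of_forall fun ω => hC _ (abs_le.1 (hb n s ω)))
  -- step 1: convergence of the moments at `r`
  have hmom : ∀ k : ℕ, CauchySeq fun n => ∫ ω, X (φ n) r ω ^ k ∂P := by
    intro k
    rw [Metric.cauchySeq_iff]
    intro δ hδ
    obtain ⟨η, hη, hs⟩ := hequi r hr (δ / (4 * (k + 1))) (by (clear * - hδ; positivity))
    obtain ⟨q, hq1, hq2⟩ := exists_rat_btwn (show r - η < r by linarith only [hη])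
    have hqr : |(q : ℝ) - r| < η := by rw [abs_lt]; constructor <;> linarith only [hq1, hq2]
    have hc : CauchySeq fun n => a (φ n) (q, k) :=
      ((continuous_apply (q, k)).tendsto A |>.comp hlim).cauchySeq
    rw [Metric.cauchySeq_iff] at hc
    obtain ⟨N, hN⟩ := hc (δ / 4) (by positivity)
    have hdiff : ∀ n, |∫ ω, X n r ω ^ k ∂P - a n (q, k)| ≤ δ / 4 := by
      intro n
      have i1 : Integrable (fun ω => X n r ω ^ k) P :=
        hint n r (fun x => x ^ k) (by fun_prop) 1 fun x hx => by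
          rw [abs_pow]; exact pow_le_one₀ (abs_nonneg _) (abs_le.2 hx)
      have i2 : Integrable (fun ω => X n q ω ^ k) P :=
        hint n q (fun x => x ^ k) (by fun_prop) 1 fun x hx => by
          rw [abs_pow]; exact pow_le_one₀ (abs_nonneg _) (abs_le.2 hx)
      have i3 : Integrable (fun ω => |X n q ω - X n r ω|) P := by
        refine Integrable.of_bound (((hm n q).sub (hm n r)).abs).aestronglyMeasurable 2
          (Eventually.of_forall fun ω => ?_)
        rw [Real.norm_eq_abs, abs_abs]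
        exact (abs_sub _ _).trans (by linarith [hb n q ω, hb n r ω])
      have h1 : |∫ ω, X n r ω ^ k ∂P - a n (q, k)| ≤ ∫ ω, k * |X n q ω - X n r ω| ∂P := by
        simp only [a]
        rw [← integral_sub i1 i2]
        refine (abs_integral_le_integral_abs).trans ?_
        refine integral_mono (i1.sub i2).abs (i3.const_mul _) fun ω => ?_
        simp only
        have := abs_pow_sub_pow_le (X n r ω) (X n q ω) k
        have h2 : max |X n r ω| |X n q ω| ≤ 1 := max_le (hb n r ω) (hb n q ω)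
        have h3 : (max |X n r ω| |X n q ω|) ^ (k - 1) ≤ 1 :=
          pow_le_one₀ (le_max_of_le_left (abs_nonneg _)) h2
        calc |X n r ω ^ k - X n q ω ^ k|
            ≤ |X n r ω - X n q ω| * k * (max |X n r ω| |X n q ω|) ^ (k - 1) := this
          _ ≤ |X n r ω - X n q ω| * k * 1 := by (clear * - h3; gcongr)
          _ = k * |X n q ω - X n r ω| := by rw [abs_sub_comm]; ring
      rw [integral_const_mul] at h1
      have h4 := hs q hqr n
      have h5 : (k : ℝ) * (δ / (4 * (k + 1))) ≤ δ / 4 := by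
        rw [mul_div_assoc', div_le_div_iff₀ (by (clear * -; positivity)) (by norm_num)]
        linarith only [hδ]
      calc _ ≤ (k : ℝ) * ∫ ω, |X n q ω - X n r ω| ∂P := h1
        _ ≤ k * (δ / (4 * (k + 1))) := by (clear * - h4; gcongr)
        _ ≤ δ / 4 := h5
    refine ⟨N, fun m hm' n hn => ?_⟩
    have h1 := hN m hm' n hn
    rw [Real.dist_eq] at h1 ⊢
    have h2 := hdiff (φ m)
    have h3 := hdiff (φ n)
    rw [abs_le] at h2 h3
    rw [abs_lt] at h1 ⊢
    constructor <;> linarith only [h1, h2, h3]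
  -- step 2: polynomials
  have hpoly : ∀ p : Polynomial ℝ, CauchySeq fun n => ∫ ω, p.eval (X (φ n) r ω) ∂P := by
    intro p
    have h1 : ∀ n, ∫ ω, p.eval (X (φ n) r ω) ∂P =
        ∑ i ∈ Finset.range (p.natDegree + 1), p.coeff i * ∫ ω, X (φ n) r ω ^ i ∂P := by
      intro n
      simp only [Polynomial.eval_eq_sum_range]
      rw [integral_finsetSum]
      · simp only [integral_const_mul]
      · intro i _
        refine Integrable.const_mul (hint (φ n) r (fun x => x ^ i) (by fun_prop) 1 fun x hx => ?_) _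
        rw [abs_pow]; exact pow_le_one₀ (abs_nonneg _) (abs_le.2 hx)
    simp only [h1]
    have h2 : ∀ i, ∃ L, Tendsto (fun n => ∫ ω, X (φ n) r ω ^ i ∂P) atTop (𝓝 L) :=
      fun i => cauchySeq_tendsto_of_complete (hmom i)
    choose L hL using h2
    exact (tendsto_finsetSum _ fun i _ => (hL i).const_mul (p.coeff i)).cauchySeq
  -- step 3: continuous functions
  rw [Metric.cauchySeq_iff]
  intro δ hδ
  obtain ⟨p, hp⟩ := exists_polynomial_near_of_continuousOn (-1) 1 f hf (δ / 4) (by (clear * - hδ; positivity))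
  have hc := hpoly p
  rw [Metric.cauchySeq_iff] at hc
  obtain ⟨N, hN⟩ := hc (δ / 4) (by positivity)
  have hfX : ∀ n, AEStronglyMeasurable (fun ω => f (X n r ω)) P := by
    intro n
    have h1 : Continuous (IccExtend (by norm_num : (-1 : ℝ) ≤ 1) ((Icc (-1 : ℝ) 1).restrict f)) :=
      (continuousOn_iff_continuous_restrict.1 hf).Icc_extend'
    have h2 : (fun ω => f (X n r ω)) = fun ω =>
        IccExtend (by norm_num : (-1 : ℝ) ≤ 1) ((Icc (-1 : ℝ) 1).restrict f) (X n r ω) := by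
      funext ω
      rw [IccExtend_of_mem _ _ (abs_le.1 (hb n r ω))]
      rfl
    rw [h2]
    exact (h1.measurable.comp (hm n r)).aestronglyMeasurable
  have hpb : ∃ C, ∀ x ∈ Icc (-1 : ℝ) 1, |p.eval x| ≤ C := by
    obtain ⟨C, hC⟩ := isCompact_Icc.exists_bound_of_continuousOn
      (f := fun x : ℝ => p.eval x) (s := Icc (-1 : ℝ) 1) (by fun_prop)
    exact ⟨C, fun x hx => by simpa only [Real.norm_eq_abs] using hC x hx⟩
  obtain ⟨C, hC⟩ := hpb
  have hdiff : ∀ n, |∫ ω, f (X n r ω) ∂P - ∫ ω, p.eval (X n r ω) ∂P| ≤ δ / 4 := by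
    intro n
    have i2 : Integrable (fun ω => p.eval (X n r ω)) P := hint n r _ (by (clear * -; exact Continuous.measurable (by fun_prop))) C hC
    have i1 : Integrable (fun ω => f (X n r ω)) P := by
      refine Integrable.of_bound (hfX n) (C + δ / 4) (Eventually.of_forall fun ω => ?_)
      have h1 := hp _ (abs_le.1 (hb n r ω))
      have h2 := hC _ (abs_le.1 (hb n r ω))
      rw [Real.norm_eq_abs]
      rw [abs_lt] at h1
      rw [abs_le] at h2 ⊢
      constructor <;> linarith only [h1, h2]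
    rw [← integral_sub i1 i2]
    have := norm_integral_le_of_norm_le_const (μ := P)
      (f := fun ω => f (X n r ω) - p.eval (X n r ω)) (C := δ / 4)
      (Eventually.of_forall fun ω => by
        rw [Real.norm_eq_abs, abs_sub_comm]
        exact (hp _ (abs_le.1 (hb n r ω))).le)
    simpa only [ge_iff_le, Real.norm_eq_abs, probReal_univ, mul_one] using this
  refine ⟨N, fun m hm' n hn => ?_⟩
  have h1 := hN m hm' n hn
  rw [Real.dist_eq] at h1 ⊢
  have h2 := hdiff (φ m)
  have h3 := hdiff (φ n)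
  rw [abs_le] at h2 h3
  rw [abs_lt] at h1 ⊢
  constructor <;> linarith only [h1, h2, h3]

end Vale.Agent.P161
end
end

section

section

/-!
# Real estimates for step (II) of the critical point argument
-/

open MeasureTheory Finset

namespace Vale.Agent.P161

theorem exp_neg_le_div_pow {c : ℝ} (hc : 0 < c) (q : ℕ) {x : ℝ} (hx : 0 < x) :
    Real.exp (-(c * x)) ≤ ((q.factorial : ℝ) / c ^ q) / x ^ q := by
  have h := Real.pow_div_factorial_le_exp (c * x) (by (clear * - hc hx; positivity)) q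
  have hf : (0 : ℝ) < (q.factorial : ℝ) := by (clear * -; positivity)
  rw [Real.exp_neg, div_div, ← mul_pow, ← inv_div]
  exact inv_anti₀ (by positivity) h

/-- the auxiliary variable `x = r ^ (-1/16)` -/
theorem rate_var {r : ℝ} (h0 : 0 < r) (h1 : r ≤ 1) :
    1 ≤ r ^ (-(1 / 16) : ℝ) ∧ r * (r ^ (-(1 / 16) : ℝ)) ^ 16 = 1 ∧
      r ^ (1 / 2 : ℝ) * (r ^ (-(1 / 16) : ℝ)) ^ 8 = 1 ∧
      r ^ (-(3 / 4) : ℝ) = (r ^ (-(1 / 16) : ℝ)) ^ 12 := by
  refine ⟨Real.one_le_rpow_of_pos_of_le_one_of_nonpos h0 h1 (by norm_num), ?_, ?_, ?_⟩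
  · rw [← Real.rpow_natCast, ← Real.rpow_mul h0.le]
    nth_rewrite 1 [← Real.rpow_one r]
    rw [← Real.rpow_add h0]
    norm_num
  · rw [← Real.rpow_natCast, ← Real.rpow_mul h0.le, ← Real.rpow_add h0]
    norm_num
  · rw [← Real.rpow_natCast, ← Real.rpow_mul h0.le]
    norm_num

/-- **Choice of the cut-offs** in step (II). -/
theorem rate_choice {c ϱ C1 A0 : ℝ} (hc : 0 < c) (hϱ0 : 0 < ϱ) (hϱ1 : ϱ < 1) (hC1 : 0 ≤ C1)
    (hA0 : 0 ≤ A0) (P : ℕ) :
    ∃ Cst : ℝ, 0 ≤ Cst ∧ ∀ r : ℝ, 0 < r → r ≤ 1 → ∃ N K : ℕ, ∃ L : ℝ, 0 ≤ L ∧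
      (N : ℝ) ^ 2 * r ^ 3 ≤ 4 ∧ ∀ F ε A δ ρ : ℝ, 0 ≤ F → 0 ≤ ε → 0 ≤ A → 0 ≤ δ → A ≤ A0 →
        A ^ 2 ≤ C1 * (r ^ (1 / 2 : ℝ) * F + r ^ (P + 2)) + ε → c * r ≤ ρ → ρ ≤ 1 →
        r * ((N : ℝ) ^ 2 * (K * A ^ 2 + A * ϱ ^ K + N * (A * δ))) + r * ((1 - ρ) ^ N / ρ)
          ≤ Cst * (r ^ (-(3 / 4) : ℝ) * F + r ^ P) + L * (ε + δ) := by
  set c2 : ℝ := -Real.log ϱ with hc2
  have hc20 : 0 < c2 := by
    rw [hc2]
    have := Real.log_neg hϱ0 hϱ1
    linarith only [this]
  set D1 : ℝ := ((18 + 16 * P).factorial : ℝ) / c2 ^ (18 + 16 * P) with hD1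
  set D2 : ℝ := ((16 * P).factorial : ℝ) / c ^ (16 * P) with hD2
  have hD10 : 0 ≤ D1 := by (clear * - hc20; positivity)
  have hD20 : 0 ≤ D2 := by positivity
  refine ⟨10 * C1 + 2 * D1 + D2 / c, by positivity, fun r hr hr1 => ?_⟩
  obtain ⟨hx1, hrx, hhalf, hq⟩ := rate_var hr hr1
  set x : ℝ := r ^ (-(1 / 16) : ℝ) with hx
  have hx0 : 0 < x := by linarith only [hx1]
  set N : ℕ := ⌈x ^ 17⌉₊ with hN
  set K : ℕ := ⌈x⌉₊ with hK
  have hNge : x ^ 17 ≤ N := Nat.le_ceil _
  have hKge : x ≤ K := Nat.le_ceil _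
  have hx17 : 1 ≤ x ^ 17 := one_le_pow₀ hx1
  have hNle : (N : ℝ) ≤ 2 * x ^ 17 := by
    have := Nat.ceil_lt_add_one (a := x ^ 17) (by (clear * - hr; positivity))
    linarith only [this, hx17]
  have hKle : (K : ℝ) ≤ 2 * x := by
    have := Nat.ceil_lt_add_one (a := x) (by (clear * - hr; positivity))
    linarith only [hx1, this]
  have hN0 : (0 : ℝ) ≤ N := Nat.cast_nonneg _
  have hK0 : (0 : ℝ) ≤ K := Nat.cast_nonneg _
  refine ⟨N, K, 10 * x ^ 19 + 8 * x ^ 51 * A0, by (clear * - hr hA0; positivity), ?_, ?_⟩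
  · have h1 : (N : ℝ) ^ 2 ≤ (2 * x ^ 17) ^ 2 := pow_le_pow_left₀ hN0 hNle 2
    have h2 : r ≤ 1 := hr1
    have h3 : r * (x ^ 16) = 1 := hrx
    calc (N : ℝ) ^ 2 * r ^ 3 ≤ (2 * x ^ 17) ^ 2 * r ^ 3 :=
          mul_le_mul_of_nonneg_right h1 (by positivity)
      _ ≤ (2 * x ^ 17) ^ 2 * r ^ 3 * x ^ 14 :=
          le_mul_of_one_le_right (by positivity) (one_le_pow₀ hx1)
      _ = 4 * (r * x ^ 16) ^ 3 := by ring
      _ = 4 := by rw [h3]; norm_num
  intro F ε A δ ρ hF hε hA hδ hAA hA2 hρ hρ1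
  have hρ0 : 0 < ρ := lt_of_lt_of_le (by (clear * - hc hr; positivity)) hρ
  -- powers of r
  have hrP : r ^ P = 1 / x ^ (16 * P) := by
    rw [eq_div_iff (by positivity), pow_mul, ← mul_pow, hrx, one_pow]
  have hrinv : r = 1 / x ^ 16 := by
    rw [eq_div_iff (by positivity)]; exact hrx
  have hhalf' : r ^ (1 / 2 : ℝ) = 1 / x ^ 8 := by
    rw [eq_div_iff (by positivity)]; exact hhalf
  -- the decay of ϱ ^ K
  have hϱK : ϱ ^ K ≤ D1 / x ^ (18 + 16 * P) := by
    have h1 : ϱ ^ K = Real.exp (-(c2 * K)) := by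
      rw [hc2, neg_mul, neg_neg, mul_comm, Real.exp_nat_mul, Real.exp_log hϱ0]
    rw [h1]
    refine le_trans ?_ (exp_neg_le_div_pow hc20 (18 + 16 * P) hx0)
    apply Real.exp_le_exp.mpr
    have := mul_le_mul_of_nonneg_left hKge hc20.le
    linarith only [this]
  have hϱK1 : ϱ ^ K ≤ 1 := pow_le_one₀ hϱ0.le hϱ1.le
  have hϱK0 : 0 ≤ ϱ ^ K := by positivity
  -- the decay of (1 - ρ) ^ N
  have hdec : (1 - ρ) ^ N / ρ ≤ D2 / (c * r) * (1 / x ^ (16 * P)) := by
    have h1 : (1 - ρ) ^ N ≤ Real.exp (-(c * x)) := by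
      have h2 : 1 - ρ ≤ Real.exp (-ρ) := by
        have := Real.add_one_le_exp (-ρ)
        linarith only [this]
      have h3 : (1 - ρ) ^ N ≤ Real.exp (-ρ) ^ N :=
        pow_le_pow_left₀ (by linarith only [hρ1]) h2 N
      refine h3.trans ?_
      rw [← Real.exp_nat_mul]
      apply Real.exp_le_exp.mpr
      have h4 : c * x ≤ N * ρ := by
        have h5 : r * x ^ 17 = x := by
          calc r * x ^ 17 = (r * x ^ 16) * x := by ring
            _ = x := by rw [hrx, one_mul]
        calc c * x = (c * r) * x ^ 17 := by rw [mul_assoc, h5]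
          _ ≤ ρ * N := mul_le_mul hρ hNge (by positivity) hρ0.le
          _ = N * ρ := mul_comm _ _
      linarith only [h4]
    have h6 := exp_neg_le_div_pow hc (16 * P) hx0
    have h7 : (1 - ρ) ^ N ≤ D2 / x ^ (16 * P) := h1.trans h6
    calc (1 - ρ) ^ N / ρ ≤ (D2 / x ^ (16 * P)) / (c * r) := by
          apply div_le_div₀ (by positivity) h7 (by positivity) hρ
      _ = D2 / (c * r) * (1 / x ^ (16 * P)) := by
          (clear * - hr hc hx1; field_simp)
  -- first group
  have hA2' : 0 ≤ A ^ 2 := by (clear * -; positivity)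
  have hT1 : r * ((N : ℝ) ^ 2 * (K * A ^ 2)) ≤ 8 * x ^ 19 * A ^ 2 := by
    have h1 : (N : ℝ) ^ 2 * K ≤ (2 * x ^ 17) ^ 2 * (2 * x) :=
      mul_le_mul (pow_le_pow_left₀ hN0 hNle 2) hKle hK0 (by (clear * - hr; positivity))
    calc r * ((N : ℝ) ^ 2 * (K * A ^ 2)) = r * ((N : ℝ) ^ 2 * K) * A ^ 2 := by ring
      _ ≤ r * ((2 * x ^ 17) ^ 2 * (2 * x)) * A ^ 2 :=
          mul_le_mul_of_nonneg_right (mul_le_mul_of_nonneg_left h1 hr.le) hA2'
      _ = 8 * (r * x ^ 16) * x ^ 19 * A ^ 2 := by ring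
      _ = 8 * x ^ 19 * A ^ 2 := by rw [hrx]; ring
  have hT2 : r * ((N : ℝ) ^ 2 * (A * ϱ ^ K)) ≤ 2 * x ^ 18 * A ^ 2 + 2 * x ^ 18 * ϱ ^ K := by
    have h1 : (N : ℝ) ^ 2 ≤ (2 * x ^ 17) ^ 2 := pow_le_pow_left₀ hN0 hNle 2
    have h2 : A * ϱ ^ K ≤ (A ^ 2 + ϱ ^ K) / 2 := by
      have h3 := sq_nonneg (A - ϱ ^ K)
      have h4 : ϱ ^ K * ϱ ^ K ≤ ϱ ^ K * 1 := mul_le_mul_of_nonneg_left hϱK1 hϱK0
      linarith only [h3, h4]
    calc r * ((N : ℝ) ^ 2 * (A * ϱ ^ K)) ≤ r * ((2 * x ^ 17) ^ 2 * ((A ^ 2 + ϱ ^ K) / 2)) :=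
          mul_le_mul_of_nonneg_left (mul_le_mul h1 h2 (by (clear * - hA hϱ0; positivity)) (by (clear * - hr; positivity))) hr.le
      _ = 2 * (r * x ^ 16) * x ^ 18 * (A ^ 2 + ϱ ^ K) := by ring
      _ = 2 * x ^ 18 * A ^ 2 + 2 * x ^ 18 * ϱ ^ K := by rw [hrx]; ring
  have hT2' : 2 * x ^ 18 * ϱ ^ K ≤ 2 * D1 * r ^ P := by
    calc 2 * x ^ 18 * ϱ ^ K ≤ 2 * x ^ 18 * (D1 / x ^ (18 + 16 * P)) :=
          mul_le_mul_of_nonneg_left hϱK (by (clear * - hr; positivity))
      _ = 2 * D1 * r ^ P := by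
          rw [hrP, pow_add]
          (clear * - hx1; field_simp)
  have hT3 : r * ((N : ℝ) ^ 2 * (N * (A * δ))) ≤ 8 * x ^ 51 * A0 * δ := by
    have h1 : (N : ℝ) ^ 3 ≤ (2 * x ^ 17) ^ 3 := pow_le_pow_left₀ hN0 hNle 3
    have h2 : A * δ ≤ A0 * δ := mul_le_mul_of_nonneg_right hAA hδ
    calc r * ((N : ℝ) ^ 2 * (N * (A * δ))) = r * ((N : ℝ) ^ 3 * (A * δ)) := by ring
      _ ≤ 1 * ((2 * x ^ 17) ^ 3 * (A0 * δ)) :=
          mul_le_mul hr1 (mul_le_mul h1 h2 (by (clear * - hA hδ; positivity)) (by positivity))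
            (by (clear * - hr hA hδ; positivity)) (by norm_num)
      _ = 8 * x ^ 51 * A0 * δ := by ring
  have hT4 : r * ((1 - ρ) ^ N / ρ) ≤ D2 / c * r ^ P := by
    calc r * ((1 - ρ) ^ N / ρ) ≤ r * (D2 / (c * r) * (1 / x ^ (16 * P))) :=
          mul_le_mul_of_nonneg_left hdec hr.le
      _ = D2 / c * r ^ P := by
          rw [hrP]
          (clear * - hr hx1 hc; field_simp)
  -- the coefficient of A ^ 2
  have hT5 : 8 * x ^ 19 * A ^ 2 + 2 * x ^ 18 * A ^ 2 ≤ 10 * x ^ 19 * A ^ 2 := by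
    have h1 : x ^ 18 ≤ x ^ 19 := pow_le_pow_right₀ hx1 (by norm_num)
    have h2 := mul_le_mul_of_nonneg_right h1 hA2'
    linarith only [h2]
  have hT6 : 10 * x ^ 19 * A ^ 2
      ≤ 10 * C1 * (r ^ (-(3 / 4) : ℝ) * F) + 10 * C1 * r ^ P + 10 * x ^ 19 * ε := by
    have h1 : x ^ 19 * (r ^ (1 / 2 : ℝ) * F) ≤ r ^ (-(3 / 4) : ℝ) * F := by
      rw [hq, hhalf', ← mul_assoc]
      refine mul_le_mul_of_nonneg_right ?_ hF
      have h2 : x ^ 19 * (1 / x ^ 8) = x ^ 11 := by
        rw [show (19 : ℕ) = 11 + 8 by norm_num, pow_add]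
        (clear * - hx1; field_simp)
      rw [h2]
      exact pow_le_pow_right₀ hx1 (by norm_num)
    have h3 : x ^ 19 * r ^ (P + 2) ≤ r ^ P := by
      have h4 : x ^ 19 * r ^ 2 ≤ 1 := by
        rw [hrinv, div_pow, one_pow, ← pow_mul, mul_one_div, div_le_one (by positivity)]
        exact pow_le_pow_right₀ hx1 (by norm_num)
      calc x ^ 19 * r ^ (P + 2) = r ^ P * (x ^ 19 * r ^ 2) := by rw [pow_add]; ring
        _ ≤ r ^ P * 1 := mul_le_mul_of_nonneg_left h4 (by (clear * - hr; positivity))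
        _ = r ^ P := mul_one _
    calc 10 * x ^ 19 * A ^ 2
        ≤ 10 * x ^ 19 * (C1 * (r ^ (1 / 2 : ℝ) * F + r ^ (P + 2)) + ε) :=
          mul_le_mul_of_nonneg_left hA2 (by positivity)
      _ = 10 * C1 * (x ^ 19 * (r ^ (1 / 2 : ℝ) * F)) + 10 * C1 * (x ^ 19 * r ^ (P + 2))
          + 10 * x ^ 19 * ε := by ring
      _ ≤ _ := by
          have h5 : 0 ≤ 10 * C1 := by (clear * - hC1; positivity)
          have h6 := mul_le_mul_of_nonneg_left h1 h5
          have h7 := mul_le_mul_of_nonneg_left h3 h5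
          (clear * - h6 h7; linarith)
  have hFr : 0 ≤ r ^ (-(3 / 4) : ℝ) * F := mul_nonneg (Real.rpow_nonneg hr.le _) hF
  have hrP0 : 0 ≤ r ^ P := by positivity
  have hsplit : r * ((N : ℝ) ^ 2 * (K * A ^ 2 + A * ϱ ^ K + N * (A * δ)))
      = r * ((N : ℝ) ^ 2 * (K * A ^ 2)) + r * ((N : ℝ) ^ 2 * (A * ϱ ^ K))
        + r * ((N : ℝ) ^ 2 * (N * (A * δ))) := by ring
  have hfin1 : 0 ≤ (2 * D1 + D2 / c) * (r ^ (-(3 / 4) : ℝ) * F) := by (clear * - hc20 hc hr hF; positivity)
  have hfin2 : 0 ≤ 10 * x ^ 19 * δ := by (clear * - hr hδ; positivity)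
  have hfin3 : 0 ≤ 8 * x ^ 51 * A0 * ε := by (clear * - hr hA0 hε; positivity)
  have hgoal : (10 * C1 + 2 * D1 + D2 / c) * (r ^ (-(3 / 4) : ℝ) * F + r ^ P)
      + (10 * x ^ 19 + 8 * x ^ 51 * A0) * (ε + δ)
      = 10 * C1 * (r ^ (-(3 / 4) : ℝ) * F) + (2 * D1 + D2 / c) * (r ^ (-(3 / 4) : ℝ) * F)
        + 10 * C1 * r ^ P + 2 * D1 * r ^ P + D2 / c * r ^ P
        + 10 * x ^ 19 * ε + 10 * x ^ 19 * δ + 8 * x ^ 51 * A0 * ε + 8 * x ^ 51 * A0 * δ := by
    ring
  rw [hsplit, hgoal]
  linarith only [hT1, hT2, hT2', hT3, hT4, hT5, hT6, hfin1, hfin2, hfin3]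


/-! ## The logarithm of the transfer factor -/

theorem abs_log_sub_log_le {a b c : ℝ} (hc : 0 < c) (ha : c ≤ a) (hb : c ≤ b) :
    |Real.log a - Real.log b| ≤ |a - b| / c := by
  have key : ∀ a b : ℝ, c ≤ a → c ≤ b → a ≤ b → |Real.log a - Real.log b| ≤ |a - b| / c := by
    intro a b ha hb hab
    have ha0 : 0 < a := lt_of_lt_of_le hc ha
    have hb0 : 0 < b := lt_of_lt_of_le hc hb
    have hlog : Real.log a ≤ Real.log b := Real.log_le_log ha0 hab
    rw [abs_of_nonpos (by linarith), abs_of_nonpos (by linarith only [hab])]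
    have h1 : Real.log (b / a) ≤ b / a - 1 := Real.log_le_sub_one_of_pos (by positivity)
    rw [Real.log_div hb0.ne' ha0.ne'] at h1
    have h2 : b / a - 1 = (b - a) / a := by field_simp
    have h3 : (b - a) / a ≤ (b - a) / c :=
      div_le_div_of_nonneg_left (by linarith only [hab]) hc ha
    have h4 : -(a - b) / c = (b - a) / c := by ring
    rw [h4]
    linarith only [h1, h2, h3]
  rcases le_total a b with h | h
  · exact key a b ha hb h
  · rw [abs_sub_comm, abs_sub_comm a b]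
    exact key b a hb ha h

theorem log_xf_eq {θ m : ℝ} (hθ : θ ^ 2 < 1) (hm : |m| < 1) :
    Real.log (xf θ m) = Real.log (1 - m ^ 2) - Real.log (1 - θ ^ 2 * m ^ 2) := by
  have h1 : m ^ 2 < 1 := by
    rw [← sq_abs]; exact pow_lt_one₀ (abs_nonneg _) hm two_ne_zero
  unfold xf
  rw [Real.log_div (by linarith) (xf_den_pos hθ hm.le).ne']

/-- Lipschitz bound for the logarithm of the transfer factor. -/
theorem abs_log_xf_sub_le {θ θ' m m' m0 : ℝ} (hm0 : m0 < 1) (hθ0 : 0 ≤ θ)
    (hθ : θ ^ 2 ≤ 1 / 2) (hθ0' : 0 ≤ θ') (hθ' : θ' ^ 2 ≤ 1 / 2) (hm : |m| ≤ m0)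
    (hm' : |m'| ≤ m0) :
    |Real.log (xf θ m) - Real.log (xf θ' m')|
      ≤ (1 / (1 - m0 ^ 2) + 4) * (|m - m'| * (|m| + |m'|) + |θ - θ'|) := by
  have hm00 : 0 ≤ m0 := (abs_nonneg _).trans hm
  have hm0sq : m0 ^ 2 < 1 := pow_lt_one₀ hm00 hm0 two_ne_zero
  have hpos : 0 < 1 - m0 ^ 2 := by linarith only [hm0sq]
  have hmsq : m ^ 2 ≤ m0 ^ 2 := by rw [← sq_abs]; exact pow_le_pow_left₀ (abs_nonneg _) hm 2
  have hmsq' : m' ^ 2 ≤ m0 ^ 2 := by rw [← sq_abs]; exact pow_le_pow_left₀ (abs_nonneg _) hm' 2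
  have hθ1 : θ ≤ 1 := by nlinarith only [hθ]
  have hθ1' : θ' ≤ 1 := by nlinarith only [hθ']
  rw [log_xf_eq (by linarith only [hθ]) (lt_of_le_of_lt hm hm0),
    log_xf_eq (by linarith only [hθ']) (lt_of_le_of_lt hm' hm0)]
  have h1 : |m ^ 2 - m' ^ 2| ≤ |m - m'| * (|m| + |m'|) := by
    rw [show m ^ 2 - m' ^ 2 = (m - m') * (m + m') by ring, abs_mul]
    exact mul_le_mul_of_nonneg_left (abs_add_le _ _) (abs_nonneg _)
  have h2 : |Real.log (1 - m ^ 2) - Real.log (1 - m' ^ 2)|
      ≤ |m - m'| * (|m| + |m'|) / (1 - m0 ^ 2) := by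
    refine (abs_log_sub_log_le hpos (by linarith only [hmsq]) (by linarith only [hmsq'])).trans ?_
    refine div_le_div_of_nonneg_right ?_ hpos.le
    rw [show 1 - m ^ 2 - (1 - m' ^ 2) = -(m ^ 2 - m' ^ 2) by ring, abs_neg]
    exact h1
  have h3 : |Real.log (1 - θ ^ 2 * m ^ 2) - Real.log (1 - θ' ^ 2 * m' ^ 2)|
      ≤ 2 * (|m - m'| * (|m| + |m'|)) + 4 * |θ - θ'| := by
    have h4 : (1 / 2 : ℝ) ≤ 1 - θ ^ 2 * m ^ 2 := by nlinarith only [hm0sq, hmsq, hθ]
    have h4' : (1 / 2 : ℝ) ≤ 1 - θ' ^ 2 * m' ^ 2 := by nlinarith only [hm0sq, hmsq', hθ']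
    refine (abs_log_sub_log_le (by norm_num) h4 h4').trans ?_
    have h5 : |1 - θ ^ 2 * m ^ 2 - (1 - θ' ^ 2 * m' ^ 2)|
        ≤ |m - m'| * (|m| + |m'|) + 2 * |θ - θ'| := by
      have h6 : 1 - θ ^ 2 * m ^ 2 - (1 - θ' ^ 2 * m' ^ 2)
          = -(θ ^ 2 * (m ^ 2 - m' ^ 2)) + -((θ - θ') * ((θ + θ') * m' ^ 2)) := by ring
      rw [h6]
      refine (abs_add_le _ _).trans (add_le_add ?_ ?_)
      · rw [abs_neg, abs_mul, abs_of_nonneg (sq_nonneg θ)]
        have h7 : θ ^ 2 ≤ 1 := by linarith only [hθ]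
        calc θ ^ 2 * |m ^ 2 - m' ^ 2| ≤ 1 * |m ^ 2 - m' ^ 2| :=
              mul_le_mul_of_nonneg_right h7 (abs_nonneg _)
          _ ≤ _ := by rw [one_mul]; exact h1
      · have hnn : 0 ≤ (θ + θ') * m' ^ 2 := mul_nonneg (by linarith only [hθ0, hθ0']) (sq_nonneg _)
        rw [abs_neg, abs_mul, abs_of_nonneg hnn, mul_comm]
        refine mul_le_mul_of_nonneg_right ?_ (abs_nonneg _)
        have h8 : m' ^ 2 ≤ 1 := by linarith only [hm0sq, hmsq']
        calc (θ + θ') * m' ^ 2 ≤ 2 * 1 :=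
              mul_le_mul (by linarith only [hθ1, hθ1']) h8 (sq_nonneg _) (by norm_num)
          _ = 2 := by norm_num
    calc |1 - θ ^ 2 * m ^ 2 - (1 - θ' ^ 2 * m' ^ 2)| / (1 / 2)
        = 2 * |1 - θ ^ 2 * m ^ 2 - (1 - θ' ^ 2 * m' ^ 2)| := by ring
      _ ≤ 2 * (|m - m'| * (|m| + |m'|) + 2 * |θ - θ'|) :=
          mul_le_mul_of_nonneg_left h5 (by norm_num)
      _ = _ := by ring
  have h9 : 0 ≤ |m - m'| * (|m| + |m'|) := by (clear * -; positivity)
  have h10 : 0 ≤ 1 / (1 - m0 ^ 2) := by (clear * - hm0sq; positivity)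
  have h11 : 0 ≤ 1 / (1 - m0 ^ 2) * |θ - θ'| := by (clear * - hm0sq; positivity)
  calc |Real.log (1 - m ^ 2) - Real.log (1 - θ ^ 2 * m ^ 2)
        - (Real.log (1 - m' ^ 2) - Real.log (1 - θ' ^ 2 * m' ^ 2))|
      = |(Real.log (1 - m ^ 2) - Real.log (1 - m' ^ 2))
        + -(Real.log (1 - θ ^ 2 * m ^ 2) - Real.log (1 - θ' ^ 2 * m' ^ 2))| := by
        congr 1; ring
    _ ≤ |Real.log (1 - m ^ 2) - Real.log (1 - m' ^ 2)|
        + |Real.log (1 - θ ^ 2 * m ^ 2) - Real.log (1 - θ' ^ 2 * m' ^ 2)| := by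
        refine (abs_add_le _ _).trans ?_
        rw [abs_neg]
    _ ≤ |m - m'| * (|m| + |m'|) / (1 - m0 ^ 2)
        + (2 * (|m - m'| * (|m| + |m'|)) + 4 * |θ - θ'|) := add_le_add h2 h3
    _ ≤ _ := by
        have h12 : |m - m'| * (|m| + |m'|) / (1 - m0 ^ 2)
            = 1 / (1 - m0 ^ 2) * (|m - m'| * (|m| + |m'|)) := by ring
        rw [h12]
        linarith only [h11, h9]

theorem abs_log_xf_le {θ m m0 : ℝ} (hm0 : m0 < 1) (hθ : θ ^ 2 < 1) (hm : |m| ≤ m0) :
    |Real.log (xf θ m)| ≤ -Real.log (1 - m0 ^ 2) := by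
  have hm00 : 0 ≤ m0 := (abs_nonneg _).trans hm
  have hm0sq : m0 ^ 2 < 1 := pow_lt_one₀ hm00 hm0 two_ne_zero
  have hmsq : m ^ 2 ≤ m0 ^ 2 := by rw [← sq_abs]; exact pow_le_pow_left₀ (abs_nonneg _) hm 2
  have hm1 : |m| ≤ 1 := by (clear * - hm0 hm; linarith)
  have h1 : xf θ m ≤ 1 := xf_le_one hθ hm1
  have h2 : 1 - m0 ^ 2 ≤ xf θ m := by
    have := one_sub_xf_le hθ hm1
    linarith only [hmsq, this]
  have h3 : 0 < xf θ m := by linarith only [hm0sq, h2]
  rw [abs_of_nonpos (Real.log_nonpos h3.le h1)]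
  have := Real.log_le_log (by linarith only [hm0sq]) h2
  linarith only [this]

/-! ## Moments -/

theorem moment_cut_pt {x y u : ℝ} (hu : 0 < u) (k : ℕ) :
    (x - y) ^ 2 * (|x| + |y|) ^ 2
      ≤ u ^ 2 * (x - y) ^ 2
        + 2 ^ (2 * k + 3) / u ^ (2 * k) * (x ^ (2 * k + 4) + y ^ (2 * k + 4)) := by
  have hs0 : 0 ≤ |x| + |y| := by (clear * -; positivity)
  have hev : Even (2 * k + 4) := ⟨k + 2, by ring⟩
  have hpow : (|x| + |y|) ^ (2 * k + 4)
      ≤ 2 ^ (2 * k + 3) * (x ^ (2 * k + 4) + y ^ (2 * k + 4)) := by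
    have := add_pow_le (abs_nonneg x) (abs_nonneg y) (2 * k + 4)
    rw [hev.pow_abs, hev.pow_abs] at this
    exact this
  have hpow0 : 0 ≤ x ^ (2 * k + 4) + y ^ (2 * k + 4) := by
    have h1 := hev.pow_nonneg x
    have h2 := hev.pow_nonneg y
    linarith only [h1, h2]
  rcases le_total (|x| + |y|) u with h | h
  · have h1 : (|x| + |y|) ^ 2 ≤ u ^ 2 := pow_le_pow_left₀ hs0 h 2
    have h2 : (x - y) ^ 2 * (|x| + |y|) ^ 2 ≤ u ^ 2 * (x - y) ^ 2 := by
      rw [mul_comm]
      exact mul_le_mul_of_nonneg_right h1 (sq_nonneg _)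
    have h3 : 0 ≤ 2 ^ (2 * k + 3) / u ^ (2 * k) * (x ^ (2 * k + 4) + y ^ (2 * k + 4)) := by
      (clear * - hu hpow0; positivity)
    linarith
  · have h1 : (x - y) ^ 2 ≤ (|x| + |y|) ^ 2 := by
      rw [← sq_abs (x - y)]
      exact pow_le_pow_left₀ (abs_nonneg _) (abs_sub x y) 2
    have h2 : (x - y) ^ 2 * (|x| + |y|) ^ 2 ≤ (|x| + |y|) ^ 4 := by
      calc (x - y) ^ 2 * (|x| + |y|) ^ 2 ≤ (|x| + |y|) ^ 2 * (|x| + |y|) ^ 2 :=
            mul_le_mul_of_nonneg_right h1 (sq_nonneg _)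
        _ = (|x| + |y|) ^ 4 := by ring
    have h3 : (|x| + |y|) ^ 4 ≤ (|x| + |y|) ^ (2 * k + 4) / u ^ (2 * k) := by
      rw [le_div_iff₀ (by positivity), pow_add, mul_comm]
      exact mul_le_mul_of_nonneg_right (pow_le_pow_left₀ hu.le h (2 * k)) (by (clear * -; positivity))
    have h4 : (|x| + |y|) ^ (2 * k + 4) / u ^ (2 * k)
        ≤ 2 ^ (2 * k + 3) / u ^ (2 * k) * (x ^ (2 * k + 4) + y ^ (2 * k + 4)) := by
      rw [div_mul_eq_mul_div]
      exact div_le_div_of_nonneg_right hpow (by positivity)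
    have h5 : 0 ≤ u ^ 2 * (x - y) ^ 2 := by (clear * - hu; positivity)
    linarith only [h2, h3, h4, h5]

end Vale.Agent.P161
end
end

section

section

open MeasureTheory

namespace Vale.Agent.P161

variable {V : Type*} {G : SimpleGraph V} {μ : Measure (V → ℤˣ)}

theorem sq_step [IsProbabilityMeasure μ] {ε : ℝ} (hε0 : 0 ≤ ε) (hε : ε ≤ 1 / 2)
    (l : List (V × ℕ)) {i : V × ℕ} (hi : i ∉ l) (v : V) :
    ∫ U, mean μ (run μ ε U (i :: l)) v ^ 2 ∂(noise V) = ∫ U, mean μ (run μ ε U l) v ^ 2 ∂(noise V) +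
      ∫ U, (cov μ (run μ ε U l) i.1 v * incr ε (mean μ (run μ ε U l) i.1) (U i)) ^ 2
        ∂(noise V) := by
  have m1 := measurable_mean_run (μ := μ) hε0 hε l v
  have c1 := measurable_cov_run (μ := μ) hε0 hε l i.1 v
  have n1 := measurable_incr_run (μ := μ) hε0 hε l i.1 i
  have bm1 : ∀ U, |mean μ (run μ ε U l) v| ≤ 1 := fun U => abs_mean_le (good_run hε0 hε U l) v
  have bc1 : ∀ U, |cov μ (run μ ε U l) i.1 v| ≤ 2 := fun U =>
    abs_cov_le_two (good_run hε0 hε U l) i.1 v
  have bn1 : ∀ U : V × ℕ → unitInterval, |incr ε (mean μ (run μ ε U l) i.1) (U i)| ≤ 2 * ε :=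
    fun U => abs_incr_le hε0 hε (abs_mean_le (good_run hε0 hε U l) i.1) (U i).2.1 (U i).2.2
  have z1 := integral_mul_incr_eq_zero (μ := μ) hε0 hε l l (fun j hj => hj) hi
    (fun U => (mean μ (run μ ε U l) v) * cov μ (run μ ε U l) i.1 v) (m1.mul c1)
    (fun U U' h => by rw [run_congr h])
    (C := 1 * 2) (fun U => by
      rw [abs_mul]; exact mul_le_mul (bm1 U) (bc1 U) (abs_nonneg _) (by norm_num)) i.1
  have hort : ∫ U, (mean μ (run μ ε U l) v) *
      (cov μ (run μ ε U l) i.1 v * incr ε (mean μ (run μ ε U l) i.1) (U i))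
        ∂(noise V) = 0 := by
    rw [← z1]
    congr 1
    funext U
    ring
  have := integral_sq_add_of_ortho (P := noise V) m1 (c1.mul n1)
    (C := 1) (C' := 2 * (2 * ε)) bm1 (fun U => by
      rw [Pi.mul_apply, abs_mul]
      exact mul_le_mul (bc1 U) (bn1 U) (abs_nonneg _) (by norm_num)) hort
  rw [show (fun U : V × ℕ → unitInterval => mean μ (run μ ε U (i :: l)) v ^ 2) = fun U =>
    (mean μ (run μ ε U l) v +
      (cov μ (run μ ε U l) i.1 v * incr ε (mean μ (run μ ε U l) i.1) (U i))) ^ 2 from by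
    funext U
    rw [mean_cons_incr hε0 hε]]
  exact this

theorem integrable_mean_sq [IsProbabilityMeasure μ] {ε : ℝ} (hε0 : 0 ≤ ε) (hε : ε ≤ 1 / 2)
    (l : List (V × ℕ)) (v : V) :
    Integrable (fun U => mean μ (run μ ε U l) v ^ 2) (noise V) := by
  apply integrable_of_bdd ((measurable_mean_run hε0 hε l v).pow_const 2) (C := 1)
  intro U
  rw [abs_pow]
  exact pow_le_one₀ (abs_nonneg _) (abs_mean_le (good_run hε0 hε U l) v)

theorem integral_var_eq [IsProbabilityMeasure μ] {ε : ℝ} (hε0 : 0 ≤ ε) (hε : ε ≤ 1 / 2)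
    (l : List (V × ℕ)) (v : V) :
    ∫ U, (1 - mean μ (run μ ε U l) v ^ 2) ∂(noise V) =
      1 - ∫ U, mean μ (run μ ε U l) v ^ 2 ∂(noise V) := by
  rw [integral_sub (integrable_const _) (integrable_mean_sq hε0 hε l v)]
  simp only [integral_const, probReal_univ, smul_eq_mul, mul_one]

theorem var_antitone [IsProbabilityMeasure μ] {ε : ℝ} (hε0 : 0 ≤ ε) (hε : ε ≤ 1 / 2)
    (l : List (V × ℕ)) {i : V × ℕ} (hi : i ∉ l) (v : V) :
    ∫ U, (1 - mean μ (run μ ε U (i :: l)) v ^ 2) ∂(noise V) ≤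
      ∫ U, (1 - mean μ (run μ ε U l) v ^ 2) ∂(noise V) := by
  rw [integral_var_eq hε0 hε, integral_var_eq hε0 hε, sq_step hε0 hε l hi v]
  have : 0 ≤ ∫ U, (cov μ (run μ ε U l) i.1 v * incr ε (mean μ (run μ ε U l) i.1) (U i)) ^ 2
      ∂(noise V) := integral_nonneg fun _ => sq_nonneg _
  linarith only [this]

theorem var_step [IsProbabilityMeasure μ] {ε : ℝ} (hε0 : 0 ≤ ε) (hε : ε ≤ 1 / 2)
    (l : List (V × ℕ)) {i : V × ℕ} (hi : i ∉ l) :
    ∫ U, (1 - mean μ (run μ ε U (i :: l)) i.1 ^ 2) ∂(noise V) ≤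
      ∫ U, (1 - mean μ (run μ ε U l) i.1 ^ 2) ∂(noise V) -
      ε ^ 2 / 9 * (∫ U, (1 - mean μ (run μ ε U l) i.1 ^ 2) ∂(noise V)) ^ 2 := by
  have m1 := measurable_mean_run (μ := μ) hε0 hε l i.1
  have n1 := measurable_incr_run (μ := μ) hε0 hε l i.1 i
  have bm1 : ∀ U, |mean μ (run μ ε U l) i.1| ≤ 1 := fun U => abs_mean_le (good_run hε0 hε U l) i.1
  have bv : ∀ U, 0 ≤ 1 - mean μ (run μ ε U l) i.1 ^ 2 ∧ 1 - mean μ (run μ ε U l) i.1 ^ 2 ≤ 1 := by
    intro U
    have := bm1 U
    rw [← sq_le_one_iff_abs_le_one] at this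
    constructor
    · linarith only [this]
    · linarith only [sq_nonneg (mean μ (run μ ε U l) i.1)]
  have bn1 : ∀ U : V × ℕ → unitInterval, |incr ε (mean μ (run μ ε U l) i.1) (U i)| ≤ 2 * ε :=
    fun U => abs_incr_le hε0 hε (bm1 U) (U i).2.1 (U i).2.2
  have bn1' : ∀ U : V × ℕ → unitInterval, ∀ u : unitInterval,
      incr ε (mean μ (run μ ε U l) i.1) u ^ 2 ≤ 4 * ε ^ 2 := fun U u => by
    have := abs_incr_le hε0 hε (bm1 U) u.2.1 u.2.2
    have := pow_le_pow_left₀ (abs_nonneg _) this 2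
    rw [sq_abs] at this
    linarith only [this]
  have hpos : 0 ≤ ∫ U, (1 - mean μ (run μ ε U l) i.1 ^ 2) ^ 2 *
      (incr ε (mean μ (run μ ε U l) i.1) (U i) ^ 2 - ε ^ 2 / 9) ∂(noise V) := by
    rw [integral_step l hi (fun U u => (1 - mean μ (run μ ε U l) i.1 ^ 2) ^ 2 *
      (incr ε (mean μ (run μ ε U l) i.1) u ^ 2 - ε ^ 2 / 9))
      (((measurable_const.sub (m1.pow_const 2)).pow_const 2).mul
        ((n1.pow_const 2).sub_const _))
      (fun U U' h => by funext u; rw [run_congr h]) (C := 1 * (4 * ε ^ 2 + ε ^ 2 / 9))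
      (fun U u => by
        rw [abs_mul]
        refine mul_le_mul ?_ ?_ (abs_nonneg _) (by norm_num)
        · rw [abs_pow, abs_of_nonneg (bv U).1]
          exact pow_le_one₀ (bv U).1 (bv U).2
        · refine (abs_sub _ _).trans ?_
          rw [abs_of_nonneg (sq_nonneg _), abs_of_nonneg (by (clear * -; positivity))]
          linarith only [bn1' U u])]
    apply integral_nonneg
    intro U
    simp only [Pi.zero_apply]
    rw [integral_const_mul]
    apply mul_nonneg (sq_nonneg _)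
    have hi2 : Integrable (fun u : unitInterval => incr ε (mean μ (run μ ε U l) i.1) (u : ℝ) ^ 2)
        volume := by
      apply integrable_of_bdd _ (C := 4 * ε ^ 2)
      · intro u
        rw [abs_of_nonneg (sq_nonneg _)]
        exact bn1' U u
      · have ho : Measurable fun u : unitInterval =>
            obs ε (mean μ (run μ ε U l) i.1) (u : ℝ) :=
          measurable_obs_aux measurable_const measurable_subtype_coe
        unfold incr
        exact (ho.div (measurable_const.add (ho.mul measurable_const))).pow_const 2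
    rw [integral_sub hi2 (integrable_const _)]
    have := le_integral_incr_sq hε0 hε (bm1 U)
    simp only [integral_const, probReal_univ, smul_eq_mul, one_mul]
    linarith only [this]
  have i1 : Integrable (fun U => (1 - mean μ (run μ ε U l) i.1 ^ 2) ^ 2 *
      incr ε (mean μ (run μ ε U l) i.1) (U i) ^ 2) (noise V) := by
    apply integrable_of_bdd (((measurable_const.sub (m1.pow_const 2)).pow_const 2).mul
        (n1.pow_const 2)) (C := 1 * (4 * ε ^ 2))
    intro U
    rw [Pi.mul_apply, abs_mul]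
    refine mul_le_mul ?_ ?_ (abs_nonneg _) (by norm_num)
    · simp only [Pi.sub_apply]
      rw [abs_pow, abs_of_nonneg (bv U).1]
      exact pow_le_one₀ (bv U).1 (bv U).2
    · rw [abs_of_nonneg (sq_nonneg _)]
      exact bn1' U (U i)
  have i2 : Integrable (fun U => (1 - mean μ (run μ ε U l) i.1 ^ 2) ^ 2) (noise V) := by
    apply integrable_of_bdd ((measurable_const.sub (m1.pow_const 2)).pow_const 2) (C := 1)
    intro U
    simp only [Pi.sub_apply]
    rw [abs_pow, abs_of_nonneg (bv U).1]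
    exact pow_le_one₀ (bv U).1 (bv U).2
  have i3 : Integrable (fun U => (1 - mean μ (run μ ε U l) i.1 ^ 2)) (noise V) :=
    (integrable_const _).sub (integrable_mean_sq hε0 hε l i.1)
  have hexp : ∫ U, (1 - mean μ (run μ ε U l) i.1 ^ 2) ^ 2 *
      (incr ε (mean μ (run μ ε U l) i.1) (U i) ^ 2 - ε ^ 2 / 9) ∂(noise V) =
      ∫ U, (1 - mean μ (run μ ε U l) i.1 ^ 2) ^ 2 *
      incr ε (mean μ (run μ ε U l) i.1) (U i) ^ 2 ∂(noise V) -
      (∫ U, (1 - mean μ (run μ ε U l) i.1 ^ 2) ^ 2 ∂(noise V)) * (ε ^ 2 / 9) := by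
    rw [← integral_mul_const, ← integral_sub i1 (i2.mul_const _)]
    congr 1
    funext U
    ring
  have hjen : (∫ U, (1 - mean μ (run μ ε U l) i.1 ^ 2) ∂(noise V)) ^ 2 ≤
      ∫ U, (1 - mean μ (run μ ε U l) i.1 ^ 2) ^ 2 ∂(noise V) := by
    set a := ∫ U, (1 - mean μ (run μ ε U l) i.1 ^ 2) ∂(noise V) with ha
    have h0 : 0 ≤ ∫ U, ((1 - mean μ (run μ ε U l) i.1 ^ 2) - a) ^ 2 ∂(noise V) :=
      integral_nonneg fun _ => sq_nonneg _
    have e : ∀ U, ((1 - mean μ (run μ ε U l) i.1 ^ 2) - a) ^ 2 =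
        (1 - mean μ (run μ ε U l) i.1 ^ 2) ^ 2 - 2 * a * (1 - mean μ (run μ ε U l) i.1 ^ 2)
          + a ^ 2 := fun U => by ring
    simp only [e] at h0
    have e2 := integral_add (i2.sub (i3.const_mul (2 * a))) (integrable_const (a ^ 2))
    simp only [Pi.sub_apply] at e2
    rw [e2, integral_sub i2 (i3.const_mul (2 * a)), integral_const_mul, ← ha] at h0
    simp only [integral_const, probReal_univ, smul_eq_mul, one_mul] at h0
    linarith only [h0]
  rw [integral_var_eq hε0 hε (i :: l), sq_step hε0 hε l hi i.1]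
  have hcov : ∀ U, (cov μ (run μ ε U l) i.1 i.1 * incr ε (mean μ (run μ ε U l) i.1) (U i)) ^ 2 =
      (1 - mean μ (run μ ε U l) i.1 ^ 2) ^ 2 * incr ε (mean μ (run μ ε U l) i.1) (U i) ^ 2 := by
    intro U
    rw [cov_self (good_run hε0 hε U l), mul_pow]
  simp only [hcov]
  have hve := integral_var_eq (μ := μ) hε0 hε l i.1
  have hc : 0 ≤ ε ^ 2 / 9 := by (clear * -; positivity)
  rw [hexp] at hpos
  linarith only [mul_nonneg (sq_nonneg (1 * ε : ℝ)) (sub_nonneg.2 hjen), hve, hpos]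

/-- Information accumulation. -/
theorem integral_var_le [IsProbabilityMeasure μ] {ε : ℝ} (hε0 : 0 < ε) (hε : ε ≤ 1 / 2)
    (l : List (V × ℕ)) (hl : l.Nodup) (v : V) (N : ℕ)
    (hN : N ≤ (open Classical in l.filter (fun i => i.1 = v)).length) :
    N * (∫ U, (1 - mean μ (run μ ε U l) v ^ 2) ∂(noise V)) ^ 2 ≤ 9 / ε ^ 2 := by
  classical
  have hA0 : ∀ l : List (V × ℕ), 0 ≤ ∫ U, (1 - mean μ (run μ ε U l) v ^ 2) ∂(noise V) := by
    intro l
    apply integral_nonneg
    intro U
    have := abs_mean_le (μ := μ) (good_run (μ := μ) hε0.le hε U l) v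
    rw [← sq_le_one_iff_abs_le_one] at this
    simp only [Pi.zero_apply]
    linarith only [this]
  have key : ∀ l : List (V × ℕ), l.Nodup →
      ((l.filter (fun i => decide (i.1 = v))).length : ℝ) * (ε ^ 2 / 9) *
        (∫ U, (1 - mean μ (run μ ε U l) v ^ 2) ∂(noise V)) ^ 2 ≤
      1 - ∫ U, (1 - mean μ (run μ ε U l) v ^ 2) ∂(noise V) := by
    intro l
    induction l with
    | nil =>
      intro _
      rw [integral_var_eq hε0.le hε]
      have : 0 ≤ ∫ U, mean μ (run μ ε U []) v ^ 2 ∂(noise V) := integral_nonneg fun _ => sq_nonneg _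
      simp only [List.filter_nil, List.length_nil, Nat.cast_zero, zero_mul]
      linarith only [this]
    | cons i l ih =>
      intro hl
      rw [List.nodup_cons] at hl
      have h := ih hl.2
      have hanti := var_antitone (μ := μ) hε0.le hε l hl.1 v
      have hc : 0 ≤ ε ^ 2 / 9 := by positivity
      by_cases hiv : i.1 = v
      · have hst := var_step (μ := μ) hε0.le hε l hl.1
        rw [hiv] at hst
        rw [List.filter_cons_of_pos (by simp [hiv]), List.length_cons]
        push_cast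
        have a0 := hA0 l
        have a1 := hA0 (i :: l)
        set A := ∫ U, (1 - mean μ (run μ ε U l) v ^ 2) ∂(noise V)
        set A' := ∫ U, (1 - mean μ (run μ ε U (i :: l)) v ^ 2) ∂(noise V)
        have hsq : A' ^ 2 ≤ A ^ 2 := pow_le_pow_left₀ a1 hanti 2
        set n : ℝ := ((l.filter (fun i => decide (i.1 = v))).length : ℝ)
        have hn : 0 ≤ n := Nat.cast_nonneg _
        calc (n + 1) * (ε ^ 2 / 9) * A' ^ 2 ≤ (n + 1) * (ε ^ 2 / 9) * A ^ 2 := by (clear * - hsq hε0; gcongr)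
          _ = n * (ε ^ 2 / 9) * A ^ 2 + ε ^ 2 / 9 * A ^ 2 := by ring
          _ ≤ (1 - A) + ε ^ 2 / 9 * A ^ 2 := by (clear * - h; gcongr)
          _ ≤ 1 - A' := by linarith only [hst]
      · rw [List.filter_cons_of_neg (by simp [hiv])]
        have a1 := hA0 (i :: l)
        set A := ∫ U, (1 - mean μ (run μ ε U l) v ^ 2) ∂(noise V)
        set A' := ∫ U, (1 - mean μ (run μ ε U (i :: l)) v ^ 2) ∂(noise V)
        have hsq : A' ^ 2 ≤ A ^ 2 := pow_le_pow_left₀ a1 hanti 2
        set n : ℝ := ((l.filter (fun i => decide (i.1 = v))).length : ℝ)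
        have hn : 0 ≤ n := Nat.cast_nonneg _
        calc n * (ε ^ 2 / 9) * A' ^ 2 ≤ n * (ε ^ 2 / 9) * A ^ 2 := by (clear * - hsq hε0; gcongr)
          _ ≤ 1 - A := h
          _ ≤ 1 - A' := by linarith only [hanti]
  have h := key l hl
  have hA := hA0 l
  have hNr : (N : ℝ) ≤ ((l.filter (fun i => decide (i.1 = v))).length : ℝ) := by
    exact_mod_cast hN
  rw [le_div_iff₀ (by positivity)]
  set A := ∫ U, (1 - mean μ (run μ ε U l) v ^ 2) ∂(noise V)
  set n : ℝ := ((l.filter (fun i => decide (i.1 = v))).length : ℝ)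
  have : (N : ℝ) * A ^ 2 * ε ^ 2 ≤ n * A ^ 2 * ε ^ 2 := by (clear * - hNr hε0; gcongr)
  linarith only [this, h, hA]

end Vale.Agent.P161
end
end

section

section

open MeasureTheory Filter Topology

namespace Vale.Agent.P161

variable {V : Type*} {G : SimpleGraph V} {μ : Measure (V → ℤˣ)}

theorem localOn_sp_univ (v : V) : LocalOn Set.univ (fun σ : V → ℤˣ => sp σ v) := by
  classical
  refine ⟨{v}, Set.subset_univ _, fun σ τ h => ?_⟩
  have := h v (by simp)
  simp only [sp]
  rw [this]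

theorem localOn_spS_univ (S : Finset V) : LocalOn Set.univ (spS S) := by
  refine ⟨S, Set.subset_univ _, fun σ τ h => ?_⟩
  refine Finset.prod_congr rfl fun v hv => ?_
  simp only [sp]
  rw [h v (by simpa using hv)]

/-- posterior mean at `v` after `n` rounds over the list `S` -/
noncomputable def est (μ : Measure (V → ℤˣ)) (ε : ℝ) (S : List V) (n : ℕ) (v : V)
    (U : V × ℕ → unitInterval) : ℝ := mean μ (run μ ε U (sched S n)) v

section Basic

variable [IsProbabilityMeasure μ] {ε : ℝ} (hε0 : 0 < ε) (hε : ε ≤ 1 / 2)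
include hε0 hε

theorem abs_est_le (S : List V) (n : ℕ) (v : V) (U : V × ℕ → unitInterval) :
    |est μ ε S n v U| ≤ 1 :=
  abs_mean_le (good_run hε0.le hε U _) v

theorem measurable_est (S : List V) (n : ℕ) (v : V) : Measurable (est μ ε S n v) :=
  measurable_post_run hε0.le hε _ (localOn_sp_univ v)

theorem integrable_est_comp (S : List V) (n : ℕ) (v : V) (S' : List V) (n' : ℕ) (v' : V)
    {F : ℝ × ℝ → ℝ} (hF : Continuous F) :
    Integrable (fun U => F (est μ ε S n v U, est μ ε S' n' v' U)) (noise V) := by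
  have hK : IsCompact (Set.Icc (-1 : ℝ) 1 ×ˢ Set.Icc (-1 : ℝ) 1) := isCompact_Icc.prod isCompact_Icc
  obtain ⟨C, hC⟩ := hK.exists_bound_of_continuousOn hF.continuousOn
  refine Integrable.of_bound (C := C) ?_ ?_
  · exact (hF.measurable.comp ((measurable_est hε0 hε S n v).prodMk
      (measurable_est hε0 hε S' n' v'))).aestronglyMeasurable
  · refine Eventually.of_forall fun U => hC _ ⟨?_, ?_⟩
    · exact abs_le.1 (abs_est_le hε0 hε S n v U)
    · exact abs_le.1 (abs_est_le hε0 hε S' n' v' U)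

theorem integral_est_var_le {S : List V} (hS : S.Nodup) {v : V} (hv : v ∈ S) (k : ℕ) :
    ∫ U, (1 - est μ ε S (16 ^ k) v U ^ 2) ∂(noise V) ≤ 3 / ε * (1 / 4) ^ k := by
  classical
  have h := integral_var_le (μ := μ) hε0 hε (sched S (16 ^ k)) (nodup_sched hS _) v (16 ^ k)
    (by
      rw [length_filter_sched hS hv]
      intro i
      simp)
  set q := ∫ U, (1 - est μ ε S (16 ^ k) v U ^ 2) ∂(noise V) with hq
  have h' : ((4 : ℝ) ^ k * q) ^ 2 ≤ (3 / ε) ^ 2 := by
    have e1 : ((4 : ℝ) ^ k * q) ^ 2 = ((16 ^ k : ℕ) : ℝ) * q ^ 2 := by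
      rw [mul_pow, ← pow_mul, mul_comm k 2, pow_mul]
      norm_num
    have e2 : (3 / ε) ^ 2 = 9 / ε ^ 2 := by
      rw [div_pow]; norm_num
    rw [e1, e2]
    exact h
  have h3 : (4 : ℝ) ^ k * q ≤ 3 / ε := by
    have := abs_le_of_sq_le_sq' h' (by positivity)
    exact this.2
  have h4 : (0 : ℝ) < 4 ^ k := by positivity
  rw [one_div, inv_pow, ← div_eq_mul_inv, le_div_iff₀ h4]
  (clear * - h3; linarith)

theorem integral_est_incr_le {S : List V} (hS : S.Nodup) {v : V} (n m : ℕ) :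
    ∫ U, (est μ ε S (n + m) v U - est μ ε S n v U) ^ 2 ∂(noise V) ≤
      ∫ U, (1 - est μ ε S n v U ^ 2) ∂(noise V) := by
  obtain ⟨l, hl⟩ := sched_add S n m
  have hn : (l ++ sched S n).Nodup := by
    rw [← hl]; exact nodup_sched hS _
  have h := integral_sq_sub_run (μ := μ) hε0.le hε l (sched S n) hn v
  rw [← hl] at h
  have h1 : ∫ U, (est μ ε S (n + m) v U - est μ ε S n v U) ^ 2 ∂(noise V) =
      ∫ U, est μ ε S (n + m) v U ^ 2 ∂(noise V) - ∫ U, est μ ε S n v U ^ 2 ∂(noise V) := h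
  have i1 : Integrable (fun U => est μ ε S n v U ^ 2) (noise V) :=
    integrable_est_comp hε0 hε S n v S n v (F := fun p => p.1 ^ 2) (by fun_prop)
  have i2 : Integrable (fun U => est μ ε S (n + m) v U ^ 2) (noise V) :=
    integrable_est_comp hε0 hε S (n + m) v S n v (F := fun p => p.1 ^ 2) (by fun_prop)
  rw [h1, integral_sub (integrable_const _) i1]
  have h2 : ∫ U, est μ ε S (n + m) v U ^ 2 ∂(noise V) ≤ ∫ _U, (1 : ℝ) ∂(noise V) := by
    refine integral_mono i2 (integrable_const _) fun U => ?_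
    have := abs_est_le (μ := μ) hε0 hε S (n + m) v U
    simp only
    rw [← sq_abs]
    exact pow_le_one₀ (abs_nonneg _) this
  linarith only [h2]

end Basic

/-- the approximations of the factor map -/
noncomputable def approx [Encodable V] (μ : Measure (V → ℤˣ)) (ε : ℝ) (B : ℕ → V → Finset V)
    (k : ℕ) (v : V) (p : (V → unitInterval) × (V × ℕ → unitInterval)) : ℝ :=
  est μ ε (srt p.1 (B k v)) (16 ^ k) v p.2

open Classical in
/-- the factor map -/
noncomputable def factor [Encodable V] (μ : Measure (V → ℤˣ)) (ε : ℝ) (B : ℕ → V → Finset V)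
    (p : (V → unitInterval) × (V × ℕ → unitInterval)) (v : V) : ℤˣ :=
  if ∃ k0, ∀ k ≥ k0, 0 < approx μ ε B k v p then 1 else -1

/-- the approximations on balls are close to those on bigger sets -/
def Cmp [Encodable V] (μ : Measure (V → ℤˣ)) (ε : ℝ) (B : ℕ → V → Finset V) : Prop :=
  ∀ (T : V → unitInterval) (k : ℕ) (v : V) (C : Finset V), B k v ⊆ C →
    ∫ U, (est μ ε (srt T (B k v)) (16 ^ k) v U - est μ ε (srt T C) (16 ^ k) v U) ^ 2 ∂(noise V)
      ≤ (1 / 4) ^ k

section Main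

variable [Encodable V] [IsProbabilityMeasure μ] {ε : ℝ} (hε0 : 0 < ε) (hε : ε ≤ 1 / 2)
  {B : ℕ → V → Finset V} (hB : ∀ k v, v ∈ B k v) (hcmp : Cmp μ ε B)
include hε0 hε

theorem measurable_approx (k : ℕ) (v : V) : Measurable (approx μ ε B k v) :=
  measurable_srt_comp (fun l => measurable_est (μ := μ) hε0 hε l (16 ^ k) v)

omit [IsProbabilityMeasure μ] hε0 hε in
theorem approx_mk (k : ℕ) (v : V) (T : V → unitInterval) (U : V × ℕ → unitInterval) :
    approx μ ε B k v (T, U) = est μ ε (srt T (B k v)) (16 ^ k) v U := rfl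

theorem measurable_approx_right (k : ℕ) (v : V) (T : V → unitInterval) :
    Measurable fun U => approx μ ε B k v (T, U) := by
  simp only [approx_mk]
  exact measurable_est (μ := μ) hε0 hε _ _ v

theorem abs_approx_le (k : ℕ) (v : V) (T : V → unitInterval) (U : V × ℕ → unitInterval) :
    |approx μ ε B k v (T, U)| ≤ 1 := by
  rw [approx_mk]
  exact abs_est_le (μ := μ) hε0 hε _ _ v U

theorem integrable_approx (k k' : ℕ) (v v' : V) (T : V → unitInterval) {F : ℝ × ℝ → ℝ}
    (hF : Continuous F) :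
    Integrable (fun U => F (approx μ ε B k v (T, U), approx μ ε B k' v' (T, U))) (noise V) := by
  simp only [approx_mk]
  exact integrable_est_comp (μ := μ) hε0 hε _ _ v _ _ v' hF

theorem measurable_factor : Measurable (factor μ ε B) := by
  classical
  refine measurable_pi_iff.2 fun v => ?_
  unfold factor
  refine Measurable.ite ?_ measurable_const measurable_const
  have : {p | ∃ k0, ∀ k ≥ k0, 0 < approx μ ε B k v p} =
      ⋃ k0, ⋂ k, ⋂ (_ : k ≥ k0), {p | 0 < approx μ ε B k v p} := by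
    ext p
    simp only [ge_iff_le, Set.mem_ofPred_eq, Set.mem_iUnion, Set.mem_iInter]
  rw [this]
  exact MeasurableSet.iUnion fun k0 => MeasurableSet.iInter fun k => MeasurableSet.iInter fun _ =>
    measurableSet_lt measurable_const (measurable_approx hε0 hε k v)

include hB hcmp

theorem integral_approx_incr_le (T : V → unitInterval) (k : ℕ) (v : V) :
    ∫ U, (approx μ ε B (k + 1) v (T, U) - approx μ ε B k v (T, U)) ^ 2 ∂(noise V) ≤
      (6 + 9 / ε) * (1 / 4) ^ k := by
  classical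
  set C := B k v ∪ B (k + 1) v with hC
  have hvC : v ∈ srt T C := by
    rw [mem_srt, hC]; exact Finset.mem_union_left _ (hB k v)
  have h1 := hcmp T k v C Finset.subset_union_left
  have h2 := hcmp T (k + 1) v C Finset.subset_union_right
  have h3 := integral_est_incr_le (μ := μ) hε0 hε (nodup_srt T C) (v := v) (16 ^ k)
    (16 ^ (k + 1) - 16 ^ k)
  have h4 := integral_est_var_le (μ := μ) hε0 hε (nodup_srt T C) hvC k
  have e : 16 ^ k + (16 ^ (k + 1) - 16 ^ k) = 16 ^ (k + 1) := by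
    have : 16 ^ k ≤ 16 ^ (k + 1) := Nat.pow_le_pow_right (by norm_num) (by omega)
    omega
  rw [e] at h3
  set X := fun U => est μ ε (srt T (B k v)) (16 ^ k) v U
  set Y := fun U => est μ ε (srt T C) (16 ^ k) v U
  set Y' := fun U => est μ ε (srt T C) (16 ^ (k + 1)) v U
  set X' := fun U => est μ ε (srt T (B (k + 1) v)) (16 ^ (k + 1)) v U
  have i1 : Integrable (fun U => (X U - Y U) ^ 2) (noise V) :=
    integrable_est_comp hε0 hε _ _ v _ _ v (F := fun p => (p.1 - p.2) ^ 2) (by fun_prop)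
  have i2 : Integrable (fun U => (X' U - Y' U) ^ 2) (noise V) :=
    integrable_est_comp hε0 hε _ _ v _ _ v (F := fun p => (p.1 - p.2) ^ 2) (by fun_prop)
  have i3 : Integrable (fun U => (Y' U - Y U) ^ 2) (noise V) :=
    integrable_est_comp hε0 hε _ _ v _ _ v (F := fun p => (p.1 - p.2) ^ 2) (by fun_prop)
  have i4 : Integrable (fun U => (X' U - X U) ^ 2) (noise V) :=
    integrable_est_comp hε0 hε _ _ v _ _ v (F := fun p => (p.1 - p.2) ^ 2) (by fun_prop)
  have h5 : ∫ U, (X' U - X U) ^ 2 ∂(noise V) ≤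
      ∫ U, (3 * (X U - Y U) ^ 2 + 3 * (X' U - Y' U) ^ 2 + 3 * (Y' U - Y U) ^ 2) ∂(noise V) := by
    refine integral_mono i4 (((i1.const_mul 3).add (i2.const_mul 3)).add (i3.const_mul 3))
      fun U => ?_
    simp only
    (clear * -; linarith only [sq_nonneg ((Y' U - Y U) + (X U - Y U)), sq_nonneg ((X' U - Y' U) + (X U - Y U)), sq_nonneg ((X' U - Y' U) - (Y' U - Y U))])
  rw [integral_comb i1 i2 i3] at h5
  have h6 : (1 / 4 : ℝ) ^ (k + 1) ≤ (1 / 4) ^ k :=
    pow_le_pow_of_le_one (by norm_num) (by norm_num) (by omega)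
  have h7 : ∫ U, (approx μ ε B (k + 1) v (T, U) - approx μ ε B k v (T, U)) ^ 2 ∂(noise V) =
      ∫ U, (X' U - X U) ^ 2 ∂(noise V) := rfl
  rw [h7]
  have h8 : (6 + 9 / ε) * (1 / 4 : ℝ) ^ k =
      3 * (1 / 4) ^ k + 3 * (1 / 4) ^ k + 3 * (3 / ε * (1 / 4) ^ k) := by ring
  rw [h8]
  linarith only [h1, h2, h3, h4, h5, h6]

omit hcmp in
theorem integral_approx_var_le (T : V → unitInterval) (k : ℕ) (v : V) :
    ∫ U, (1 - approx μ ε B k v (T, U) ^ 2) ∂(noise V) ≤ 3 / ε * (1 / 4) ^ k := by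
  simp only [approx_mk]
  exact integral_est_var_le (μ := μ) hε0 hε (nodup_srt T _) (by rw [mem_srt]; exact hB k v) k

theorem approx_incr_tendsto (T : V → unitInterval) (v : V) :
    ∀ᵐ U ∂(noise V), Tendsto
      (fun k => (approx μ ε B (k + 1) v (T, U) - approx μ ε B k v (T, U)) ^ 2) atTop (𝓝 0) := by
  refine ae_tendsto_zero_of_integral_le (fun k => ?_) (fun k U => sq_nonneg _) (fun k => ?_)
    (fun k => integral_approx_incr_le hε0 hε hB hcmp T k v)
  · exact ((measurable_approx_right hε0 hε (k + 1) v T).sub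
      (measurable_approx_right hε0 hε k v T)).pow_const 2
  · exact integrable_approx hε0 hε (k + 1) k v v T (F := fun p => (p.1 - p.2) ^ 2) (by fun_prop)

omit hcmp in
theorem approx_var_tendsto (T : V → unitInterval) (v : V) :
    ∀ᵐ U ∂(noise V), Tendsto (fun k => 1 - approx μ ε B k v (T, U) ^ 2) atTop (𝓝 0) := by
  refine ae_tendsto_zero_of_integral_le (fun k => ?_) (fun k U => ?_) (fun k => ?_)
    (fun k => integral_approx_var_le hε0 hε hB T k v)
  · exact measurable_const.sub ((measurable_approx_right hε0 hε k v T).pow_const 2)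
  · have := abs_approx_le (μ := μ) (B := B) hε0 hε k v T U
    have h3 : approx μ ε B k v (T, U) ^ 2 ≤ 1 := by
      rw [← sq_abs]
      exact pow_le_one₀ (abs_nonneg _) this
    linarith only [h3]
  · exact integrable_approx hε0 hε k k v v T (F := fun p => 1 - p.1 ^ 2) (by fun_prop)

omit [IsProbabilityMeasure μ] hε0 hε hB hcmp in
theorem sp_factor (p : (V → unitInterval) × (V × ℕ → unitInterval)) (v : V) :
    ((∃ k0, ∀ k ≥ k0, 0 < approx μ ε B k v p) → sp (factor μ ε B p) v = 1) ∧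
      ((¬ ∃ k0, ∀ k ≥ k0, 0 < approx μ ε B k v p) → sp (factor μ ε B p) v = -1) := by
  constructor
  · intro h
    unfold sp factor
    rw [if_pos h]
    simp
  · intro h
    unfold sp factor
    rw [if_neg h]
    simp only [Units.val_neg, Units.val_one, Int.reduceNeg, Int.cast_neg, Int.cast_one]

theorem approx_tendsto (T : V → unitInterval) (v : V) :
    ∀ᵐ U ∂(noise V), Tendsto (fun k => approx μ ε B k v (T, U)) atTop
      (𝓝 (sp (factor μ ε B (T, U)) v)) := by
  filter_upwards [approx_incr_tendsto hε0 hε hB hcmp T v, approx_var_tendsto (μ := μ) hε0 hε hB T v]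
    with U hU1 hU2
  rcases tendsto_sign (a := fun k => approx μ ε B k v (T, U)) hU1 hU2 with ⟨h, h'⟩ | ⟨h, h'⟩
  · rw [(sp_factor (T, U) v).1 h]
    exact h'
  · rw [(sp_factor (T, U) v).2 h]
    exact h'

/-- comparison of the approximations with the run on a common set -/
theorem abs_integral_prod_sub_le (T : V → unitInterval) (S : Finset V) (k : ℕ) :
    |∫ U, ∏ v ∈ S, approx μ ε B k v (T, U) ∂(noise V) - ∫ σ, spS S σ ∂μ| ≤
      S.card * ((1 / 2) ^ k + 3 / ε * (1 / 4) ^ k) := by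
  classical
  set C := S.biUnion (B k) with hC
  have hsub : ∀ v ∈ S, B k v ⊆ C := fun v hv => Finset.subset_biUnion_of_mem (B k) hv
  have hmem : ∀ v ∈ S, v ∈ srt T C := fun v hv => by
    rw [mem_srt]; exact hsub v hv (hB k v)
  set Y : V → (V × ℕ → unitInterval) → ℝ := fun v U => est μ ε (srt T C) (16 ^ k) v U with hY
  have hYabs : ∀ v U, |Y v U| ≤ 1 := fun v U => abs_est_le (μ := μ) hε0 hε _ _ v U
  have hYm : ∀ v, Measurable (Y v) := fun v => measurable_est (μ := μ) hε0 hε _ _ v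
  have hXm : ∀ v, Measurable fun U => approx μ ε B k v (T, U) := fun v =>
    measurable_approx_right (μ := μ) hε0 hε k v T
  have hXabs : ∀ v U, |approx μ ε B k v (T, U)| ≤ 1 := fun v U =>
    abs_approx_le (μ := μ) hε0 hε k v T U
  set P := fun U => post μ (run μ ε U (sched (srt T C) (16 ^ k))) (spS S) with hP
  have hPint : ∫ U, P U ∂(noise V) = ∫ σ, spS S σ ∂μ :=
    integral_post_run hε0.le hε _ (nodup_sched (nodup_srt T C) _) (localOn_spS_univ S)
  have hPm : Measurable P := measurable_post_run hε0.le hε _ (localOn_spS_univ S)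
  have hPY : ∀ U, |P U - ∏ v ∈ S, Y v U| ≤ ∑ v ∈ S, (1 - Y v U ^ 2) := fun U =>
    abs_post_prod_sub (good_run hε0.le hε U _) S
  have iX : Integrable (fun U => ∏ v ∈ S, approx μ ε B k v (T, U)) (noise V) := by
    refine Integrable.of_bound (C := 1) (Finset.measurable_fun_prod S fun v _ =>
      hXm v).aestronglyMeasurable (Eventually.of_forall fun U => ?_)
    rw [Real.norm_eq_abs, Finset.abs_prod]
    exact Finset.prod_le_one (fun v _ => abs_nonneg _) fun v _ => hXabs v U
  have iY2 : ∀ v, Integrable (fun U => 1 - Y v U ^ 2) (noise V) := fun v =>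
    integrable_est_comp (μ := μ) hε0 hε (srt T C) (16 ^ k) v (srt T C) (16 ^ k) v
      (F := fun p => 1 - p.1 ^ 2) (by fun_prop)
  have iXY : ∀ v, Integrable (fun U => (approx μ ε B k v (T, U) - Y v U) ^ 2) (noise V) := by
    intro v
    simp only [approx_mk]
    exact integrable_est_comp (μ := μ) hε0 hε _ _ v _ _ v (F := fun p => (p.1 - p.2) ^ 2)
      (by fun_prop)
  have iP : Integrable P (noise V) := by
    have hb : ∀ σ : V → ℤˣ, |spS S σ| ≤ 1 := fun σ => by
      unfold spS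
      rw [Finset.abs_prod]
      exact Finset.prod_le_one (fun v _ => abs_nonneg _) fun v _ => (abs_sp σ v).le
    refine Integrable.of_bound (C := 1) hPm.aestronglyMeasurable (Eventually.of_forall fun U => ?_)
    exact abs_post_le (good_run hε0.le hε U _) (localOn_spS_univ S) hb
  -- pointwise bound
  have hpt : ∀ U, |∏ v ∈ S, approx μ ε B k v (T, U) - P U| ≤
      ∑ v ∈ S, (((1 / 2) ^ k + (approx μ ε B k v (T, U) - Y v U) ^ 2 / (1 / 2) ^ k) / 2
        + (1 - Y v U ^ 2)) := by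
    intro U
    have h1 := abs_prod_sub_prod_le S (fun v => approx μ ε B k v (T, U)) (fun v => Y v U)
      (fun v => hXabs v U) (fun v => hYabs v U)
    have h2 := hPY U
    have h3 : ∑ v ∈ S, |approx μ ε B k v (T, U) - Y v U| ≤
        ∑ v ∈ S, ((1 / 2) ^ k + (approx μ ε B k v (T, U) - Y v U) ^ 2 / (1 / 2) ^ k) / 2 :=
      Finset.sum_le_sum fun v _ => abs_le_quad (by positivity)
    rw [Finset.sum_add_distrib]
    have h4 : |∏ v ∈ S, approx μ ε B k v (T, U) - P U| ≤
        |∏ v ∈ S, approx μ ε B k v (T, U) - ∏ v ∈ S, Y v U| + |P U - ∏ v ∈ S, Y v U| := by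
      rw [abs_sub_comm (P U)]
      exact abs_sub_le _ _ _
    linarith only [h1, h2, h3, h4]
  have iR : ∀ v, Integrable (fun U => ((1 / 2) ^ k +
      (approx μ ε B k v (T, U) - Y v U) ^ 2 / (1 / 2) ^ k) / 2 + (1 - Y v U ^ 2)) (noise V) :=
    fun v => (((integrable_const _).add ((iXY v).div_const _)).div_const _).add (iY2 v)
  rw [← hPint, ← integral_sub iX iP]
  refine (abs_integral_le_integral_abs).trans ?_
  refine (integral_mono (iX.sub iP).abs (integrable_finsetSum S fun v _ => iR v) hpt).trans ?_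
  rw [integral_finsetSum S fun v _ => iR v, ← nsmul_eq_mul]
  refine Finset.sum_le_card_nsmul S _ _ fun v hv => ?_
  have e1 : ∫ U, (((1 / 2) ^ k + (approx μ ε B k v (T, U) - Y v U) ^ 2 / (1 / 2) ^ k) / 2
        + (1 - Y v U ^ 2)) ∂(noise V) =
      ((1 / 2) ^ k + (∫ U, (approx μ ε B k v (T, U) - Y v U) ^ 2 ∂(noise V)) / (1 / 2) ^ k) / 2
        + ∫ U, (1 - Y v U ^ 2) ∂(noise V) := by
    exact integral_comb2 (iXY v) (iY2 v) _
  rw [e1]
  have h5 : ∫ U, (approx μ ε B k v (T, U) - Y v U) ^ 2 ∂(noise V) ≤ (1 / 4) ^ k := by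
    simp only [approx_mk]
    exact hcmp T k v C (hsub v hv)
  have h6 : ∫ U, (1 - Y v U ^ 2) ∂(noise V) ≤ 3 / ε * (1 / 4) ^ k :=
    integral_est_var_le (μ := μ) hε0 hε (nodup_srt T C) (hmem v hv) k
  have h7 : (∫ U, (approx μ ε B k v (T, U) - Y v U) ^ 2 ∂(noise V)) / (1 / 2) ^ k ≤
      (1 / 2) ^ k := by
    rw [div_le_iff₀ (by positivity), ← mul_pow]
    norm_num at h5 ⊢
    exact h5
  linarith only [h6, h7]

/-- the correlation functions of the factor map, for fixed ordering labels -/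
theorem integral_spS_factor (T : V → unitInterval) (S : Finset V) :
    ∫ U, spS S (factor μ ε B (T, U)) ∂(noise V) = ∫ σ, spS S σ ∂μ := by
  classical
  -- the limit of the approximations
  have lim1 : Tendsto (fun k => ∫ U, ∏ v ∈ S, approx μ ε B k v (T, U) ∂(noise V)) atTop
      (𝓝 (∫ U, spS S (factor μ ε B (T, U)) ∂(noise V))) := by
    refine tendsto_integral_of_dominated_convergence (fun _ => 1) (fun k => ?_)
      (integrable_const _) (fun k => Eventually.of_forall fun U => ?_) ?_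
    · exact (Finset.measurable_fun_prod S fun v _ =>
        measurable_approx_right hε0 hε k v T).aestronglyMeasurable
    · rw [Real.norm_eq_abs, Finset.abs_prod]
      exact Finset.prod_le_one (fun v _ => abs_nonneg _) fun v _ =>
        abs_approx_le hε0 hε k v T U
    · have h : ∀ᵐ U ∂(noise V), ∀ v ∈ S, Tendsto (fun k => approx μ ε B k v (T, U)) atTop
          (𝓝 (sp (factor μ ε B (T, U)) v)) :=
        (eventually_all_finset S).2 fun v _ => approx_tendsto hε0 hε hB hcmp T v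
      filter_upwards [h] with U hU
      exact tendsto_finsetProd S fun v hv => hU v hv
  -- the approximations have nearly the right correlations
  have lim2 : Tendsto (fun k => ∫ U, ∏ v ∈ S, approx μ ε B k v (T, U) ∂(noise V)) atTop
      (𝓝 (∫ σ, spS S σ ∂μ)) := by
    rw [tendsto_iff_dist_tendsto_zero]
    have h0 : Tendsto (fun k : ℕ => (S.card : ℝ) * ((1 / 2) ^ k + 3 / ε * (1 / 4) ^ k)) atTop
        (𝓝 (S.card * (0 + 3 / ε * 0))) :=
      ((tendsto_pow_atTop_nhds_zero_of_lt_one (by norm_num) (by norm_num)).add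
        ((tendsto_pow_atTop_nhds_zero_of_lt_one (by norm_num) (by norm_num)).const_mul _)).const_mul _
    simp only [mul_zero, add_zero] at h0
    refine squeeze_zero (fun k => dist_nonneg) (fun k => ?_) h0
    rw [Real.dist_eq]
    exact abs_integral_prod_sub_le hε0 hε hB hcmp T S k
  exact tendsto_nhds_unique lim1 lim2

/-- the law of the factor map -/
theorem map_factor : Measure.map (factor μ ε B) (noise2 V) = μ := by
  have hm : Measurable (factor μ ε B) := measurable_factor (μ := μ) hε0 hε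
  have : IsProbabilityMeasure (Measure.map (factor μ ε B) (noise2 V)) :=
    Measure.isProbabilityMeasure_map hm.aemeasurable
  refine measure_ext_of_corr _ _ fun S => ?_
  have hS : Measurable (spS S : (V → ℤˣ) → ℝ) := by
    unfold spS sp
    refine Finset.measurable_fun_prod S fun v _ => ?_
    have h1 : Measurable fun u : ℤˣ => ((u : ℤ) : ℝ) :=
      (measurable_of_countable (fun n : ℤ => (n : ℝ))).comp
        (comap_measurable (Units.val : ℤˣ → ℤ))
    exact h1.comp (measurable_pi_apply v)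
  rw [integral_map hm.aemeasurable hS.aestronglyMeasurable]
  have hi : Integrable (fun p => spS S (factor μ ε B p)) (noise2 V) := by
    refine Integrable.of_bound (C := 1) (hS.comp hm).aestronglyMeasurable
      (Eventually.of_forall fun p => ?_)
    unfold spS
    rw [Real.norm_eq_abs, Finset.abs_prod]
    exact Finset.prod_le_one (fun v _ => abs_nonneg _) fun v _ => (abs_sp _ v).le
  rw [integral_prod _ hi]
  simp only [integral_spS_factor hε0 hε hB hcmp]
  simp

end Main

section Equivariance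

variable [Encodable V] {ε : ℝ} {B : ℕ → V → Finset V}

omit [Encodable V] in
theorem run_aut (g : G ≃g G) (hinv : μ.map (fun σ v => σ (g.symm v)) = μ)
    (U : V × ℕ → unitInterval) (l : List (V × ℕ)) :
    run μ ε (fun q => U (g.symm q.1, q.2)) (l.map fun p => (g p.1, p.2)) =
      (run μ ε U l).map fun p => (g p.1, p.2) := by
  induction l with
  | nil => rfl
  | cons i l ih =>
    simp only [List.map_cons, run]
    rw [ih, mean_map_aut g hinv]
    simp only [RelIso.symm_apply_apply, Prod.mk.eta]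

theorem approx_aut (hBg : ∀ (g : G ≃g G) k v x, g x ∈ B k (g v) ↔ x ∈ B k v) (g : G ≃g G)
    (hinv : μ.map (fun σ v => σ (g.symm v)) = μ) (T : V → unitInterval)
    (hT : Function.Injective T) (U : V × ℕ → unitInterval) (k : ℕ) (v : V) :
    approx μ ε B k (g v) (fun v => T (g.symm v), fun q => U (g.symm q.1, q.2)) =
      approx μ ε B k v (T, U) := by
  rw [approx_mk, approx_mk]
  unfold est
  have h1 : srt (fun v => T (g.symm v)) (B k (g v)) = (srt T (B k v)).map g :=
    srt_aut T hT g.toEquiv (fun x => hBg g k v x)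
  rw [h1, ← map_sched, run_aut g hinv, mean_map_aut g hinv]

theorem factor_aut (hBg : ∀ (g : G ≃g G) k v x, g x ∈ B k (g v) ↔ x ∈ B k v) (g : G ≃g G)
    (hinv : μ.map (fun σ v => σ (g.symm v)) = μ) (T : V → unitInterval)
    (hT : Function.Injective T) (U : V × ℕ → unitInterval) :
    factor μ ε B (fun v => T (g.symm v), fun q => U (g.symm q.1, q.2)) =
      fun v => factor μ ε B (T, U) (g.symm v) := by
  funext v
  have h : ∀ k, approx μ ε B k v (fun v => T (g.symm v), fun q => U (g.symm q.1, q.2)) =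
      approx μ ε B k (g.symm v) (T, U) := by
    intro k
    have := approx_aut (ε := ε) hBg g hinv T hT U k (g.symm v)
    rw [RelIso.apply_symm_apply] at this
    exact this
  have h' : (∃ k0, ∀ k ≥ k0, 0 < approx μ ε B k v
      (fun v => T (g.symm v), fun q => U (g.symm q.1, q.2))) ↔
      ∃ k0, ∀ k ≥ k0, 0 < approx μ ε B k (g.symm v) (T, U) := by
    constructor
    · rintro ⟨k0, hk⟩
      exact ⟨k0, fun k hk' => (h k) ▸ hk k hk'⟩
    · rintro ⟨k0, hk⟩
      exact ⟨k0, fun k hk' => (h k).symm ▸ hk k hk'⟩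
  by_cases hc : ∃ k0, ∀ k ≥ k0, 0 < approx μ ε B k (g.symm v) (T, U)
  · have e1 : factor μ ε B (fun v => T (g.symm v), fun q => U (g.symm q.1, q.2)) v = 1 :=
      if_pos (h'.2 hc)
    have e2 : factor μ ε B (T, U) (g.symm v) = 1 := if_pos hc
    rw [e1, e2]
  · have e1 : factor μ ε B (fun v => T (g.symm v), fun q => U (g.symm q.1, q.2)) v = -1 :=
      if_neg (fun h'' => hc (h'.1 h''))
    have e2 : factor μ ε B (T, U) (g.symm v) = -1 := if_neg hc
    rw [e1, e2]

end Equivariance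

theorem filter_sched_srt [Encodable V] (T : V → unitInterval) {B D : Finset V} {A : Set V}
    (h : ∀ x, x ∈ B ↔ x ∈ D ∧ x ∈ A) (n : ℕ) (p : V × ℕ → Bool)
    (hp : ∀ i, p i = true ↔ i.1 ∈ A) :
    (sched (srt T D) n).filter p = sched (srt T B) n := by
  classical
  have h3 := filter_sched (srt T D) n (fun x => decide (x ∈ A))
  rw [filter_srt T (B := B) (A := A) h _ (fun x => by simp)] at h3
  rw [← h3]
  refine List.filter_congr fun i _ => ?_
  rw [Bool.eq_iff_iff, hp]
  simp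

/-- the main theorem for the subcritical range -/
theorem factor_of_iid_of_subcritical [G.LocallyFinite] (hG : G.IsTree) {d : ℕ} (hd : 2 ≤ d)
    (hreg : G.IsRegularOfDegree d) {θ : ℝ} (h0 : 0 ≤ θ) (h1 : ((d : ℝ) - 1) * θ ^ 2 < 1)
    (h1' : θ < 1) {μ : Measure (V → ℤˣ)} (hμ : IsFreeIsing G θ μ) : IsFactorOfIID G μ := by
  classical
  have := hμ.isProb
  have hcount : Countable V := countable_of_tree hG
  have : Encodable V := Encodable.ofCountable V
  have hsplit := hμ.edgeSplit hG h0 h1'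
  obtain ⟨ε, hε0, hε, lam, hlam, C, hmain⟩ := main_estimate hG hd hreg h0 h1 h1'
  choose R hR using fun k : ℕ => exists_radius (C (16 ^ k)) hlam (δ := (1 / 4) ^ k) (by positivity)
  set B : ℕ → V → Finset V := fun k v => (ball_finite hG v (R k)).toFinset with hBdef
  have hBmem : ∀ k v x, x ∈ B k v ↔ G.dist x v ≤ R k := by
    intro k v x
    simp only [hBdef, Set.Finite.mem_toFinset, Set.mem_ofPred_eq]
  have hB : ∀ k v, v ∈ B k v := fun k v => by simp [hBmem]
  have hBg : ∀ (g : G ≃g G) k v x, g x ∈ B k (g v) ↔ x ∈ B k v := by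
    intro g k v x
    rw [hBmem, hBmem, dist_aut hG.connected]
  have hcmp : Cmp μ ε B := by
    intro T k v D hD
    have h := hmain μ hsplit (rounds (srt T D) (16 ^ k)) (nodup_sched (nodup_srt T D) _)
      (rounds_fst_nodup (nodup_srt T D) _) {x | G.dist x v ≤ R k} Set.univ v (R k)
      (fun x hx => by simpa only [Set.mem_ofPred_eq, Set.mem_univ, iff_true] using hx) v
    have e1 : ∀ p : V × ℕ → Bool, (∀ i, p i = true ↔ i.1 ∈ {x | G.dist x v ≤ R k}) →
        (rounds (srt T D) (16 ^ k)).flatten.filter p = sched (srt T (B k v)) (16 ^ k) :=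
      fun p hp => filter_sched_srt T (fun x => by
        rw [hBmem]
        exact ⟨fun hx => ⟨hD ((hBmem k v x).2 hx), hx⟩, fun hx => hx.2⟩) _ p hp
    have e2 : ∀ p : V × ℕ → Bool, (∀ i, p i = true ↔ i.1 ∈ (Set.univ : Set V)) →
        (rounds (srt T D) (16 ^ k)).flatten.filter p = sched (srt T D) (16 ^ k) :=
      fun p hp => filter_sched_srt T (fun x => by simp) _ p hp
    rw [length_rounds, SimpleGraph.dist_self, pow_zero, mul_one] at h
    refine le_trans (le_of_eq ?_) (h.trans (hR k))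
    refine integral_congr_ae (Eventually.of_forall fun U => ?_)
    simp only [est]
    rw [e1, e2]
    · intro i
      simp
    · intro i
      simp only [Set.mem_ofPred_eq, decide_eq_true_eq]
  refine isFactorOfIID_of_two (factor μ ε B) (measurable_factor (μ := μ) hε0 hε) (fun g => ?_)
    (map_factor hε0 hε hB hcmp)
  have hinv := hμ.map_aut hG h0 h1' g
  have h2 := (Measure.quasiMeasurePreserving_fst (μ := Measure.infinitePi fun _ : V =>
    (volume : Measure unitInterval)) (ν := noise V)).ae (ae_injective_labels (ι := V))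
  filter_upwards [h2] with p hp
  exact factor_aut hBg g hinv p.1 hp p.2

end Vale.Agent.P161
end
end
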