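import Vale.Agent.P161.MathlibUsed
import Vale.Agent.P161.Bdl.B1
import Vale.Agent.P161.Defs
attribute [-instance] ProperSMul.toContinuousSMul IsTopologicalTorsor.toContinuousSMul IdemSemiring.toCanonicallyOrderedAdd IdemSemiring.toMulLeftMono IdemSemiring.toMulRightMono AddQuantale.instAddLeftMono AddQuantale.instAddRightMono Quantale.instMulLeftMono Quantale.instMulRightMono FiniteDimensional.rclike_to_real IsScalarTower.complexToReal FiniteDimensional.complexToReal

set_option linter.all false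

section

section

/-! Transitivity of the automorphism group of a regular tree on nonbacktracking paths. -/

open MeasureTheory

namespace Vale.Agent.P161

/-- `p 0, ..., p n` is a nonbacktracking path -/
def NBPath {V : Type*} (G : SimpleGraph V) (n : ℕ) (p : ℕ → V) : Prop :=
  (∀ i, i < n → G.Adj (p i) (p (i + 1))) ∧ ∀ i, i + 2 ≤ n → p i ≠ p (i + 2)

variable {V : Type*} {G : SimpleGraph V}

theorem NBPath.dist_eq (hG : G.IsTree) {n : ℕ} {p : ℕ → V} (hp : NBPath G n p) :
    ∀ i, i ≤ n → G.dist (p 0) (p i) = i := by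
  intro i
  induction i using Nat.strong_induction_on with
  | _ i ih =>
    intro hi
    match i with
    | 0 => simp
    | i + 1 =>
      have h1 := ih i (by omega) (by omega)
      have hadj := hp.1 i (by omega)
      rcases dist_adj_cases hG hadj (p 0) with h | h
      · omega
      · exfalso
        match i with
        | 0 => simp only [SimpleGraph.dist_self, zero_add, Nat.right_eq_add, Nat.add_eq_zero_iff, SimpleGraph.dist_eq_zero_iff_eq_or_not_reachable, one_ne_zero, and_false] at h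
        | i + 1 =>
          have h0 := ih i (by omega) (by omega)
          have hadj0 := hp.1 i (by omega)
          have := adj_dist_unique hG hadj0 hadj.symm (x := p 0) (by omega) (by omega)
          exact hp.2 i (by omega) this

section Construction

variable [G.LocallyFinite]

open Classical in
/-- the children of `v` seen from the root `o` -/
noncomputable def chil (G : SimpleGraph V) [G.LocallyFinite] (o v : V) : Finset V :=
  (G.neighborFinset v).filter fun w => G.dist o w = G.dist o v + 1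

theorem mem_chil {o v w : V} : w ∈ chil G o v ↔ G.Adj v w ∧ G.dist o w = G.dist o v + 1 := by
  classical
  simp only [chil, Finset.mem_filter, SimpleGraph.mem_neighborFinset]

open Classical in
/-- the parent of `v` seen from the root `o` -/
noncomputable def par (G : SimpleGraph V) (o v : V) : V :=
  if h : ∃ u, G.Adj u v ∧ G.dist o u + 1 = G.dist o v then h.choose else v

theorem par_spec (hG : G.IsTree) {o v : V} (h : o ≠ v) :
    G.Adj (par G o v) v ∧ G.dist o (par G o v) + 1 = G.dist o v := by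
  have hex := exists_adj_dist hG.connected h
  unfold par
  rw [dif_pos hex]
  exact hex.choose_spec

theorem par_eq_of_mem_chil (hG : G.IsTree) {o v w : V} (h : w ∈ chil G o v) : par G o w = v := by
  rw [mem_chil] at h
  have hne : o ≠ w := by
    rintro rfl
    simp only [SimpleGraph.dist_self, Nat.right_eq_add, Nat.add_eq_zero_iff, SimpleGraph.dist_eq_zero_iff_eq_or_not_reachable, one_ne_zero, and_false] at h
  have := par_spec hG hne
  exact adj_dist_unique hG this.1 h.1 this.2 h.2.symm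

theorem mem_chil_par (hG : G.IsTree) {o v : V} (h : o ≠ v) : v ∈ chil G o (par G o v) := by
  have := par_spec hG h
  rw [mem_chil]
  exact ⟨this.1, this.2.symm⟩

theorem card_chil_root {d : ℕ} (hG : G.IsTree) (hreg : G.IsRegularOfDegree d) (o : V) :
    (chil G o o).card = d := by
  classical
  rw [← hreg o, ← SimpleGraph.card_neighborFinset_eq_degree]
  congr 1
  ext w
  rw [mem_chil, SimpleGraph.mem_neighborFinset]
  constructor
  · exact fun h => h.1
  · intro h
    refine ⟨h, ?_⟩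
    rw [SimpleGraph.dist_self, SimpleGraph.dist_eq_one_iff_adj.2 h]

theorem card_chil {d : ℕ} (hG : G.IsTree) (hreg : G.IsRegularOfDegree d) {o v : V} (h : o ≠ v) :
    (chil G o v).card = d - 1 := by
  classical
  have hp := par_spec hG h
  have : chil G o v = (G.neighborFinset v).erase (par G o v) := by
    ext w
    rw [mem_chil, Finset.mem_erase, SimpleGraph.mem_neighborFinset]
    constructor
    · rintro ⟨h1, h2⟩
      refine ⟨?_, h1⟩
      rintro rfl
      omega
    · rintro ⟨h1, h2⟩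
      refine ⟨h2, ?_⟩
      rcases dist_adj_cases hG h2 o with h3 | h3
      · exact h3
      · exact absurd (adj_dist_unique hG h2.symm hp.1 h3.symm hp.2) h1
  rw [this, Finset.card_erase_of_mem, SimpleGraph.card_neighborFinset_eq_degree, hreg]
  rw [SimpleGraph.mem_neighborFinset]
  exact hp.1.symm

/-- a bijection of two finite sets of equal size with one prescribed value -/
theorem exists_bijOn_of_card {A B : Finset V} (h : A.card = B.card) {a b : V} (ha : a ∈ A)
    (hb : b ∈ B) : ∃ f : V → V, Set.BijOn f A B ∧ f a = b := by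
  classical
  let e : A ≃ B := Finset.equivOfCardEq h
  let e' : A ≃ B := e.trans (Equiv.swap (e ⟨a, ha⟩) ⟨b, hb⟩)
  have he' : e' ⟨a, ha⟩ = ⟨b, hb⟩ := by simp [e']
  refine ⟨fun v => if hv : v ∈ A then (e' ⟨v, hv⟩ : V) else v, ⟨?_, ?_, ?_⟩, ?_⟩
  · intro v hv
    have hv' : v ∈ A := hv
    simp only [hv', dif_pos]
    exact (e' ⟨v, hv'⟩).2
  · intro v hv w hw hvw
    have hv' : v ∈ A := hv
    have hw' : w ∈ A := hw
    simp only [hv', dif_pos, hw'] at hvw
    have := e'.injective (Subtype.ext hvw)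
    exact congrArg Subtype.val this
  · intro w hw
    have hw' : w ∈ B := hw
    refine ⟨(e'.symm ⟨w, hw'⟩ : V), (e'.symm ⟨w, hw'⟩).2, ?_⟩
    simp only [SetLike.coe_mem, ↓reduceDIte, Subtype.coe_eta, Equiv.apply_symm_apply]
  · simp only [ha, dif_pos, he']

theorem exists_bijOn_of_card' {A B : Finset V} (h : A.card = B.card) :
    ∃ f : V → V, Set.BijOn f A B := by
  classical
  rcases A.eq_empty_or_nonempty with rfl | ⟨a, ha⟩
  · have : B = ∅ := by
      rw [← Finset.card_eq_zero, ← h]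
      simp
    subst this
    exact ⟨id, by simp⟩
  · have hB : B.Nonempty := by
      rw [← Finset.card_pos, ← h, Finset.card_pos]
      exact ⟨a, ha⟩
    obtain ⟨b, hb⟩ := hB
    obtain ⟨f, hf, -⟩ := exists_bijOn_of_card h ha hb
    exact ⟨f, hf⟩

theorem exists_local_bij (hG : G.IsTree) {n : ℕ} {p q : ℕ → V}
    (hp : NBPath G n p) (hq : NBPath G n q) (v v' : V) :
    ∃ f : V → V, ((chil G (p 0) v).card = (chil G (q 0) v').card →
      Set.BijOn f (chil G (p 0) v) (chil G (q 0) v')) ∧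
      ∀ i < n, v = p i → v' = q i → (chil G (p 0) v).card = (chil G (q 0) v').card →
        f (p (i + 1)) = q (i + 1) := by
  classical
  by_cases hc : (chil G (p 0) v).card = (chil G (q 0) v').card
  · by_cases hi : ∃ i < n, v = p i ∧ v' = q i
    · obtain ⟨i, hin, rfl, rfl⟩ := hi
      have h1 : p (i + 1) ∈ chil G (p 0) (p i) := by
        rw [mem_chil, hp.dist_eq hG _ (by omega), hp.dist_eq hG _ (by omega)]
        exact ⟨hp.1 i hin, rfl⟩
      have h2 : q (i + 1) ∈ chil G (q 0) (q i) := by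
        rw [mem_chil, hq.dist_eq hG _ (by omega), hq.dist_eq hG _ (by omega)]
        exact ⟨hq.1 i hin, rfl⟩
      obtain ⟨f, hf, hf2⟩ := exists_bijOn_of_card hc h1 h2
      refine ⟨f, fun _ => hf, fun j hj hpj hqj _ => ?_⟩
      have : j = i := by
        have e1 := hp.dist_eq hG j (by omega)
        have e2 := hp.dist_eq hG i (by omega)
        rw [← hpj, e2] at e1
        omega
      subst this
      exact hf2
    · obtain ⟨f, hf⟩ := exists_bijOn_of_card' hc
      refine ⟨f, fun _ => hf, fun j hj hpj hqj _ => ?_⟩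
      exact absurd ⟨j, hj, hpj, hqj⟩ hi
  · exact ⟨id, fun h => absurd h hc, fun _ _ _ _ h => absurd h hc⟩

/-- the level by level extension of the local bijections -/
noncomputable def ext (G : SimpleGraph V) (o o' : V) (E : V → V → V → V) : ℕ → V → V
  | 0, _ => o'
  | n + 1, v => E (par G o v) (ext G o o' E n (par G o v)) v

/-- Transitivity of the automorphism group of a regular tree on nonbacktracking paths. -/
theorem exists_aut_of_paths (hG : G.IsTree) {d : ℕ} (hreg : G.IsRegularOfDegree d) {n : ℕ}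
    {p q : ℕ → V} (hp : NBPath G n p) (hq : NBPath G n q) :
    ∃ φ : G ≃g G, ∀ i ≤ n, φ (p i) = q i := by
  classical
  set o := p 0 with ho
  set o' := q 0 with ho'
  choose E hE1 hE2 using fun v v' => exists_local_bij hG hp hq v v'
  -- the map
  let f : V → V := fun v => ext G o o' E (G.dist o v) v
  have f_root : f o = o' := by
    simp only [f, SimpleGraph.dist_self]
    rfl
  have f_rec : ∀ v, o ≠ v → f v = E (par G o v) (f (par G o v)) v := by
    intro v hv
    have h := par_spec hG hv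
    have h2 : G.dist o v = G.dist o (par G o v) + 1 := h.2.symm
    simp only [f]
    rw [h2]
    rfl
  -- levels
  have level : ∀ m : ℕ, ∀ v, G.dist o v = m → G.dist o' (f v) = m := by
    intro m
    induction m with
    | zero =>
      intro v hv
      have : o = v := (hG.connected.dist_eq_zero_iff).1 hv
      rw [← this, f_root, SimpleGraph.dist_self]
    | succ m ih =>
      intro v hv
      have hne : o ≠ v := by
        rintro rfl
        simp at hv
      have hps := par_spec hG hne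
      have hl : G.dist o' (f (par G o v)) = m := ih _ (by omega)
      have hcard : (chil G o (par G o v)).card = (chil G o' (f (par G o v))).card := by
        by_cases hr : o = par G o v
        · rw [← hr, f_root, card_chil_root hG hreg, card_chil_root hG hreg]
        · rw [card_chil hG hreg hr, card_chil hG hreg]
          intro h
          have h3 : m = 0 := by
            rw [← hl, ← h, SimpleGraph.dist_self]
          apply hr
          exact (hG.connected.dist_eq_zero_iff).1 (by (clear * - hv hps hl h3; omega))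
      have hmem := (hE1 _ _ hcard).mapsTo (mem_chil_par hG hne)
      rw [← f_rec v hne] at hmem
      have hmem' : f v ∈ chil G o' (f (par G o v)) := hmem
      rw [mem_chil] at hmem'
      omega
  have hcard : ∀ v, (chil G o v).card = (chil G o' (f v)).card := by
    intro v
    by_cases hr : o = v
    · rw [← hr, f_root, card_chil_root hG hreg, card_chil_root hG hreg]
    · rw [card_chil hG hreg hr, card_chil hG hreg]
      intro h
      apply hr
      apply (hG.connected.dist_eq_zero_iff).1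
      rw [← level _ v rfl, ← h, SimpleGraph.dist_self]
  have hbij : ∀ v, Set.BijOn (E v (f v)) (chil G o v) (chil G o' (f v)) := fun v =>
    hE1 _ _ (hcard v)
  have fchil : ∀ v w, w ∈ chil G o v → f w = E v (f v) w := by
    intro v w hw
    have hne : o ≠ w := by
      rintro rfl
      rw [mem_chil] at hw
      simp at hw
    rw [f_rec w hne, par_eq_of_mem_chil hG hw]
  have fchil_mem : ∀ v w, w ∈ chil G o v → f w ∈ chil G o' (f v) := by
    intro v w hw
    rw [fchil v w hw]
    exact (hbij v).mapsTo hw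
  have fne : ∀ v, o ≠ v → o' ≠ f v := by
    intro v hv h
    apply hv
    apply (hG.connected.dist_eq_zero_iff).1
    rw [← level _ v rfl, ← h, SimpleGraph.dist_self]
  have fpar : ∀ v, o ≠ v → par G o' (f v) = f (par G o v) := by
    intro v hv
    exact par_eq_of_mem_chil hG (fchil_mem _ _ (mem_chil_par hG hv))
  -- injectivity
  have inj : ∀ m : ℕ, ∀ v w, G.dist o v = m → f v = f w → v = w := by
    intro m
    induction m with
    | zero =>
      intro v w hv hvw
      have h1 : o = v := (hG.connected.dist_eq_zero_iff).1 hv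
      by_contra hne
      have h2 : o ≠ w := by rw [h1]; exact hne
      apply fne w h2
      rw [← hvw, ← h1, f_root]
    | succ m ih =>
      intro v w hv hvw
      have h1 : o ≠ v := by
        rintro rfl
        simp at hv
      have h2 : o ≠ w := by
        rintro rfl
        apply fne v h1
        rw [hvw, f_root]
      have h3 : par G o v = par G o w := by
        apply ih _ _ (by have := (par_spec hG h1).2; omega)
        rw [← fpar v h1, ← fpar w h2, hvw]
      have h4 := fchil _ _ (mem_chil_par hG h1)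
      have h5 := fchil _ _ (mem_chil_par hG h2)
      rw [← h3] at h5
      have hw : w ∈ chil G o (par G o v) := by
        rw [h3]; exact mem_chil_par hG h2
      exact (hbij (par G o v)).injOn (mem_chil_par hG h1) hw (by rw [← h4, ← h5, hvw])
  have surj : ∀ m : ℕ, ∀ v', G.dist o' v' = m → ∃ v, f v = v' := by
    intro m
    induction m with
    | zero =>
      intro v' hv'
      have : o' = v' := (hG.connected.dist_eq_zero_iff).1 hv'
      exact ⟨o, by rw [f_root, this]⟩
    | succ m ih =>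
      intro v' hv'
      have h1 : o' ≠ v' := by
        rintro h
        rw [← h] at hv'
        simp at hv'
      obtain ⟨u, hu⟩ := ih (par G o' v') (by have := (par_spec hG h1).2; omega)
      have h2 : v' ∈ chil G o' (f u) := by
        rw [hu]; exact mem_chil_par hG h1
      obtain ⟨w, hw, hw2⟩ := (hbij u).surjOn h2
      refine ⟨w, ?_⟩
      rw [fchil u w hw, hw2]
  have hb : Function.Bijective f :=
    ⟨fun v w h => inj _ v w rfl h, fun v' => surj _ v' rfl⟩
  have adj_iff : ∀ v w, G.Adj (f v) (f w) ↔ G.Adj v w := by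
    have key : ∀ v w, G.Adj v w → G.dist o w = G.dist o v + 1 → G.Adj (f v) (f w) := by
      intro v w h1 h2
      exact (mem_chil.1 (fchil_mem v w (mem_chil.2 ⟨h1, h2⟩))).1
    have key2 : ∀ v w, G.Adj (f v) (f w) → G.dist o' (f w) = G.dist o' (f v) + 1 →
        G.Adj v w := by
      intro v w h1 h2
      have h3 : f w ∈ chil G o' (f v) := mem_chil.2 ⟨h1, h2⟩
      have hne : o ≠ w := by
        rintro rfl
        rw [f_root, SimpleGraph.dist_self] at h2
        omega
      have h4 : f (par G o w) = f v := by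
        rw [← fpar w hne, par_eq_of_mem_chil hG h3]
      have h5 : par G o w = v := hb.1 h4
      rw [← h5]
      exact (par_spec hG hne).1
    intro v w
    constructor
    · intro h
      rcases dist_adj_cases hG h o' with h1 | h1
      · exact key2 v w h h1
      · exact (key2 w v h.symm h1).symm
    · intro h
      rcases dist_adj_cases hG h o with h1 | h1
      · exact key v w h h1
      · exact (key w v h.symm h1).symm
  let φ : G ≃g G := ⟨Equiv.ofBijective f hb, fun {v w} => adj_iff v w⟩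
  refine ⟨φ, ?_⟩
  intro i
  have hφ : ∀ v, φ v = f v := fun v => rfl
  induction i with
  | zero => intro _; rw [hφ]; exact f_root
  | succ i ih =>
    intro hi
    have h1 := ih (by omega)
    rw [hφ] at h1 ⊢
    have h2 : p (i + 1) ∈ chil G o (p i) := by
      rw [mem_chil, ho, hp.dist_eq hG _ (by omega), hp.dist_eq hG _ (by omega)]
      exact ⟨hp.1 i (by omega), rfl⟩
    rw [fchil _ _ h2]
    apply hE2 _ _ i (by omega) rfl h1
    exact hcard _

end Construction

theorem exists_nbPath (hG : G.IsTree) (x y : V) :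
    ∃ p : ℕ → V, NBPath G (G.dist x y) p ∧ p 0 = x ∧ p (G.dist x y) = y := by
  obtain ⟨w, hw⟩ := hG.connected.exists_walk_length_eq_dist x y
  refine ⟨w.getVert, ⟨?_, ?_⟩, by simp, ?_⟩
  · intro i hi
    exact w.adj_getVert_succ (by omega)
  · intro i hi h
    have h1 : G.dist x (w.getVert i) ≤ i := by
      have := SimpleGraph.dist_le (w.take i)
      rw [SimpleGraph.Walk.take_length] at this
      (clear * - hw hi this; omega)
    have h2 : G.dist (w.getVert (i + 2)) y ≤ w.length - (i + 2) := by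
      have := SimpleGraph.dist_le (w.drop (i + 2))
      rw [SimpleGraph.Walk.drop_length] at this
      exact this
    have h3 := hG.connected.dist_triangle (u := x) (v := w.getVert i) (w := y)
    rw [h] at h1 h3
    omega
  · rw [← hw]
    simp

/-- Transitivity of the automorphism group of a regular tree on pairs at given distance. -/
theorem exists_aut_pair [G.LocallyFinite] (hG : G.IsTree) {d : ℕ}
    (hreg : G.IsRegularOfDegree d) {x x' y y' : V} (h : G.dist x x' = G.dist y y') :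
    ∃ φ : G ≃g G, φ x = y ∧ φ x' = y' := by
  obtain ⟨p, hp, hp0, hp1⟩ := exists_nbPath hG x x'
  obtain ⟨q, hq, hq0, hq1⟩ := exists_nbPath hG y y'
  rw [← h] at hq hq1
  obtain ⟨φ, hφ⟩ := exists_aut_of_paths hG hreg hp hq
  refine ⟨φ, ?_, ?_⟩
  · rw [← hp0, hφ 0 (by omega), hq0]
  · rw [← hp1, hφ _ le_rfl, hq1]

end Vale.Agent.P161
end
end

section

section

/-!
# Interface for the infinite-volume fields

`M : V → Ω → ℝ` is the field of posterior means (infinite volume, fixed time) of one system.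
`TField` collects what is needed about one system, `PInv` about the pair of two systems.
-/

open MeasureTheory

namespace Vale.Agent.P161

variable {V : Type*} {G : SimpleGraph V}

/-- the message of `y` towards the root `o` (information on the side of `y` of the edge
`par G o y — y`), for `y ≠ o` -/
noncomputable def msgT (G : SimpleGraph V) (θ : ℝ) (o : V) (m : V → ℝ) (y : V) : ℝ :=
  tau θ (m (par G o y)) (m y)

/-- continuous functions depending on finitely many coordinates in `A` -/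
def FinDep (A : Set V) (K : (V → ℝ) → ℝ) : Prop :=
  Continuous K ∧ ∃ D : Finset V, (D : Set V) ⊆ A ∧ DependsOn K (D : Set V)

/-- even functions -/
def EvenF (K : (V → ℝ) → ℝ) : Prop := ∀ z : V → ℝ, K (fun y => -z y) = K z

/-- What is used about a single system at a fixed time: independence of the even functionals of
the messages beyond an edge from the messages on the other side, and the one step bound for the
transfer factor `xf θ (message)`. -/
structure TField (G : SimpleGraph V) (θ ρ : ℝ) {Ω : Type*} [MeasurableSpace Ω] (P : Measure Ω)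
    (M : V → Ω → ℝ) : Prop where
  meas : ∀ v, Measurable (M v)
  bdd : ∀ v ω, |M v ω| ≤ 1
  indep : ∀ u v, G.Adj u v → ∀ f g : (V → ℝ) → ℝ, FinDep (side G u v) f →
    FinDep (side G v u) g → EvenF g →
    ∫ ω, f (msgT G θ v fun x => M x ω) * g (msgT G θ u fun x => M x ω) ∂P =
      (∫ ω, f (msgT G θ v fun x => M x ω) ∂P) * ∫ ω, g (msgT G θ u fun x => M x ω) ∂P
  step : ∀ u v w, G.Adj u v → G.Adj v w → u ≠ w → ∀ g : (V → ℝ) → ℝ,
    FinDep (side G w v) g → EvenF g → (∀ z : V → ℝ, (∀ y, |z y| ≤ 1) → 0 ≤ g z) →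
    ∫ ω, xf θ (tau θ (M u ω) (M v ω)) * g (msgT G θ v fun x => M x ω) ∂P ≤
      (1 - ρ) * ∫ ω, g (msgT G θ v fun x => M x ω) ∂P

/-- joint invariance of the law of a pair of fields under the automorphism group -/
def PInv (G : SimpleGraph V) {Ω : Type*} [MeasurableSpace Ω] (P : Measure Ω)
    (M M' : V → Ω → ℝ) : Prop :=
  ∀ g : G ≃g G,
    Measure.map (fun ω => ((fun v => M (g v) ω, fun v => M' (g v) ω) : (V → ℝ) × (V → ℝ))) P =
      Measure.map (fun ω => ((fun v => M v ω, fun v => M' v ω) : (V → ℝ) × (V → ℝ))) P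

/-! ### functions of finitely many coordinates -/

theorem FinDep.measurable [Countable V] {A : Set V} {K : (V → ℝ) → ℝ} (h : FinDep A K) :
    Measurable K := h.1.measurable

theorem FinDep.exists_bound {A : Set V} {K : (V → ℝ) → ℝ} (h : FinDep A K) :
    ∃ C : ℝ, ∀ z : V → ℝ, (∀ y, |z y| ≤ 1) → |K z| ≤ C := by
  have hc : IsCompact (Set.pi Set.univ fun _ : V => Set.Icc (-1 : ℝ) 1) :=
    isCompact_univ_pi fun _ => isCompact_Icc
  obtain ⟨C, hC⟩ := hc.exists_bound_of_continuousOn h.1.continuousOn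
  refine ⟨C, fun z hz => ?_⟩
  have := hC z (by
    intro y _
    exact ⟨(abs_le.1 (hz y)).1, (abs_le.1 (hz y)).2⟩)
  rwa [Real.norm_eq_abs] at this

theorem FinDep.mono {A B : Set V} {K : (V → ℝ) → ℝ} (h : FinDep A K) (hAB : A ⊆ B) :
    FinDep B K := by
  obtain ⟨hc, D, hD, hK⟩ := h
  exact ⟨hc, D, hD.trans hAB, hK⟩

theorem finDep_const (A : Set V) (c : ℝ) : FinDep A fun _ : V → ℝ => c :=
  ⟨continuous_const, ∅, by simp only [Finset.coe_empty, Set.empty_subset], fun _ _ _ => rfl⟩

theorem FinDep.comp₂ {A : Set V} {K L : (V → ℝ) → ℝ} (h : FinDep A K) (h' : FinDep A L)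
    {φ : ℝ × ℝ → ℝ} (hφ : Continuous φ) : FinDep A fun z => φ (K z, L z) := by
  classical
  obtain ⟨hc, D, hD, hK⟩ := h
  obtain ⟨hc', D', hD', hL⟩ := h'
  refine ⟨hφ.comp (hc.prodMk hc'), D ∪ D', ?_, ?_⟩
  · rw [Finset.coe_union]
    exact Set.union_subset hD hD'
  · intro x y hxy
    have h1 : K x = K y := hK fun i hi => hxy i (by rw [Finset.coe_union]; exact Or.inl hi)
    have h2 : L x = L y := hL fun i hi => hxy i (by rw [Finset.coe_union]; exact Or.inr hi)
    simp only [h1, h2]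

theorem FinDep.comp {A : Set V} {K : (V → ℝ) → ℝ} (h : FinDep A K) {φ : ℝ → ℝ}
    (hφ : Continuous φ) : FinDep A fun z => φ (K z) :=
  h.comp₂ h (φ := fun p => φ p.1) (hφ.comp continuous_fst)

theorem FinDep.add {A : Set V} {K L : (V → ℝ) → ℝ} (h : FinDep A K) (h' : FinDep A L) :
    FinDep A fun z => K z + L z := h.comp₂ h' (φ := fun p => p.1 + p.2) continuous_add

theorem FinDep.mul {A : Set V} {K L : (V → ℝ) → ℝ} (h : FinDep A K) (h' : FinDep A L) :
    FinDep A fun z => K z * L z := h.comp₂ h' (φ := fun p => p.1 * p.2) continuous_mul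

theorem finDep_eval {A : Set V} {y : V} (hy : y ∈ A) : FinDep A fun z : V → ℝ => z y :=
  ⟨continuous_apply y, {y}, by simpa only [Finset.coe_singleton, Set.singleton_subset_iff] using hy, fun _ _ h => h y (by simp)⟩

theorem FinDep.sum {A : Set V} {ι : Type*} (s : Finset ι) {K : ι → (V → ℝ) → ℝ}
    (h : ∀ i ∈ s, FinDep A (K i)) : FinDep A fun z => ∑ i ∈ s, K i z := by
  classical
  induction s using Finset.induction_on with
  | empty => simpa using finDep_const A 0
  | insert a s ha ih =>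
    simp only [Finset.sum_insert ha]
    exact (h a (Finset.mem_insert_self a s)).add
      (ih fun i hi => h i (Finset.mem_insert_of_mem hi))

theorem FinDep.prod {A : Set V} {ι : Type*} (s : Finset ι) {K : ι → (V → ℝ) → ℝ}
    (h : ∀ i ∈ s, FinDep A (K i)) : FinDep A fun z => ∏ i ∈ s, K i z := by
  classical
  induction s using Finset.induction_on with
  | empty => simpa using finDep_const A 1
  | insert a s ha ih =>
    simp only [Finset.prod_insert ha]
    exact (h a (Finset.mem_insert_self a s)).mul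
      (ih fun i hi => h i (Finset.mem_insert_of_mem hi))

/-! ### geometry: parents and paths -/

section geometry

variable [G.LocallyFinite]

omit [G.LocallyFinite] in
theorem par_self (o : V) : par G o o = o := by
  unfold par
  split_ifs with h
  · obtain ⟨u, -, hu⟩ := h
    simp only [SimpleGraph.dist_self, Nat.add_eq_zero_iff, SimpleGraph.dist_eq_zero_iff_eq_or_not_reachable, one_ne_zero, and_false] at hu
  · rfl

theorem dist_par (hG : G.IsTree) (o v : V) : G.dist o (par G o v) = G.dist o v - 1 := by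
  by_cases h : o = v
  · subst h
    rw [par_self]
    simp
  · have := (par_spec hG h).2
    (clear * - this; omega)

theorem dist_par_iter (hG : G.IsTree) (o v : V) (i : ℕ) :
    G.dist o ((par G o)^[i] v) = G.dist o v - i := by
  induction i with
  | zero => simp only [Function.iterate_zero, id_eq, tsub_zero]
  | succ i ih =>
    rw [Function.iterate_succ_apply', dist_par hG, ih]
    omega

theorem par_iter_dist (hG : G.IsTree) (o v : V) : (par G o)^[G.dist o v] v = o := by
  have := dist_par_iter hG o v (G.dist o v)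
  rw [Nat.sub_self] at this
  exact (hG.connected.dist_eq_zero_iff.1 this).symm

/-- the geodesic from `o` to `v` -/
noncomputable def geo (G : SimpleGraph V) (o v : V) (i : ℕ) : V :=
  (par G o)^[G.dist o v - i] v

theorem geo_zero (hG : G.IsTree) (o v : V) : geo G o v 0 = o := by
  unfold geo
  rw [Nat.sub_zero, par_iter_dist hG]

omit [G.LocallyFinite] in
theorem geo_dist (o v : V) : geo G o v (G.dist o v) = v := by
  unfold geo
  rw [Nat.sub_self]
  rfl

theorem dist_geo (hG : G.IsTree) (o v : V) {i : ℕ} (hi : i ≤ G.dist o v) :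
    G.dist o (geo G o v i) = i := by
  unfold geo
  rw [dist_par_iter hG]
  omega

omit [G.LocallyFinite] in
theorem par_geo_succ (o v : V) {i : ℕ} (hi : i < G.dist o v) :
    par G o (geo G o v (i + 1)) = geo G o v i := by
  unfold geo
  rw [← Function.iterate_succ_apply' (par G o)]
  congr 2
  omega

theorem geo_adj (hG : G.IsTree) (o v : V) {i : ℕ} (hi : i < G.dist o v) :
    G.Adj (geo G o v i) (geo G o v (i + 1)) := by
  have hne : o ≠ geo G o v (i + 1) := by
    intro h
    have := dist_geo hG o v (i := i + 1) (by omega)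
    rw [← h] at this
    simp at this
  have := (par_spec hG hne).1
  rwa [par_geo_succ o v hi] at this

theorem nbPath_geo (hG : G.IsTree) (o v : V) : NBPath G (G.dist o v) (geo G o v) := by
  refine ⟨fun i hi => geo_adj hG o v hi, fun i hi h => ?_⟩
  have h1 := dist_geo hG o v (i := i) (by omega)
  have h2 := dist_geo hG o v (i := i + 2) hi
  rw [h] at h1
  omega

/-- parents seen from a vertex `p 0` along a nonbacktracking path -/
theorem NBPath.par_eq (hG : G.IsTree) {n : ℕ} {p : ℕ → V} (hp : NBPath G n p) {i : ℕ}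
    (hi : i < n) : par G (p 0) (p (i + 1)) = p i := by
  have h1 := hp.dist_eq hG i hi.le
  have h2 := hp.dist_eq hG (i + 1) (by omega)
  have hne : p 0 ≠ p (i + 1) := by
    intro h
    rw [← h] at h2
    simp at h2
  have h3 := par_spec hG hne
  exact adj_dist_unique hG h3.1 (hp.1 i hi) h3.2 (by omega)

omit [G.LocallyFinite] in
/-- the initial segment of a nonbacktracking path -/
theorem NBPath.take {n m : ℕ} {p : ℕ → V} (hp : NBPath G n p) (h : m ≤ n) : NBPath G m p :=
  ⟨fun i hi => hp.1 i (by omega), fun i hi => hp.2 i (by omega)⟩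

omit [G.LocallyFinite] in
/-- the final segment of a nonbacktracking path -/
theorem NBPath.drop {n : ℕ} {p : ℕ → V} (hp : NBPath G n p) (m : ℕ) :
    NBPath G (n - m) fun i => p (m + i) :=
  ⟨fun i hi => hp.1 (m + i) (by omega), fun i hi => hp.2 (m + i) (by omega)⟩

omit [G.LocallyFinite] in
/-- the reversal of a nonbacktracking path -/
theorem NBPath.reverse {n : ℕ} {p : ℕ → V} (hp : NBPath G n p) :
    NBPath G n fun i => p (n - i) := by
  refine ⟨fun i hi => ?_, fun i hi => ?_⟩
  · have := hp.1 (n - (i + 1)) (by omega)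
    have e : n - (i + 1) + 1 = n - i := by omega
    rw [e] at this
    exact this.symm
  · have := hp.2 (n - (i + 2)) (by omega)
    have e : n - (i + 2) + 2 = n - i := by omega
    rw [e] at this
    exact this.symm

/-- for `y` beyond the edge `uv` the parents seen from `u` and from `v` agree, unless `y = v` -/
theorem par_eq_of_side (hG : G.IsTree) {u v y : V} (huv : G.Adj u v) (hy : y ∈ side G v u)
    (hyv : y ≠ v) : par G v y = par G u y := by
  have hyu : u ≠ y := by
    rintro rfl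
    simp only [side, Set.mem_ofPred_eq, SimpleGraph.dist_self] at hy
    omega
  have h1 := par_spec hG (o := v) (v := y) (Ne.symm hyv)
  have h2 := par_spec hG hyu
  -- the parent from `v` is closer to `v`, hence also on `v`'s side, hence it is the parent from u
  have h3 : G.dist u y = G.dist v y + 1 := by
    rcases dist_adj_cases hG huv y with h | h
    · simp only [side, Set.mem_ofPred_eq] at hy
      rw [G.dist_comm (u := y) (v := v), G.dist_comm (u := y) (v := u)] at hy
      rw [G.dist_comm (u := y) (v := v), G.dist_comm (u := y) (v := u)] at h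
      omega
    · simp only [side, Set.mem_ofPred_eq] at hy
      rw [G.dist_comm (u := y) (v := v), G.dist_comm (u := y) (v := u)] at h
      omega
  have h4 : par G v y ∈ side G v u := next_mem_side hG huv.symm hy hyv h1.1.symm
  have h5 : G.dist u (par G v y) = G.dist v (par G v y) + 1 := by
    simp only [side, Set.mem_ofPred_eq] at h4
    rw [G.dist_comm (v := v), G.dist_comm (v := u)] at h4
    rcases dist_adj_cases hG huv (par G v y) with h | h
    · rw [G.dist_comm (v := v), G.dist_comm (v := u)] at h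
      omega
    · rw [G.dist_comm (v := v), G.dist_comm (v := u)] at h
      omega
  exact adj_dist_unique hG h1.1 h2.1 (by omega) h2.2

end geometry

/-! ### covariances as functions of the means along a path -/

/-- posterior covariance of the two ends of a path as a function of the means along the path -/
noncomputable def covP (θ : ℝ) (a : ℕ → ℝ) (n : ℕ) : ℝ :=
  (1 - a 0 ^ 2) * ∏ i ∈ Finset.range n, rho θ (tau θ (a i) (a (i + 1)))

/-- product of the transfer factors along a path (messages towards the start `a 0`) -/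
noncomputable def etaP (θ : ℝ) (a : ℕ → ℝ) (n : ℕ) : ℝ :=
  ∏ i ∈ Finset.range n, xf θ (tau θ (a i) (a (i + 1)))

theorem covP_eq (θ : ℝ) (a : ℕ → ℝ) (n : ℕ) :
    covP θ a n = (1 - a 0 ^ 2) * (θ ^ n * etaP θ a n) := by
  unfold covP etaP
  simp only [rho_eq_xf]
  rw [Finset.prod_mul_distrib, Finset.prod_const, Finset.card_range]

/-- the covariance seen from a root `o` -/
noncomputable def covT (G : SimpleGraph V) (θ : ℝ) (m : V → ℝ) (o v : V) : ℝ :=
  covP θ (fun i => m (geo G o v i)) (G.dist o v)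

theorem theta_sq_lt {θ : ℝ} (h0 : 0 ≤ θ) (h1 : θ < 1) : θ ^ 2 < 1 := by nlinarith

section covP

variable {θ : ℝ} {a : ℕ → ℝ}

theorem etaP_nonneg (h0 : 0 ≤ θ) (h1 : θ < 1) (ha : ∀ i, |a i| ≤ 1) (n : ℕ) :
    0 ≤ etaP θ a n :=
  Finset.prod_nonneg fun i _ => xf_nonneg (theta_sq_lt h0 h1) (abs_tau_le h0 h1 (ha i) (ha (i + 1)))

theorem etaP_le_one (h0 : 0 ≤ θ) (h1 : θ < 1) (ha : ∀ i, |a i| ≤ 1) (n : ℕ) :
    etaP θ a n ≤ 1 :=
  Finset.prod_le_one
    (fun i _ => xf_nonneg (theta_sq_lt h0 h1) (abs_tau_le h0 h1 (ha i) (ha (i + 1))))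
    (fun i _ => xf_le_one (theta_sq_lt h0 h1) (abs_tau_le h0 h1 (ha i) (ha (i + 1))))

theorem one_sub_sq_nonneg_of_abs {x : ℝ} (hx : |x| ≤ 1) : 0 ≤ 1 - x ^ 2 := by
  have : x ^ 2 ≤ 1 := by
    rw [← sq_abs]
    exact pow_le_one₀ (abs_nonneg _) hx
  linarith

theorem covP_nonneg (h0 : 0 ≤ θ) (h1 : θ < 1) (ha : ∀ i, |a i| ≤ 1) (n : ℕ) :
    0 ≤ covP θ a n := by
  rw [covP_eq]
  exact mul_nonneg (one_sub_sq_nonneg_of_abs (ha 0))
    (mul_nonneg (pow_nonneg h0 _) (etaP_nonneg h0 h1 ha n))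

theorem covP_le (h0 : 0 ≤ θ) (h1 : θ < 1) (ha : ∀ i, |a i| ≤ 1) (n : ℕ) :
    covP θ a n ≤ θ ^ n * etaP θ a n := by
  rw [covP_eq]
  refine mul_le_of_le_one_left (mul_nonneg (pow_nonneg h0 _) (etaP_nonneg h0 h1 ha n)) ?_
  linarith only [sq_nonneg (a 0)]

/-- **turn-around identity** -/
theorem covP_reverse (h0 : 0 ≤ θ) (h1 : θ < 1) (ha : ∀ i, |a i| ≤ 1) (n : ℕ) :
    covP θ (fun i => a (n - i)) n = covP θ a n := by
  -- general statement: (1 - a n ^2) ∏ rho (tau (a (i+1)) (a i)) = (1 - a 0 ^ 2) ∏ rho (tau (a i) (a (i+1)))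
  have key : ∀ k : ℕ, (1 - a k ^ 2) * ∏ i ∈ Finset.range k, rho θ (tau θ (a (i + 1)) (a i)) =
      (1 - a 0 ^ 2) * ∏ i ∈ Finset.range k, rho θ (tau θ (a i) (a (i + 1))) := by
    intro k
    induction k with
    | zero => simp only [Finset.range_zero, Finset.prod_empty, mul_one]
    | succ k ih =>
      rw [Finset.prod_range_succ, Finset.prod_range_succ]
      have h := tau_symm h0 h1 (ha k) (ha (k + 1))
      calc (1 - a (k + 1) ^ 2) * ((∏ i ∈ Finset.range k, rho θ (tau θ (a (i + 1)) (a i))) *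
            rho θ (tau θ (a (k + 1)) (a k)))
          = (∏ i ∈ Finset.range k, rho θ (tau θ (a (i + 1)) (a i))) *
            ((1 - a (k + 1) ^ 2) * rho θ (tau θ (a (k + 1)) (a k))) := by ring
        _ = ((1 - a k ^ 2) * ∏ i ∈ Finset.range k, rho θ (tau θ (a (i + 1)) (a i))) *
            rho θ (tau θ (a k) (a (k + 1))) := by rw [← h]; ring
        _ = _ := by rw [ih]; ring
  unfold covP
  simp only [Nat.sub_zero]
  rw [← key n]
  congr 1
  rw [← Finset.prod_range_reflect]
  refine Finset.prod_congr rfl fun i hi => ?_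
  rw [Finset.mem_range] at hi
  have e1 : n - (n - 1 - i) = i + 1 := by omega
  have e2 : n - (n - 1 - i + 1) = i := by omega
  rw [e1, e2]

end covP

/-! ### finite volume: the posterior covariance is the path function of the posterior means -/

theorem cov_succ [G.LocallyFinite] {μ : Measure (V → ℤˣ)} [IsProbabilityMeasure μ] (hG : G.IsTree)
    {θ : ℝ} (h0 : 0 ≤ θ) (h1 : θ < 1) (hμ : EdgeSplit G θ μ) {H : List (V × ℝ)} (hH : Good H)
    {u v x : V} (huv : G.Adj u v) (hx : x ∈ side G u v) :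
    cov μ H x v = rho θ (tau θ (mean μ H u) (mean μ H v)) * cov μ H x u := by
  obtain ⟨t, ht, hm, hc⟩ := edge_struct (μ := μ) hG h0 h1 hμ hH huv
  rw [← eq_tau h0 h1 ht (abs_mean_le hH u) (abs_mean_le hH v) hm]
  exact hc x hx

theorem cov_eq_covP [G.LocallyFinite] {μ : Measure (V → ℤˣ)} [IsProbabilityMeasure μ]
    (hG : G.IsTree) {θ : ℝ} (h0 : 0 ≤ θ) (h1 : θ < 1) (hμ : EdgeSplit G θ μ)
    {H : List (V × ℝ)} (hH : Good H) {p : ℕ → V} {n : ℕ} (hp : NBPath G n p) :
    cov μ H (p 0) (p n) = covP θ (fun i => mean μ H (p i)) n := by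
  induction n with
  | zero =>
    rw [cov_self hH]
    simp only [covP, Finset.range_zero, Finset.prod_empty, mul_one]
  | succ n ih =>
    have hp' : NBPath G n p := hp.take (by (clear * -; omega))
    have hx : p 0 ∈ side G (p n) (p (n + 1)) := by
      simp only [side, Set.mem_ofPred_eq]
      rw [hp.dist_eq hG n (by omega), hp.dist_eq hG (n + 1) le_rfl]
      omega
    rw [cov_succ hG h0 h1 hμ hH (hp.1 n (by omega)) hx, ih hp']
    unfold covP
    rw [Finset.prod_range_succ]
    ring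

theorem cov_eq_covT [G.LocallyFinite] {μ : Measure (V → ℤˣ)} [IsProbabilityMeasure μ]
    (hG : G.IsTree) {θ : ℝ} (h0 : 0 ≤ θ) (h1 : θ < 1) (hμ : EdgeSplit G θ μ)
    {H : List (V × ℝ)} (hH : Good H) (o v : V) :
    cov μ H o v = covT G θ (mean μ H) o v := by
  have h := cov_eq_covP (μ := μ) hG h0 h1 hμ hH (nbPath_geo hG o v)
  rw [geo_zero hG, geo_dist] at h
  exact h

/-! ### mass transport: invariance along paths -/

theorem PInv.integral {Ω : Type*} [MeasurableSpace Ω] {P : Measure Ω} {M M' : V → Ω → ℝ}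
    (hM : ∀ v, Measurable (M v)) (hM' : ∀ v, Measurable (M' v)) (h : PInv G P M M')
    (g : G ≃g G) {K : (V → ℝ) × (V → ℝ) → ℝ} (hK : Measurable K) :
    ∫ ω, K (fun v => M (g v) ω, fun v => M' (g v) ω) ∂P =
      ∫ ω, K (fun v => M v ω, fun v => M' v ω) ∂P := by
  have m1 : Measurable fun ω => ((fun v => M (g v) ω, fun v => M' (g v) ω) : (V → ℝ) × (V → ℝ)) :=
    (measurable_pi_lambda _ fun v => hM (g v)).prodMk (measurable_pi_lambda _ fun v => hM' (g v))
  have m2 : Measurable fun ω => ((fun v => M v ω, fun v => M' v ω) : (V → ℝ) × (V → ℝ)) :=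
    (measurable_pi_lambda _ fun v => hM v).prodMk (measurable_pi_lambda _ fun v => hM' v)
  rw [← integral_map m1.aemeasurable hK.aestronglyMeasurable, h g,
    integral_map m2.aemeasurable hK.aestronglyMeasurable]

/-- a functional of the two fields along a nonbacktracking path has the same expectation for all
nonbacktracking paths of the same length -/
theorem PInv.path [G.LocallyFinite] {Ω : Type*} [MeasurableSpace Ω] {P : Measure Ω}
    {M M' : V → Ω → ℝ}
    (hM : ∀ v, Measurable (M v)) (hM' : ∀ v, Measurable (M' v)) (h : PInv G P M M')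
    (hG : G.IsTree) {d : ℕ} (hreg : G.IsRegularOfDegree d) {n : ℕ} {p q : ℕ → V}
    (hp : NBPath G n p) (hq : NBPath G n q) {K : (ℕ → ℝ) × (ℕ → ℝ) → ℝ} (hK : Measurable K)
    (hdep : ∀ a a' b b' : ℕ → ℝ, (∀ i ≤ n, a i = a' i) → (∀ i ≤ n, b i = b' i) →
      K (a, b) = K (a', b')) :
    ∫ ω, K (fun i => M (p i) ω, fun i => M' (p i) ω) ∂P =
      ∫ ω, K (fun i => M (q i) ω, fun i => M' (q i) ω) ∂P := by
  obtain ⟨φ, hφ⟩ := exists_aut_of_paths hG hreg hp hq
  have hL : Measurable fun z : (V → ℝ) × (V → ℝ) =>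
      K (fun i => z.1 (p i), fun i => z.2 (p i)) := by
    refine hK.comp ((measurable_pi_lambda _ fun i => ?_).prodMk (measurable_pi_lambda _ fun i => ?_))
    · exact (measurable_pi_apply (p i)).comp measurable_fst
    · exact (measurable_pi_apply (p i)).comp measurable_snd
  have := PInv.integral hM hM' h φ hL
  simp only at this
  rw [← this]
  congr 1
  funext ω
  exact hdep _ _ _ _ (fun i hi => by rw [hφ i hi]) (fun i hi => by rw [hφ i hi])

/-- single-vertex version -/
theorem PInv.vertex [G.LocallyFinite] {Ω : Type*} [MeasurableSpace Ω] {P : Measure Ω}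
    {M M' : V → Ω → ℝ}
    (hM : ∀ v, Measurable (M v)) (hM' : ∀ v, Measurable (M' v)) (h : PInv G P M M')
    (hG : G.IsTree) {d : ℕ} (hreg : G.IsRegularOfDegree d) (o o' : V) {K : ℝ × ℝ → ℝ}
    (hK : Measurable K) :
    ∫ ω, K (M o ω, M' o ω) ∂P = ∫ ω, K (M o' ω, M' o' ω) ∂P := by
  have hp : NBPath G 0 fun _ => o := ⟨fun i hi => by omega, fun i hi => by omega⟩
  have hq : NBPath G 0 fun _ => o' := ⟨fun i hi => by omega, fun i hi => by omega⟩
  exact PInv.path hM hM' h hG hreg hp hq (K := fun z => K (z.1 0, z.2 0))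
    (hK.comp (((measurable_pi_apply 0).comp measurable_fst).prodMk
      ((measurable_pi_apply 0).comp measurable_snd)))
    (fun a a' b b' h1 h2 => by simp only [h1 0 le_rfl, h2 0 le_rfl])

end Vale.Agent.P161
end
end

section

section

/-!
# First consequences of the interface `TField`
-/

open MeasureTheory

namespace Vale.Agent.P161

variable {V : Type*} {G : SimpleGraph V}

/-- clipping to `[-1, 1]` -/
noncomputable def clip1 (z : ℝ) : ℝ := max (-1) (min z 1)

theorem continuous_clip1 : Continuous clip1 := by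
  unfold clip1
  fun_prop

theorem clip1_of_abs {z : ℝ} (h : |z| ≤ 1) : clip1 z = z := by
  obtain ⟨h1, h2⟩ := abs_le.1 h
  unfold clip1
  rw [min_eq_left h2, max_eq_right h1]

theorem abs_clip1_le (z : ℝ) : |clip1 z| ≤ 1 := by
  unfold clip1
  rw [abs_le]
  exact ⟨le_max_left _ _, max_le (by norm_num) (min_le_right _ _)⟩

theorem clip1_neg (z : ℝ) : clip1 (-z) = -clip1 z := by
  unfold clip1
  rcases le_total z (-1) with h1 | h1
  · rw [min_eq_left (by linarith only [h1] : z ≤ 1), max_eq_left h1, min_eq_right (by linarith only [h1]),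
      max_eq_right (by norm_num), neg_neg]
  · rcases le_total z 1 with h2 | h2
    · rw [min_eq_left h2, max_eq_right h1, min_eq_left (by linarith only [h1]), max_eq_right (by linarith)]
    · rw [min_eq_right h2, max_eq_right (by norm_num : (-1 : ℝ) ≤ 1),
        min_eq_left (by linarith only [h2] : -z ≤ 1), max_eq_left (by linarith : -z ≤ -1)]

/-- globally continuous version of the transfer factor -/
noncomputable def xfc (θ z : ℝ) : ℝ := xf θ (clip1 z)

theorem xfc_of_abs {θ z : ℝ} (h : |z| ≤ 1) : xfc θ z = xf θ z := by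
  unfold xfc
  rw [clip1_of_abs h]

theorem xfc_neg (θ z : ℝ) : xfc θ (-z) = xfc θ z := by
  unfold xfc
  rw [clip1_neg, xf_neg]

theorem continuous_xfc {θ : ℝ} (h0 : 0 ≤ θ) (h1 : θ < 1) : Continuous (xfc θ) := by
  unfold xfc xf
  have hc := continuous_clip1
  refine Continuous.div (by fun_prop) (by fun_prop) ?_
  intro z
  exact (xf_den_pos (theta_sq_lt h0 h1) (abs_clip1_le z)).ne'

theorem xfc_nonneg {θ : ℝ} (h0 : 0 ≤ θ) (h1 : θ < 1) (z : ℝ) : 0 ≤ xfc θ z :=
  xf_nonneg (theta_sq_lt h0 h1) (abs_clip1_le z)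

/-- a neighbour different from a given one -/
theorem exists_other [G.LocallyFinite] {d : ℕ} (hd : 2 ≤ d) (hreg : G.IsRegularOfDegree d)
    (u v : V) : ∃ w, G.Adj v w ∧ u ≠ w := by
  classical
  have h1 : 2 ≤ (G.neighborFinset v).card := by
    rw [SimpleGraph.card_neighborFinset_eq_degree, hreg v]
    exact hd
  have h2 : 0 < ((G.neighborFinset v).erase u).card := by
    have := Finset.pred_card_le_card_erase (s := G.neighborFinset v) (a := u)
    omega
  obtain ⟨w, hw⟩ := Finset.card_pos.1 h2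
  rw [Finset.mem_erase, SimpleGraph.mem_neighborFinset] at hw
  exact ⟨w, hw.2, Ne.symm hw.1⟩

section TField

variable [G.LocallyFinite] {θ ρ : ℝ} {Ω : Type*} [MeasurableSpace Ω] {P : Measure Ω}
  [IsProbabilityMeasure P] {M : V → Ω → ℝ}

theorem measurable_etaP (hM : ∀ v, Measurable (M v)) (θ : ℝ) (p : ℕ → V) (n : ℕ) :
    Measurable fun ω => etaP θ (fun i => M (p i) ω) n := by
  unfold etaP
  exact Finset.measurable_fun_prod _ fun i _ =>
    measurable_xf (measurable_tau (hM _) (hM _) θ) θ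

theorem measurable_covP (hM : ∀ v, Measurable (M v)) (θ : ℝ) (p : ℕ → V) (n : ℕ) :
    Measurable fun ω => covP θ (fun i => M (p i) ω) n := by
  simp only [covP_eq]
  exact (measurable_const.sub ((hM _).pow_const 2)).mul
    ((measurable_etaP hM θ p n).const_mul _)

omit [G.LocallyFinite] in
theorem measurable_covT (hM : ∀ v, Measurable (M v)) (θ : ℝ) (o v : V) :
    Measurable fun ω => covT G θ (fun x => M x ω) o v :=
  measurable_covP hM θ (geo G o v) (G.dist o v)

theorem integrable_etaP (hM : ∀ v, Measurable (M v)) (hb : ∀ v ω, |M v ω| ≤ 1)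
    (h0 : 0 ≤ θ) (h1 : θ < 1) (p : ℕ → V) (n : ℕ) :
    Integrable (fun ω => etaP θ (fun i => M (p i) ω) n) P :=
  integrable_of_bdd (measurable_etaP hM θ p n) (C := 1) fun ω => by
    rw [abs_of_nonneg (etaP_nonneg h0 h1 (fun i => hb _ ω) n)]
    exact etaP_le_one h0 h1 (fun i => hb _ ω) n

/-- functional of the messages beyond the edge `p 0 — p 1`: product of the transfer factors of a
path starting with this edge -/
theorem TField.path_aux (hG : G.IsTree) (h0 : 0 ≤ θ) (h1 : θ < 1) {n : ℕ} {p : ℕ → V}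
    (hp : NBPath G n p) (hn : 1 ≤ n) :
    FinDep (side G (p 1) (p 0)) (fun z : V → ℝ => ∏ i ∈ Finset.range n, xfc θ (z (p (i + 1)))) ∧
    EvenF (fun z : V → ℝ => ∏ i ∈ Finset.range n, xfc θ (z (p (i + 1)))) ∧
    ∀ m : V → ℝ, (∀ v, |m v| ≤ 1) →
      ∏ i ∈ Finset.range n, xfc θ (msgT G θ (p 0) m (p (i + 1))) =
        etaP θ (fun i => m (p i)) n := by
  refine ⟨FinDep.prod _ fun i hi => ?_, ?_, ?_⟩
  · rw [Finset.mem_range] at hi
    refine (finDep_eval ?_).comp (continuous_xfc h0 h1)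
    simp only [side, Set.mem_ofPred_eq]
    have e1 : G.dist (p (i + 1)) (p 0) = i + 1 := by
      rw [G.dist_comm]
      exact hp.dist_eq hG (i + 1) (by omega)
    have hp1 := hp.drop 1
    have e2 : G.dist (p (i + 1)) (p 1) = i := by
      rw [G.dist_comm]
      have := hp1.dist_eq hG i (by omega)
      simp only [Nat.add_zero] at this
      rwa [Nat.add_comm 1 i] at this
    (clear * - e1 e2; omega)
  · intro z
    simp only [xfc_neg]
  · intro m hm
    unfold etaP
    refine Finset.prod_congr rfl fun i hi => ?_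
    rw [Finset.mem_range] at hi
    unfold msgT
    rw [hp.par_eq hG hi]
    exact xfc_of_abs (abs_tau_le h0 h1 (hm _) (hm _))

/-- the expected product of the transfer factors along a path -/
theorem TField.integral_etaP_le (hG : G.IsTree) {d : ℕ} (hd : 2 ≤ d)
    (hreg : G.IsRegularOfDegree d) (h0 : 0 ≤ θ) (h1 : θ < 1) (hρ : ρ ≤ 1)
    (hT : TField G θ ρ P M) {n : ℕ} {p : ℕ → V} (hp : NBPath G n p) :
    ∫ ω, etaP θ (fun i => M (p i) ω) n ∂P ≤ (1 - ρ) ^ n := by
  induction n generalizing p with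
  | zero => simp only [etaP, Finset.range_zero, Finset.prod_empty, integral_const, probReal_univ, smul_eq_mul, mul_one, pow_zero, Std.le_refl]
  | succ n ih =>
    have hadj := hp.1 0 (by omega)
    rcases Nat.eq_zero_or_pos n with hn | hn
    · subst hn
      obtain ⟨w, hw, hne⟩ := exists_other hd hreg (p 0) (p 1)
      have h := hT.step (p 0) (p 1) w hadj hw hne (fun _ => 1) (finDep_const _ 1)
        (fun z => rfl) (fun z _ => by norm_num)
      simp only [mul_one, integral_const, smul_eq_mul, probReal_univ] at h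
      simpa only [etaP, zero_add, Finset.range_one, Finset.prod_singleton, pow_one, ge_iff_le] using h
    · have hp1 : NBPath G n fun i => p (1 + i) := hp.drop 1
      have hadj1 := hp.1 1 (by omega)
      have hne : p 0 ≠ p 2 := hp.2 0 (by omega)
      obtain ⟨a1, a2, a3⟩ := TField.path_aux (θ := θ) hG h0 h1 hp1 hn
      simp only [Nat.add_zero] at a1 a2 a3
      have h := hT.step (p 0) (p 1) (p 2) hadj hadj1 hne _ a1 a2 (fun z _ =>
        Finset.prod_nonneg fun i _ => xfc_nonneg h0 h1 _)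
      have e1 : ∀ ω, ∏ i ∈ Finset.range n, xfc θ (msgT G θ (p 1) (fun x => M x ω) (p (1 + (i + 1))))
          = etaP θ (fun i => M (p (1 + i)) ω) n := fun ω =>
        a3 (fun x => M x ω) fun v => hT.bdd v ω
      simp only [e1] at h
      have e2 : ∀ ω, etaP θ (fun i => M (p i) ω) (n + 1) =
          xf θ (tau θ (M (p 0) ω) (M (p 1) ω)) * etaP θ (fun i => M (p (1 + i)) ω) n := by
        intro ω
        unfold etaP
        rw [Finset.prod_range_succ', mul_comm]
        congr 1
        refine Finset.prod_congr rfl fun i _ => ?_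
        have e3 : 1 + i = i + 1 := by omega
        have e4 : 1 + (i + 1) = i + 1 + 1 := by omega
        simp only [e3, e4]
      simp only [e2]
      refine h.trans ?_
      rw [pow_succ']
      exact mul_le_mul_of_nonneg_left (ih hp1) (by linarith only [hρ])

theorem TField.integral_covT_sq_le (hG : G.IsTree) {d : ℕ} (hd : 2 ≤ d)
    (hreg : G.IsRegularOfDegree d) (h0 : 0 ≤ θ) (h1 : θ < 1) (hρ : ρ ≤ 1)
    (hT : TField G θ ρ P M) (o v : V) :
    ∫ ω, covT G θ (fun x => M x ω) o v ^ 2 ∂P ≤ (θ ^ 2 * (1 - ρ)) ^ G.dist o v := by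
  have hp := nbPath_geo hG o v
  have h2 := hT.integral_etaP_le hG hd hreg h0 h1 hρ hp
  have h3 : ∫ ω, covT G θ (fun x => M x ω) o v ^ 2 ∂P ≤
      ∫ ω, (θ ^ 2) ^ G.dist o v * etaP θ (fun i => M (geo G o v i) ω) (G.dist o v) ∂P := by
    apply integral_mono_of_nonneg (Filter.Eventually.of_forall fun _ => sq_nonneg _)
      ((integrable_etaP hT.meas hT.bdd h0 h1 _ _).const_mul _)
    refine Filter.Eventually.of_forall fun ω => ?_
    have hb : ∀ i, |M (geo G o v i) ω| ≤ 1 := fun i => hT.bdd _ ω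
    have c0 := covP_nonneg (a := fun i => M (geo G o v i) ω) h0 h1 hb (G.dist o v)
    have c1 := covP_le (a := fun i => M (geo G o v i) ω) h0 h1 hb (G.dist o v)
    have e0 := etaP_nonneg (a := fun i => M (geo G o v i) ω) h0 h1 hb (G.dist o v)
    have e1 := etaP_le_one (a := fun i => M (geo G o v i) ω) h0 h1 hb (G.dist o v)
    simp only [covT]
    calc _ ≤ (θ ^ G.dist o v * etaP θ (fun i => M (geo G o v i) ω) (G.dist o v)) ^ 2 :=
          pow_le_pow_left₀ c0 c1 2
      _ = (θ ^ 2) ^ G.dist o v * (etaP θ (fun i => M (geo G o v i) ω) (G.dist o v) *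
            etaP θ (fun i => M (geo G o v i) ω) (G.dist o v)) := by ring
      _ ≤ _ := by
          refine mul_le_mul_of_nonneg_left ?_ (by (clear * -; positivity))
          exact mul_le_of_le_one_left e0 e1
  refine h3.trans ?_
  rw [integral_const_mul, mul_pow]
  exact mul_le_mul_of_nonneg_left h2 (by (clear * -; positivity))

/-- total squared covariance, over finite sets -/
theorem TField.sum_covT_sq_le (hG : G.IsTree) {d : ℕ} (hd : 2 ≤ d)
    (hreg : G.IsRegularOfDegree d) (h0 : 0 ≤ θ) (h1 : θ < 1) (hρ : ρ ≤ 1)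
    (hR : 0 < 1 - ((d : ℝ) - 1) * θ ^ 2 * (1 - ρ))
    (hT : TField G θ ρ P M) (o : V) (A : Finset V) :
    ∑ v ∈ A, ∫ ω, covT G θ (fun x => M x ω) o v ^ 2 ∂P ≤
      2 * d / (1 - ((d : ℝ) - 1) * θ ^ 2 * (1 - ρ)) := by
  have hq0 : 0 ≤ θ ^ 2 * (1 - ρ) := mul_nonneg (sq_nonneg _) (by linarith only [hρ])
  have h2 := sum_pow_dist_le hG hd hreg hq0 (by rw [← mul_assoc]; linarith only [hR]) o A
  rw [← mul_assoc] at h2
  exact (Finset.sum_le_sum fun v _ => hT.integral_covT_sq_le hG hd hreg h0 h1 hρ o v).trans h2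

end TField

end Vale.Agent.P161
end
end

section

section

/-!
# Step (II): the sum of the squared differences of the covariances
-/

open MeasureTheory Finset

namespace Vale.Agent.P161

variable {V : Type*} {G : SimpleGraph V}

theorem abs_pow_sub_pow_le_mul {a b : ℝ} (ha0 : 0 ≤ a) (ha1 : a ≤ 1) (hb0 : 0 ≤ b) (hb1 : b ≤ 1)
    (n : ℕ) : |a ^ n - b ^ n| ≤ n * |a - b| := by
  induction n with
  | zero => simp
  | succ n ih =>
    have h1 : a ^ (n + 1) - b ^ (n + 1) = a ^ n * (a - b) + b * (a ^ n - b ^ n) := by ring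
    rw [h1]
    refine (abs_add_le _ _).trans ?_
    rw [abs_mul, abs_mul, abs_of_nonneg (pow_nonneg ha0 n), abs_of_nonneg hb0]
    have h2 : a ^ n * |a - b| ≤ 1 * |a - b| :=
      mul_le_mul_of_nonneg_right (pow_le_one₀ ha0 ha1) (abs_nonneg _)
    have h3 : b * |a ^ n - b ^ n| ≤ 1 * (n * |a - b|) :=
      mul_le_mul hb1 ih (abs_nonneg _) zero_le_one
    push_cast
    linarith only [h2, h3]

theorem split_x {a a' η p : ℝ} (ha : |a| ≤ 1) (ha' : |a'| ≤ 1) (e0 : 0 ≤ η) (e1 : η ≤ 1) :
    ((a' ^ 2 - a ^ 2) * (p * η)) ^ 2 ≤ 4 * ((a - a') ^ 2 * (p ^ 2 * η)) := by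
  obtain ⟨c1, c2⟩ := abs_le.1 ha
  obtain ⟨c3, c4⟩ := abs_le.1 ha'
  have hη2 : η ^ 2 ≤ η := by linarith [mul_nonneg (sub_nonneg.2 e0) (sub_nonneg.2 e1)]
  have g1 : ((a' ^ 2 - a ^ 2) * (p * η)) ^ 2 = (a + a') ^ 2 * ((a - a') ^ 2 * (p ^ 2 * η ^ 2)) := by
    ring
  have g2 : (a + a') ^ 2 ≤ 4 := by nlinarith only [c1, c2, c4, c3]
  have g3 : (a - a') ^ 2 * (p ^ 2 * η ^ 2) ≤ (a - a') ^ 2 * (p ^ 2 * η) :=
    mul_le_mul_of_nonneg_left (mul_le_mul_of_nonneg_left hη2 (sq_nonneg _)) (sq_nonneg _)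
  rw [g1]
  exact mul_le_mul g2 g3 (by (clear * -; positivity)) (by norm_num)

theorem split_yz {a' : ℝ} (ha' : |a'| ≤ 1) (w : ℝ) : ((1 - a' ^ 2) * w) ^ 2 ≤ w ^ 2 := by
  have h1 : a' ^ 2 ≤ 1 := by
    rw [← sq_abs]
    exact pow_le_one₀ (abs_nonneg _) ha'
  have h2 := sq_nonneg a'
  rw [mul_pow]
  refine mul_le_of_le_one_left (sq_nonneg _) ?_
  exact pow_le_one₀ (by linarith only [h1]) (by linarith only [h2])

theorem split_pt {a a' η η' p q D : ℝ} (ha : |a| ≤ 1) (ha' : |a'| ≤ 1) (e0 : 0 ≤ η)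
    (e1 : η ≤ 1) (hpq : |p - q| ≤ D) :
    ((1 - a ^ 2) * (p * η) - (1 - a' ^ 2) * (q * η')) ^ 2
      ≤ 12 * ((a - a') ^ 2 * (p ^ 2 * η)) + 3 * D ^ 2 + 3 * (q ^ 2 * (η - η') ^ 2) := by
  have hx := split_x (p := p) ha ha' e0 e1
  have hy := split_yz ha' ((p - q) * η)
  have hz := split_yz ha' (q * (η - η'))
  have hy2 : ((p - q) * η) ^ 2 ≤ D ^ 2 := by
    have g1 : |(p - q) * η| ≤ D := by
      rw [abs_mul, abs_of_nonneg e0]
      exact (mul_le_of_le_one_right (abs_nonneg _) e1).trans hpq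
    rw [← sq_abs]
    exact pow_le_pow_left₀ (abs_nonneg _) g1 2
  have hz2 : (q * (η - η')) ^ 2 = q ^ 2 * (η - η') ^ 2 := mul_pow _ _ _
  have hsum : (1 - a ^ 2) * (p * η) - (1 - a' ^ 2) * (q * η')
      = (a' ^ 2 - a ^ 2) * (p * η) + (1 - a' ^ 2) * ((p - q) * η)
        + (1 - a' ^ 2) * (q * (η - η')) := by ring
  rw [hsum]
  have h3 : ∀ x y z : ℝ, (x + y + z) ^ 2 ≤ 3 * x ^ 2 + 3 * y ^ 2 + 3 * z ^ 2 := by
    intro x y z
    (by_contra nlg; linarith only [nlg, mul_nonneg (sq_nonneg (x - z)) (sq_nonneg (x - z)), mul_nonneg (sq_nonneg (y - z)) (sq_nonneg (x - z)), mul_nonneg (sq_nonneg (y - z)) (sq_nonneg (y - z)), mul_nonneg (le_of_lt (sub_pos.2 (not_le.1 nlg))) (sq_nonneg (x - z)), mul_nonneg (le_of_lt (sub_pos.2 (not_le.1 nlg))) (sq_nonneg (y - z)), mul_pos (sub_pos.2 (not_le.1 nlg)) (sub_pos.2 (not_le.1 nlg))])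
  have h4 := h3 ((a' ^ 2 - a ^ 2) * (p * η)) ((1 - a' ^ 2) * ((p - q) * η))
    ((1 - a' ^ 2) * (q * (η - η')))
  linarith only [h4, hy2, hz, hy, hx]

/-- pointwise decomposition of the difference of two covariances -/
theorem covP_sub_sq_split {θ θ' : ℝ} (h0 : 0 ≤ θ) (h1 : θ < 1) (h0' : 0 ≤ θ') (h1' : θ' < 1)
    {a a' : ℕ → ℝ} (ha : ∀ i, |a i| ≤ 1) (ha' : ∀ i, |a' i| ≤ 1) (n : ℕ) :
    (covP θ a n - covP θ' a' n) ^ 2
      ≤ 12 * ((a 0 - a' 0) ^ 2 * ((θ ^ 2) ^ n * etaP θ a n)) + 3 * (n ^ 2 * (θ - θ') ^ 2)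
        + 3 * ((θ' ^ 2) ^ n * (etaP θ a n - etaP θ' a' n) ^ 2) := by
  have h := split_pt (a := a 0) (a' := a' 0) (η := etaP θ a n) (η' := etaP θ' a' n)
    (p := θ ^ n) (q := θ' ^ n) (ha 0) (ha' 0) (etaP_nonneg h0 h1 ha n) (etaP_le_one h0 h1 ha n)
    (abs_pow_sub_pow_le_mul h0 h1.le h0' h1'.le n)
  have g4 : (θ ^ n) ^ 2 = (θ ^ 2) ^ n := by rw [← pow_mul, ← pow_mul, mul_comm]
  have g5 : (θ' ^ n) ^ 2 = (θ' ^ 2) ^ n := by rw [← pow_mul, ← pow_mul, mul_comm]
  rw [covP_eq, covP_eq]
  rw [g4, g5, mul_pow, sq_abs] at h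
  exact h

variable [G.LocallyFinite] {Ω : Type*} [MeasurableSpace Ω] {P : Measure Ω}
  [IsProbabilityMeasure P] {θ θ' ρ ρ' : ℝ} {M M' : V → Ω → ℝ}

/-- truncated weighted sum of the transfer products seen from `o` -/
noncomputable def Vr (hG : G.IsTree) (θ : ℝ) (m : V → ℝ) (o : V) (R : ℕ) : ℝ :=
  ∑ n ∈ range R, (θ ^ 2) ^ n * ∑ v ∈ sph hG.connected o n, etaP θ (fun i => m (geo G o v i)) n

omit [G.LocallyFinite] in
theorem covT_of_dist {θ : ℝ} {m : V → ℝ} {o v : V} {n : ℕ} (h : G.dist o v = n) :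
    covT G θ m o v = covP θ (fun i => m (geo G o v i)) n := by
  unfold covT
  rw [h]

theorem integrable_cov_diff_sq (hM : ∀ v, Measurable (M v)) (hM' : ∀ v, Measurable (M' v))
    (hb : ∀ v ω, |M v ω| ≤ 1) (hb' : ∀ v ω, |M' v ω| ≤ 1) (h0 : 0 ≤ θ) (h1 : θ < 1)
    (h0' : 0 ≤ θ') (h1' : θ' < 1) (p : ℕ → V) (n : ℕ) :
    Integrable (fun ω => (etaP θ (fun i => M (p i) ω) n
      - etaP θ' (fun i => M' (p i) ω) n) ^ 2) P := by
  refine integrable_of_bdd (((measurable_etaP hM θ p n).sub
    (measurable_etaP hM' θ' p n)).pow_const 2) (C := 1) fun ω => ?_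
  rw [abs_of_nonneg (sq_nonneg _)]
  have a0 := etaP_nonneg (a := fun i => M (p i) ω) h0 h1 (fun i => hb _ ω) n
  have a1 := etaP_le_one (a := fun i => M (p i) ω) h0 h1 (fun i => hb _ ω) n
  have b0 := etaP_nonneg (a := fun i => M' (p i) ω) h0' h1' (fun i => hb' _ ω) n
  have b1 := etaP_le_one (a := fun i => M' (p i) ω) h0' h1' (fun i => hb' _ ω) n
  (clear * - a0 a1 b0 b1; nlinarith)

theorem integral_cov_diff_le (hG : G.IsTree) (hM : ∀ v, Measurable (M v))
    (hM' : ∀ v, Measurable (M' v)) (hb : ∀ v ω, |M v ω| ≤ 1) (hb' : ∀ v ω, |M' v ω| ≤ 1)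
    (h0 : 0 ≤ θ) (h1 : θ < 1) (h0' : 0 ≤ θ') (h1' : θ' < 1) {o v : V} {n : ℕ}
    (hn : G.dist o v = n) :
    ∫ ω, (covT G θ (fun x => M x ω) o v - covT G θ' (fun x => M' x ω) o v) ^ 2 ∂P
      ≤ 12 * ∫ ω, (M o ω - M' o ω) ^ 2 * ((θ ^ 2) ^ n * etaP θ (fun i => M (geo G o v i) ω) n) ∂P
        + 3 * (n ^ 2 * (θ - θ') ^ 2)
        + 3 * ((θ' ^ 2) ^ n * ∫ ω, (etaP θ (fun i => M (geo G o v i) ω) n
            - etaP θ' (fun i => M' (geo G o v i) ω) n) ^ 2 ∂P) := by
  have i1 : Integrable (fun ω => (M o ω - M' o ω) ^ 2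
      * ((θ ^ 2) ^ n * etaP θ (fun i => M (geo G o v i) ω) n)) P := by
    refine integrable_of_bdd ((((hM o).sub (hM' o)).pow_const 2).mul
      ((measurable_etaP hM θ _ n).const_mul _)) (C := 4 * (θ ^ 2) ^ n) fun ω => ?_
    have a0 := etaP_nonneg (a := fun i => M (geo G o v i) ω) h0 h1 (fun i => hb _ ω) n
    have a1 := etaP_le_one (a := fun i => M (geo G o v i) ω) h0 h1 (fun i => hb _ ω) n
    have h2 : (M o ω - M' o ω) ^ 2 ≤ 4 := by
      have h3 := abs_le.1 (hb o ω)
      have h4 := abs_le.1 (hb' o ω)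
      nlinarith only [h3, h4]
    rw [abs_of_nonneg (by (clear * - a0; positivity))]
    exact mul_le_mul h2 (mul_le_of_le_one_right (by (clear * -; positivity)) a1) (by (clear * - a0; positivity)) (by norm_num)
  have i2 := integrable_cov_diff_sq (P := P) hM hM' hb hb' h0 h1 h0' h1' (geo G o v) n
  have j1 : Integrable (fun ω => 12 * ((M o ω - M' o ω) ^ 2
      * ((θ ^ 2) ^ n * etaP θ (fun i => M (geo G o v i) ω) n))) P := i1.const_mul 12
  have j2 : Integrable (fun ω => 12 * ((M o ω - M' o ω) ^ 2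
      * ((θ ^ 2) ^ n * etaP θ (fun i => M (geo G o v i) ω) n))
        + 3 * (n ^ 2 * (θ - θ') ^ 2)) P := j1.add (integrable_const _)
  have j3 : Integrable (fun ω => 3 * ((θ' ^ 2) ^ n * (etaP θ (fun i => M (geo G o v i) ω) n
      - etaP θ' (fun i => M' (geo G o v i) ω) n) ^ 2)) P := (i2.const_mul _).const_mul _
  have hmono : ∫ ω, (covT G θ (fun x => M x ω) o v - covT G θ' (fun x => M' x ω) o v) ^ 2 ∂P
      ≤ ∫ ω, (12 * ((M o ω - M' o ω) ^ 2
      * ((θ ^ 2) ^ n * etaP θ (fun i => M (geo G o v i) ω) n))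
        + 3 * (n ^ 2 * (θ - θ') ^ 2) + 3 * ((θ' ^ 2) ^ n
          * (etaP θ (fun i => M (geo G o v i) ω) n
            - etaP θ' (fun i => M' (geo G o v i) ω) n) ^ 2)) ∂P := by
    refine integral_mono_of_nonneg (Filter.Eventually.of_forall fun _ => sq_nonneg _)
      (j2.add j3) (Filter.Eventually.of_forall fun ω => ?_)
    have h2 := covP_sub_sq_split h0 h1 h0' h1' (a := fun i => M (geo G o v i) ω)
      (a' := fun i => M' (geo G o v i) ω) (fun i => hb _ ω) (fun i => hb' _ ω) n
    simp only [geo_zero hG] at h2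
    simp only [covT_of_dist hn]
    exact h2
  rw [integral_add j2 j3, integral_add j1 (integrable_const _), integral_const,
    integral_const_mul, integral_const_mul, integral_const_mul] at hmono
  simpa only [probReal_univ, one_smul] using hmono

/-- the terms up to distance `N` -/
theorem sum_cov_diff_le (hG : G.IsTree) (hM : ∀ v, Measurable (M v))
    (hM' : ∀ v, Measurable (M' v)) (hb : ∀ v ω, |M v ω| ≤ 1) (hb' : ∀ v ω, |M' v ω| ≤ 1)
    (h0 : 0 ≤ θ) (h1 : θ < 1) (h0' : 0 ≤ θ') (h1' : θ' < 1) (o : V) (R : ℕ) :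
    ∑ n ∈ range R, ∑ v ∈ sph hG.connected o n,
      ∫ ω, (covT G θ (fun x => M x ω) o v - covT G θ' (fun x => M' x ω) o v) ^ 2 ∂P
      ≤ 12 * ∫ ω, (M o ω - M' o ω) ^ 2 * Vr hG θ (fun x => M x ω) o R ∂P
        + 3 * ((∑ n ∈ range R, ((sph hG.connected o n).card : ℝ) * n ^ 2) * (θ - θ') ^ 2)
        + 3 * ∑ n ∈ range R, (θ' ^ 2) ^ n * ∑ v ∈ sph hG.connected o n,
          ∫ ω, (etaP θ (fun i => M (geo G o v i) ω) n
            - etaP θ' (fun i => M' (geo G o v i) ω) n) ^ 2 ∂P := by
  have i1 : ∀ (n : ℕ) (v : V), Integrable (fun ω => (M o ω - M' o ω) ^ 2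
      * ((θ ^ 2) ^ n * etaP θ (fun i => M (geo G o v i) ω) n)) P := by
    intro n v
    refine integrable_of_bdd ((((hM o).sub (hM' o)).pow_const 2).mul
      ((measurable_etaP hM θ _ n).const_mul _)) (C := 4 * (θ ^ 2) ^ n) fun ω => ?_
    have a0 := etaP_nonneg (a := fun i => M (geo G o v i) ω) h0 h1 (fun i => hb _ ω) n
    have a1 := etaP_le_one (a := fun i => M (geo G o v i) ω) h0 h1 (fun i => hb _ ω) n
    have h2 : (M o ω - M' o ω) ^ 2 ≤ 4 := by
      have h3 := abs_le.1 (hb o ω)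
      have h4 := abs_le.1 (hb' o ω)
      nlinarith only [h3, h4]
    rw [abs_of_nonneg (by (clear * - a0; positivity))]
    exact mul_le_mul h2 (mul_le_of_le_one_right (by (clear * -; positivity)) a1) (by (clear * - a0; positivity)) (by norm_num)
  have hVr : ∫ ω, (M o ω - M' o ω) ^ 2 * Vr hG θ (fun x => M x ω) o R ∂P
      = ∑ n ∈ range R, ∑ v ∈ sph hG.connected o n, ∫ ω, (M o ω - M' o ω) ^ 2
        * ((θ ^ 2) ^ n * etaP θ (fun i => M (geo G o v i) ω) n) ∂P := by
    have e1 : ∀ ω, (M o ω - M' o ω) ^ 2 * Vr hG θ (fun x => M x ω) o R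
        = ∑ n ∈ range R, ∑ v ∈ sph hG.connected o n, (M o ω - M' o ω) ^ 2
        * ((θ ^ 2) ^ n * etaP θ (fun i => M (geo G o v i) ω) n) := by
      intro ω
      unfold Vr
      rw [Finset.mul_sum]
      refine Finset.sum_congr rfl fun n _ => ?_
      rw [Finset.mul_sum, Finset.mul_sum]
    simp only [e1]
    rw [integral_finsetSum _ fun n _ => integrable_finsetSum _ fun v _ => i1 n v]
    refine Finset.sum_congr rfl fun n _ => ?_
    rw [integral_finsetSum _ fun v _ => i1 n v]
  rw [hVr]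
  have hterm : ∀ n ∈ range R, ∑ v ∈ sph hG.connected o n,
      ∫ ω, (covT G θ (fun x => M x ω) o v - covT G θ' (fun x => M' x ω) o v) ^ 2 ∂P
      ≤ 12 * ∑ v ∈ sph hG.connected o n, ∫ ω, (M o ω - M' o ω) ^ 2
        * ((θ ^ 2) ^ n * etaP θ (fun i => M (geo G o v i) ω) n) ∂P
        + 3 * ((((sph hG.connected o n).card : ℝ) * n ^ 2) * (θ - θ') ^ 2)
        + 3 * ((θ' ^ 2) ^ n * ∑ v ∈ sph hG.connected o n,
          ∫ ω, (etaP θ (fun i => M (geo G o v i) ω) n
            - etaP θ' (fun i => M' (geo G o v i) ω) n) ^ 2 ∂P) := by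
    intro n _
    refine (Finset.sum_le_sum fun v hv => integral_cov_diff_le hG hM hM' hb hb' h0 h1 h0' h1'
      ((mem_sph hG.connected).1 hv)).trans (le_of_eq ?_)
    rw [Finset.sum_add_distrib, Finset.sum_add_distrib, Finset.sum_const, nsmul_eq_mul,
      Finset.mul_sum, Finset.mul_sum, Finset.mul_sum]
    ring
  refine (Finset.sum_le_sum hterm).trans (le_of_eq ?_)
  rw [Finset.sum_add_distrib, Finset.sum_add_distrib, Finset.mul_sum, Finset.sum_mul,
    Finset.mul_sum, Finset.mul_sum]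

end Vale.Agent.P161
end
end

section

section

/-!
# The closing step at the critical point (pure analysis)

`closing_zero`: a bounded monotone function satisfying the two integral inequalities (I) and (II)
of the critical point argument vanishes.
-/

open MeasureTheory Set Filter

namespace P161

/-- Iterated integral inequality: `w ≤ ∫ a w` forces `w ≤ 0`. -/
theorem gron_iter {s T B : ℝ} {w a A : ℝ → ℝ}
    (hA : ContinuousOn A (Icc s T)) (hd : ∀ r ∈ Ioo s T, HasDerivAt A (a r) r)
    (ha0 : ∀ r ∈ Ioo s T, 0 ≤ a r) (hint : IntervalIntegrable a volume s T)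
    (hwi : IntervalIntegrable (fun r => a r * w r) volume s T)
    (hwB : ∀ t ∈ Icc s T, w t ≤ B)
    (hw : ∀ t ∈ Icc s T, w t ≤ ∫ r in s..t, a r * w r) :
    ∀ t ∈ Icc s T, w t ≤ 0 := by
  have key : ∀ n : ℕ, ∀ t ∈ Icc s T, w t ≤ B * ((A t - A s) ^ n / (n.factorial : ℝ)) := by
    intro n
    induction n with
    | zero => intro t ht; simpa only [pow_zero, Nat.factorial_zero, Nat.cast_one, ne_eq, one_ne_zero, not_false_eq_true, div_self,     mul_one] using hwB t ht
    | succ n ih =>
      intro t ht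
      have hst : s ≤ t := ht.1
      have hsub : Icc s t ⊆ Icc s T := Icc_subset_Icc_right ht.2
      have hsubu : uIcc s t ⊆ uIcc s T := by
        rw [uIcc_of_le hst, uIcc_of_le (hst.trans ht.2)]; exact hsub
      have hAc : ContinuousOn A (Icc s t) := hA.mono hsub
      have hcont : ContinuousOn (fun r => B * ((A r - A s) ^ n / (n.factorial : ℝ)))
          (uIcc s t) := by
        rw [uIcc_of_le hst]
        exact continuousOn_const.mul (((hAc.sub continuousOn_const).pow n).div_const _)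
      have hi : IntervalIntegrable
          (fun r => a r * (B * ((A r - A s) ^ n / (n.factorial : ℝ)))) volume s t :=
        (hint.mono_set hsubu).mul_continuousOn hcont
      have h1 : ∫ r in s..t, a r * w r
          ≤ ∫ r in s..t, a r * (B * ((A r - A s) ^ n / (n.factorial : ℝ))) := by
        refine intervalIntegral.integral_mono_on_of_le_Ioo hst (hwi.mono_set hsubu) hi ?_
        intro r hr
        have hr' : r ∈ Ioo s T := ⟨hr.1, lt_of_lt_of_le hr.2 ht.2⟩
        exact mul_le_mul_of_nonneg_left (ih r ⟨hr'.1.le, hr'.2.le⟩) (ha0 r hr')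
      have h2 : ∫ r in s..t, a r * (B * ((A r - A s) ^ n / (n.factorial : ℝ)))
          = B * ((A t - A s) ^ (n + 1) / ((n + 1).factorial : ℝ))
            - B * ((A s - A s) ^ (n + 1) / ((n + 1).factorial : ℝ)) := by
        refine intervalIntegral.integral_eq_sub_of_hasDerivAt_of_le
          (f := fun r => B * ((A r - A s) ^ (n + 1) / ((n + 1).factorial : ℝ))) hst ?_ ?_ hi
        · exact continuousOn_const.mul (((hAc.sub continuousOn_const).pow (n + 1)).div_const _)
        · intro r hr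
          have hr' : r ∈ Ioo s T := ⟨hr.1, lt_of_lt_of_le hr.2 ht.2⟩
          have h3 := ((((hd r hr').sub_const (A s)).pow (n + 1)).div_const
            ((n + 1).factorial : ℝ)).const_mul B
          refine h3.congr_deriv ?_
          have hf : ((n + 1).factorial : ℝ) = ((n : ℝ) + 1) * (n.factorial : ℝ) := by
            rw [Nat.factorial_succ]; push_cast; ring
          have hn : (n.factorial : ℝ) ≠ 0 := by positivity
          have hn1 : ((n : ℝ) + 1) ≠ 0 := by (clear * -; positivity)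
          rw [hf]
          simp only [Nat.add_sub_cancel, Nat.cast_add, Nat.cast_one]
          (clear * - hn1 hn; field_simp)
      calc w t ≤ _ := hw t ht
        _ ≤ _ := h1
        _ = _ := h2
        _ = B * ((A t - A s) ^ (n + 1) / ((n + 1).factorial : ℝ)) := by simp only [sub_self, ne_eq, Nat.add_eq_zero_iff, one_ne_zero, and_false, not_false_eq_true, zero_pow, zero_div, mul_zero, sub_zero]
  intro t ht
  have hlim : Tendsto (fun n : ℕ => B * ((A t - A s) ^ n / (n.factorial : ℝ))) atTop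
      (nhds (B * 0)) :=
    (FloorSemiring.tendsto_pow_div_factorial_atTop (A t - A s)).const_mul B
  rw [mul_zero] at hlim
  exact ge_of_tendsto' hlim (fun n => key n t ht)

/-- Comparison with a supersolution. -/
theorem gron_super {s T B g : ℝ} {F a A e Φ dΦ : ℝ → ℝ}
    (hA : ContinuousOn A (Icc s T)) (hd : ∀ r ∈ Ioo s T, HasDerivAt A (a r) r)
    (ha0 : ∀ r ∈ Ioo s T, 0 ≤ a r) (hint : IntervalIntegrable a volume s T)
    (hFi : IntervalIntegrable (fun r => a r * F r) volume s T)
    (hei : IntervalIntegrable e volume s T)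
    (hF : ∀ t ∈ Icc s T, F t ≤ g + ∫ r in s..t, (a r * F r + e r))
    (hΦ : ContinuousOn Φ (Icc s T)) (hdΦ : ∀ r ∈ Ioo s T, HasDerivAt Φ (dΦ r) r)
    (hsup : ∀ r ∈ Ioo s T, a r * Φ r + e r ≤ dΦ r) (hg : g ≤ Φ s)
    (hB : ∀ t ∈ Icc s T, F t - Φ t ≤ B) : ∀ t ∈ Icc s T, F t ≤ Φ t := by
  intro t ht
  have hsT : s ≤ T := ht.1.trans ht.2
  have hΦi : IntervalIntegrable (fun r => a r * Φ r) volume s T := by
    refine hint.mul_continuousOn ?_
    rwa [uIcc_of_le hsT]
  have hwi : IntervalIntegrable (fun r => a r * (F r - Φ r)) volume s T := by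
    refine (hFi.sub hΦi).congr ?_
    intro r _
    simp only
    ring
  have h := gron_iter (w := fun r => F r - Φ r) hA hd ha0 hint hwi hB ?_ t ht
  · linarith only [h]
  · intro t ht
    have hst : s ≤ t := ht.1
    have hsubu : uIcc s t ⊆ uIcc s T := by
      rw [uIcc_of_le hst, uIcc_of_le (hst.trans ht.2)]; exact Icc_subset_Icc_right ht.2
    have h1 : ∫ r in s..t, (a r * Φ r + e r) ≤ Φ t - Φ s := by
      refine intervalIntegral.integral_le_sub_of_hasDeriv_right_of_le (g' := dΦ) hst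
        (hΦ.mono (Icc_subset_Icc_right ht.2)) ?_ ?_ ?_
      · intro x hx
        exact (hdΦ x ⟨hx.1, lt_of_lt_of_le hx.2 ht.2⟩).hasDerivWithinAt
      · have h4 := ((hΦi.add hei).mono_set hsubu)
        rw [intervalIntegrable_iff_integrableOn_Icc_of_le hst] at h4
        exact h4
      · intro x hx
        exact hsup x ⟨hx.1, lt_of_lt_of_le hx.2 ht.2⟩
    have h2 : ∫ r in s..t, (a r * F r + e r)
        = (∫ r in s..t, a r * (F r - Φ r)) + ∫ r in s..t, (a r * Φ r + e r) := by
      rw [← intervalIntegral.integral_add (hwi.mono_set hsubu)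
        ((hΦi.add hei).mono_set hsubu)]
      refine intervalIntegral.integral_congr ?_
      intro r _
      simp only
      ring
    have h3 := hF t ht
    linarith only [hg, h1, h2, h3]


/-- From (II): superpolynomial smallness at zero. -/
theorem small_poly {F : ℝ → ℝ} {t0 δ : ℝ} (hδ : 0 < δ)
    (hmono : MonotoneOn F (Icc 0 t0)) (h0 : ∀ t ∈ Icc 0 t0, 0 ≤ F t)
    (hII : ∀ P : ℕ, ∃ C : ℝ, ∀ t ∈ Icc 0 t0,
      F t ≤ (∫ r in (0 : ℝ)..t, C * r ^ (δ - 1) * F r) + C * t ^ P) (P : ℕ) :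
    ∃ C : ℝ, 0 ≤ C ∧ ∀ t ∈ Icc 0 t0, F t ≤ C * t ^ P := by
  obtain ⟨C₀, hC₀⟩ := hII (P + 1)
  set C : ℝ := max C₀ 0 with hCdef
  have hC0 : 0 ≤ C := le_max_right _ _
  by_cases ht0 : 0 ≤ t0
  swap
  · exact ⟨0, le_refl 0, fun t ht => absurd (ht.1.trans ht.2) ht0⟩
  have hFint : ∀ t ∈ Icc 0 t0, IntervalIntegrable F volume 0 t := fun t ht =>
    MonotoneOn.intervalIntegrable (by
      rw [uIcc_of_le ht.1]; exact hmono.mono (Icc_subset_Icc_right ht.2))
  have hint : ∀ t, IntervalIntegrable (fun r : ℝ => r ^ (δ - 1)) volume 0 t := fun t =>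
    intervalIntegral.intervalIntegrable_rpow' (by linarith only [hδ])
  have hprod : ∀ c : ℝ, ∀ t ∈ Icc 0 t0,
      IntervalIntegrable (fun r : ℝ => c * r ^ (δ - 1) * F r) volume 0 t := by
    intro c t ht
    have h1 : IntervalIntegrable (fun r : ℝ => c * r ^ (δ - 1)) volume 0 t :=
      (hint t).const_mul c
    rw [intervalIntegrable_iff_integrableOn_Ioc_of_le ht.1] at h1 ⊢
    have h2 := hFint t ht
    rw [intervalIntegrable_iff_integrableOn_Ioc_of_le ht.1] at h2
    refine Integrable.mul_bdd (c := F t0) h1 h2.aestronglyMeasurable ?_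
    rw [ae_restrict_iff' measurableSet_Ioc]
    filter_upwards with r hr
    have hr' : r ∈ Icc 0 t0 := ⟨hr.1.le, hr.2.trans ht.2⟩
    rw [Real.norm_eq_abs, abs_of_nonneg (h0 r hr')]
    exact hmono hr' ⟨ht0, le_refl _⟩ hr'.2
  -- the inequality with `C` in place of `C₀`
  have hC : ∀ t ∈ Icc 0 t0,
      F t ≤ 0 + ∫ r in (0 : ℝ)..t, (C * r ^ (δ - 1) * F r + C * ((P : ℝ) + 1) * r ^ P) := by
    intro t ht
    have hp : ∫ r in (0 : ℝ)..t, C * ((P : ℝ) + 1) * r ^ P = C * t ^ (P + 1) := by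
      rw [intervalIntegral.integral_const_mul, integral_pow]
      have : ((P : ℝ) + 1) ≠ 0 := by positivity
      field_simp
      simp
    have hpi : IntervalIntegrable (fun r : ℝ => C * ((P : ℝ) + 1) * r ^ P) volume 0 t := by
      apply Continuous.intervalIntegrable
      fun_prop
    rw [intervalIntegral.integral_add (hprod C t ht) hpi, hp, zero_add]
    have h1 : ∫ r in (0 : ℝ)..t, C₀ * r ^ (δ - 1) * F r
        ≤ ∫ r in (0 : ℝ)..t, C * r ^ (δ - 1) * F r := by
      refine intervalIntegral.integral_mono_on_of_le_Ioo ht.1 (hprod C₀ t ht) (hprod C t ht) ?_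
      intro r hr
      have hr' : r ∈ Icc 0 t0 := ⟨hr.1.le, (hr.2.trans_le ht.2).le⟩
      have h3 : 0 ≤ r ^ (δ - 1) * F r := mul_nonneg (Real.rpow_nonneg hr.1.le _) (h0 r hr')
      have h4 : C₀ ≤ C := le_max_left _ _
      nlinarith only [h3, h4]
    have h2 : C₀ * t ^ (P + 1) ≤ C * t ^ (P + 1) :=
      mul_le_mul_of_nonneg_right (le_max_left _ _) (pow_nonneg ht.1 _)
    exact (hC₀ t ht).trans (add_le_add h1 h2)
  have hmain := gron_super (s := 0) (T := t0) (B := F t0) (g := 0) (F := F)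
    (a := fun r => C * r ^ (δ - 1)) (A := fun r => C * (r ^ δ / δ))
    (e := fun r => C * ((P : ℝ) + 1) * r ^ P)
    (Φ := fun t => C * t ^ (P + 1) * Real.exp (C * (t ^ δ / δ)))
    (dΦ := fun t => (C * ((P : ℝ) + 1) * t ^ P) * Real.exp (C * (t ^ δ / δ))
      + C * t ^ (P + 1) * (Real.exp (C * (t ^ δ / δ)) * (C * t ^ (δ - 1))))
    ?_ ?_ ?_ ((hint t0).const_mul C) (hprod C t0 ⟨ht0, le_refl _⟩) ?_ hC ?_ ?_ ?_ ?_ ?_
  · refine ⟨C * t0 * Real.exp (C * (t0 ^ δ / δ)), by (clear * - ht0; positivity), fun t ht => ?_⟩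
    refine (hmain t ht).trans ?_
    have h1 : t ^ δ ≤ t0 ^ δ := Real.rpow_le_rpow ht.1 ht.2 hδ.le
    have h2 : Real.exp (C * (t ^ δ / δ)) ≤ Real.exp (C * (t0 ^ δ / δ)) := by
      apply Real.exp_le_exp.mpr
      exact mul_le_mul_of_nonneg_left (div_le_div_of_nonneg_right h1 hδ.le) hC0
    have h3 : 0 ≤ C * t ^ P := mul_nonneg hC0 (pow_nonneg ht.1 _)
    calc C * t ^ (P + 1) * Real.exp (C * (t ^ δ / δ))
        = (C * t ^ P) * (t * Real.exp (C * (t ^ δ / δ))) := by ring
      _ ≤ (C * t ^ P) * (t0 * Real.exp (C * (t0 ^ δ / δ))) := by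
          refine mul_le_mul_of_nonneg_left ?_ h3
          exact mul_le_mul ht.2 h2 (Real.exp_pos _).le ht0
      _ = C * t0 * Real.exp (C * (t0 ^ δ / δ)) * t ^ P := by ring
  · exact (continuousOn_const.mul ((continuousOn_id.rpow_const
      (fun x _ => Or.inr hδ.le)).div_const _))
  · intro r hr
    have h1 := ((Real.hasDerivAt_rpow_const (x := r) (p := δ) (Or.inl hr.1.ne')).div_const
      δ).const_mul C
    refine h1.congr_deriv ?_
    (clear * - hδ; field_simp)
  · intro r hr
    exact mul_nonneg hC0 (Real.rpow_nonneg hr.1.le _)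
  · apply Continuous.intervalIntegrable
    fun_prop
  · refine ((continuousOn_const.mul (continuousOn_id.pow _))).mul ?_
    exact Real.continuous_exp.comp_continuousOn
      (continuousOn_const.mul ((continuousOn_id.rpow_const
      (fun x _ => Or.inr hδ.le)).div_const _))
  · intro r hr
    have h1 := ((Real.hasDerivAt_rpow_const (x := r) (p := δ) (Or.inl hr.1.ne')).div_const
      δ).const_mul C
    have h2 := ((hasDerivAt_pow (P + 1) r).const_mul C).mul h1.exp
    refine h2.congr_deriv ?_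
    simp only [Nat.add_sub_cancel]
    push_cast
    (clear * - hδ; field_simp)
  · intro r hr
    have h1 : 1 ≤ Real.exp (C * (r ^ δ / δ)) := by
      apply Real.one_le_exp
      have := Real.rpow_nonneg hr.1.le δ
      (clear * - this hδ; positivity)
    have h2 : 0 ≤ C * ((P : ℝ) + 1) * r ^ P := by
      have := pow_nonneg hr.1.le P
      (clear * - this; positivity)
    have h3 : C * ((P : ℝ) + 1) * r ^ P
        ≤ (C * ((P : ℝ) + 1) * r ^ P) * Real.exp (C * (r ^ δ / δ)) :=
      le_mul_of_one_le_right h2 h1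
    have h4 : C * r ^ (δ - 1) * (C * r ^ (P + 1) * Real.exp (C * (r ^ δ / δ)))
        = C * r ^ (P + 1) * (Real.exp (C * (r ^ δ / δ)) * (C * r ^ (δ - 1))) := by ring
    linarith only [h3]
  · simp only [ne_eq, Nat.add_eq_zero_iff, one_ne_zero, and_false, not_false_eq_true, zero_pow, mul_zero, zero_mul, Std.le_refl]
  · intro t ht
    have h1 : 0 ≤ C * t ^ (P + 1) * Real.exp (C * (t ^ δ / δ)) := by
      have := pow_nonneg ht.1 (P + 1)
      (clear * - this; positivity)
    have h2 := hmono ht ⟨ht0, le_refl _⟩ ht.2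
    linarith only [h2, h1]


/-- Boundedness used in (I): polynomial growth against a double exponential. -/
theorem dexp_bound {c : ℝ} (hc : 0 < c) (n : ℕ) :
    ∃ M : ℝ, 0 ≤ M ∧ ∀ r : ℝ, 0 < r →
      (1 / r) ^ n * Real.exp (-(c / 2 * Real.exp (c * (1 / Real.sqrt r)))) ≤ M := by
  have hb : 0 < c ^ 2 / 2 := by positivity
  refine ⟨((2 * n).factorial : ℝ) / (c ^ 2 / 2) ^ (2 * n), by positivity, fun r hr => ?_⟩
  set x : ℝ := 1 / Real.sqrt r with hx
  have hsr : 0 < Real.sqrt r := Real.sqrt_pos.mpr hr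
  have hx0 : 0 < x := by positivity
  have hx2 : 1 / r = x ^ 2 := by
    rw [hx, div_pow, one_pow, Real.sq_sqrt hr.le]
  have h1 : c / 2 * Real.exp (c * x) ≥ c ^ 2 / 2 * x := by
    have := Real.add_one_le_exp (c * x)
    have h2 : c * x ≤ Real.exp (c * x) := by linarith only [this]
    calc c ^ 2 / 2 * x = c / 2 * (c * x) := by ring
      _ ≤ c / 2 * Real.exp (c * x) := mul_le_mul_of_nonneg_left h2 (by positivity)
  have h3 := Real.pow_div_factorial_le_exp (c ^ 2 / 2 * x) (by positivity) (2 * n)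
  have hfac : (0 : ℝ) < ((2 * n).factorial : ℝ) := by positivity
  rw [div_le_iff₀ hfac, mul_pow] at h3
  have h4 : x ^ (2 * n) ≤ ((2 * n).factorial : ℝ) / (c ^ 2 / 2) ^ (2 * n)
      * Real.exp (c ^ 2 / 2 * x) := by
    rw [div_mul_eq_mul_div, le_div_iff₀ (by positivity)]
    linarith only [h3]
  calc (1 / r) ^ n * Real.exp (-(c / 2 * Real.exp (c * x)))
      = x ^ (2 * n) * Real.exp (-(c / 2 * Real.exp (c * x))) := by rw [hx2, ← pow_mul]
    _ ≤ x ^ (2 * n) * Real.exp (-(c ^ 2 / 2 * x)) :=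
        mul_le_mul_of_nonneg_left (Real.exp_le_exp.mpr (by linarith only [h1])) (by (clear * - hr; positivity))
    _ ≤ (((2 * n).factorial : ℝ) / (c ^ 2 / 2) ^ (2 * n) * Real.exp (c ^ 2 / 2 * x))
          * Real.exp (-(c ^ 2 / 2 * x)) :=
        mul_le_mul_of_nonneg_right h4 (Real.exp_pos _).le
    _ = ((2 * n).factorial : ℝ) / (c ^ 2 / 2) ^ (2 * n) := by
        rw [mul_assoc, ← Real.exp_add]; simp

/-- The tail term in (I) is at most a multiple of `r ^ N` with a factor that is doubly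
exponentially small in `L`. -/
theorem tail_bound {c K : ℝ} (hc : 0 < c) (hK : 0 ≤ K) (k N : ℕ) :
    ∃ M : ℝ, 0 ≤ M ∧ ∀ L : ℝ, 0 ≤ L → ∀ r : ℝ, 0 < r →
      K * (1 / r) ^ k * Real.exp (-(c * Real.exp (c * (1 / Real.sqrt r + L))))
        ≤ M * Real.exp (-(c / 2 * Real.exp (c * L))) * r ^ N := by
  obtain ⟨M, hM0, hM⟩ := dexp_bound hc (k + N)
  refine ⟨K * M, by (clear * - hK hM0; positivity), fun L hL r hr => ?_⟩
  set x : ℝ := 1 / Real.sqrt r with hx
  have hsr : 0 < Real.sqrt r := Real.sqrt_pos.mpr hr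
  have hx0 : 0 < x := by positivity
  have h1 : 1 ≤ Real.exp (c * x) := Real.one_le_exp (by positivity)
  have h2 : 1 ≤ Real.exp (c * L) := Real.one_le_exp (by (clear * - hc hL; positivity))
  have h3 : (Real.exp (c * x) + Real.exp (c * L)) / 2 ≤ Real.exp (c * (x + L)) := by
    rw [mul_add, Real.exp_add]
    linarith only [mul_nonneg (sub_nonneg.2 h1) (sub_nonneg.2 h2), h2, h1]
  have h4 : Real.exp (-(c * Real.exp (c * (x + L))))
      ≤ Real.exp (-(c / 2 * Real.exp (c * x))) * Real.exp (-(c / 2 * Real.exp (c * L))) := by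
    rw [← Real.exp_add]
    apply Real.exp_le_exp.mpr
    nlinarith only [hc, h3]
  have h5 := hM r hr
  have hrr : (1 / r) ^ k = (1 / r) ^ (k + N) * r ^ N := by
    rw [pow_add, mul_assoc, ← mul_pow]
    rw [one_div, inv_mul_cancel₀ hr.ne', one_pow, mul_one]
  have h6 : 0 ≤ (1 / r) ^ k := by (clear * - hr; positivity)
  calc K * (1 / r) ^ k * Real.exp (-(c * Real.exp (c * (x + L))))
      ≤ K * (1 / r) ^ k * (Real.exp (-(c / 2 * Real.exp (c * x)))
          * Real.exp (-(c / 2 * Real.exp (c * L)))) :=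
        mul_le_mul_of_nonneg_left h4 (by positivity)
    _ = K * ((1 / r) ^ (k + N) * Real.exp (-(c / 2 * Real.exp (c * x))))
          * Real.exp (-(c / 2 * Real.exp (c * L))) * r ^ N := by rw [hrr]; ring
    _ ≤ K * M * Real.exp (-(c / 2 * Real.exp (c * L))) * r ^ N := by
        refine mul_le_mul_of_nonneg_right ?_ (by positivity)
        refine mul_le_mul_of_nonneg_right ?_ (Real.exp_pos _).le
        exact mul_le_mul_of_nonneg_left h5 hK

/-- Consequence of (I) on `[s, J]` for a fixed parameter `L`. -/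
theorem growth_I {F e : ℝ → ℝ} {J L K M : ℝ} {N : ℕ} (hKN : K ≤ N)
    (hmono : MonotoneOn F (Icc 0 J)) (h0 : ∀ t ∈ Icc 0 J, 0 ≤ F t) (hM : 0 ≤ M)
    (hei : ContinuousOn e (Ioi 0)) (htail : ∀ r ∈ Ioc 0 J, e r ≤ M * r ^ N)
    (hI : ∀ s t, 0 < s → s ≤ t → t ≤ J →
      F t ≤ F s + ∫ r in s..t, (K * (1 / r + L ^ 2) * F r + e r))
    {s t : ℝ} (hs : 0 < s) (hst : s ≤ t) (htJ : t ≤ J) :
    F t ≤ t ^ N * Real.exp (N * L ^ 2 * t) * (F s / s ^ N + M * (t - s)) := by
  have hpos : ∀ r ∈ Icc s J, 0 < r := fun r hr => hs.trans_le hr.1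
  have hne : ∀ r ∈ Icc s J, r ≠ 0 := fun r hr => (hpos r hr).ne'
  have hsJ : s ≤ J := hst.trans htJ
  have hFs0 : 0 ≤ F s := h0 s ⟨hs.le, hsJ⟩
  have hca : ∀ κ : ℝ, ContinuousOn (fun r : ℝ => κ * (1 / r + L ^ 2)) (Icc s J) := fun κ =>
    continuousOn_const.mul ((continuousOn_const.div continuousOn_id hne).add continuousOn_const)
  have hFi : IntervalIntegrable F volume s J :=
    MonotoneOn.intervalIntegrable (by
      rw [uIcc_of_le hsJ]; exact hmono.mono (Icc_subset_Icc_left hs.le))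
  have hFa : ∀ κ : ℝ, IntervalIntegrable (fun r : ℝ => κ * (1 / r + L ^ 2) * F r) volume s J :=
    fun κ => hFi.continuousOn_mul (by rw [uIcc_of_le hsJ]; exact hca κ)
  have hct : ContinuousOn e (Icc s J) := hei.mono hpos
  have hmain := gron_super (s := s) (T := J) (B := F J) (g := F s) (F := F)
    (a := fun r => (N : ℝ) * (1 / r + L ^ 2)) (A := fun r => (N : ℝ) * (Real.log r + L ^ 2 * r))
    (e := fun r => M * r ^ N)
    (Φ := fun t => t ^ N * Real.exp (N * L ^ 2 * t) * (F s / s ^ N + M * (t - s)))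
    (dΦ := fun t => ((N / t * t ^ N) * Real.exp (N * L ^ 2 * t)
        + t ^ N * (Real.exp (N * L ^ 2 * t) * (N * L ^ 2))) * (F s / s ^ N + M * (t - s))
      + t ^ N * Real.exp (N * L ^ 2 * t) * M)
    ?_ ?_ ?_ ?_ (hFa N) ?_ ?_ ?_ ?_ ?_ ?_ ?_
  · exact hmain t ⟨hst, htJ⟩
  · exact continuousOn_const.mul ((continuousOn_id.log hne).add
      (continuousOn_const.mul continuousOn_id))
  · intro r hr
    have hr0 : r ≠ 0 := (hs.trans hr.1).ne'
    have h1 := ((Real.hasDerivAt_log hr0).add ((hasDerivAt_id r).const_mul (L ^ 2))).const_mul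
      (N : ℝ)
    refine h1.congr_deriv ?_
    simp
  · intro r hr
    have : 0 < r := hs.trans hr.1
    (clear * - this; positivity)
  · refine ContinuousOn.intervalIntegrable ?_
    rw [uIcc_of_le hsJ]; exact hca N
  · apply Continuous.intervalIntegrable
    fun_prop
  · intro t ht
    have hsubu : uIcc s t ⊆ uIcc s J := by
      rw [uIcc_of_le ht.1, uIcc_of_le hsJ]; exact Icc_subset_Icc_right ht.2
    refine (hI s t hs ht.1 ht.2).trans (add_le_add le_rfl ?_)
    refine intervalIntegral.integral_mono_on_of_le_Ioo ht.1 ?_ ?_ ?_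
    · refine ((hFa K).mono_set hsubu).add ?_
      refine ContinuousOn.intervalIntegrable ?_
      rw [uIcc_of_le ht.1]; exact hct.mono (Icc_subset_Icc_right ht.2)
    · refine ((hFa N).mono_set hsubu).add ?_
      apply Continuous.intervalIntegrable
      fun_prop
    · intro r hr
      have hr0 : 0 < r := hs.trans hr.1
      have h1 := htail r ⟨hr0, (hr.2.trans_le ht.2).le⟩
      have h2 : 0 ≤ (1 / r + L ^ 2) * F r :=
        mul_nonneg (by (clear * - hr0; positivity)) (h0 r ⟨hr0.le, (hr.2.trans_le ht.2).le⟩)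
      have h3 : K * (1 / r + L ^ 2) * F r ≤ (N : ℝ) * (1 / r + L ^ 2) * F r := by
        rw [mul_assoc, mul_assoc]
        exact mul_le_mul_of_nonneg_right hKN h2
      exact add_le_add h3 h1
  · apply Continuous.continuousOn
    fun_prop
  · intro r hr
    have hr0 : 0 < r := hs.trans hr.1
    have h1 : HasDerivAt (fun t : ℝ => t ^ N) (N / r * r ^ N) r := by
      refine (hasDerivAt_pow N r).congr_deriv ?_
      rcases N with _ | n
      · simp
      · simp only [Nat.add_sub_cancel]
        rw [pow_succ]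
        (clear * - hr0; field_simp)
    have h2 : HasDerivAt (fun t : ℝ => Real.exp (N * L ^ 2 * t))
        (Real.exp (N * L ^ 2 * r) * (N * L ^ 2)) r := by
      have := ((hasDerivAt_id r).const_mul ((N : ℝ) * L ^ 2)).exp
      refine this.congr_deriv ?_
      simp
    have h3 : HasDerivAt (fun t : ℝ => F s / s ^ N + M * (t - s)) M r := by
      have := (((hasDerivAt_id r).sub_const s).const_mul M).const_add (F s / s ^ N)
      refine this.congr_deriv ?_
      simp
    exact (h1.mul h2).mul h3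
  · intro r hr
    have hr0 : 0 < r := hs.trans hr.1
    have h1 : 1 ≤ Real.exp (N * L ^ 2 * r) := Real.one_le_exp (by (clear * - hr0; positivity))
    have h2 : M * r ^ N ≤ r ^ N * Real.exp (N * L ^ 2 * r) * M := by
      have h3 : 0 ≤ M * r ^ N := by (clear * - hM hr0; positivity)
      calc M * r ^ N ≤ (M * r ^ N) * Real.exp (N * L ^ 2 * r) := le_mul_of_one_le_right h3 h1
        _ = _ := by ring
    have h4 : (N : ℝ) * (1 / r + L ^ 2) * (r ^ N * Real.exp (N * L ^ 2 * r)
          * (F s / s ^ N + M * (r - s)))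
        = ((N / r * r ^ N) * Real.exp (N * L ^ 2 * r)
        + r ^ N * (Real.exp (N * L ^ 2 * r) * (N * L ^ 2))) * (F s / s ^ N + M * (r - s)) := by
      ring
    linarith
  · have h1 : 1 ≤ Real.exp (N * L ^ 2 * s) := Real.one_le_exp (by (clear * - hs; positivity))
    have h2 : s ^ N * Real.exp (N * L ^ 2 * s) * (F s / s ^ N + M * (s - s))
        = Real.exp (N * L ^ 2 * s) * F s := by
      have : s ^ N ≠ 0 := pow_ne_zero _ hs.ne'
      field_simp
      ring
    rw [h2]
    exact le_mul_of_one_le_left hFs0 h1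
  · intro t ht
    have ht0 : 0 < t := hpos t ht
    have h1 : 0 ≤ t ^ N * Real.exp (N * L ^ 2 * t) * (F s / s ^ N + M * (t - s)) := by
      have h2 : 0 ≤ M * (t - s) := mul_nonneg hM (by linarith only [ht.1])
      (clear * - ht0 hFs0 hs h2; positivity)
    have h2 := hmono ⟨ht0.le, ht.2⟩ ⟨hs.le.trans hsJ, le_refl _⟩ ht.2
    linarith only [h1, h2]

/-- The double exponential beats the Gaussian growth. -/
theorem dexp_tendsto {c a : ℝ} (hc : 0 < c) :
    Tendsto (fun n : ℕ => Real.exp (a * (n : ℝ) ^ 2 - c * Real.exp (c * (n : ℝ)))) atTop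
      (nhds 0) := by
  have hb : 0 < c * (c ^ 3 / 6) := by positivity
  obtain ⟨m, hm⟩ := exists_nat_ge ((|a| + 1) / (c * (c ^ 3 / 6)))
  have hexp : Tendsto (fun n : ℕ => Real.exp (-(n : ℝ))) atTop (nhds 0) := by
    have h1 : Tendsto (fun n : ℕ => -(n : ℝ)) atTop atBot :=
      tendsto_neg_atTop_atBot.comp tendsto_natCast_atTop_atTop
    exact Real.tendsto_exp_atBot.comp h1
  refine squeeze_zero' (Eventually.of_forall fun n => (Real.exp_pos _).le) ?_ hexp
  filter_upwards [eventually_ge_atTop (max m 1)] with n hn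
  have hn1 : (1 : ℝ) ≤ n := by exact_mod_cast (le_max_right m 1).trans hn
  have hnm : (m : ℝ) ≤ n := by exact_mod_cast (le_max_left m 1).trans hn
  apply Real.exp_le_exp.mpr
  have h3 := Real.pow_div_factorial_le_exp (c * (n : ℝ)) (by positivity) 3
  have h6 : (Nat.factorial 3 : ℝ) = 6 := by norm_num [Nat.factorial]
  rw [h6] at h3
  have h4 : (|a| + 1) ≤ n * (c * (c ^ 3 / 6)) := by
    rw [div_le_iff₀ hb] at hm
    exact hm.trans (mul_le_mul_of_nonneg_right hnm hb.le)
  have h5 : (|a| + 1) * (n : ℝ) ^ 2 ≤ c * ((c * (n : ℝ)) ^ 3 / 6) := by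
    calc (|a| + 1) * (n : ℝ) ^ 2 ≤ (n * (c * (c ^ 3 / 6))) * (n : ℝ) ^ 2 :=
          mul_le_mul_of_nonneg_right h4 (by positivity)
      _ = c * ((c * (n : ℝ)) ^ 3 / 6) := by ring
  have h7 : c * ((c * (n : ℝ)) ^ 3 / 6) ≤ c * Real.exp (c * (n : ℝ)) :=
    mul_le_mul_of_nonneg_left h3 hc.le
  have h8 : a * (n : ℝ) ^ 2 ≤ |a| * (n : ℝ) ^ 2 :=
    mul_le_mul_of_nonneg_right (le_abs_self a) (by (clear * - hn1; positivity))
  have h9 : (n : ℝ) ≤ (n : ℝ) ^ 2 := by nlinarith only [hn1]
  linarith only [h9, h8, h7, h5]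

/-- **Closing theorem, general tail.** A bounded monotone function satisfying the integral
inequalities (I) and (II) of the critical point argument vanishes on `[0, J]`. -/
theorem closing_gen {F : ℝ → ℝ} {e : ℝ → ℝ → ℝ} {t0 J δ K c : ℝ} (ht0 : 0 < t0) (ht0J : t0 ≤ J)
    (hδ : 0 < δ) (hc : 0 < c)
    (hmono : MonotoneOn F (Icc 0 J)) (h0 : ∀ t ∈ Icc 0 J, 0 ≤ F t)
    (hII : ∀ P : ℕ, ∃ C : ℝ, ∀ t ∈ Icc 0 t0,
      F t ≤ (∫ r in (0 : ℝ)..t, C * r ^ (δ - 1) * F r) + C * t ^ P)
    (hec : ∀ L, ContinuousOn (e L) (Ioi 0))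
    (he : ∀ N : ℕ, ∃ M : ℝ, ∀ L : ℝ, 0 ≤ L → ∀ r ∈ Ioc 0 J,
      e L r ≤ M * Real.exp (-(c * Real.exp (c * L))) * r ^ N)
    (hI : ∀ L : ℝ, 0 ≤ L → ∀ s t, 0 < s → s ≤ t → t ≤ J →
      F t ≤ F s + ∫ r in s..t, (K * (1 / r + L ^ 2) * F r + e L r)) :
    ∀ t ∈ Icc 0 J, F t = 0 := by
  have hJ : 0 < J := ht0.trans_le ht0J
  obtain ⟨N, hN⟩ := exists_nat_ge K
  obtain ⟨M₀, hM₀⟩ := he N
  set M : ℝ := max M₀ 0 with hMdef
  have hM : 0 ≤ M := le_max_right _ _
  obtain ⟨C, hC0, hC⟩ := small_poly hδ (hmono.mono (Icc_subset_Icc_right ht0J))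
    (fun t ht => h0 t ⟨ht.1, ht.2.trans ht0J⟩) hII (N + 1)
  -- the value at zero
  have hF0 : F 0 = 0 := by
    refine le_antisymm ?_ (h0 0 ⟨le_refl _, hJ.le⟩)
    have := hC 0 ⟨le_refl _, ht0.le⟩
    simpa only [ge_iff_le, ne_eq, Nat.add_eq_zero_iff, one_ne_zero, and_false, not_false_eq_true, zero_pow,     mul_zero] using this
  -- the bound for positive times and a fixed parameter
  have hbd : ∀ L : ℝ, 0 ≤ L → ∀ t ∈ Ioc 0 J,
      F t ≤ t ^ N * Real.exp (N * L ^ 2 * t) * (M * Real.exp (-(c * Real.exp (c * L))) * t) := by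
    intro L hL t ht
    have hM1 : 0 ≤ M * Real.exp (-(c * Real.exp (c * L))) := by (clear * -; positivity)
    have htail : ∀ r ∈ Ioc 0 J, e L r ≤ M * Real.exp (-(c * Real.exp (c * L))) * r ^ N := by
      intro r hr
      refine (hM₀ L hL r hr).trans ?_
      have h1 : 0 ≤ Real.exp (-(c * Real.exp (c * L))) * r ^ N := by
        have := pow_nonneg hr.1.le N
        (clear * - this; positivity)
      rw [mul_assoc, mul_assoc]
      exact mul_le_mul_of_nonneg_right (le_max_left _ _) h1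
    have hs : ∀ s ∈ Ioc 0 (min t0 t), F t ≤ t ^ N * Real.exp (N * L ^ 2 * t)
        * (C * s + M * Real.exp (-(c * Real.exp (c * L))) * t) := by
      intro s hs
      have hst0 : s ≤ t0 := hs.2.trans (min_le_left _ _)
      have hst : s ≤ t := hs.2.trans (min_le_right _ _)
      have h1 := growth_I hN hmono h0 hM1 (hec L) htail (hI L hL) hs.1 hst ht.2
      refine h1.trans ?_
      have h2 : F s / s ^ N ≤ C * s := by
        rw [div_le_iff₀ (pow_pos hs.1 N)]
        have := hC s ⟨hs.1.le, hst0⟩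
        rw [pow_succ] at this
        linarith only [this]
      have h3 : M * Real.exp (-(c * Real.exp (c * L))) * (t - s)
          ≤ M * Real.exp (-(c * Real.exp (c * L))) * t :=
        mul_le_mul_of_nonneg_left (by linarith only [hs.1]) hM1
      have h4 : 0 ≤ t ^ N * Real.exp (N * L ^ 2 * t) := by
        have := pow_nonneg ht.1.le N
        (clear * - this; positivity)
      exact mul_le_mul_of_nonneg_left (add_le_add h2 h3) h4
    have hpos : 0 < min t0 t := lt_min ht0 ht.1
    have hlim : Tendsto (fun s : ℝ => t ^ N * Real.exp (N * L ^ 2 * t)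
        * (C * s + M * Real.exp (-(c * Real.exp (c * L))) * t)) (nhdsWithin 0 (Ioi 0))
        (nhds (t ^ N * Real.exp (N * L ^ 2 * t)
          * (C * 0 + M * Real.exp (-(c * Real.exp (c * L))) * t))) := by
      refine Tendsto.mono_left ?_ nhdsWithin_le_nhds
      apply Continuous.tendsto
      fun_prop
    have h5 : F t ≤ t ^ N * Real.exp (N * L ^ 2 * t)
        * (C * 0 + M * Real.exp (-(c * Real.exp (c * L))) * t) := by
      refine ge_of_tendsto hlim ?_
      filter_upwards [Ioc_mem_nhdsGT hpos] with s hs1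
      exact hs s hs1
    simpa only [ge_iff_le, mul_zero, zero_add] using h5
  intro t ht
  rcases ht.1.eq_or_lt with h | h
  · rw [← h]; exact hF0
  refine le_antisymm ?_ (h0 t ht)
  have hlim : Tendsto (fun n : ℕ => t ^ N * M * t
      * Real.exp ((N * t) * (n : ℝ) ^ 2 - c * Real.exp (c * (n : ℝ)))) atTop
      (nhds (t ^ N * M * t * 0)) := (dexp_tendsto hc).const_mul _
  rw [mul_zero] at hlim
  refine ge_of_tendsto' hlim (fun n => ?_)
  refine (hbd n (by (clear * -; positivity)) t ⟨h, ht.2⟩).trans (le_of_eq ?_)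
  rw [sub_eq_add_neg, Real.exp_add]
  ring_nf

/-- **Closing theorem**, with `1/r` in the tail. -/
theorem closing_zero_inv {F : ℝ → ℝ} {t0 J δ K c : ℝ} {k : ℕ} (ht0 : 0 < t0) (ht0J : t0 ≤ J)
    (hδ : 0 < δ) (hc : 0 < c) (hK : 0 ≤ K)
    (hmono : MonotoneOn F (Icc 0 J)) (h0 : ∀ t ∈ Icc 0 J, 0 ≤ F t)
    (hII : ∀ P : ℕ, ∃ C : ℝ, ∀ t ∈ Icc 0 t0,
      F t ≤ (∫ r in (0 : ℝ)..t, C * r ^ (δ - 1) * F r) + C * t ^ P)
    (hI : ∀ L : ℝ, 0 ≤ L → ∀ s t, 0 < s → s ≤ t → t ≤ J →
      F t ≤ F s + ∫ r in s..t, (K * (1 / r + L ^ 2) * F r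
        + K * (1 / r) ^ k * Real.exp (-(c * Real.exp (c * (1 / r + L)))))) :
    ∀ t ∈ Icc 0 J, F t = 0 := by
  have hJ : 0 < J := ht0.trans_le ht0J
  have hsJ : 0 < Real.sqrt J := Real.sqrt_pos.mpr hJ
  set c' : ℝ := min c (c / Real.sqrt J) with hc'
  have hc'0 : 0 < c' := lt_min hc (by positivity)
  have hcc : c' ≤ c := min_le_left _ _
  have hcJ : c' ≤ c / Real.sqrt J := min_le_right _ _
  have hc2 : 0 < c' / 2 := by (clear * - hc hJ; positivity)
  refine closing_gen (K := K) (c := c' / 2) ht0 ht0J hδ hc2 hmono h0 hII ?_ ?_ hI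
  · intro L
    have hne : ∀ r ∈ Ioi (0 : ℝ), r ≠ 0 := fun r hr => ne_of_gt hr
    refine (continuousOn_const.mul ((continuousOn_const.div continuousOn_id hne).pow k)).mul ?_
    refine Real.continuous_exp.comp_continuousOn (ContinuousOn.neg ?_)
    refine continuousOn_const.mul (Real.continuous_exp.comp_continuousOn ?_)
    exact continuousOn_const.mul ((continuousOn_const.div continuousOn_id hne).add
      continuousOn_const)
  · intro N
    obtain ⟨M, hM0, hM⟩ := tail_bound hc'0 hK k N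
    refine ⟨M, fun L hL r hr => ?_⟩
    have hr0 : 0 < r := hr.1
    have hsr : 0 < Real.sqrt r := Real.sqrt_pos.mpr hr0
    have hrJ : Real.sqrt r ≤ Real.sqrt J := Real.sqrt_le_sqrt hr.2
    -- compare the two tails
    have hcmp : c' * (1 / Real.sqrt r + L) ≤ c * (1 / r + L) := by
      have h1 : c' * (1 / Real.sqrt r) ≤ c * (1 / r) := by
        have h2 : (1 / r : ℝ) = 1 / Real.sqrt r * (1 / Real.sqrt r) := by
          rw [div_mul_div_comm, Real.mul_self_sqrt hr0.le, one_mul]
        rw [h2, ← mul_assoc]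
        refine mul_le_mul_of_nonneg_right ?_ (by positivity)
        refine hcJ.trans ?_
        rw [mul_one_div]
        exact div_le_div_of_nonneg_left hc.le hsr hrJ
      nlinarith only [h1, hcc, hL]
    have hstep : K * (1 / r) ^ k * Real.exp (-(c * Real.exp (c * (1 / r + L))))
        ≤ K * (1 / r) ^ k * Real.exp (-(c' * Real.exp (c' * (1 / Real.sqrt r + L)))) := by
      refine mul_le_mul_of_nonneg_left ?_ (by (clear * - hK hr0; positivity))
      apply Real.exp_le_exp.mpr
      have h3 : Real.exp (c' * (1 / Real.sqrt r + L)) ≤ Real.exp (c * (1 / r + L)) :=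
        Real.exp_le_exp.mpr hcmp
      have h4 : c' * Real.exp (c' * (1 / Real.sqrt r + L)) ≤ c * Real.exp (c * (1 / r + L)) :=
        mul_le_mul hcc h3 (Real.exp_pos _).le hc.le
      linarith only [h4]
    refine hstep.trans ((hM L hL r hr.1).trans ?_)
    have h1 : Real.exp (-(c' / 2 * Real.exp (c' * L)))
        ≤ Real.exp (-(c' / 2 * Real.exp (c' / 2 * L))) := by
      apply Real.exp_le_exp.mpr
      have h2 : Real.exp (c' / 2 * L) ≤ Real.exp (c' * L) := by
        apply Real.exp_le_exp.mpr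
        nlinarith only [hc'0, hL]
      nlinarith only [hc'0, h2]
    exact mul_le_mul_of_nonneg_right (mul_le_mul_of_nonneg_left h1 hM0)
      (pow_nonneg hr.1.le N)

end P161
end
end

section

section

/-!
# Exponential and double exponential moments of the weighted path sums

Abstract form: `W n y` is the truncated sum over the descendants of `y`, which satisfies
`W (n+1) y = x y * (1 + (κ/b) * ∑ z ∈ ch y, W n z)` with transfer factors `x y ∈ [0,1]` and
`κ ≤ 1`.  The two inputs are the one-step bound `hS1` (the conditional mean of `x y` given the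
information in the subtree of a child is at most `1 - ρ`) and the product bound `hS2` (even
functionals of disjoint subtrees are independent).  The decay rate is `R = 1 - κ * (1 - ρ)`.
-/

open Finset MeasureTheory

namespace Vale.Agent.P161

theorem exp_mul_le_of_mem_unit {x t : ℝ} (hx0 : 0 ≤ x) (hx1 : x ≤ 1) :
    Real.exp (x * t) ≤ 1 + x * (Real.exp t - 1) := by
  have h := convexOn_exp.2 (Set.mem_univ (0 : ℝ)) (Set.mem_univ t)
    (sub_nonneg.2 hx1) hx0 (by ring)
  simp only [smul_eq_mul, mul_zero, zero_add, Real.exp_zero, mul_one] at h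
  linarith only [h]

theorem exp_avg_le {ι : Type*} (s : Finset ι) {b : ℕ} (hb : 0 < b) (hs : s.card = b)
    (f : ι → ℝ) : Real.exp ((1 / b) * ∑ z ∈ s, f z) ≤ (1 / b) * ∑ z ∈ s, Real.exp (f z) := by
  have hb' : (b : ℝ) ≠ 0 := by positivity
  have h := convexOn_exp.map_sum_le (t := s) (w := fun _ => (1 / b : ℝ)) (p := f)
    (fun _ _ => by positivity) (by simp only [one_div, sum_const, hs, nsmul_eq_mul, ne_eq, hb', not_false_eq_true, mul_inv_cancel₀]) (fun _ _ => Set.mem_univ _)
  simpa only [smul_eq_mul, ← mul_sum] using h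

theorem exp_step_le {ι : Type*} (s : Finset ι) {b : ℕ} (hb : 0 < b) (hs : s.card = b)
    {x c κ : ℝ} (hκ0 : 0 ≤ κ) (hκ1 : κ ≤ 1) (hx0 : 0 ≤ x) (hx1 : x ≤ 1) (W : ι → ℝ) :
    Real.exp (c * (x * (1 + (κ / b) * ∑ z ∈ s, W z))) ≤
      1 + (1 / b) * ∑ z ∈ s, x * (((1 - κ) * Real.exp c - 1) +
        κ * Real.exp c * Real.exp (c * W z)) := by
  have hb' : (b : ℝ) ≠ 0 := by positivity
  have h1 : c * (x * (1 + (κ / b) * ∑ z ∈ s, W z)) =
      x * ((1 - κ) * c + κ * ((1 / b) * ∑ z ∈ s, c * (1 + W z))) := by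
    rw [← mul_sum, sum_add_distrib, sum_const, hs, nsmul_eq_mul, mul_one]
    field_simp
    ring
  rw [h1]
  refine (exp_mul_le_of_mem_unit hx0 hx1).trans ?_
  have h2 := exp_avg_le s hb hs (fun z => c * (1 + W z))
  have h3 := convexOn_exp.2 (Set.mem_univ c) (Set.mem_univ ((1 / b) * ∑ z ∈ s, c * (1 + W z)))
    (sub_nonneg.2 hκ1) hκ0 (by ring)
  simp only [smul_eq_mul] at h3
  have h4 : Real.exp ((1 - κ) * c + κ * ((1 / b) * ∑ z ∈ s, c * (1 + W z))) ≤
      (1 - κ) * Real.exp c + κ * ((1 / b) * ∑ z ∈ s, Real.exp (c * (1 + W z))) :=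
    h3.trans (add_le_add le_rfl (mul_le_mul_of_nonneg_left h2 hκ0))
  have h5 : ∀ z, Real.exp (c * (1 + W z)) = Real.exp c * Real.exp (c * W z) := by
    intro z
    rw [← Real.exp_add]
    ring_nf
  simp only [h5] at h4
  have h6 : (1 / b : ℝ) * ∑ z ∈ s, x * (((1 - κ) * Real.exp c - 1) +
        κ * Real.exp c * Real.exp (c * W z)) =
      x * ((1 - κ) * Real.exp c + κ * ((1 / b) * ∑ z ∈ s, Real.exp c * Real.exp (c * W z))
        - 1) := by
    rw [← mul_sum, sum_add_distrib, sum_const, hs, nsmul_eq_mul, ← mul_sum, ← mul_sum]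
    field_simp
    ring
  rw [h6]
  have h7 := mul_le_mul_of_nonneg_left (sub_le_sub_right h4 1) hx0
  linarith only [h7]

theorem exp_step_le' {ι : Type*} (s : Finset ι) {b : ℕ} (hb : 0 < b) (m : ℕ)
    {x c κ : ℝ} (hκ0 : 0 ≤ κ) (hκ1 : κ ≤ 1) (hc : 0 ≤ c) (hx1 : x ≤ 1)
    (W : ι → ℝ) (hW : ∀ z ∈ s, 0 ≤ W z) :
    Real.exp ((b : ℝ) ^ (m + 1) * c * (x * (1 + (κ / b) * ∑ z ∈ s, W z))) ≤
      Real.exp ((b : ℝ) ^ (m + 1) * c) * ∏ z ∈ s, Real.exp ((b : ℝ) ^ m * c * W z) := by
  have hb' : (b : ℝ) ≠ 0 := by positivity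
  rw [← Real.exp_sum, ← Real.exp_add, ← mul_sum]
  apply Real.exp_le_exp.2
  have h0 : 0 ≤ ∑ z ∈ s, W z := sum_nonneg hW
  have h1 : x * (1 + (κ / b) * ∑ z ∈ s, W z) ≤ 1 + (1 / b) * ∑ z ∈ s, W z :=
    (mul_le_of_le_one_left (by (clear * - hκ0 hb h0; positivity)) hx1).trans (by (clear * - hκ1 hb h0; gcongr))
  calc (b : ℝ) ^ (m + 1) * c * (x * (1 + (κ / b) * ∑ z ∈ s, W z))
      ≤ (b : ℝ) ^ (m + 1) * c * (1 + (1 / b) * ∑ z ∈ s, W z) :=
        mul_le_mul_of_nonneg_left h1 (by positivity)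
    _ = (b : ℝ) ^ (m + 1) * c + (b : ℝ) ^ m * c * ∑ z ∈ s, W z := by
        rw [pow_succ]; field_simp

theorem half_step (R : ℝ) : Real.exp (R / 2) * (2 - R) ≤ 2 := by
  have h2 : 1 - R / 2 ≤ Real.exp (-(R / 2)) := by
    have := Real.add_one_le_exp (-(R / 2)); linarith
  have h3 : Real.exp (R / 2) * (1 - R / 2) ≤ 1 := by
    calc Real.exp (R / 2) * (1 - R / 2) ≤ Real.exp (R / 2) * Real.exp (-(R / 2)) :=
          mul_le_mul_of_nonneg_left h2 (Real.exp_pos _).le
      _ = 1 := by rw [← Real.exp_add]; simp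
  linarith only [h3]

theorem rho_step {ρ κ : ℝ} (hρ0 : 0 ≤ ρ) (hρ1 : ρ ≤ 1) (hκ0 : 0 ≤ κ) (hκ1 : κ ≤ 1) :
    1 + (1 - ρ) * (((1 - κ) * Real.exp ((1 - κ * (1 - ρ)) / 2) - 1) +
      κ * Real.exp ((1 - κ * (1 - ρ)) / 2) * 2) ≤ 2 := by
  set R := 1 - κ * (1 - ρ) with hR
  have hR0 : 0 ≤ R := by
    have : κ * (1 - ρ) ≤ 1 * 1 := mul_le_mul hκ1 (by linarith only [hρ0]) (by linarith) zero_le_one
    rw [hR]; linarith
  have hR1 : R ≤ 1 := by
    have : 0 ≤ κ * (1 - ρ) := mul_nonneg hκ0 (by linarith)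
    rw [hR]; linarith
  have h1 := half_step R
  have h2 : 1 ≤ Real.exp (R / 2) := Real.one_le_exp (by linarith only [hR0])
  have h3 : ρ ≤ ρ * Real.exp (R / 2) := le_mul_of_one_le_right hρ0 h2
  have h4 : 1 + (1 - ρ) * (((1 - κ) * Real.exp (R / 2) - 1) + κ * Real.exp (R / 2) * 2) =
      ρ + (1 - ρ) * (1 + κ) * Real.exp (R / 2) := by ring
  rw [h4]
  have h5 : ρ * Real.exp (R / 2) + (1 - ρ) * (1 + κ) * Real.exp (R / 2) =
      Real.exp (R / 2) * (2 - R) := by rw [hR]; ring
  linarith only [h1, h3]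

/-- weighted path sums: data of the recursion -/
structure PathSum (Y Ω : Type*) [MeasurableSpace Ω] (b : ℕ) (κ : ℝ) where
  /-- children -/
  ch : Y → Finset Y
  /-- transfer factors -/
  x : Y → Ω → ℝ
  /-- truncated sums -/
  W : ℕ → Y → Ω → ℝ
  /-- admissible vertices: those for which `n` more generations are available -/
  D : ℕ → Set Y
  card_ch : ∀ n, ∀ y ∈ D (n + 1), (ch y).card = b
  ch_mem : ∀ n, ∀ y ∈ D (n + 1), ∀ z ∈ ch y, z ∈ D n
  x_nonneg : ∀ y ω, 0 ≤ x y ω
  x_le_one : ∀ y ω, x y ω ≤ 1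
  x_meas : ∀ y, Measurable (x y)
  W_zero : ∀ y ω, W 0 y ω = 0
  W_succ : ∀ n, ∀ y, ∀ ω,
    W (n + 1) y ω = x y ω * (1 + (κ / b) * ∑ z ∈ ch y, W n z ω)
  κ_nonneg : 0 ≤ κ
  κ_le_one : κ ≤ 1

namespace PathSum

variable {Y Ω : Type*} [MeasurableSpace Ω] {b : ℕ} {κ : ℝ} (S : PathSum Y Ω b κ)

theorem W_nonneg (n : ℕ) : ∀ y ω, 0 ≤ S.W n y ω := by
  induction n with
  | zero => intro y ω; rw [S.W_zero]
  | succ n ih =>
    intro y ω
    rw [S.W_succ]
    have := S.x_nonneg y ω
    have h1 := S.κ_nonneg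
    have h2 : 0 ≤ ∑ z ∈ S.ch y, S.W n z ω := sum_nonneg fun z _ => ih z ω
    (clear * - this h1 h2; positivity)

theorem W_le (hb : 0 < b) (n : ℕ) : ∀ y ∈ S.D n, ∀ ω, S.W n y ω ≤ n := by
  have hb' : (b : ℝ) ≠ 0 := by positivity
  induction n with
  | zero => intro y _ ω; rw [S.W_zero]; simp only [CharP.cast_eq_zero, Std.le_refl]
  | succ n ih =>
    intro y hy ω
    rw [S.W_succ]
    have h2 : 0 ≤ ∑ z ∈ S.ch y, S.W n z ω := sum_nonneg fun z _ => S.W_nonneg n z ω
    have h3 : ∑ z ∈ S.ch y, S.W n z ω ≤ b * n := by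
      calc ∑ z ∈ S.ch y, S.W n z ω ≤ ∑ z ∈ S.ch y, (n : ℝ) :=
            sum_le_sum fun z hz => ih z (S.ch_mem n y hy z hz) ω
        _ = b * n := by rw [sum_const, S.card_ch n y hy, nsmul_eq_mul]
    have h4 := S.κ_nonneg
    have h5 := S.κ_le_one
    calc S.x y ω * (1 + (κ / b) * ∑ z ∈ S.ch y, S.W n z ω)
        ≤ 1 + (κ / b) * ∑ z ∈ S.ch y, S.W n z ω :=
          mul_le_of_le_one_left (by (clear * - h4 hb h2; positivity)) (S.x_le_one y ω)
      _ ≤ 1 + (1 / b) * ∑ z ∈ S.ch y, S.W n z ω := by (clear * - h5 hb h2; gcongr)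
      _ ≤ 1 + (1 / b) * (b * n) := by (clear * - h3 hb; gcongr)
      _ = ((n + 1 : ℕ) : ℝ) := by push_cast; field_simp; ring

theorem W_meas (n : ℕ) : ∀ y, Measurable (S.W n y) := by
  induction n with
  | zero =>
    intro y
    have : S.W 0 y = fun _ => 0 := funext fun ω => S.W_zero y ω
    rw [this]; exact measurable_const
  | succ n ih =>
    intro y
    have : S.W (n + 1) y = fun ω => S.x y ω * (1 + (κ / b) * ∑ z ∈ S.ch y, S.W n z ω) :=
      funext fun ω => S.W_succ n y ω
    rw [this]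
    exact (S.x_meas y).mul (measurable_const.add
      (measurable_const.mul (Finset.measurable_sum _ fun z _ => ih z)))

theorem exp_meas (n : ℕ) (y : Y) (s : ℝ) : Measurable fun ω => Real.exp (s * S.W n y ω) :=
  Real.measurable_exp.comp ((S.W_meas n y).const_mul s)

variable {P : Measure Ω} [IsProbabilityMeasure P]

theorem integrable_exp (hb : 0 < b) (n : ℕ) {y : Y} (hy : y ∈ S.D n) (s : ℝ) :
    Integrable (fun ω => Real.exp (s * S.W n y ω)) P := by
  refine Integrable.of_bound (S.exp_meas n y s).aestronglyMeasurable (Real.exp (|s| * n))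
    (Filter.Eventually.of_forall fun ω => ?_)
  rw [Real.norm_eq_abs, abs_of_pos (Real.exp_pos _)]
  apply Real.exp_le_exp.2
  calc s * S.W n y ω ≤ |s| * S.W n y ω :=
        mul_le_mul_of_nonneg_right (le_abs_self s) (S.W_nonneg n y ω)
    _ ≤ |s| * n := mul_le_mul_of_nonneg_left (S.W_le hb n y hy ω) (abs_nonneg _)

theorem integrable_affine_exp (hb : 0 < b) (n : ℕ) {y : Y} (hy : y ∈ S.D n) (a β s : ℝ) :
    Integrable (fun ω => a + β * Real.exp (s * S.W n y ω)) P :=
  (integrable_const a).add ((S.integrable_exp hb n hy s).const_mul β)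

theorem integrable_x_mul (y : Y) {f : Ω → ℝ} (hf : Integrable f P) :
    Integrable (fun ω => S.x y ω * f ω) P := by
  refine hf.bdd_mul (c := 1) (S.x_meas y).aestronglyMeasurable
    (Filter.Eventually.of_forall fun ω => ?_)
  rw [Real.norm_eq_abs, abs_of_nonneg (S.x_nonneg y ω)]
  exact S.x_le_one y ω

/-- the one-step bound, in the form of affine functions of an exponential -/
def OneStep (P : Measure Ω) (ρ : ℝ) : Prop :=
  ∀ n, ∀ y ∈ S.D (n + 1), ∀ z ∈ S.ch y, ∀ a β c : ℝ, 0 ≤ β → 0 ≤ c → 0 ≤ a + β →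
      ∫ ω, S.x y ω * (a + β * Real.exp (c * S.W n z ω)) ∂P ≤
        (1 - ρ) * ∫ ω, (a + β * Real.exp (c * S.W n z ω)) ∂P

/-- the product bound over the children -/
def ProdBound (P : Measure Ω) : Prop :=
  ∀ n, ∀ y ∈ S.D (n + 1), ∀ s : ℝ, 0 ≤ s →
      ∫ ω, ∏ z ∈ S.ch y, Real.exp (s * S.W n z ω) ∂P ≤
        ∏ z ∈ S.ch y, ∫ ω, Real.exp (s * S.W n z ω) ∂P

/-- the one-step bound gives a uniform exponential moment -/
theorem integral_exp_le (hb : 0 < b) {ρ : ℝ} (hρ0 : 0 ≤ ρ) (hρ1 : ρ ≤ 1)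
    (hS1 : S.OneStep P ρ)
    (n : ℕ) : ∀ y ∈ S.D n, ∫ ω, Real.exp ((1 - κ * (1 - ρ)) / 2 * S.W n y ω) ∂P ≤ 2 := by
  have hb' : (b : ℝ) ≠ 0 := by positivity
  have hκ0 := S.κ_nonneg
  have hκ1 := S.κ_le_one
  set c := (1 - κ * (1 - ρ)) / 2 with hc
  have hc0 : 0 ≤ c := by
    have : κ * (1 - ρ) ≤ 1 * 1 := mul_le_mul hκ1 (by linarith only [hρ0]) (by linarith only [hρ1]) zero_le_one
    rw [hc]; linarith only [this]
  induction n with
  | zero => intro y _; simp [S.W_zero]
  | succ n ih =>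
    intro y hy
    set a := (1 - κ) * Real.exp c - 1 with ha
    set β := κ * Real.exp c with hβ
    have hβ0 : 0 ≤ β := mul_nonneg hκ0 (Real.exp_pos _).le
    have haβ : 0 ≤ a + β := by
      have := Real.one_le_exp hc0
      rw [ha, hβ]; linarith only [this]
    have hint : ∀ z ∈ S.ch y, Integrable
        (fun ω => S.x y ω * (a + β * Real.exp (c * S.W n z ω))) P := fun z hz =>
      S.integrable_x_mul y (S.integrable_affine_exp hb n (S.ch_mem n y hy z hz) _ _ _)
    have h1 : ∫ ω, Real.exp (c * S.W (n + 1) y ω) ∂P ≤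
        ∫ ω, (1 + (1 / b) * ∑ z ∈ S.ch y,
          S.x y ω * (a + β * Real.exp (c * S.W n z ω))) ∂P := by
      apply integral_mono (S.integrable_exp hb (n + 1) hy _)
      · exact (integrable_const _).add ((integrable_finsetSum _ hint).const_mul _)
      · intro ω
        simp only [S.W_succ]
        exact exp_step_le _ hb (S.card_ch n y hy) hκ0 hκ1 (S.x_nonneg y ω) (S.x_le_one y ω) _
    refine h1.trans ?_
    rw [integral_add (integrable_const _) ((integrable_finsetSum _ hint).const_mul _),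
      integral_const_mul, integral_finsetSum _ hint]
    have h2 : ∀ z ∈ S.ch y, ∫ ω, S.x y ω * (a + β * Real.exp (c * S.W n z ω)) ∂P ≤
        (1 - ρ) * (a + β * 2) := by
      intro z hz
      have hzD := S.ch_mem n y hy z hz
      refine (hS1 n y hy z hz a β c hβ0 hc0 haβ).trans ?_
      apply mul_le_mul_of_nonneg_left _ (by linarith only [hρ1])
      rw [integral_add (integrable_const _) ((S.integrable_exp hb n hzD c).const_mul β),
        integral_const_mul]
      simp only [integral_const, probReal_univ, smul_eq_mul, one_mul]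
      have h6 := mul_le_mul_of_nonneg_left (ih z hzD) hβ0
      linarith only [h6]
    have h7 : ∑ z ∈ S.ch y, ∫ ω, S.x y ω * (a + β * Real.exp (c * S.W n z ω)) ∂P ≤
        b * ((1 - ρ) * (a + β * 2)) := by
      refine (sum_le_sum h2).trans ?_
      rw [sum_const, S.card_ch n y hy, nsmul_eq_mul]
    have h8 : (1 / b : ℝ) * ∑ z ∈ S.ch y,
        ∫ ω, S.x y ω * (a + β * Real.exp (c * S.W n z ω)) ∂P ≤ (1 - ρ) * (a + β * 2) := by
      calc _ ≤ (1 / b : ℝ) * (b * ((1 - ρ) * (a + β * 2))) :=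
            mul_le_mul_of_nonneg_left h7 (by positivity)
        _ = _ := by (clear * - hb'; field_simp)
    have h9 := rho_step hρ0 hρ1 hκ0 hκ1
    rw [← hc, ← ha, ← hβ] at h9
    simp only [integral_const, probReal_univ, smul_eq_mul, mul_one]
    linarith only [h9, h8]

/-- both inputs give the double exponential family of moments -/
theorem integral_exp_pow_le (hb : 0 < b) {ρ : ℝ} (hρ0 : 0 ≤ ρ) (hρ1 : ρ ≤ 1)
    (hS1 : S.OneStep P ρ) (hS2 : S.ProdBound P)
    (m : ℕ) : ∀ n, ∀ y ∈ S.D n,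
      ∫ ω, Real.exp ((b : ℝ) ^ m * ((1 - κ * (1 - ρ)) / 2) * S.W n y ω) ∂P ≤
      Real.exp ((b : ℝ) ^ m * (Real.log 2 + m * ((1 - κ * (1 - ρ)) / 2))) := by
  have hκ0 := S.κ_nonneg
  have hκ1 := S.κ_le_one
  have hc0 : 0 ≤ (1 - κ * (1 - ρ)) / 2 := by
    have : κ * (1 - ρ) ≤ 1 * 1 := mul_le_mul hκ1 (by linarith only [hρ0]) (by linarith only [hρ1]) zero_le_one
    linarith only [this]
  have hbase := S.integral_exp_le (P := P) hb hρ0 hρ1 hS1
  set c := (1 - κ * (1 - ρ)) / 2 with hc
  induction m with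
  | zero =>
    intro n y hy
    simp only [pow_zero, one_mul, Nat.cast_zero, zero_mul, add_zero]
    rw [Real.exp_log (by norm_num)]
    exact hbase n y hy
  | succ m ih =>
    intro n
    cases n with
    | zero =>
      intro y _
      simp only [S.W_zero, mul_zero, Real.exp_zero, integral_const, probReal_univ, smul_eq_mul, mul_one]
      rw [← Real.exp_zero]
      apply Real.exp_le_exp.2
      have : 0 < Real.log 2 := Real.log_pos (by (clear * -; norm_num))
      (clear * - hb hc0; (clear * - hb hc0; positivity))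
    | succ n =>
      intro y hy
      have hprod : Integrable (fun ω => ∏ z ∈ S.ch y,
          Real.exp ((b : ℝ) ^ m * c * S.W n z ω)) P := by
        refine Integrable.of_bound (Finset.measurable_prod _ fun z _ =>
          S.exp_meas n z _).aestronglyMeasurable
          (∏ z ∈ S.ch y, Real.exp ((b : ℝ) ^ m * c * n))
          (Filter.Eventually.of_forall fun ω => ?_)
        rw [Real.norm_eq_abs, abs_of_nonneg (prod_nonneg fun z _ => (Real.exp_pos _).le)]
        apply prod_le_prod (fun z _ => (Real.exp_pos _).le)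
        intro z hz
        apply Real.exp_le_exp.2
        exact mul_le_mul_of_nonneg_left (S.W_le hb n z (S.ch_mem n y hy z hz) ω) (by (clear * - hb hc0; positivity))
      calc ∫ ω, Real.exp ((b : ℝ) ^ (m + 1) * c * S.W (n + 1) y ω) ∂P
          ≤ ∫ ω, Real.exp ((b : ℝ) ^ (m + 1) * c) *
              ∏ z ∈ S.ch y, Real.exp ((b : ℝ) ^ m * c * S.W n z ω) ∂P := by
            apply integral_mono (S.integrable_exp hb (n + 1) hy _) (hprod.const_mul _)
            intro ω
            simp only [S.W_succ]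
            exact exp_step_le' _ hb m hκ0 hκ1 hc0 (S.x_le_one y ω) _
              fun z _ => S.W_nonneg n z ω
        _ = Real.exp ((b : ℝ) ^ (m + 1) * c) *
              ∫ ω, ∏ z ∈ S.ch y, Real.exp ((b : ℝ) ^ m * c * S.W n z ω) ∂P :=
            integral_const_mul _ _
        _ ≤ Real.exp ((b : ℝ) ^ (m + 1) * c) *
              ∏ z ∈ S.ch y, ∫ ω, Real.exp ((b : ℝ) ^ m * c * S.W n z ω) ∂P :=
            mul_le_mul_of_nonneg_left (hS2 n y hy _ (by positivity)) (Real.exp_pos _).le
        _ ≤ Real.exp ((b : ℝ) ^ (m + 1) * c) *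
              ∏ z ∈ S.ch y, Real.exp ((b : ℝ) ^ m * (Real.log 2 + m * c)) := by
            apply mul_le_mul_of_nonneg_left _ (Real.exp_pos _).le
            apply prod_le_prod
            · intro z _
              exact integral_nonneg fun ω => (Real.exp_pos _).le
            · intro z hz
              exact ih n z (S.ch_mem n y hy z hz)
        _ = Real.exp ((b : ℝ) ^ (m + 1) * (Real.log 2 + (m + 1 : ℕ) * c)) := by
            rw [prod_const, S.card_ch n y hy, ← Real.exp_nat_mul, ← Real.exp_add]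
            congr 1
            push_cast
            ring

end PathSum

/-- Markov inequality with a square, in the form used for the tails -/
theorem sq_indicator_le {w t s : ℝ} (ht : 0 < t) (hs : 2 ≤ s * t) (hw : t ≤ w) :
    w ^ 2 ≤ t ^ 2 * Real.exp (-(s * t)) * Real.exp (s * w) := by
  have h1 : w / t ≤ Real.exp (w / t - 1) := by
    have := Real.add_one_le_exp (w / t - 1); linarith only [this]
  have hwt : 0 ≤ w / t := div_nonneg (ht.le.trans hw) ht.le
  have h2 : (w / t) ^ 2 ≤ Real.exp (w / t - 1) ^ 2 := pow_le_pow_left₀ hwt h1 2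
  have h3 : Real.exp (w / t - 1) ^ 2 ≤ Real.exp (s * w - s * t) := by
    rw [← Real.exp_nat_mul]
    apply Real.exp_le_exp.2
    push_cast
    have h4 : 2 / t ≤ s := by rw [div_le_iff₀ ht]; exact hs
    have h5 : (2 / t) * (w - t) ≤ s * (w - t) :=
      mul_le_mul_of_nonneg_right h4 (sub_nonneg.2 hw)
    have h6 : 2 * (w / t - 1) = (2 / t) * (w - t) := by field_simp
    linarith only [h5, h6]
  calc w ^ 2 = t ^ 2 * (w / t) ^ 2 := by (clear * - ht; field_simp)
    _ ≤ t ^ 2 * Real.exp (s * w - s * t) :=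
        mul_le_mul_of_nonneg_left (h2.trans h3) (sq_nonneg _)
    _ = _ := by
        rw [mul_assoc, ← Real.exp_add]
        congr 2
        ring

/-- truncated second moment of a nonnegative variable with an exponential moment -/
theorem integral_sq_indicator_le {Ω : Type*} [MeasurableSpace Ω] {P : Measure Ω}
    [IsProbabilityMeasure P] {W : Ω → ℝ} (hint : ∀ s : ℝ, Integrable (fun ω => Real.exp (s * W ω)) P)
    {s t A : ℝ} (ht : 0 < t) (hs : 2 ≤ s * t) (hA : ∫ ω, Real.exp (s * W ω) ∂P ≤ A) :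
    ∫ ω, (if t ≤ W ω then W ω ^ 2 else 0) ∂P ≤ t ^ 2 * Real.exp (-(s * t)) * A := by
  have h0 : 0 ≤ t ^ 2 * Real.exp (-(s * t)) := by positivity
  calc ∫ ω, (if t ≤ W ω then W ω ^ 2 else 0) ∂P
      ≤ ∫ ω, t ^ 2 * Real.exp (-(s * t)) * Real.exp (s * W ω) ∂P := by
        apply integral_mono_of_nonneg
        · exact Filter.Eventually.of_forall fun ω => by
            simp only [Pi.zero_apply]; split_ifs <;> positivity
        · exact (hint s).const_mul _
        · exact Filter.Eventually.of_forall fun ω => by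
            simp only
            split_ifs with h
            · exact sq_indicator_le ht hs h
            · positivity
    _ = t ^ 2 * Real.exp (-(s * t)) * ∫ ω, Real.exp (s * W ω) ∂P := integral_const_mul _ _
    _ ≤ _ := mul_le_mul_of_nonneg_left hA h0

namespace PathSum

variable {Y Ω : Type*} [MeasurableSpace Ω] {b : ℕ} {κ : ℝ} (S : PathSum Y Ω b κ)
variable {P : Measure Ω} [IsProbabilityMeasure P]

end PathSum

end Vale.Agent.P161
end
end

section

section

open MeasureTheory

namespace Vale.Agent.P161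

variable {V : Type*} {G : SimpleGraph V} {μ μ' : Measure (V → ℤˣ)}

/-- squared L2 distance of the posterior means of two runs (two models, two schedules, the same
strengths and the same noise) -/
noncomputable def phiE (μ μ' : Measure (V → ℤˣ)) (e : V × ℕ → ℝ) (l1 l2 : List (V × ℕ)) (v : V) :
    ℝ :=
  ∫ U, (mean μ (runE μ e U l1) v - mean μ' (runE μ' e U l2) v) ^ 2 ∂(noise V)

/-- the speed at which `phiE` grows when the site `x` is updated in both runs -/
noncomputable def spd (μ μ' : Measure (V → ℤˣ)) (e : V × ℕ → ℝ) (l1 l2 : List (V × ℕ)) (x v : V)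
    (U : V × ℕ → unitInterval) : ℝ :=
  8 * (cov μ (runE μ e U l1) x v - cov μ' (runE μ' e U l2) x v) ^ 2 +
    32 * (cov μ' (runE μ' e U l2) x v ^ 2 *
      (mean μ (runE μ e U l1) x - mean μ' (runE μ' e U l2) x) ^ 2)

theorem phiE_comm (e : V × ℕ → ℝ) (l1 l2 : List (V × ℕ)) (v : V) :
    phiE μ μ' e l1 l2 v = phiE μ' μ e l2 l1 v := by
  unfold phiE
  congr 1
  funext U
  ring

theorem phiE_nonneg (e : V × ℕ → ℝ) (l1 l2 : List (V × ℕ)) (v : V) : 0 ≤ phiE μ μ' e l1 l2 v :=
  integral_nonneg fun _ => sq_nonneg _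

theorem spd_nonneg (e : V × ℕ → ℝ) (l1 l2 : List (V × ℕ)) (x v : V)
    (U : V × ℕ → unitInterval) : 0 ≤ spd μ μ' e l1 l2 x v U := by
  unfold spd
  positivity

theorem sq_sub_le_four {a b : ℝ} (ha : |a| ≤ 1) (hb : |b| ≤ 1) : (a - b) ^ 2 ≤ 4 := by
  have h1 := abs_le.1 ha
  have h2 := abs_le.1 hb
  nlinarith only [h1, h2]

theorem integrable_phiE [IsProbabilityMeasure μ] [IsProbabilityMeasure μ'] {e : V × ℕ → ℝ}
    (he : StrOK e) (l1 l2 : List (V × ℕ)) (v : V) :
    Integrable (fun U => (mean μ (runE μ e U l1) v - mean μ' (runE μ' e U l2) v) ^ 2)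
      (noise V) := by
  apply integrable_of_bdd (((measurable_mean_runE' he l1 v).sub
    (measurable_mean_runE' he l2 v)).pow_const 2) (C := 4)
  intro U
  rw [abs_of_nonneg (sq_nonneg _), Pi.sub_apply]
  exact sq_sub_le_four (abs_mean_le (good_runE he U l1) v) (abs_mean_le (good_runE he U l2) v)

theorem integrable_eCE [IsProbabilityMeasure μ] [IsProbabilityMeasure μ'] {e : V × ℕ → ℝ}
    (he : StrOK e) (l1 l2 : List (V × ℕ)) (x v : V) :
    Integrable (fun U => (cov μ (runE μ e U l1) x v - cov μ' (runE μ' e U l2) x v) ^ 2)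
      (noise V) := by
  apply integrable_of_bdd (((measurable_cov_runE' he l1 x v).sub
    (measurable_cov_runE' he l2 x v)).pow_const 2) (C := 16)
  intro U
  have h1 := abs_le.1 (abs_cov_le_two (μ := μ) (good_runE (μ := μ) he U l1) x v)
  have h2 := abs_le.1 (abs_cov_le_two (μ := μ') (good_runE (μ := μ') he U l2) x v)
  rw [abs_of_nonneg (sq_nonneg _), Pi.sub_apply]
  nlinarith

theorem measurable_spd [IsProbabilityMeasure μ] [IsProbabilityMeasure μ'] {Ω : Type*}
    [MeasurableSpace Ω] {e : Ω → V × ℕ → ℝ} (hem : ∀ i, Measurable fun ω => e ω i)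
    (he : ∀ ω, StrOK (e ω)) {U : Ω → V × ℕ → unitInterval} (hU : Measurable U)
    (l1 l2 : List (V × ℕ)) (x v : V) :
    Measurable fun ω => spd μ μ' (e ω) l1 l2 x v (U ω) := by
  unfold spd
  have c1 := measurable_cov_runE (μ := μ) hem he hU l1 x v
  have c2 := measurable_cov_runE (μ := μ') hem he hU l2 x v
  have m1 := measurable_mean_runE (μ := μ) hem he hU l1 x
  have m2 := measurable_mean_runE (μ := μ') hem he hU l2 x
  exact (((c1.sub c2).pow_const 2).const_mul 8).add
    (((c2.pow_const 2).mul ((m1.sub m2).pow_const 2)).const_mul 32)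

theorem spd_le [IsProbabilityMeasure μ] [IsProbabilityMeasure μ'] {e : V × ℕ → ℝ}
    (he : StrOK e) (l1 l2 : List (V × ℕ)) (x v : V) (U : V × ℕ → unitInterval) :
    spd μ μ' e l1 l2 x v U ≤ 640 := by
  unfold spd
  have h1 := abs_le.1 (abs_cov_le_two (μ := μ) (good_runE (μ := μ) he U l1) x v)
  have h2 := abs_le.1 (abs_cov_le_two (μ := μ') (good_runE (μ := μ') he U l2) x v)
  have h3 : (mean μ (runE μ e U l1) x - mean μ' (runE μ' e U l2) x) ^ 2 ≤ 4 :=
    sq_sub_le_four (abs_mean_le (good_runE he U l1) x) (abs_mean_le (good_runE he U l2) x)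
  have h4 : cov μ' (runE μ' e U l2) x v ^ 2 ≤ 4 := by nlinarith only [h2]
  have h5 : cov μ' (runE μ' e U l2) x v ^ 2 *
      (mean μ (runE μ e U l1) x - mean μ' (runE μ' e U l2) x) ^ 2 ≤ 4 * 4 :=
    mul_le_mul h4 h3 (sq_nonneg _) (by norm_num)
  have h6 : (cov μ (runE μ e U l1) x v - cov μ' (runE μ' e U l2) x v) ^ 2 ≤ 16 := by nlinarith only [h1, h2]
  linarith only [h5, h6]

theorem integrable_spd [IsProbabilityMeasure μ] [IsProbabilityMeasure μ'] {e : V × ℕ → ℝ}
    (he : StrOK e) (l1 l2 : List (V × ℕ)) (x v : V) :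
    Integrable (fun U => spd μ μ' e l1 l2 x v U) (noise V) :=
  integrable_of_bdd (measurable_spd (e := fun _ : V × ℕ → unitInterval => e)
    (fun _ => measurable_const) (fun _ => he) measurable_id l1 l2 x v) (C := 640)
    (fun U => by rw [abs_of_nonneg (spd_nonneg _ _ _ _ _ _)]; exact spd_le he l1 l2 x v U)

/-- both runs updated at the same site with the same fresh label -/
theorem phiE_both [IsProbabilityMeasure μ] [IsProbabilityMeasure μ'] {e : V × ℕ → ℝ}
    (he : StrOK e) (l l1 l2 : List (V × ℕ)) (hs1 : ∀ j ∈ l1, j ∈ l) (hs2 : ∀ j ∈ l2, j ∈ l)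
    {i : V × ℕ} (hi : i ∉ l) (v : V) :
    phiE μ μ' e (i :: l1) (i :: l2) v = phiE μ μ' e l1 l2 v +
      ∫ U, (cov μ (runE μ e U l1) i.1 v * incr (e i) (mean μ (runE μ e U l1) i.1) (U i) -
        cov μ' (runE μ' e U l2) i.1 v * incr (e i) (mean μ' (runE μ' e U l2) i.1) (U i)) ^ 2
        ∂(noise V) := by
  have he0 := he.nonneg i
  have he1 := he.le i
  have m1 := measurable_mean_runE' (μ := μ) he l1 v
  have m2 := measurable_mean_runE' (μ := μ') he l2 v
  have c1 := measurable_cov_runE' (μ := μ) he l1 i.1 v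
  have c2 := measurable_cov_runE' (μ := μ') he l2 i.1 v
  have n1 := measurable_incr_runE' (μ := μ) he l1 i.1 i
  have n2 := measurable_incr_runE' (μ := μ') he l2 i.1 i
  have bm1 : ∀ U, |mean μ (runE μ e U l1) v| ≤ 1 := fun U => abs_mean_le (good_runE he U l1) v
  have bm2 : ∀ U, |mean μ' (runE μ' e U l2) v| ≤ 1 := fun U => abs_mean_le (good_runE he U l2) v
  have bc1 : ∀ U, |cov μ (runE μ e U l1) i.1 v| ≤ 2 := fun U =>
    abs_cov_le_two (good_runE he U l1) i.1 v
  have bc2 : ∀ U, |cov μ' (runE μ' e U l2) i.1 v| ≤ 2 := fun U =>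
    abs_cov_le_two (good_runE he U l2) i.1 v
  have bn1 : ∀ U : V × ℕ → unitInterval,
      |incr (e i) (mean μ (runE μ e U l1) i.1) (U i)| ≤ 2 * e i :=
    fun U => abs_incr_le he0 he1 (abs_mean_le (good_runE he U l1) i.1) (U i).2.1 (U i).2.2
  have bn2 : ∀ U : V × ℕ → unitInterval,
      |incr (e i) (mean μ' (runE μ' e U l2) i.1) (U i)| ≤ 2 * e i :=
    fun U => abs_incr_le he0 he1 (abs_mean_le (good_runE he U l2) i.1) (U i).2.1 (U i).2.2
  have bX : ∀ U, |mean μ (runE μ e U l1) v - mean μ' (runE μ' e U l2) v| ≤ 2 := fun U =>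
    (abs_sub _ _).trans (by linarith only [bm1 U, bm2 U])
  have z1 := integral_mul_incrE_eq_zero (μ := μ) he l l1 hs1 hi
    (fun U => (mean μ (runE μ e U l1) v - mean μ' (runE μ' e U l2) v) *
      cov μ (runE μ e U l1) i.1 v) ((m1.sub m2).mul c1)
    (fun U U' h => by
      rw [runE_congr_noise (μ := μ) (fun j hj => h j (hs1 j hj)),
        runE_congr_noise (μ := μ') (fun j hj => h j (hs2 j hj))])
    (C := 2 * 2) (fun U => by
      rw [abs_mul]; exact mul_le_mul (bX U) (bc1 U) (abs_nonneg _) (by norm_num)) i.1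
  have z2 := integral_mul_incrE_eq_zero (μ := μ') he l l2 hs2 hi
    (fun U => (mean μ (runE μ e U l1) v - mean μ' (runE μ' e U l2) v) *
      cov μ' (runE μ' e U l2) i.1 v) ((m1.sub m2).mul c2)
    (fun U U' h => by
      rw [runE_congr_noise (μ := μ) (fun j hj => h j (hs1 j hj)),
        runE_congr_noise (μ := μ') (fun j hj => h j (hs2 j hj))])
    (C := 2 * 2) (fun U => by
      rw [abs_mul]; exact mul_le_mul (bX U) (bc2 U) (abs_nonneg _) (by norm_num)) i.1
  have hort : ∫ U, (mean μ (runE μ e U l1) v - mean μ' (runE μ' e U l2) v) *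
      (cov μ (runE μ e U l1) i.1 v * incr (e i) (mean μ (runE μ e U l1) i.1) (U i) -
        cov μ' (runE μ' e U l2) i.1 v * incr (e i) (mean μ' (runE μ' e U l2) i.1) (U i))
        ∂(noise V) = 0 := by
    have e' : ∀ U : V × ℕ → unitInterval,
      (mean μ (runE μ e U l1) v - mean μ' (runE μ' e U l2) v) *
      (cov μ (runE μ e U l1) i.1 v * incr (e i) (mean μ (runE μ e U l1) i.1) (U i) -
        cov μ' (runE μ' e U l2) i.1 v * incr (e i) (mean μ' (runE μ' e U l2) i.1) (U i)) =
        (mean μ (runE μ e U l1) v - mean μ' (runE μ' e U l2) v) *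
      cov μ (runE μ e U l1) i.1 v * incr (e i) (mean μ (runE μ e U l1) i.1) (U i) -
        (mean μ (runE μ e U l1) v - mean μ' (runE μ' e U l2) v) *
      cov μ' (runE μ' e U l2) i.1 v * incr (e i) (mean μ' (runE μ' e U l2) i.1) (U i) :=
      fun U => by ring
    simp only [e']
    rw [integral_sub, z1, z2, sub_zero]
    · refine integrable_of_bdd (((m1.sub m2).mul c1).mul n1) (C := 2 * 2 * (2 * e i))
        (fun U => ?_)
      rw [abs_mul, abs_mul]
      exact mul_le_mul (mul_le_mul (bX U) (bc1 U) (abs_nonneg _) (by norm_num)) (bn1 U)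
        (abs_nonneg _) (by norm_num)
    · refine integrable_of_bdd (((m1.sub m2).mul c2).mul n2) (C := 2 * 2 * (2 * e i))
        (fun U => ?_)
      rw [abs_mul, abs_mul]
      exact mul_le_mul (mul_le_mul (bX U) (bc2 U) (abs_nonneg _) (by norm_num)) (bn2 U)
        (abs_nonneg _) (by norm_num)
  have := integral_sq_add_of_ortho (P := noise V) (m1.sub m2) ((c1.mul n1).sub (c2.mul n2))
    (C := 2) (C' := 2 * (2 * e i) + 2 * (2 * e i)) bX (fun U => by
      refine (abs_sub _ _).trans (add_le_add ?_ ?_)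
      · rw [Pi.mul_apply, abs_mul]
        exact mul_le_mul (bc1 U) (bn1 U) (abs_nonneg _) (by norm_num)
      · rw [Pi.mul_apply, abs_mul]
        exact mul_le_mul (bc2 U) (bn2 U) (abs_nonneg _) (by norm_num)) hort
  unfold phiE
  rw [show (fun U : V × ℕ → unitInterval =>
    (mean μ (runE μ e U (i :: l1)) v - mean μ' (runE μ' e U (i :: l2)) v) ^ 2) = fun U =>
    ((mean μ (runE μ e U l1) v - mean μ' (runE μ' e U l2) v) +
      (cov μ (runE μ e U l1) i.1 v * incr (e i) (mean μ (runE μ e U l1) i.1) (U i) -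
        cov μ' (runE μ' e U l2) i.1 v * incr (e i) (mean μ' (runE μ' e U l2) i.1) (U i))) ^ 2
    from by
    funext U
    rw [mean_consE_incr he, mean_consE_incr he]
    ring]
  exact this

/-- only the first run updated -/
theorem phiE_left [IsProbabilityMeasure μ] [IsProbabilityMeasure μ'] {e : V × ℕ → ℝ}
    (he : StrOK e) (l l1 l2 : List (V × ℕ)) (hs1 : ∀ j ∈ l1, j ∈ l) (hs2 : ∀ j ∈ l2, j ∈ l)
    {i : V × ℕ} (hi : i ∉ l) (v : V) :
    phiE μ μ' e (i :: l1) l2 v = phiE μ μ' e l1 l2 v +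
      ∫ U, (cov μ (runE μ e U l1) i.1 v * incr (e i) (mean μ (runE μ e U l1) i.1) (U i)) ^ 2
        ∂(noise V) := by
  have he0 := he.nonneg i
  have he1 := he.le i
  have m1 := measurable_mean_runE' (μ := μ) he l1 v
  have m2 := measurable_mean_runE' (μ := μ') he l2 v
  have c1 := measurable_cov_runE' (μ := μ) he l1 i.1 v
  have n1 := measurable_incr_runE' (μ := μ) he l1 i.1 i
  have bm1 : ∀ U, |mean μ (runE μ e U l1) v| ≤ 1 := fun U => abs_mean_le (good_runE he U l1) v
  have bm2 : ∀ U, |mean μ' (runE μ' e U l2) v| ≤ 1 := fun U => abs_mean_le (good_runE he U l2) v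
  have bc1 : ∀ U, |cov μ (runE μ e U l1) i.1 v| ≤ 2 := fun U =>
    abs_cov_le_two (good_runE he U l1) i.1 v
  have bn1 : ∀ U : V × ℕ → unitInterval,
      |incr (e i) (mean μ (runE μ e U l1) i.1) (U i)| ≤ 2 * e i :=
    fun U => abs_incr_le he0 he1 (abs_mean_le (good_runE he U l1) i.1) (U i).2.1 (U i).2.2
  have bX : ∀ U, |mean μ (runE μ e U l1) v - mean μ' (runE μ' e U l2) v| ≤ 2 := fun U =>
    (abs_sub _ _).trans (by linarith only [bm1 U, bm2 U])
  have z1 := integral_mul_incrE_eq_zero (μ := μ) he l l1 hs1 hi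
    (fun U => (mean μ (runE μ e U l1) v - mean μ' (runE μ' e U l2) v) *
      cov μ (runE μ e U l1) i.1 v) ((m1.sub m2).mul c1)
    (fun U U' h => by
      rw [runE_congr_noise (μ := μ) (fun j hj => h j (hs1 j hj)),
        runE_congr_noise (μ := μ') (fun j hj => h j (hs2 j hj))])
    (C := 2 * 2) (fun U => by
      rw [abs_mul]; exact mul_le_mul (bX U) (bc1 U) (abs_nonneg _) (by norm_num)) i.1
  have hort : ∫ U, (mean μ (runE μ e U l1) v - mean μ' (runE μ' e U l2) v) *
      (cov μ (runE μ e U l1) i.1 v * incr (e i) (mean μ (runE μ e U l1) i.1) (U i))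
        ∂(noise V) = 0 := by
    rw [← z1]
    congr 1
    funext U
    ring
  have := integral_sq_add_of_ortho (P := noise V) (m1.sub m2) (c1.mul n1)
    (C := 2) (C' := 2 * (2 * e i)) bX (fun U => by
      rw [Pi.mul_apply, abs_mul]
      exact mul_le_mul (bc1 U) (bn1 U) (abs_nonneg _) (by norm_num)) hort
  unfold phiE
  rw [show (fun U : V × ℕ → unitInterval =>
    (mean μ (runE μ e U (i :: l1)) v - mean μ' (runE μ' e U l2) v) ^ 2) = fun U =>
    ((mean μ (runE μ e U l1) v - mean μ' (runE μ' e U l2) v) +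
      (cov μ (runE μ e U l1) i.1 v * incr (e i) (mean μ (runE μ e U l1) i.1) (U i))) ^ 2 from by
    funext U
    rw [mean_consE_incr he]
    ring]
  exact this

theorem phiE_both_le [IsProbabilityMeasure μ] [IsProbabilityMeasure μ'] {e : V × ℕ → ℝ}
    (he : StrOK e) (l l1 l2 : List (V × ℕ)) (hs1 : ∀ j ∈ l1, j ∈ l) (hs2 : ∀ j ∈ l2, j ∈ l)
    {i : V × ℕ} (hi : i ∉ l) (v : V) :
    phiE μ μ' e (i :: l1) (i :: l2) v ≤ phiE μ μ' e l1 l2 v +
      e i ^ 2 * ∫ U, spd μ μ' e l1 l2 i.1 v U ∂(noise V) := by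
  rw [phiE_both he l l1 l2 hs1 hs2 hi v]
  gcongr
  have he0 := he.nonneg i
  have he1 := he.le i
  rw [← integral_const_mul]
  apply integral_mono_of_nonneg (Filter.Eventually.of_forall fun _ => sq_nonneg _)
    ((integrable_spd he l1 l2 i.1 v).const_mul _)
  refine Filter.Eventually.of_forall fun U => ?_
  simp only [spd]
  have bm1 := abs_mean_le (μ := μ) (good_runE (μ := μ) he U l1) i.1
  have bm2 := abs_mean_le (μ := μ') (good_runE (μ := μ') he U l2) i.1
  have g1 := abs_incr_le he0 he1 bm1 (U i).2.1 (U i).2.2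
  have gl := incr_lip he0 he1 bm1 bm2 (U i).2.1 (U i).2.2
  set K1 := cov μ (runE μ e U l1) i.1 v
  set K2 := cov μ' (runE μ' e U l2) i.1 v
  set m1 := mean μ (runE μ e U l1) i.1
  set m2 := mean μ' (runE μ' e U l2) i.1
  set a := incr (e i) m1 (U i)
  set b := incr (e i) m2 (U i)
  have e1 : (K1 * a - K2 * b) ^ 2 ≤ 2 * ((K1 - K2) ^ 2 * a ^ 2) + 2 * (K2 ^ 2 * (a - b) ^ 2) := by
    have : K1 * a - K2 * b = (K1 - K2) * a + K2 * (a - b) := by ring
    rw [this]
    linarith only [sq_nonneg ((K1 - K2) * a - K2 * (a - b))]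
  have e2 : a ^ 2 ≤ 4 * e i ^ 2 := by
    have := sq_le_sq' (by linarith only [g1, neg_abs_le a]) ((le_abs_self a).trans g1)
    linarith only [this]
  have e3 : (a - b) ^ 2 ≤ 16 * e i ^ 2 * (m1 - m2) ^ 2 := by
    have h := pow_le_pow_left₀ (abs_nonneg _) gl 2
    rw [sq_abs] at h
    calc _ ≤ _ := h
      _ = _ := by rw [mul_pow, sq_abs]; ring
  calc _ ≤ _ := e1
    _ ≤ 2 * ((K1 - K2) ^ 2 * (4 * e i ^ 2)) +
        2 * (K2 ^ 2 * (16 * e i ^ 2 * (m1 - m2) ^ 2)) := by (clear * - e2 e3; gcongr)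
    _ = _ := by ring

theorem phiE_left_le [IsProbabilityMeasure μ] [IsProbabilityMeasure μ'] {e : V × ℕ → ℝ}
    (he : StrOK e) (l l1 l2 : List (V × ℕ)) (hs1 : ∀ j ∈ l1, j ∈ l) (hs2 : ∀ j ∈ l2, j ∈ l)
    {i : V × ℕ} (hi : i ∉ l) (v : V) {c : ℝ}
    (hc : ∀ U, cov μ (runE μ e U l1) i.1 v ^ 2 ≤ c) :
    phiE μ μ' e (i :: l1) l2 v ≤ phiE μ μ' e l1 l2 v + 4 * e i ^ 2 * c := by
  rw [phiE_left he l l1 l2 hs1 hs2 hi v]
  gcongr
  have he0 := he.nonneg i
  have he1 := he.le i
  have : ∫ U, (cov μ (runE μ e U l1) i.1 v * incr (e i) (mean μ (runE μ e U l1) i.1) (U i)) ^ 2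
      ∂(noise V) ≤ ∫ _U, 4 * e i ^ 2 * c ∂(noise V) := by
    apply integral_mono_of_nonneg (Filter.Eventually.of_forall fun _ => sq_nonneg _)
      (integrable_const _)
    refine Filter.Eventually.of_forall fun U => ?_
    simp only
    have bm1 := abs_mean_le (μ := μ) (good_runE (μ := μ) he U l1) i.1
    have g1 := abs_incr_le he0 he1 bm1 (U i).2.1 (U i).2.2
    have k2 := hc U
    set K1 := cov μ (runE μ e U l1) i.1 v
    set a := incr (e i) (mean μ (runE μ e U l1) i.1) (U i)
    have e2 : a ^ 2 ≤ 4 * e i ^ 2 := by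
      have := sq_le_sq' (by linarith only [g1, neg_abs_le a]) ((le_abs_self a).trans g1)
      linarith only [this]
    have hc0 : 0 ≤ c := (sq_nonneg _).trans k2
    rw [mul_pow]
    calc _ ≤ c * (4 * e i ^ 2) := by (clear * - k2 e2 hc0; gcongr)
      _ = _ := by ring
  simpa only [ge_iff_le, integral_const, probReal_univ, smul_eq_mul, one_mul] using this

theorem phiE_le_both [IsProbabilityMeasure μ] [IsProbabilityMeasure μ'] {e : V × ℕ → ℝ}
    (he : StrOK e) (l l1 l2 : List (V × ℕ)) (hs1 : ∀ j ∈ l1, j ∈ l) (hs2 : ∀ j ∈ l2, j ∈ l)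
    {i : V × ℕ} (hi : i ∉ l) (v : V) :
    phiE μ μ' e l1 l2 v ≤ phiE μ μ' e (i :: l1) (i :: l2) v := by
  rw [phiE_both he l l1 l2 hs1 hs2 hi v]
  exact le_add_of_nonneg_right (integral_nonneg fun _ => sq_nonneg _)

theorem phiE_le_left [IsProbabilityMeasure μ] [IsProbabilityMeasure μ'] {e : V × ℕ → ℝ}
    (he : StrOK e) (l l1 l2 : List (V × ℕ)) (hs1 : ∀ j ∈ l1, j ∈ l) (hs2 : ∀ j ∈ l2, j ∈ l)
    {i : V × ℕ} (hi : i ∉ l) (v : V) :
    phiE μ μ' e l1 l2 v ≤ phiE μ μ' e (i :: l1) l2 v := by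
  rw [phiE_left he l l1 l2 hs1 hs2 hi v]
  exact le_add_of_nonneg_right (integral_nonneg fun _ => sq_nonneg _)

theorem sq_stepE [IsProbabilityMeasure μ] {e : V × ℕ → ℝ} (he : StrOK e)
    (l : List (V × ℕ)) {i : V × ℕ} (hi : i ∉ l) (v : V) :
    ∫ U, mean μ (runE μ e U (i :: l)) v ^ 2 ∂(noise V) =
      ∫ U, mean μ (runE μ e U l) v ^ 2 ∂(noise V) +
      ∫ U, (cov μ (runE μ e U l) i.1 v * incr (e i) (mean μ (runE μ e U l) i.1) (U i)) ^ 2
        ∂(noise V) := by
  have he0 := he.nonneg i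
  have he1 := he.le i
  have m1 := measurable_mean_runE' (μ := μ) he l v
  have c1 := measurable_cov_runE' (μ := μ) he l i.1 v
  have n1 := measurable_incr_runE' (μ := μ) he l i.1 i
  have bm1 : ∀ U, |mean μ (runE μ e U l) v| ≤ 1 := fun U => abs_mean_le (good_runE he U l) v
  have bc1 : ∀ U, |cov μ (runE μ e U l) i.1 v| ≤ 2 := fun U =>
    abs_cov_le_two (good_runE he U l) i.1 v
  have bn1 : ∀ U : V × ℕ → unitInterval,
      |incr (e i) (mean μ (runE μ e U l) i.1) (U i)| ≤ 2 * e i :=
    fun U => abs_incr_le he0 he1 (abs_mean_le (good_runE he U l) i.1) (U i).2.1 (U i).2.2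
  have z1 := integral_mul_incrE_eq_zero (μ := μ) he l l (fun j hj => hj) hi
    (fun U => (mean μ (runE μ e U l) v) * cov μ (runE μ e U l) i.1 v) (m1.mul c1)
    (fun U U' h => by rw [runE_congr_noise h])
    (C := 1 * 2) (fun U => by
      rw [abs_mul]; exact mul_le_mul (bm1 U) (bc1 U) (abs_nonneg _) (by norm_num)) i.1
  have hort : ∫ U, (mean μ (runE μ e U l) v) *
      (cov μ (runE μ e U l) i.1 v * incr (e i) (mean μ (runE μ e U l) i.1) (U i))
        ∂(noise V) = 0 := by
    rw [← z1]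
    congr 1
    funext U
    ring
  have := integral_sq_add_of_ortho (P := noise V) m1 (c1.mul n1)
    (C := 1) (C' := 2 * (2 * e i)) bm1 (fun U => by
      rw [Pi.mul_apply, abs_mul]
      exact mul_le_mul (bc1 U) (bn1 U) (abs_nonneg _) (by norm_num)) hort
  rw [show (fun U : V × ℕ → unitInterval => mean μ (runE μ e U (i :: l)) v ^ 2) = fun U =>
    (mean μ (runE μ e U l) v +
      (cov μ (runE μ e U l) i.1 v * incr (e i) (mean μ (runE μ e U l) i.1) (U i))) ^ 2 from by
    funext U
    rw [mean_consE_incr he]]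
  exact this

end Vale.Agent.P161
end
end

section

section

/-! Comparison of finite volumes, averaged over the clocks, for the strengths
`e i = sqrt (T i) / 2`. -/

open MeasureTheory

namespace Vale.Agent.P161

variable {V : Type*} {G : SimpleGraph V} {μ μ' : Measure (V → ℤˣ)}

/-- squared L2 distance of the posterior covariances of two runs -/
noncomputable def eCE (μ μ' : Measure (V → ℤˣ)) (e : V × ℕ → ℝ) (l1 l2 : List (V × ℕ))
    (x v : V) : ℝ :=
  ∫ U, (cov μ (runE μ e U l1) x v - cov μ' (runE μ' e U l2) x v) ^ 2 ∂(noise V)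

theorem eCE_nonneg (e : V × ℕ → ℝ) (l1 l2 : List (V × ℕ)) (x v : V) :
    0 ≤ eCE μ μ' e l1 l2 x v :=
  integral_nonneg fun _ => sq_nonneg _

theorem eCE_self_le [IsProbabilityMeasure μ] [IsProbabilityMeasure μ'] {e : V × ℕ → ℝ}
    (he : StrOK e) (l1 l2 : List (V × ℕ)) (x : V) :
    eCE μ μ' e l1 l2 x x ≤ 4 * phiE μ μ' e l1 l2 x := by
  unfold eCE phiE
  rw [← integral_const_mul]
  apply integral_mono_of_nonneg (Filter.Eventually.of_forall fun _ => sq_nonneg _)
    ((integrable_phiE he l1 l2 x).const_mul _)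
  refine Filter.Eventually.of_forall fun U => ?_
  simp only
  have g1 := good_runE (μ := μ) he U l1
  have g2 := good_runE (μ := μ') he U l2
  rw [cov_self g1, cov_self g2]
  have h1 := abs_le.1 (abs_mean_le (μ := μ) g1 x)
  have h2 := abs_le.1 (abs_mean_le (μ := μ') g2 x)
  set a := mean μ (runE μ e U l1) x
  set b := mean μ' (runE μ' e U l2) x
  have e' : (1 - a ^ 2 - (1 - b ^ 2)) ^ 2 = (a - b) ^ 2 * (a + b) ^ 2 := by ring
  have h3 : (a + b) ^ 2 ≤ 4 := by nlinarith only [h1, h2]
  rw [e']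
  linarith only [mul_nonneg (sq_nonneg (a - b : ℝ)) (sub_nonneg.2 h3)]

theorem eCE_rec [IsProbabilityMeasure μ] {θ : ℝ} (h0 : 0 ≤ θ)
    {L : ℝ} (hL0 : 0 ≤ L) {lam : ℝ} (hlam : 1 < lam) {e : V × ℕ → ℝ} (he : StrOK e)
    (l1 l2 : List (V × ℕ)) {x v u : V} {n : ℕ}
    (hL : ∀ H H' : List (V × ℝ), Good H → Good H' →
        |cov μ H x v - cov μ H' x v| ≤
          L * (|mean μ H u - mean μ H' u| + |mean μ H v - mean μ H' v|) * θ ^ n
            + θ * |cov μ H x u - cov μ H' x u|) :
    eCE μ μ e l1 l2 x v ≤ lam / (lam - 1) * 2 * L ^ 2 * (θ ^ 2) ^ n *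
        (phiE μ μ e l1 l2 u + phiE μ μ e l1 l2 v) + lam * θ ^ 2 * eCE μ μ e l1 l2 x u := by
  have iu := integrable_phiE (μ := μ) (μ' := μ) he l1 l2 u
  have iv := integrable_phiE (μ := μ) (μ' := μ) he l1 l2 v
  have ie := integrable_eCE (μ := μ) (μ' := μ) he l1 l2 x u
  unfold eCE phiE
  have e2 := integral_add ((iu.add iv).const_mul (lam / (lam - 1) * 2 * L ^ 2 * (θ ^ 2) ^ n))
    (ie.const_mul (lam * θ ^ 2))
  simp only [Pi.add_apply] at e2
  rw [← integral_add iu iv, ← integral_const_mul, ← integral_const_mul, ← e2]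
  apply integral_mono_of_nonneg (Filter.Eventually.of_forall fun _ => sq_nonneg _)
    (((iu.add iv).const_mul _).add (ie.const_mul _))
  refine Filter.Eventually.of_forall fun U => ?_
  have h := hL _ _ (good_runE (μ := μ) he U l1) (good_runE (μ := μ) he U l2)
  simp only [Pi.add_apply]
  set K := cov μ (runE μ e U l1) x v - cov μ (runE μ e U l2) x v
  set K' := cov μ (runE μ e U l1) x u - cov μ (runE μ e U l2) x u
  set Du := mean μ (runE μ e U l1) u - mean μ (runE μ e U l2) u
  set Dv := mean μ (runE μ e U l1) v - mean μ (runE μ e U l2) v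
  have hs : 0 < lam - 1 := by linarith only [hlam]
  set s := lam - 1 with hsdef
  set a := L * (|Du| + |Dv|) * θ ^ n
  set b := θ * |K'|
  have hK : K ^ 2 ≤ (a + b) ^ 2 := by
    rw [← sq_abs K]
    exact pow_le_pow_left₀ (abs_nonneg _) h 2
  have hab : (a + b) ^ 2 ≤ lam / s * a ^ 2 + lam * b ^ 2 := by
    have hl : lam = 1 + s := by rw [hsdef]; ring
    have e' : lam / s * a ^ 2 + lam * b ^ 2 - (a + b) ^ 2 = (a - s * b) ^ 2 / s := by
      rw [hl]
      field_simp
      ring
    have : 0 ≤ (a - s * b) ^ 2 / s := by (clear * - hlam; positivity)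
    (clear * - e' this; linarith)
  have ha2 : a ^ 2 ≤ 2 * L ^ 2 * (θ ^ 2) ^ n * (Du ^ 2 + Dv ^ 2) := by
    have e' : a ^ 2 = L ^ 2 * (θ ^ 2) ^ n * (|Du| + |Dv|) ^ 2 := by
      simp only [a]
      rw [mul_pow, mul_pow, ← pow_mul, ← pow_mul, mul_comm n 2]
      ring
    have h2 : (|Du| + |Dv|) ^ 2 ≤ 2 * (Du ^ 2 + Dv ^ 2) := by
      rw [← sq_abs Du, ← sq_abs Dv]
      linarith only [sq_nonneg (|Du| - |Dv|)]
    rw [e']
    calc _ ≤ L ^ 2 * (θ ^ 2) ^ n * (2 * (Du ^ 2 + Dv ^ 2)) := by (clear * - h2; gcongr)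
      _ = _ := by ring
  have hb2 : b ^ 2 = θ ^ 2 * K' ^ 2 := by
    simp only [b]
    rw [mul_pow, sq_abs]
  have hls : 0 ≤ lam / s := by positivity
  calc K ^ 2 ≤ lam / s * a ^ 2 + lam * b ^ 2 := hK.trans hab
    _ ≤ lam / s * (2 * L ^ 2 * (θ ^ 2) ^ n * (Du ^ 2 + Dv ^ 2)) + lam * (θ ^ 2 * K' ^ 2) := by
      rw [hb2]; gcongr
    _ = _ := by ring

/-- the recursion for the covariances, abstract form -/
theorem rec_bound (hG : G.IsTree) {θ : ℝ} {L : ℝ} {lam q C1 : ℝ} (hlam : 1 < lam) (hq0 : 0 < q)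
    (hq1 : lam ^ 3 * θ ^ 2 ≤ q) (hC1 : 4 ≤ C1)
    (hC1' : lam / (lam - 1) * 2 * L ^ 2 * (1 + lam) ≤ C1 * q * (1 - 1 / lam))
    {ph : V → ℝ} {E : V → V → ℝ} (hph0 : ∀ w, 0 ≤ ph w)
    (hself : ∀ x, E x x ≤ 4 * ph x)
    (hrec : ∀ x v : V, x ≠ v → ∃ u, G.Adj u v ∧ G.dist x v = G.dist x u + 1 ∧
      E x v ≤ lam / (lam - 1) * 2 * L ^ 2 * (θ ^ 2) ^ G.dist x u * (ph u + ph v) +
        lam * θ ^ 2 * E x u)
    (o : V) {M : ℝ} (hM0 : 0 ≤ M) (hM : ∀ w, ph w ≤ M * lam ^ G.dist w o) :
    ∀ n : ℕ, ∀ x v : V, G.dist x v = n → E x v ≤ C1 * M * lam ^ G.dist v o * q ^ n := by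
  intro n
  induction n with
  | zero =>
    intro x v hxv
    have : x = v := (hG.connected.dist_eq_zero_iff).1 hxv
    subst this
    have h := hself x
    have h2 := hM x
    have h3 : 0 ≤ M * lam ^ G.dist x o := by (clear * - hM0 hlam; positivity)
    calc _ ≤ 4 * ph x := h
      _ ≤ 4 * (M * lam ^ G.dist x o) := by (clear * - h2; gcongr)
      _ ≤ C1 * (M * lam ^ G.dist x o) := by (clear * - hC1 hM0 hlam; gcongr)
      _ = _ := by ring
  | succ n ih =>
    intro x v hxv
    have hne : x ≠ v := by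
      rintro rfl
      simp at hxv
    obtain ⟨u, huv, hd, hrec⟩ := hrec x v hne
    have hdu : G.dist x u = n := by omega
    rw [hdu] at hrec
    have hu := ih x u hdu
    have hlam0 : 0 < lam := by linarith only [hlam]
    have hW : lam ^ G.dist u o ≤ lam * lam ^ G.dist v o := by
      have h1 : G.dist u o ≤ G.dist v o + 1 := by
        have := hG.connected.dist_triangle (u := u) (v := v) (w := o)
        have h2 : G.dist u v = 1 := SimpleGraph.dist_eq_one_iff_adj.2 huv
        omega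
      calc lam ^ G.dist u o ≤ lam ^ (G.dist v o + 1) := pow_le_pow_right₀ hlam.le h1
        _ = _ := by ring
    set W := lam ^ G.dist v o with hWdef
    have hW0 : 0 < W := by positivity
    have hls : 0 ≤ lam / (lam - 1) := div_nonneg hlam0.le (by linarith only [hlam])
    have hθq : (θ ^ 2) ^ n ≤ q ^ n := by
      apply pow_le_pow_left₀ (sq_nonneg _)
      calc θ ^ 2 = 1 * θ ^ 2 := by ring
        _ ≤ lam ^ 3 * θ ^ 2 := by
          gcongr
          exact one_le_pow₀ hlam.le
        _ ≤ q := hq1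
    have hl2 : lam ^ 2 * θ ^ 2 ≤ q / lam := by
      rw [le_div_iff₀ hlam0]
      calc _ = lam ^ 3 * θ ^ 2 := by ring
        _ ≤ q := hq1
    calc E x v ≤ _ := hrec
      _ ≤ lam / (lam - 1) * 2 * L ^ 2 * q ^ n * (M * (lam * W) + M * W) +
          lam * θ ^ 2 * (C1 * M * (lam * W) * q ^ n) := by
        gcongr
        · exact add_nonneg (hph0 _) (hph0 _)
        · exact (hM u).trans (by (clear * - hW hM0; gcongr))
        · exact hM v
        · exact hu.trans (by (clear * - hW hC1 hM0 hq0; gcongr))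
      _ = M * W * q ^ n * (lam / (lam - 1) * 2 * L ^ 2 * (1 + lam) + C1 * (lam ^ 2 * θ ^ 2)) := by
        ring
      _ ≤ M * W * q ^ n * (C1 * q * (1 - 1 / lam) + C1 * (q / lam)) := by (clear * - hC1' hl2 hC1 hM0 hlam hq0; gcongr)
      _ = C1 * M * W * q ^ (n + 1) := by
        field_simp
        ring

/-- the strengths: half the square root of the clock -/
noncomputable def str (T : V × ℕ → unitInterval) (i : V × ℕ) : ℝ := Real.sqrt (T i : ℝ) / 2

theorem strOK_str (T : V × ℕ → unitInterval) : StrOK (str T) := by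
  intro i
  unfold str
  have h1 : Real.sqrt (T i : ℝ) ≤ 1 := by
    rw [Real.sqrt_le_one]
    exact (T i).2.2
  have h2 := Real.sqrt_nonneg (T i : ℝ)
  constructor <;> linarith

theorem str_sq (T : V × ℕ → unitInterval) (i : V × ℕ) : str T i ^ 2 = (T i : ℝ) / 4 := by
  unfold str
  rw [div_pow, Real.sq_sqrt (T i).2.1]
  norm_num

theorem measurable_str {Ω : Type*} [MeasurableSpace Ω] {T : Ω → V × ℕ → unitInterval}
    (hT : Measurable T) (i : V × ℕ) : Measurable fun ω => str (T ω) i := by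
  unfold str
  exact ((measurable_subtype_coe.comp ((measurable_pi_apply i).comp hT)).sqrt).div_const 2

theorem str_congr {T T' : V × ℕ → unitInterval} {i : V × ℕ} (h : T i = T' i) :
    str T i = str T' i := by
  unfold str
  rw [h]

theorem runE_str_congr {T T' : V × ℕ → unitInterval} {l l' : List (V × ℕ)}
    (hsub : ∀ j ∈ l', j ∈ l) (h : ∀ j ∈ l, T j = T' j) (U : V × ℕ → unitInterval) :
    runE μ (str T) U l' = runE μ (str T') U l' :=
  runE_congr (fun j hj => str_congr (h j (hsub j hj))) (fun _ _ => rfl)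

/-- functions of the labels obtained by averaging over the noise -/
theorem labF_of_int {F : (V × ℕ → unitInterval) → (V × ℕ → unitInterval) → List (V × ℕ) → ℝ}
    {C : ℝ}
    (hm : ∀ l, Measurable fun p : (V × ℕ → unitInterval) × (V × ℕ → unitInterval) =>
      F p.1 p.2 l)
    (hdep : ∀ T T' U l, (∀ j ∈ l, T j = T' j) → F T U l = F T' U l)
    (hb : ∀ T U l, |F T U l| ≤ C) :
    LabF (fun T l => ∫ U, F T U l ∂(noise V)) C where
  meas l := ((hm l).stronglyMeasurable.integral_prod_right' (ν := noise V)).measurable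
  dep T T' l h := by
    congr 1
    funext U
    exact hdep T T' U l h
  bdd T l := by
    have := norm_integral_le_of_norm_le_const (μ := noise V)
      (f := fun U : V × ℕ → unitInterval => F T U l) (C := C)
      (Filter.Eventually.of_forall fun U => by simpa only [Real.norm_eq_abs] using hb T U l)
    simpa only [ge_iff_le, Real.norm_eq_abs, probReal_univ, mul_one] using this

theorem labF_phiE [IsProbabilityMeasure μ] [IsProbabilityMeasure μ']
    (f1 f2 : List (V × ℕ) → List (V × ℕ)) (h1 : ∀ l, ∀ j ∈ f1 l, j ∈ l)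
    (h2 : ∀ l, ∀ j ∈ f2 l, j ∈ l) (v : V) :
    LabF (fun T l => phiE μ μ' (str T) (f1 l) (f2 l) v) 4 := by
  unfold phiE
  refine labF_of_int (F := fun T U l =>
    (mean μ (runE μ (str T) U (f1 l)) v - mean μ' (runE μ' (str T) U (f2 l)) v) ^ 2)
    (fun l => ?_) (fun T T' U l h => ?_) (fun T U l => ?_)
  · exact ((measurable_mean_runE (μ := μ) (measurable_str measurable_fst)
      (fun p => strOK_str p.1) measurable_snd (f1 l) v).sub
      (measurable_mean_runE (μ := μ') (measurable_str measurable_fst)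
      (fun p => strOK_str p.1) measurable_snd (f2 l) v)).pow_const 2
  · rw [runE_str_congr (μ := μ) (h1 l) h U, runE_str_congr (μ := μ') (h2 l) h U]
  · rw [abs_of_nonneg (sq_nonneg _)]
    exact sq_sub_le_four (abs_mean_le (good_runE (strOK_str T) U _) v)
      (abs_mean_le (good_runE (strOK_str T) U _) v)

theorem labF_eCE [IsProbabilityMeasure μ] [IsProbabilityMeasure μ']
    (f1 f2 : List (V × ℕ) → List (V × ℕ)) (h1 : ∀ l, ∀ j ∈ f1 l, j ∈ l)
    (h2 : ∀ l, ∀ j ∈ f2 l, j ∈ l) (x v : V) :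
    LabF (fun T l => eCE μ μ' (str T) (f1 l) (f2 l) x v) 16 := by
  unfold eCE
  refine labF_of_int (F := fun T U l =>
    (cov μ (runE μ (str T) U (f1 l)) x v - cov μ' (runE μ' (str T) U (f2 l)) x v) ^ 2)
    (fun l => ?_) (fun T T' U l h => ?_) (fun T U l => ?_)
  · exact ((measurable_cov_runE (μ := μ) (measurable_str measurable_fst)
      (fun p => strOK_str p.1) measurable_snd (f1 l) x v).sub
      (measurable_cov_runE (μ := μ') (measurable_str measurable_fst)
      (fun p => strOK_str p.1) measurable_snd (f2 l) x v)).pow_const 2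
  · rw [runE_str_congr (μ := μ) (h1 l) h U, runE_str_congr (μ := μ') (h2 l) h U]
  · rw [abs_of_nonneg (sq_nonneg _)]
    have h1 := abs_le.1 (abs_cov_le_two (μ := μ)
      (good_runE (μ := μ) (strOK_str T) U (f1 l)) x v)
    have h2 := abs_le.1 (abs_cov_le_two (μ := μ')
      (good_runE (μ := μ') (strOK_str T) U (f2 l)) x v)
    nlinarith

theorem labF_spd [IsProbabilityMeasure μ] [IsProbabilityMeasure μ']
    (f1 f2 : List (V × ℕ) → List (V × ℕ)) (h1 : ∀ l, ∀ j ∈ f1 l, j ∈ l)
    (h2 : ∀ l, ∀ j ∈ f2 l, j ∈ l) (x v : V) :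
    LabF (fun T l => ∫ U, spd μ μ' (str T) (f1 l) (f2 l) x v U ∂(noise V)) 640 := by
  refine labF_of_int (F := fun T U l => spd μ μ' (str T) (f1 l) (f2 l) x v U)
    (fun l => ?_) (fun T T' U l h => ?_) (fun T U l => ?_)
  · exact measurable_spd (measurable_str measurable_fst) (fun p => strOK_str p.1)
      measurable_snd (f1 l) (f2 l) x v
  · unfold spd
    rw [runE_str_congr (μ := μ) (h1 l) h U, runE_str_congr (μ := μ') (h2 l) h U]
  · rw [abs_of_nonneg (spd_nonneg _ _ _ _ _ _)]
    exact spd_le (strOK_str T) _ _ x v U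

section Lin

variable [Encodable V]

theorem avT_add (S : Finset (V × ℕ)) {Y Y' : (V × ℕ → unitInterval) → List (V × ℕ) → ℝ}
    {C C' : ℝ} (hY : LabF Y C) (hY' : LabF Y' C') (r : ℝ) :
    avT S (fun T l => Y T l + Y' T l) r = avT S Y r + avT S Y' r := by
  unfold avT
  exact integral_add (integrable_stt S hY r) (integrable_stt S hY' r)

theorem avT_const_mul (S : Finset (V × ℕ)) (Y : (V × ℕ → unitInterval) → List (V × ℕ) → ℝ)
    (c r : ℝ) : avT S (fun T l => c * Y T l) r = c * avT S Y r := by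
  unfold avT
  exact integral_const_mul _ _

theorem avT_const (S : Finset (V × ℕ)) (c r : ℝ) : avT S (fun _ _ => c) r = c := by
  unfold avT
  simp

end Lin

theorem LabF.add {Y Y' : (V × ℕ → unitInterval) → List (V × ℕ) → ℝ}
    {C C' : ℝ} (hY : LabF Y C) (hY' : LabF Y' C') :
    LabF (fun T l => Y T l + Y' T l) (C + C') where
  meas l := (hY.meas l).add (hY'.meas l)
  dep T T' l h := by rw [hY.dep T T' l h, hY'.dep T T' l h]
  bdd T l := (abs_add_le _ _).trans (add_le_add (hY.bdd T l) (hY'.bdd T l))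

theorem LabF.const_mul {Y : (V × ℕ → unitInterval) → List (V × ℕ) → ℝ}
    {C : ℝ} (hY : LabF Y C) (c : ℝ) : LabF (fun T l => c * Y T l) (|c| * C) where
  meas l := (hY.meas l).const_mul c
  dep T T' l h := by rw [hY.dep T T' l h]
  bdd T l := by
    rw [abs_mul]
    exact mul_le_mul_of_nonneg_left (hY.bdd T l) (abs_nonneg _)

theorem LabF.const (c : ℝ) :
    LabF (fun (_ : V × ℕ → unitInterval) (_ : List (V × ℕ)) => c) |c| where
  meas _ := measurable_const
  dep _ _ _ _ := rfl
  bdd _ _ := le_rfl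

theorem LabF.mono {Y : (V × ℕ → unitInterval) → List (V × ℕ) → ℝ}
    {C C' : ℝ} (hY : LabF Y C) (h : C ≤ C') : LabF Y C' where
  meas := hY.meas
  dep := hY.dep
  bdd T l := (hY.bdd T l).trans h

/-- averages of quantities which grow with the list are monotone in time -/
theorem avT_monotone [Encodable V] (S : Finset (V × ℕ))
    {Φ : (V × ℕ → unitInterval) → List (V × ℕ) → ℝ} {C : ℝ} (hΦ : LabF Φ C)
    (hstep : ∀ T i l, (i :: l).Nodup → Φ T l ≤ Φ T (i :: l)) {t' t : ℝ} (ht : t' ≤ t) :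
    avT S Φ t' ≤ avT S Φ t := by
  classical
  have h := label_time S (Φ := fun T l => -1 * Φ T l) (g := fun (_ : V) _ _ => 0)
    (w := fun _ => 0) (C := C) (Cw := 0)
    ((hΦ.const_mul (-1)).mono (by simp))
    (fun _ => (LabF.const 0).mono (by
      simpa only [abs_zero] using (abs_nonneg _).trans (hΦ.bdd (fun _ => 0) [])))
    (fun _ _ _ => le_rfl) measurable_const (fun _ _ _ => le_rfl) (fun _ _ _ => le_rfl)
    (fun T i l _ hnd _ => by
      have := hstep T i l hnd
      linarith only [this])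
    (S.image Prod.fst) (fun i hi => Finset.mem_image_of_mem _ hi) ht
  simp only [avT_const_mul] at h
  have h2 : ∫ r in t'..t, (if Int.fract r < 1 / 2 then
      2 * ((0 : ℝ) * ∑ v ∈ S.image Prod.fst, avT S (fun _ _ => (0 : ℝ)) r) else 0) = 0 := by
    simp only [one_div, Finset.sum_const, nsmul_eq_mul, zero_mul, mul_zero, ite_self, intervalIntegral.integral_zero]
  rw [h2] at h
  linarith only [h]

end Vale.Agent.P161
end
end

section

section

open MeasureTheory Filter Topology

namespace Vale.Agent.P161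

/-- two arrays of labels: clocks and noise -/
abbrev Om (V : Type*) := (V × ℕ → unitInterval) × (V × ℕ → unitInterval)

/-- law of clocks and noise -/
noncomputable abbrev PP (V : Type*) : Measure (Om V) := (noise V).prod (noise V)

/-- the action of automorphisms on the labels -/
def shift {V : Type*} {G : SimpleGraph V} (g : G ≃g G) (ω : Om V) : Om V :=
  (fun q => ω.1 (g.symm q.1, q.2), fun q => ω.2 (g.symm q.1, q.2))

theorem measurable_shift {V : Type*} {G : SimpleGraph V} (g : G ≃g G) :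
    Measurable (shift g : Om V → Om V) := by
  refine Measurable.prodMk ?_ ?_
  · exact measurable_pi_iff.2 fun q => (measurable_pi_apply _).comp measurable_fst
  · exact measurable_pi_iff.2 fun q => (measurable_pi_apply _).comp measurable_snd

/-- the automorphism acting on the sites of an array -/
def arrEquiv {V : Type*} {G : SimpleGraph V} (g : G ≃g G) : (V × ℕ) ≃ (V × ℕ) where
  toFun q := (g.symm q.1, q.2)
  invFun q := (g q.1, q.2)
  left_inv q := by simp
  right_inv q := by simp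

theorem map_shift {V : Type*} {G : SimpleGraph V} (g : G ≃g G) :
    Measure.map (shift g : Om V → Om V) (PP V) = PP V := by
  have h := infinitePi_reindex (volume : Measure unitInterval) (arrEquiv g)
  have hm : Measurable (fun (w : V × ℕ → unitInterval) (i : V × ℕ) => w (arrEquiv g i)) :=
    measurable_pi_iff.2 fun i => measurable_pi_apply _
  have h2 := Measure.map_prod_map (noise V) (noise V) hm hm
  rw [h] at h2
  exact h2.symm

/-- two arrays read off one array -/
def unpack2 {V : Type*} (W : V × ℕ → unitInterval) : Om V :=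
  (fun q => W (q.1, 2 * q.2), fun q => W (q.1, 2 * q.2 + 1))

theorem measurable_unpack2 {V : Type*} : Measurable (unpack2 : (V × ℕ → unitInterval) → _) := by
  refine Measurable.prodMk ?_ ?_
  · exact measurable_pi_iff.2 fun v => measurable_pi_apply _
  · exact measurable_pi_iff.2 fun v => measurable_pi_apply _

theorem map_unpack2 {V : Type*} : Measure.map unpack2 (noise V) = PP V := by
  let f : V × ℕ → (V × ℕ) ⊕ (V × ℕ) := fun p =>
    if p.2 % 2 = 0 then Sum.inl (p.1, p.2 / 2) else Sum.inr (p.1, p.2 / 2)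
  have hf : Function.Injective f := by
    rintro ⟨v, n⟩ ⟨w, m⟩ h
    simp only [f] at h
    by_cases hn : n % 2 = 0 <;> by_cases hm : m % 2 = 0
    · rw [if_pos hn, if_pos hm] at h
      simp only [Sum.inl.injEq, Prod.mk.injEq] at h
      ext
      · exact h.1
      · simp only
        omega
    · rw [if_pos hn, if_neg hm] at h
      simp at h
    · rw [if_neg hn, if_pos hm] at h
      simp at h
    · rw [if_neg hn, if_neg hm] at h
      simp only [Sum.inr.injEq, Prod.mk.injEq] at h
      ext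
      · exact h.1
      · simp only
        omega
  have h1 := infinitePi_sum (ι := V × ℕ) (κ := V × ℕ) (volume : Measure unitInterval)
  have h2 := Measure.map_infinitePi_infinitePi_of_inj
    (P := fun _ : (V × ℕ) ⊕ (V × ℕ) => (volume : Measure unitInterval)) hf
  have hm : Measurable (fun p : (V × ℕ → unitInterval) × (V × ℕ → unitInterval) =>
      (Sum.elim p.1 p.2 : (V × ℕ) ⊕ (V × ℕ) → unitInterval)) := by
    refine measurable_pi_iff.2 fun i => ?_
    cases i with
    | inl i => exact (measurable_pi_apply i).comp measurable_fst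
    | inr i => exact (measurable_pi_apply i).comp measurable_snd
  have hm2 : Measurable (fun (ω : (V × ℕ) ⊕ (V × ℕ) → unitInterval) (i : V × ℕ) => ω (f i)) :=
    measurable_pi_iff.2 fun i => measurable_pi_apply _
  have h3 : noise V = (PP V).map (fun p (i : V × ℕ) => (Sum.elim p.1 p.2 : (V × ℕ) ⊕ (V × ℕ) →
      unitInterval) (f i)) := by
    rw [← h1, Measure.map_map hm2 hm] at h2
    exact h2.symm
  rw [h3, Measure.map_map measurable_unpack2]
  · have : (unpack2 ∘ fun (p : (V × ℕ → unitInterval) × (V × ℕ → unitInterval)) (i : V × ℕ) =>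
        (Sum.elim p.1 p.2 : (V × ℕ) ⊕ (V × ℕ) → unitInterval) (f i)) = id := by
      funext p
      refine Prod.ext ?_ ?_
      · funext q
        simp only [Function.comp, unpack2, f, id]
        rw [if_pos (by omega)]
        simp only [ne_eq, OfNat.ofNat_ne_zero, not_false_eq_true, mul_div_cancel_left₀, Prod.mk.eta, Sum.elim_inl]
      · funext q
        simp only [Function.comp, unpack2, f, id]
        rw [if_neg (by (clear * -; omega))]
        have : (2 * q.2 + 1) / 2 = q.2 := by omega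
        simp [this]
    rw [this, Measure.map_id]
  · exact hm2.comp hm

/-- It is enough to construct the factor map with two arrays of labels. -/
theorem isFactorOfIID_of_arrays {V : Type*} {G : SimpleGraph V} {ν : Measure (V → ℤˣ)}
    (Ψ : Om V → (V → ℤˣ)) (hΨ : Measurable Ψ)
    (heq : ∀ g : G ≃g G, ∀ᵐ p ∂(PP V), Ψ (shift g p) = fun v => Ψ p (g.symm v))
    (hlaw : Measure.map Ψ (PP V) = ν) : IsFactorOfIID G ν := by
  obtain ⟨Ξ, hΞ, hΞl⟩ := exists_decode
  -- decoding
  let D : (V → unitInterval) → (V × ℕ → unitInterval) := fun x p => Ξ (x p.1) p.2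
  have hD : Measurable D := by
    refine measurable_pi_iff.2 fun p => ?_
    exact (measurable_pi_apply p.2).comp (hΞ.comp (measurable_pi_apply p.1))
  have hDl : Measure.map D (Measure.infinitePi fun _ : V => (volume : Measure unitInterval)) =
      noise V := by
    have h1 := Measure.infinitePi_map_pi (fun _ : V => (volume : Measure unitInterval))
      (f := fun _ => Ξ) (fun _ => hΞ)
    have h2 := Measure.infinitePi_map_curry_symm
      (fun (_ : V) (_ : ℕ) => (volume : Measure unitInterval))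
    rw [hΞl] at h1
    have hm : Measurable (fun (x : V → unitInterval) (i : V) => Ξ (x i)) :=
      measurable_pi_iff.2 fun v => hΞ.comp (measurable_pi_apply v)
    rw [← h1, Measure.map_map (MeasurableEquiv.curry V ℕ unitInterval).symm.measurable hm] at h2
    exact h2
  have hU : Measure.map (unpack2 ∘ D)
      (Measure.infinitePi fun _ : V => (volume : Measure unitInterval)) = PP V := by
    rw [← Measure.map_map measurable_unpack2 hD, hDl, map_unpack2]
  refine ⟨Ψ ∘ (unpack2 ∘ D), hΨ.comp (measurable_unpack2.comp hD), fun g => ?_, ?_⟩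
  · have h := heq g
    rw [← hU] at h
    have h' := ae_of_ae_map (measurable_unpack2.comp hD).aemeasurable h
    filter_upwards [h'] with x hx
    exact hx
  · rw [← Measure.map_map hΨ (measurable_unpack2.comp hD), hU, hlaw]

section Seq

variable {V : Type*} {G : SimpleGraph V} {μ : Measure (V → ℤˣ)}

open Classical in
/-- the sign of the limit -/
noncomputable def signLim (X : ℕ → V → Om V → ℝ) (ω : Om V) (v : V) : ℤˣ :=
  if ∃ k0, ∀ k ≥ k0, 0 < X k v ω then 1 else -1

theorem measurable_signLim {X : ℕ → V → Om V → ℝ} (hm : ∀ k v, Measurable (X k v)) :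
    Measurable (signLim X) := by
  classical
  refine measurable_pi_iff.2 fun v => ?_
  unfold signLim
  refine Measurable.ite ?_ measurable_const measurable_const
  have : {p | ∃ k0, ∀ k ≥ k0, 0 < X k v p} =
      ⋃ k0, ⋂ k, ⋂ (_ : k ≥ k0), {p | 0 < X k v p} := by
    ext p
    simp only [ge_iff_le, Set.mem_ofPred_eq, Set.mem_iUnion, Set.mem_iInter]
  rw [this]
  exact MeasurableSet.iUnion fun k0 => MeasurableSet.iInter fun k => MeasurableSet.iInter fun _ =>
    measurableSet_lt measurable_const (hm k v)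

theorem signLim_tendsto {X : ℕ → V → Om V → ℝ} {v : V} {ω : Om V}
    (h1 : Tendsto (fun k => (X (k + 1) v ω - X k v ω) ^ 2) atTop (𝓝 0))
    (h2 : Tendsto (fun k => 1 - X k v ω ^ 2) atTop (𝓝 0)) :
    Tendsto (fun k => X k v ω) atTop (𝓝 (sp (signLim X ω) v)) := by
  rcases tendsto_sign (a := fun k => X k v ω) h1 h2 with ⟨h, h'⟩ | ⟨h, h'⟩
  · have : sp (signLim X ω) v = 1 := by
      unfold sp signLim
      rw [if_pos h]
      simp
    rw [this]
    exact h'
  · have : sp (signLim X ω) v = -1 := by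
      unfold sp signLim
      rw [if_neg h]
      simp only [Units.val_neg, Units.val_one, Int.reduceNeg, Int.cast_neg, Int.cast_one]
    rw [this]
    exact h'

/-- a sequence of equivariant approximations with the right correlations in the limit -/
theorem isFactorOfIID_of_seq [Countable V] [IsProbabilityMeasure μ] (X : ℕ → V → Om V → ℝ)
    (hm : ∀ k v, Measurable (X k v)) (hb : ∀ k v ω, |X k v ω| ≤ 1)
    (heq : ∀ (g : G ≃g G) k v, ∀ᵐ ω ∂(PP V), X k v (shift g ω) = X k (g.symm v) ω)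
    {K : V → ℝ}
    (hincr : ∀ v k, ∫ ω, (X (k + 1) v ω - X k v ω) ^ 2 ∂(PP V) ≤ K v * (1 / 4) ^ k)
    (hvar : ∀ v k, ∫ ω, (1 - X k v ω ^ 2) ∂(PP V) ≤ K v * (1 / 4) ^ k)
    (hcorr : ∀ S : Finset V, Tendsto (fun k => ∫ ω, ∏ v ∈ S, X k v ω ∂(PP V)) atTop
      (𝓝 (∫ σ, spS S σ ∂μ))) :
    IsFactorOfIID G μ := by
  classical
  have hFm : Measurable (signLim X) := measurable_signLim hm
  have hsq : ∀ k v ω, X k v ω ^ 2 ≤ 1 := fun k v ω => by
    rw [← sq_abs]
    exact pow_le_one₀ (abs_nonneg _) (hb k v ω)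
  have i1 : ∀ v k, Integrable (fun ω => (X (k + 1) v ω - X k v ω) ^ 2) (PP V) := fun v k => by
    refine Integrable.of_bound (((hm _ v).sub (hm k v)).pow_const 2).aestronglyMeasurable 4
      (Eventually.of_forall fun ω => ?_)
    rw [Real.norm_eq_abs, abs_of_nonneg (sq_nonneg _)]
    have h1 := abs_le.1 (hb (k + 1) v ω)
    have h2 := abs_le.1 (hb k v ω)
    nlinarith only [h1, h2]
  have i2 : ∀ v k, Integrable (fun ω => 1 - X k v ω ^ 2) (PP V) := fun v k => by
    refine Integrable.of_bound (measurable_const.sub ((hm k v).pow_const 2)).aestronglyMeasurable 1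
      (Eventually.of_forall fun ω => ?_)
    rw [Real.norm_eq_abs, abs_of_nonneg (by simpa only [sub_nonneg, sq_le_one_iff_abs_le_one] using hsq k v ω)]
    simpa only [tsub_le_iff_right, le_add_iff_nonneg_right] using sq_nonneg (X k v ω)
  have hlim : ∀ v, ∀ᵐ ω ∂(PP V), Tendsto (fun k => X k v ω) atTop
      (𝓝 (sp (signLim X ω) v)) := by
    intro v
    have h1 := ae_tendsto_zero_of_integral_le (P := PP V)
      (f := fun k ω => (X (k + 1) v ω - X k v ω) ^ 2)
      (fun k => ((hm _ v).sub (hm k v)).pow_const 2) (fun k ω => sq_nonneg _)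
      (fun k => i1 v k) (hincr v)
    have h2 := ae_tendsto_zero_of_integral_le (P := PP V)
      (f := fun k ω => 1 - X k v ω ^ 2)
      (fun k => measurable_const.sub ((hm k v).pow_const 2))
      (fun k ω => by linarith only [hsq k v ω]) (fun k => i2 v k) (hvar v)
    filter_upwards [h1, h2] with ω hω1 hω2
    exact signLim_tendsto hω1 hω2
  refine isFactorOfIID_of_arrays (signLim X) hFm (fun g => ?_) ?_
  · have h3 : ∀ᵐ ω ∂(PP V), ∀ k v, X k v (shift g ω) = X k (g.symm v) ω := by
      rw [ae_all_iff]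
      intro k
      rw [ae_all_iff]
      exact fun v => heq g k v
    filter_upwards [h3] with ω hω
    funext v
    have h4 : (∃ k0, ∀ k ≥ k0, 0 < X k v (shift g ω)) ↔
        ∃ k0, ∀ k ≥ k0, 0 < X k (g.symm v) ω := by
      simp only [hω]
    unfold signLim
    by_cases h5 : ∃ k0, ∀ k ≥ k0, 0 < X k (g.symm v) ω
    · rw [if_pos (h4.2 h5), if_pos h5]
    · rw [if_neg (fun h6 => h5 (h4.1 h6)), if_neg h5]
  · have hP1 : IsProbabilityMeasure (Measure.map (signLim X) (PP V)) :=
      Measure.isProbabilityMeasure_map hFm.aemeasurable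
    refine measure_ext_of_corr _ _ fun S => ?_
    have hS : Measurable (spS S : (V → ℤˣ) → ℝ) := measurable_spS S
    rw [integral_map hFm.aemeasurable hS.aestronglyMeasurable]
    refine tendsto_nhds_unique ?_ (hcorr S)
    refine tendsto_integral_of_dominated_convergence (fun _ => 1) (fun k => ?_)
      (integrable_const _) (fun k => Eventually.of_forall fun ω => ?_) ?_
    · exact (Finset.measurable_fun_prod S fun v _ => hm k v).aestronglyMeasurable
    · rw [Real.norm_eq_abs, Finset.abs_prod]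
      exact Finset.prod_le_one (fun v _ => abs_nonneg _) fun v _ => hb k v ω
    · have h : ∀ᵐ ω ∂(PP V), ∀ v ∈ S, Tendsto (fun k => X k v ω) atTop
          (𝓝 (sp (signLim X ω) v)) :=
        (eventually_all_finset S).2 fun v _ => hlim v
      filter_upwards [h] with ω hω
      exact tendsto_finsetProd S fun v hv => hω v hv

/-- The final assembly: a family `Y n t v` (model number `n`, time `t`), Cauchy in `n` for each
time, nearly determined for large times, with the right correlations. -/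
theorem isFactorOfIID_of_family [Countable V] [IsProbabilityMeasure μ]
    (Y : ℕ → ℕ → V → Om V → ℝ) (hm : ∀ n t v, Measurable (Y n t v))
    (hb : ∀ n t v ω, |Y n t v ω| ≤ 1)
    (heq : ∀ (g : G ≃g G) n t v, ∀ᵐ ω ∂(PP V), Y n t v (shift g ω) = Y n t (g.symm v) ω)
    (hc : ∀ t v, ∀ δ > 0, ∃ N, ∀ n ≥ N, ∀ m ≥ N,
      ∫ ω, (Y n t v ω - Y m t v ω) ^ 2 ∂(PP V) ≤ δ)
    {β : ℕ → ℝ} (hβ : Tendsto β atTop (𝓝 0))
    (hmart : ∀ n v s t, s ≤ t → ∫ ω, (Y n t v ω - Y n s v ω) ^ 2 ∂(PP V) ≤ β s)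
    (hvar : ∀ n t v, ∫ ω, (1 - Y n t v ω ^ 2) ∂(PP V) ≤ β t)
    {c : ℕ → Finset V → ℝ}
    (hcorr : ∀ S n t, |∫ ω, ∏ v ∈ S, Y n t v ω ∂(PP V) - c n S| ≤ S.card * β t)
    (hcS : ∀ S, Tendsto (fun n => c n S) atTop (𝓝 (∫ σ, spS S σ ∂μ))) :
    IsFactorOfIID G μ := by
  classical
  have : Encodable V := Encodable.ofCountable V
  -- the times
  have hT : ∀ k : ℕ, ∃ t0, ∀ t ≥ t0, β t ≤ (1 / 4) ^ k := by
    intro k
    have h1 : ∀ᶠ t in atTop, β t < (1 / 4) ^ k := hβ.eventually_lt_const (by positivity)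
    obtain ⟨t0, ht0⟩ := eventually_atTop.1 h1
    exact ⟨t0, fun t ht => (ht0 t ht).le⟩
  choose τ0 hτ0 using hT
  let τ : ℕ → ℕ := fun k => ∑ j ∈ Finset.range (k + 1), τ0 j
  have hτ1 : ∀ k, τ0 k ≤ τ k := fun k =>
    Finset.single_le_sum (f := τ0) (fun _ _ => Nat.zero_le _)
      (Finset.mem_range.2 (Nat.lt_succ_self k))
  have hτβ : ∀ k, β (τ k) ≤ (1 / 4) ^ k := fun k => hτ0 k _ (hτ1 k)
  have hτmono : ∀ k, τ k ≤ τ (k + 1) := fun k => by
    simp only [τ]
    rw [Finset.sum_range_succ _ (k + 1)]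
    exact Nat.le_add_right _ _
  have hcount : ∀ t, ∀ k : ℕ, ∃ N, ∀ n ≥ N, ∀ m ≥ N, ∀ v : V, Encodable.encode v ≤ k →
      ∫ ω, (Y n t v ω - Y m t v ω) ^ 2 ∂(PP V) ≤ (1 / 4) ^ k := by
    intro t k
    choose N hN using fun v : V => hc t v ((1 / 4) ^ k) (by positivity)
    have hfin : {v : V | Encodable.encode v ≤ k}.Finite := by
      refine Set.Finite.of_finite_image (f := fun v : V => Encodable.encode v)
        ((Set.finite_Iic k).subset ?_) (Encodable.encode_injective.injOn)
      rintro _ ⟨v, hv, rfl⟩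
      exact hv
    refine ⟨hfin.toFinset.sup N, fun n hn m hm' v hv => ?_⟩
    have hv' : v ∈ hfin.toFinset := by simpa only [Set.Finite.mem_toFinset, Set.mem_ofPred_eq] using hv
    have h1 : N v ≤ hfin.toFinset.sup N := Finset.le_sup (f := N) hv'
    exact hN v n (h1.trans hn) m (h1.trans hm')
  choose N hN using hcount
  let ν : ℕ → ℕ := fun k => k + ∑ j ∈ Finset.range (k + 1), N (τ j) j
  have hν1 : ∀ k, N (τ k) k ≤ ν k := fun k => by
    have : N (τ k) k ≤ ∑ j ∈ Finset.range (k + 1), N (τ j) j :=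
      Finset.single_le_sum (f := fun j => N (τ j) j) (fun _ _ => Nat.zero_le _)
        (Finset.mem_range.2 (Nat.lt_succ_self k))
    exact this.trans (Nat.le_add_left _ _)
  have hνmono : ∀ k, ν k ≤ ν (k + 1) := fun k => by
    simp only [ν]
    rw [Finset.sum_range_succ _ (k + 1)]
    omega
  have hνk : ∀ k, k ≤ ν k := fun k => Nat.le_add_right _ _
  have hsq : ∀ n t v ω, Y n t v ω ^ 2 ≤ 1 := fun n t v ω => by
    rw [← sq_abs]
    exact pow_le_one₀ (abs_nonneg _) (hb n t v ω)
  have i1 : ∀ n t n' t' v, Integrable (fun ω => (Y n t v ω - Y n' t' v ω) ^ 2) (PP V) :=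
    fun n t n' t' v => by
      refine Integrable.of_bound (((hm n t v).sub (hm n' t' v)).pow_const 2).aestronglyMeasurable 4
        (Eventually.of_forall fun ω => ?_)
      rw [Real.norm_eq_abs, abs_of_nonneg (sq_nonneg _)]
      have h1 := abs_le.1 (hb n t v ω)
      have h2 := abs_le.1 (hb n' t' v ω)
      nlinarith
  have hle4 : ∀ n t n' t' v, ∫ ω, (Y n t v ω - Y n' t' v ω) ^ 2 ∂(PP V) ≤ 4 := by
    intro n t n' t' v
    calc ∫ ω, (Y n t v ω - Y n' t' v ω) ^ 2 ∂(PP V) ≤ ∫ _ω, (4 : ℝ) ∂(PP V) := by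
          refine integral_mono (i1 n t n' t' v) (integrable_const _) fun ω => ?_
          have h1 := abs_le.1 (hb n t v ω)
          have h2 := abs_le.1 (hb n' t' v ω)
          simp only
          nlinarith
      _ = 4 := by simp
  have hincr : ∀ v k, ∫ ω, (Y (ν (k + 1)) (τ (k + 1)) v ω - Y (ν k) (τ k) v ω) ^ 2 ∂(PP V) ≤
      (4 + 4 * 4 ^ (Encodable.encode v)) * (1 / 4) ^ k := by
    intro v k
    by_cases hk : Encodable.encode v ≤ k
    · have h1 := hmart (ν (k + 1)) v (τ k) (τ (k + 1)) (hτmono k)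
      have h2 := hN (τ k) k (ν (k + 1)) ((hν1 k).trans (hνmono k)) (ν k) (hν1 k) v hk
      have h3 : ∫ ω, (Y (ν (k + 1)) (τ (k + 1)) v ω - Y (ν k) (τ k) v ω) ^ 2 ∂(PP V) ≤
          ∫ ω, (2 * (Y (ν (k + 1)) (τ (k + 1)) v ω - Y (ν (k + 1)) (τ k) v ω) ^ 2 +
            2 * (Y (ν (k + 1)) (τ k) v ω - Y (ν k) (τ k) v ω) ^ 2) ∂(PP V) := by
        refine integral_mono (i1 _ _ _ _ v)
          (((i1 _ _ _ _ v).const_mul 2).add ((i1 _ _ _ _ v).const_mul 2)) fun ω => ?_
        simp only
        linarith only [sq_nonneg ((Y (ν (k + 1)) (τ (k + 1)) v ω - Y (ν (k + 1)) (τ k) v ω) - (Y (ν (k + 1)) (τ k) v ω - Y (ν k) (τ k) v ω))]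
      have h4 := integral_add ((i1 (ν (k + 1)) (τ (k + 1)) (ν (k + 1)) (τ k) v).const_mul 2)
        ((i1 (ν (k + 1)) (τ k) (ν k) (τ k) v).const_mul 2)
      rw [h4, integral_const_mul, integral_const_mul] at h3
      have h5 := hτβ k
      have h6 : (0 : ℝ) ≤ 4 * 4 ^ (Encodable.encode v) * (1 / 4) ^ k := by positivity
      have h7 : (0 : ℝ) ≤ (1 / 4) ^ k := by positivity
      calc _ ≤ _ := h3
        _ ≤ 4 * (1 / 4) ^ k := by linarith only [h5, h2, h1]
        _ ≤ 4 * (1 / 4) ^ k + 4 * 4 ^ (Encodable.encode v) * (1 / 4) ^ k :=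
          le_add_of_nonneg_right h6
        _ = _ := by ring
    · have h1 : (1 : ℝ) ≤ 4 ^ (Encodable.encode v) * (1 / 4) ^ k := by
        have h8 : (4 : ℝ) ^ (Encodable.encode v) * (1 / 4) ^ k =
            4 ^ (Encodable.encode v) / 4 ^ k := by
          rw [one_div, inv_pow]
          rfl
        rw [h8, one_le_div (by positivity)]
        exact pow_le_pow_right₀ (by norm_num) (by omega)
      have h7 : (0 : ℝ) ≤ (1 / 4) ^ k := by positivity
      calc _ ≤ (4 : ℝ) := hle4 _ _ _ _ v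
        _ ≤ 4 * (4 ^ (Encodable.encode v) * (1 / 4) ^ k) := by linarith only [h1]
        _ ≤ _ := by
          have h9 : (4 + 4 * (4 : ℝ) ^ (Encodable.encode v)) * (1 / 4) ^ k =
            4 * (1 / 4) ^ k + 4 * (4 ^ (Encodable.encode v) * (1 / 4) ^ k) := by ring
          rw [h9]
          linarith only [h7]
  refine isFactorOfIID_of_seq (G := G) (μ := μ) (fun k => Y (ν k) (τ k))
    (fun k v => hm _ _ v) (fun k v ω => hb _ _ v ω) (fun g k v => heq g _ _ v)
    (K := fun v => 4 + 4 * 4 ^ (Encodable.encode v)) hincr (fun v k => ?_) (fun S => ?_)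
  · have h1 := (hvar (ν k) (τ k) v).trans (hτβ k)
    have h7 : (0 : ℝ) ≤ (1 / 4) ^ k := by positivity
    have h10 : (1 : ℝ) ≤ 4 ^ (Encodable.encode v) := one_le_pow₀ (by norm_num)
    refine h1.trans ?_
    nlinarith only [h7, h10]
  · have hνt : Tendsto ν atTop atTop := tendsto_atTop_mono hνk tendsto_id
    have h1 : Tendsto (fun k => c (ν k) S) atTop (𝓝 (∫ σ, spS S σ ∂μ)) := (hcS S).comp hνt
    have h2 : Tendsto (fun k => ∫ ω, ∏ v ∈ S, Y (ν k) (τ k) v ω ∂(PP V) - c (ν k) S) atTop
        (𝓝 0) := by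
      refine squeeze_zero_norm (a := fun k => (S.card : ℝ) * (1 / 4) ^ k) (fun k => ?_) ?_
      · rw [Real.norm_eq_abs]
        refine (hcorr S (ν k) (τ k)).trans ?_
        gcongr
        exact hτβ k
      · have h3 := (tendsto_pow_atTop_nhds_zero_of_lt_one (r := (1 / 4 : ℝ)) (by norm_num)
          (by norm_num)).const_mul (S.card : ℝ)
        simpa only [one_div, inv_pow, mul_zero] using h3
    have h3 := h2.add h1
    simpa only [sub_add_cancel, zero_add] using h3

end Seq

end Vale.Agent.P161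
end
end

section

section

open MeasureTheory

namespace Vale.Agent.P161

namespace Exist

variable {V : Type*} {G : SimpleGraph V}

instance : DiscreteMeasurableSpace ℤˣ := by
  refine ⟨fun s => ?_⟩
  refine ⟨Units.val '' s, DiscreteMeasurableSpace.forall_measurableSet _, ?_⟩
  exact Set.preimage_image_eq s Units.val_injective

/-- two point law on `{1,-1}` with mean `t` -/
noncomputable def bern (t : ℝ) : Measure ℤˣ :=
  ENNReal.ofReal ((1 + t) / 2) • Measure.dirac 1 + ENNReal.ofReal ((1 - t) / 2) • Measure.dirac (-1)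

theorem bern_isProb {t : ℝ} (h0 : -1 ≤ t) (h1 : t ≤ 1) : IsProbabilityMeasure (bern t) := by
  refine ⟨?_⟩
  simp only [bern, Measure.coe_add, Measure.coe_smul, Pi.add_apply, Pi.smul_apply, measure_univ,
    smul_eq_mul, mul_one]
  rw [← ENNReal.ofReal_add (by linarith only [h0]) (by linarith only [h1])]
  rw [show (1 + t) / 2 + (1 - t) / 2 = 1 by ring]
  simp

theorem bern_singleton (t : ℝ) (s : ℤˣ) :
    bern t {s} = ENNReal.ofReal ((1 + t * ((s : ℤ) : ℝ)) / 2) := by
  rcases Int.units_eq_one_or s with rfl | rfl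
  · simp only [bern, Measure.coe_add, Measure.coe_smul, Pi.add_apply, Pi.smul_apply, MeasurableSet.singleton, Measure.dirac_apply', Set.mem_singleton_iff, Set.indicator_of_mem, Pi.one_apply, smul_eq_mul, mul_one, neg_units_ne_self, not_false_eq_true, Set.indicator_of_notMem, mul_zero, add_zero, Units.val_one, Int.cast_one]
  · simp only [bern, sub_eq_add_neg, Measure.coe_add, Measure.coe_smul, Pi.add_apply, Pi.smul_apply, MeasurableSet.singleton, Measure.dirac_apply', Set.mem_singleton_iff, units_ne_neg_self, not_false_eq_true, Set.indicator_of_notMem, smul_eq_mul, mul_zero, Set.indicator_of_mem, Pi.one_apply, mul_one, zero_add, Units.val_neg, Units.val_one, Int.reduceNeg, Int.cast_neg, Int.cast_one, mul_neg]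

theorem bern_zero_neg : (bern 0).map (fun s => -s) = bern 0 := by
  have hm : Measurable (fun s : ℤˣ => -s) := measurable_of_countable _
  ext1 s hs
  rw [Measure.map_apply hm hs]
  simp only [bern, add_zero, sub_zero, Measure.coe_add, Measure.coe_smul, Pi.add_apply,
    Pi.smul_apply, smul_eq_mul]
  rw [Measure.dirac_apply, Measure.dirac_apply, Measure.dirac_apply, Measure.dirac_apply]
  rw [add_comm]
  congr 1

/-- the base point process: one uniform sign and one sign for each unordered pair -/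
noncomputable def wt (θ : ℝ) : Option (Sym2 V) → Measure ℤˣ
  | none => bern 0
  | some _ => bern θ

/-- the spins -/
noncomputable def spin (P : V → List (Sym2 V)) (ω : Option (Sym2 V) → ℤˣ) (v : V) : ℤˣ :=
  ω none * ((P v).map fun e => ω (some e)).prod

theorem measurable_spin (P : V → List (Sym2 V)) : Measurable (spin P) := by
  rw [measurable_pi_iff]
  intro v
  unfold spin
  apply Measurable.mul (measurable_pi_apply _)
  generalize P v = l
  induction l with
  | nil => simp
  | cons e l ih =>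
    simp only [List.map_cons, List.prod_cons]
    exact (measurable_pi_apply _).mul ih

open SimpleGraph in
/-- existence of the edge lists -/
theorem exists_lists (hG : G.IsTree) : ∃ P : V → List (Sym2 V),
    ∀ ω : Option (Sym2 V) → ℤˣ, ∀ u v, G.Adj u v → spin P ω u * spin P ω v = ω (some s(u, v)) := by
  obtain ⟨r⟩ := hG.connected.nonempty
  choose p hp hlp using fun v => hG.connected.exists_path_of_dist r v
  refine ⟨fun v => (p v).edges, ?_⟩
  have key : ∀ ω : Option (Sym2 V) → ℤˣ, ∀ u v, G.Adj u v → G.dist r v = G.dist r u + 1 →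
      spin (fun v => (p v).edges) ω v = spin (fun v => (p v).edges) ω u * ω (some s(u, v)) := by
    intro ω u v huv hd
    have h1 : ((p u).concat huv).IsPath := by
      apply Walk.isPath_of_length_eq_dist
      rw [Walk.length_concat]
      have := hlp u
      omega
    have h3 : (p u).concat huv = p v :=
      congrArg Subtype.val ((hG.isAcyclic.subsingleton_path r v).elim ⟨_, h1⟩ ⟨_, hp v⟩)
    have h4 : (p v).edges = (p u).edges ++ [s(u, v)] := by
      rw [← h3, Walk.edges_concat, List.concat_eq_append]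
    simp only [spin, h4, List.map_append, List.map_cons, List.map_nil, List.prod_append, List.prod_cons, List.prod_nil, mul_one, mul_assoc]
  intro ω u v huv
  rcases dist_adj_cases hG huv r with h | h
  · rw [key ω u v huv h, ← mul_assoc]
    simp
  · rw [key ω v u huv.symm h, Sym2.eq_swap]
    rw [mul_comm, ← mul_assoc]
    simp

open SimpleGraph in
/-- constancy of a function along a connected set -/
theorem const_of_adj {D : Set V} (hD : (G.induce D).Connected) (f : V → ℤˣ)
    (h : ∀ u ∈ D, ∀ v ∈ D, G.Adj u v → f u = f v) : ∀ u ∈ D, ∀ v ∈ D, f u = f v := by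
  intro u hu v hv
  obtain ⟨w⟩ := hD.preconnected ⟨u, hu⟩ ⟨v, hv⟩
  have : ∀ a b : D, (G.induce D).Walk a b → f a = f b := by
    intro a b w
    induction w with
    | nil => rfl
    | cons hadj _ ih => exact (h _ (Subtype.prop _) _ (Subtype.prop _) hadj).trans ih
  exact this _ _ w

end Exist

open Exist in
/-- existence of the free Ising measure on a tree -/
theorem exists_isFreeIsing' {V : Type*} {G : SimpleGraph V} (hG : G.IsTree) {θ : ℝ}
    (h0 : -1 ≤ θ) (h1 : θ ≤ 1) : ∃ μ : Measure (V → ℤˣ), IsFreeIsing G θ μ := by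
  classical
  obtain ⟨P, hP⟩ := exists_lists hG
  have hpr : ∀ i : Option (Sym2 V), IsProbabilityMeasure (Exist.wt (V := V) θ i) := by
    rintro (_ | _)
    · exact bern_isProb (by norm_num) (by norm_num)
    · exact bern_isProb h0 h1
  have hms := measurable_spin P
  set Q : Measure (Option (Sym2 V) → ℤˣ) := Measure.infinitePi (Exist.wt (V := V) θ) with hQ
  refine ⟨Q.map (spin P), ⟨Measure.isProbabilityMeasure_map hms.aemeasurable, ?_⟩⟩
  intro D hD η
  -- flip
  let T : (Option (Sym2 V) → ℤˣ) → (Option (Sym2 V) → ℤˣ) := fun ω i =>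
    (match i with
      | none => (fun s : ℤˣ => -s)
      | some _ => id : ℤˣ → ℤˣ) (ω i)
  have hTmeas : Measurable T := by
    rw [measurable_pi_iff]
    rintro (_ | e)
    · exact (measurable_of_countable (fun s : ℤˣ => -s)).comp (measurable_pi_apply _)
    · exact measurable_pi_apply _
  have hT : Q.map T = Q := by
    rw [hQ]
    have := Measure.infinitePi_map_pi (μ := Exist.wt (V := V) θ) (f := fun i =>
      (match i with
      | none => (fun s : ℤˣ => -s)
      | some _ => id : ℤˣ → ℤˣ)) (fun i => measurable_of_countable _)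
    rw [this]
    congr 1
    funext i
    rcases i with _ | e
    · exact bern_zero_neg
    · exact Measure.map_id
  have hTspin : ∀ ω v, spin P (T ω) v = - spin P ω v := by
    intro ω v
    simp only [spin, id_eq, neg_mul, T]
  set F : Finset (Sym2 V) := D.sym2.filter (fun e => e ∈ G.edgeSet) with hF
  let t : Option (Sym2 V) → Set ℤˣ := fun i =>
    match i with
    | none => Set.univ
    | some e => {(e.map η).mul}
  let E : (V → ℤˣ) → Set (Option (Sym2 V) → ℤˣ) := fun η => {ω | ∀ v ∈ D, spin P ω v = η v}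
  have hEm : ∀ η, MeasurableSet (E η) := by
    intro η
    have : E η = spin P ⁻¹' (Set.pi (D : Set V) (fun v => {η v})) := by
      ext ω
      simp only [Set.mem_ofPred_eq, Set.mem_preimage, Set.mem_pi, SetLike.mem_coe, Set.mem_singleton_iff, E]
    rw [this]
    apply hms
    exact MeasurableSet.pi D.countable_toSet (fun _ _ => MeasurableSet.of_discrete)
  have hQA : Q (Set.pi ((F.map Function.Embedding.some : Finset (Option (Sym2 V))) :
      Set (Option (Sym2 V))) t) =
      ∏ e ∈ F, ENNReal.ofReal ((1 + θ * (((e.map η).mul : ℤ) : ℝ)) / 2) := by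
    rw [hQ, Measure.infinitePi_pi _ (fun _ _ => MeasurableSet.of_discrete), Finset.prod_map]
    apply Finset.prod_congr rfl
    intro e _
    exact bern_singleton θ _
  have hneD : D.Nonempty := by
    obtain ⟨⟨v, hv⟩⟩ := hD.nonempty
    exact ⟨v, hv⟩
  have hunion : Set.pi ((F.map Function.Embedding.some : Finset (Option (Sym2 V))) :
      Set (Option (Sym2 V))) t = E η ∪ E (fun v => - η v) := by
    ext ω
    rw [Set.mem_pi, Set.mem_union]
    have hiff : (∀ i ∈ ((F.map Function.Embedding.some : Finset (Option (Sym2 V))) :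
        Set (Option (Sym2 V))), ω i ∈ t i) ↔
        ∀ u ∈ D, ∀ v ∈ D, G.Adj u v → spin P ω u * η u = spin P ω v * η v := by
      constructor
      · intro h u hu v hv huv
        have h2 := h (some s(u, v)) (by simp only [hF, Finset.coe_map, Function.Embedding.some_apply, Finset.coe_filter, Finset.mem_sym2_iff, Set.mem_image, Set.mem_ofPred_eq, Option.some.injEq, exists_eq_right, Sym2.mem_iff, forall_eq_or_imp, hu, forall_eq, hv, and_self, SimpleGraph.mem_edgeSet, huv])
        have h3 : ω (some s(u, v)) = η u * η v := by simpa [t] using h2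
        rw [← hP ω u v huv] at h3
        calc spin P ω u * η u = (spin P ω u * spin P ω v) * (spin P ω v * η u) := by
              rw [mul_assoc, ← mul_assoc (spin P ω v), ]
              simp
          _ = (η u * η v) * (spin P ω v * η u) := by rw [h3]
          _ = spin P ω v * η v * (η u * η u) := by
              ac_rfl
          _ = spin P ω v * η v := by simp
      · intro h i hi
        simp only [Finset.coe_map, Set.mem_image, Finset.mem_coe] at hi
        obtain ⟨e, he, rfl⟩ := hi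
        induction e using Sym2.ind with
        | _ u v =>
        simp only [hF, Finset.mem_filter, Finset.mk_mem_sym2_iff, SimpleGraph.mem_edgeSet] at he
        obtain ⟨⟨hu, hv⟩, huv⟩ := he
        have h2 := h u hu v hv huv
        have h3 : ω (some s(u, v)) = η u * η v := by
          rw [← hP ω u v huv]
          calc spin P ω u * spin P ω v = (spin P ω u * η u) * (η u * spin P ω v) := by
                rw [mul_assoc, ← mul_assoc (η u)]
                simp
            _ = (spin P ω v * η v) * (η u * spin P ω v) := by rw [h2]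
            _ = η u * η v * (spin P ω v * spin P ω v) := by
                ac_rfl
            _ = η u * η v := by simp
        simpa [t] using h3
    rw [hiff]
    constructor
    · intro h
      have hc := const_of_adj hD (fun v => spin P ω v * η v) h
      obtain ⟨v0, hv0⟩ := hneD
      rcases Int.units_eq_one_or (spin P ω v0 * η v0) with h1 | h1
      · left
        intro v hv
        have h2 := hc v hv v0 hv0
        rw [h1] at h2
        calc spin P ω v = (spin P ω v * η v) * η v := by rw [mul_assoc]; simp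
          _ = η v := by rw [h2, one_mul]
      · right
        intro v hv
        have h2 := hc v hv v0 hv0
        rw [h1] at h2
        calc spin P ω v = (spin P ω v * η v) * η v := by rw [mul_assoc]; simp
          _ = - η v := by rw [h2, neg_one_mul]
    · rintro (h | h) u hu v hv _
      · rw [h u hu, h v hv]
        simp
      · rw [h u hu, h v hv]
        simp
  have hdisj : Disjoint (E η) (E (fun v => - η v)) := by
    rw [Set.disjoint_left]
    intro ω h1 h2
    obtain ⟨v0, hv0⟩ := hneD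
    have h3 := h1 v0 hv0
    have h4 := h2 v0 hv0
    change _ = - η v0 at h4
    rw [h3] at h4
    rcases Int.units_eq_one_or (η v0) with h | h <;> rw [h] at h4 <;> exact absurd h4 (by decide)
  have hflip : Q (E (fun v => - η v)) = Q (E η) := by
    conv_rhs => rw [← hT]
    rw [Measure.map_apply hTmeas (hEm η)]
    congr 1
    ext ω
    simp only [E, Set.mem_preimage]
    constructor
    · intro h v hv
      rw [hTspin, h v hv, neg_neg]
    · intro h v hv
      have := h v hv
      rw [hTspin] at this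
      rw [← this, neg_neg]
  have h2 : 2 * Q (E η) = ENNReal.ofReal (∏ e ∈ F, (1 + θ * (((e.map η).mul : ℤ) : ℝ)) / 2) := by
    rw [ENNReal.ofReal_prod_of_nonneg, ← hQA, hunion, measure_union hdisj (hEm _), hflip, two_mul]
    intro e _
    rcases Int.units_eq_one_or (e.map η).mul with h | h <;> rw [h] <;> simp <;> linarith only [h0, h1]
  rw [Measure.map_apply hms]
  · change Q (E η) = _
    rw [ENNReal.ofReal_mul (by norm_num), ← h2, ← mul_assoc]
    have : ENNReal.ofReal (1 / 2) * 2 = 1 := by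
      rw [show (2 : ENNReal) = ENNReal.ofReal 2 by simp, ← ENNReal.ofReal_mul (by norm_num)]
      norm_num
    rw [this, one_mul]
  · have : {σ : V → ℤˣ | ∀ v ∈ D, σ v = η v} = Set.pi (D : Set V) (fun v => {η v}) := by
      ext ω
      simp only [Set.mem_ofPred_eq, Set.mem_pi, SetLike.mem_coe, Set.mem_singleton_iff]
    rw [this]
    exact MeasurableSet.pi D.countable_toSet (fun _ _ => MeasurableSet.of_discrete)

/-- existence of the free Ising measure on a tree -/
theorem exists_isFreeIsing {V : Type*} {G : SimpleGraph V} [G.LocallyFinite] (hG : G.IsTree)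
    {θ : ℝ} (h0 : 0 ≤ θ) (h1 : θ ≤ 1) : ∃ μ : Measure (V → ℤˣ), IsFreeIsing G θ μ :=
  exists_isFreeIsing' hG (by linarith only [h0]) h1

end Vale.Agent.P161
end
end

section

section

/-! From growth inequalities for a family `F i` (`i → ∞` along a filter), with all the errors
vanishing in the limit, to `F i t → 0`. -/

open MeasureTheory Filter Topology Set

namespace Vale.Agent.P161

section Limsup

variable {ι : Type*} {l : Filter ι} [l.IsCountablyGenerated] [l.NeBot]
  {F G : ι → ℝ → ℝ} {M C J : ℝ}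

/-- the upper limit of the family -/
noncomputable def Fbar (l : Filter ι) (F : ι → ℝ → ℝ) (t : ℝ) : ℝ := limsup (fun i => F i t) l

omit [l.IsCountablyGenerated] in
theorem eventually_lt_Fbar (h0 : ∀ i t, 0 ≤ F i t) (hM : ∀ i t, F i t ≤ M) (t : ℝ) {δ : ℝ}
    (hδ : 0 < δ) : ∀ᶠ i in l, F i t < Fbar l F t + δ := by
  have hb : IsBoundedUnder (· ≤ ·) l (fun i => F i t) :=
    isBoundedUnder_of ⟨M, fun i => hM i t⟩
  exact eventually_lt_of_limsup_lt (by unfold Fbar; linarith) hb

omit [l.IsCountablyGenerated] in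
theorem Fbar_le_of_eventually (h0 : ∀ i t, 0 ≤ F i t) {t a : ℝ}
    (h : ∀ δ : ℝ, 0 < δ → ∀ᶠ i in l, F i t ≤ a + δ) : Fbar l F t ≤ a := by
  refine le_of_forall_pos_le_add fun δ hδ => ?_
  unfold Fbar
  refine limsup_le_of_le ?_ (h δ hδ)
  exact isCoboundedUnder_le_of_le l fun i => h0 i t

omit [l.IsCountablyGenerated] in
theorem Fbar_nonneg (h0 : ∀ i t, 0 ≤ F i t) (hM : ∀ i t, F i t ≤ M) (t : ℝ) :
    0 ≤ Fbar l F t := by
  refine le_of_forall_pos_le_add fun δ hδ => ?_
  obtain ⟨i, hi⟩ := (eventually_lt_Fbar (l := l) h0 hM t hδ).exists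
  exact (h0 i t).trans hi.le

omit [l.IsCountablyGenerated] in
theorem Fbar_mono (h0 : ∀ i t, 0 ≤ F i t) (hM : ∀ i t, F i t ≤ M)
    (hmono : ∀ i, Monotone (F i)) : Monotone (Fbar l F) := by
  intro s t hst
  refine Fbar_le_of_eventually h0 fun δ hδ => ?_
  filter_upwards [eventually_lt_Fbar (l := l) h0 hM t hδ] with i hi
  exact (hmono i hst).trans hi.le

/-- reverse Fatou for growth inequalities -/
theorem limsup_growth (h0 : ∀ i t, 0 ≤ F i t) (hM : ∀ i t, F i t ≤ M)
    (hGm : ∀ i, Measurable (G i)) {s t : ℝ} (hst : s ≤ t)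
    (hG0 : ∀ i, ∀ r ∈ Ioc s t, 0 ≤ G i r) (hGC : ∀ i, ∀ r ∈ Ioc s t, G i r ≤ C)
    (hgrow : ∀ i, F i t ≤ F i s + ∫ r in s..t, G i r)
    {a e : ℝ → ℝ} (ha : ∀ r ∈ Ioc s t, 0 ≤ a r) (he : ∀ r ∈ Ioc s t, 0 ≤ e r)
    (hint : IntervalIntegrable (fun r => a r * Fbar l F r + e r) volume s t)
    (hlim : ∀ r ∈ Ioc s t, ∀ δ : ℝ, 0 < δ → ∀ᶠ i in l, G i r ≤ a r * F i r + e r + δ) :
    Fbar l F t ≤ Fbar l F s + ∫ r in s..t, (a r * Fbar l F r + e r) := by
  set f : ℝ → ℝ := fun r => a r * Fbar l F r + e r with hf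
  have hf0 : ∀ r ∈ Ioc s t, 0 ≤ f r := fun r hr =>
    add_nonneg (mul_nonneg (ha r hr) (Fbar_nonneg h0 hM r)) (he r hr)
  have hGi : ∀ i, IntervalIntegrable (G i) volume s t := by
    intro i
    rw [intervalIntegrable_iff_integrableOn_Ioc_of_le hst]
    refine Measure.integrableOn_of_bounded (M := C) (by simp only [Real.volume_Ioc, ne_eq, ENNReal.ofReal_ne_top, not_false_eq_true]) (hGm i).aestronglyMeasurable ?_
    refine (ae_restrict_mem measurableSet_Ioc).mono fun r hr => ?_
    rw [Real.norm_eq_abs, abs_of_nonneg (hG0 i r hr)]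
    exact hGC i r hr
  let H : ι → ℝ → ℝ := fun i r => max (G i r - f r) 0
  have hHlim : Tendsto (fun i => ∫ r in s..t, H i r) l (𝓝 (∫ r in s..t, (0 : ℝ))) := by
    refine intervalIntegral.tendsto_integral_filter_of_dominated_convergence (fun _ => C) ?_ ?_ ?_ ?_
    · refine Eventually.of_forall fun i => ?_
      rw [uIoc_of_le hst]
      have h1 : AEStronglyMeasurable f (volume.restrict (Ioc s t)) := by
        have := hint.1.aestronglyMeasurable
        exact this
      exact (((hGm i).aestronglyMeasurable).sub h1).sup aestronglyMeasurable_const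
    · refine Eventually.of_forall fun i => ?_
      refine Eventually.of_forall fun r hr => ?_
      rw [uIoc_of_le hst] at hr
      have h2 : 0 ≤ H i r := le_max_right _ _
      rw [Real.norm_eq_abs, abs_of_nonneg h2]
      refine max_le ?_ ((hG0 i r hr).trans (hGC i r hr))
      have := hf0 r hr
      have := hGC i r hr
      (clear hGm hst hG0 hgrow hlim hint hf hGi H h2; linarith)
    · exact intervalIntegrable_const
    · refine Eventually.of_forall fun r hr => ?_
      rw [uIoc_of_le hst] at hr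
      rw [Metric.tendsto_nhds]
      intro δ hδ
      -- choose small parameters
      have hA : 0 ≤ a r := ha r hr
      have h1 := hlim r hr (δ / 3) (by (clear * - hδ; positivity))
      have h2 := eventually_lt_Fbar (l := l) h0 hM r (δ := δ / (3 * (a r + 1)))
        (by positivity)
      filter_upwards [h1, h2] with i h3 h4
      have h5 : a r * F i r ≤ a r * Fbar l F r + δ / 3 := by
        have h6 : a r * F i r ≤ a r * (Fbar l F r + δ / (3 * (a r + 1))) :=
          mul_le_mul_of_nonneg_left h4.le hA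
        have h7 : a r * (δ / (3 * (a r + 1))) ≤ δ / 3 := by
          rw [mul_div_assoc', div_le_div_iff₀ (by positivity) (by norm_num)]
          linarith only [hδ]
        linarith only [h6, h7]
      rw [Real.dist_eq, sub_zero, abs_of_nonneg (le_max_right _ _)]
      refine max_lt ?_ hδ
      simp only [hf]
      linarith
  rw [intervalIntegral.integral_zero] at hHlim
  refine Fbar_le_of_eventually h0 fun δ hδ => ?_
  have h1 := eventually_lt_Fbar (l := l) h0 hM s (δ := δ / 2) (by (clear * - hδ; positivity))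
  have h2 : ∀ᶠ i in l, ∫ r in s..t, H i r < δ / 2 :=
    hHlim.eventually_lt_const (by positivity)
  filter_upwards [h1, h2] with i h3 h4
  have hHi : IntervalIntegrable (H i) volume s t := by
    have : IntervalIntegrable (fun r => G i r - f r) volume s t := (hGi i).sub hint
    have h5 : H i = fun r => (fun r => G i r - f r) r ⊔ (fun _ => (0 : ℝ)) r := rfl
    rw [h5]
    exact ⟨this.1.sup (integrable_zero _ _ _), this.2.sup (integrable_zero _ _ _)⟩
  have h5 : ∫ r in s..t, G i r ≤ ∫ r in s..t, (f r + H i r) := by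
    refine intervalIntegral.integral_mono_on hst (hGi i) (hint.add hHi) fun r _ => ?_
    have := le_max_left (G i r - f r) 0
    simp only [H]
    linarith only [this]
  rw [intervalIntegral.integral_add hint hHi] at h5
  have h6 := hgrow i
  linarith only [h3, h4, h5, h6]

/-- THE CLOSING THEOREM for a family: growth inequalities in the limit imply convergence to `0` -/
theorem closing_family (h0 : ∀ i t, 0 ≤ F i t) (hM : ∀ i t, F i t ≤ M)
    (hmono : ∀ i, Monotone (F i)) (hstart : ∀ i, F i 0 = 0)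
    (hGm : ∀ i, Measurable (G i))
    (hG0 : ∀ i, ∀ r ∈ Ioc 0 J, 0 ≤ G i r) (hGC : ∀ i, ∀ r ∈ Ioc 0 J, G i r ≤ C)
    (hgrow : ∀ i s t, 0 ≤ s → s ≤ t → t ≤ J → F i t ≤ F i s + ∫ r in s..t, G i r)
    {t0 δ K c : ℝ} {k : ℕ} (ht0 : 0 < t0) (ht0J : t0 ≤ J) (hδ : 0 < δ) (hc : 0 < c)
    (hK : 0 ≤ K)
    (hII : ∀ P : ℕ, ∃ C' : ℝ, ∀ r ∈ Ioc 0 t0, ∀ η : ℝ, 0 < η → ∀ᶠ i in l,
      G i r ≤ C' * r ^ (δ - 1) * F i r + C' * r ^ P + η)
    (hI : ∀ L : ℝ, 0 ≤ L → ∀ r ∈ Ioc 0 J, ∀ η : ℝ, 0 < η → ∀ᶠ i in l,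
      G i r ≤ K * (1 / r + L ^ 2) * F i r
        + K * (1 / r) ^ k * Real.exp (-(c * Real.exp (c * (1 / r + L)))) + η) :
    ∀ t ∈ Icc 0 J, Tendsto (fun i => F i t) l (𝓝 0) := by
  have hFm : Monotone (Fbar l F) := Fbar_mono h0 hM hmono
  have hFb0 : ∀ t, 0 ≤ Fbar l F t := Fbar_nonneg h0 hM
  have hFbM : ∀ t, Fbar l F t ≤ M := fun t =>
    Fbar_le_of_eventually h0 fun δ hδ => Eventually.of_forall fun i => by linarith only [hδ, hM i t]
  have hFmeas : Measurable (Fbar l F) := hFm.measurable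
  have hJ : 0 ≤ J := ht0.le.trans ht0J
  have hstart' : Fbar l F 0 = 0 := by
    refine le_antisymm (Fbar_le_of_eventually h0 fun δ hδ => Eventually.of_forall fun i => ?_)
      (hFb0 0)
    rw [hstart]; linarith only [hδ]
  -- integrability of `a * Fbar`
  have hprod : ∀ {a : ℝ → ℝ} {s t : ℝ}, IntervalIntegrable a volume s t →
      IntervalIntegrable (fun r => a r * Fbar l F r) volume s t := by
    intro a s t h
    have hb : ∀ r, ‖Fbar l F r‖ ≤ M := fun r => by
      rw [Real.norm_eq_abs, abs_of_nonneg (hFb0 r)]; exact hFbM r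
    exact ⟨h.1.mul_bdd hFmeas.aestronglyMeasurable (Eventually.of_forall hb),
      h.2.mul_bdd hFmeas.aestronglyMeasurable (Eventually.of_forall hb)⟩
  have hclose := P161.closing_zero_inv (F := Fbar l F) (t0 := t0) (J := J) (δ := δ) (K := K) (c := c)
    (k := k) ht0 ht0J hδ hc hK (hFm.monotoneOn _) (fun t _ => hFb0 t) ?_ ?_
  · intro t ht
    rw [Metric.tendsto_nhds]
    intro η hη
    filter_upwards [eventually_lt_Fbar (l := l) h0 hM t hη] with i hi
    rw [hclose t ht, zero_add] at hi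
    rw [Real.dist_eq, sub_zero, abs_of_nonneg (h0 i t)]
    exact hi
  · intro P
    obtain ⟨C0, hC0⟩ := hII P
    set C' := max C0 0 with hC'
    have hC'0 : 0 ≤ C' := le_max_right _ _
    have hCC : C0 ≤ C' := le_max_left _ _
    refine ⟨max C' (C' * t0), fun t ht => ?_⟩
    have hpow : IntervalIntegrable (fun r : ℝ => r ^ (δ - 1)) volume 0 t :=
      intervalIntegral.intervalIntegrable_rpow' (by linarith only [hδ])
    have ha : IntervalIntegrable (fun r : ℝ => C' * r ^ (δ - 1)) volume 0 t := hpow.const_mul _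
    have he : IntervalIntegrable (fun r : ℝ => C' * r ^ P) volume 0 t := by
      apply Continuous.intervalIntegrable; fun_prop
    have hg := limsup_growth (l := l) (F := F) (G := G) (M := M) (C := C) h0 hM hGm
      (s := 0) (t := t) ht.1
      (fun i r hr => hG0 i r ⟨hr.1, hr.2.trans (ht.2.trans ht0J)⟩)
      (fun i r hr => hGC i r ⟨hr.1, hr.2.trans (ht.2.trans ht0J)⟩)
      (fun i => hgrow i 0 t le_rfl ht.1 (ht.2.trans ht0J))
      (a := fun r => C' * r ^ (δ - 1)) (e := fun r => C' * r ^ P)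
      (fun r hr => mul_nonneg hC'0 (Real.rpow_nonneg hr.1.le _))
      (fun r hr => mul_nonneg hC'0 (pow_nonneg hr.1.le _))
      ((hprod ha).add he)
      (fun r hr η hη => by
        filter_upwards [hC0 r ⟨hr.1, hr.2.trans ht.2⟩ η hη] with i hi
        have h1 : C0 * r ^ (δ - 1) * F i r ≤ C' * r ^ (δ - 1) * F i r := by
          have := h0 i r
          have := Real.rpow_nonneg hr.1.le (δ - 1)
          gcongr
        have h2 : C0 * r ^ P ≤ C' * r ^ P := by
          have := pow_nonneg hr.1.le P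
          (clear * - hCC this; gcongr)
        linarith only [hi, h1, h2])
    rw [hstart', zero_add, intervalIntegral.integral_add (hprod ha) he,
      intervalIntegral.integral_const_mul] at hg
    have h3 : ∫ r in (0 : ℝ)..t, C' * r ^ (δ - 1) * Fbar l F r ≤
        ∫ r in (0 : ℝ)..t, max C' (C' * t0) * r ^ (δ - 1) * Fbar l F r := by
      refine intervalIntegral.integral_mono_on ht.1 (hprod ha)
        (hprod (hpow.const_mul _)) fun r hr => ?_
      have := hFb0 r
      have := Real.rpow_nonneg hr.1 (δ - 1)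
      have := le_max_left C' (C' * t0)
      gcongr
    have h4 : C' * ∫ r in (0 : ℝ)..t, r ^ P ≤ max C' (C' * t0) * t ^ P := by
      rw [integral_pow]
      simp only [ne_eq, Nat.add_eq_zero_iff, one_ne_zero, and_false, not_false_eq_true, zero_pow, sub_zero]
      have h5 : t ^ (P + 1) / ((P : ℝ) + 1) ≤ t0 * t ^ P := by
        rw [div_le_iff₀ (by (clear * -; positivity)), pow_succ]
        have h6 : t ^ P * t ≤ t ^ P * t0 := mul_le_mul_of_nonneg_left ht.2 (pow_nonneg ht.1 P)
        have h7 : 0 ≤ t0 * t ^ P * (P : ℝ) :=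
          mul_nonneg (mul_nonneg ht0.le (pow_nonneg ht.1 P)) (Nat.cast_nonneg P)
        linarith
      calc C' * (t ^ (P + 1) / ((P : ℝ) + 1)) ≤ C' * (t0 * t ^ P) :=
            mul_le_mul_of_nonneg_left h5 hC'0
        _ = (C' * t0) * t ^ P := by ring
        _ ≤ max C' (C' * t0) * t ^ P :=
            mul_le_mul_of_nonneg_right (le_max_right _ _) (pow_nonneg ht.1 P)
    linarith only [hg, h3, h4]
  · intro L hL s t hs hst htJ
    have hne : ∀ r ∈ uIcc s t, r ≠ 0 := fun r hr => by
      rw [uIcc_of_le hst] at hr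
      exact (hs.trans_le hr.1).ne'
    have hinv : ContinuousOn (fun r : ℝ => 1 / r) (uIcc s t) :=
      continuousOn_const.div continuousOn_id hne
    have ha : IntervalIntegrable (fun r : ℝ => K * (1 / r + L ^ 2)) volume s t :=
      (continuousOn_const.mul (hinv.add continuousOn_const)).intervalIntegrable
    have he : IntervalIntegrable (fun r : ℝ => K * (1 / r) ^ k *
        Real.exp (-(c * Real.exp (c * (1 / r + L))))) volume s t := by
      refine ContinuousOn.intervalIntegrable ?_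
      refine (continuousOn_const.mul (hinv.pow k)).mul ?_
      refine Real.continuous_exp.comp_continuousOn ?_
      refine (continuousOn_const.mul ?_).neg
      exact Real.continuous_exp.comp_continuousOn
        (continuousOn_const.mul (hinv.add continuousOn_const))
    exact limsup_growth (l := l) (F := F) (G := G) (M := M) (C := C) h0 hM hGm hst
      (fun i r hr => hG0 i r ⟨hs.trans hr.1, hr.2.trans htJ⟩)
      (fun i r hr => hGC i r ⟨hs.trans hr.1, hr.2.trans htJ⟩)
      (fun i => hgrow i s t hs.le hst htJ)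
      (fun r hr => by
        have : 0 < r := hs.trans hr.1
        (clear * - hK this; positivity))
      (fun r hr => by
        have : 0 < r := hs.trans hr.1
        (clear * - hK this; positivity))
      ((hprod ha).add he)
      (fun r hr η hη => hI L hL r ⟨hs.trans hr.1, hr.2.trans htJ⟩ η hη)

end Limsup

end Vale.Agent.P161
end
end

section

section

/-!
# Mass transport for path sums around an edge

`LL X k w u` is the sum over the nonbacktracking continuations of length `k` of the directed edge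
`w → u` of the product of `X` over the new edges.  `PF X X' D r i p` is the product along the path
`p 0, …, p r`, with the edge number `i` marked: `X` (pointing towards `p 0`) before, `X'`
(pointing towards `p r`) after the marked edge.
-/

open MeasureTheory Finset

namespace Vale.Agent.P161

variable {V : Type*} {G : SimpleGraph V} [G.LocallyFinite]

open Classical in
/-- neighbours of `u` other than `w` -/
noncomputable def nch (G : SimpleGraph V) [G.LocallyFinite] (w u : V) : Finset V :=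
  (G.neighborFinset u).filter (fun z => z ≠ w)

theorem mem_nch {w u z : V} : z ∈ nch G w u ↔ G.Adj u z ∧ z ≠ w := by
  classical
  simp only [nch, ne_eq, mem_filter, SimpleGraph.mem_neighborFinset]

theorem card_nch {b : ℕ} (hreg : G.IsRegularOfDegree (b + 1)) {w u : V} (h : G.Adj w u) :
    (nch G w u).card = b := by
  classical
  have : nch G w u = (G.neighborFinset u).erase w := by
    ext z
    rw [mem_nch, mem_erase, SimpleGraph.mem_neighborFinset]
    (clear * -; tauto)
  rw [this, card_erase_of_mem (by simpa only [SimpleGraph.mem_neighborFinset] using h.symm), SimpleGraph.card_neighborFinset_eq_degree,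
    hreg]
  rfl

/-- sums over nonbacktracking continuations of the directed edge `w → u` -/
noncomputable def LL (G : SimpleGraph V) [G.LocallyFinite] (X : V → V → ℝ) : ℕ → V → V → ℝ
  | 0, _, _ => 1
  | k + 1, w, u => ∑ z ∈ nch G w u, X u z * LL G X k u z

theorem LL_zero (X : V → V → ℝ) (w u : V) : LL G X 0 w u = 1 := rfl

theorem LL_succ (X : V → V → ℝ) (k : ℕ) (w u : V) :
    LL G X (k + 1) w u = ∑ z ∈ nch G w u, X u z * LL G X k u z := rfl

theorem LL_nonneg {X : V → V → ℝ} (hX : ∀ u z, 0 ≤ X u z) (k : ℕ) :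
    ∀ w u, 0 ≤ LL G X k w u := by
  induction k with
  | zero => intro w u; exact zero_le_one
  | succ k ih =>
    intro w u
    exact sum_nonneg fun z _ => mul_nonneg (hX u z) (ih u z)

theorem LL_le {X : V → V → ℝ} {b : ℕ} (hreg : G.IsRegularOfDegree (b + 1))
    (hX : ∀ u z, 0 ≤ X u z) (hX1 : ∀ u z, X u z ≤ 1) (k : ℕ) :
    ∀ w u, G.Adj w u → LL G X k w u ≤ (b : ℝ) ^ k := by
  induction k with
  | zero => intro w u _; simp [LL_zero]
  | succ k ih =>
    intro w u h
    rw [LL_succ]
    calc ∑ z ∈ nch G w u, X u z * LL G X k u z ≤ ∑ z ∈ nch G w u, (b : ℝ) ^ k := by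
          apply sum_le_sum
          intro z hz
          have h1 := ih u z (mem_nch.1 hz).1
          calc X u z * LL G X k u z ≤ 1 * (b : ℝ) ^ k :=
                mul_le_mul (hX1 u z) h1 (LL_nonneg hX k u z) zero_le_one
            _ = _ := one_mul _
      _ = (b : ℝ) ^ (k + 1) := by
          rw [sum_const, card_nch hreg h, nsmul_eq_mul, pow_succ, mul_comm]

/-- the marked path functional -/
noncomputable def PF (X X' D : V → V → ℝ) (r i : ℕ) (p : ℕ → V) : ℝ :=
  (∏ j ∈ range i, X (p (j + 1)) (p j)) * (∏ j ∈ Ico (i + 1) r, X' (p j) (p (j + 1))) *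
    D (p i) (p (i + 1))

/-- add a vertex before the path -/
def pcons (z : V) (p : ℕ → V) : ℕ → V
  | 0 => z
  | j + 1 => p j

@[simp] theorem pcons_zero (z : V) (p : ℕ → V) : pcons z p 0 = z := rfl

@[simp] theorem pcons_succ (z : V) (p : ℕ → V) (j : ℕ) : pcons z p (j + 1) = p j := rfl

/-- add a vertex after the path `p 0, …, p r` -/
def psnoc (r : ℕ) (z : V) (p : ℕ → V) : ℕ → V := fun j => if j ≤ r then p j else z

theorem psnoc_le {r j : ℕ} (h : j ≤ r) (z : V) (p : ℕ → V) : psnoc r z p j = p j := if_pos h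

theorem psnoc_last (r : ℕ) (z : V) (p : ℕ → V) : psnoc r z p (r + 1) = z :=
  if_neg (by omega)

theorem NBPath.cons {r : ℕ} {p : ℕ → V} (hr : 1 ≤ r) (hp : NBPath G r p) {z : V}
    (hz : z ∈ nch G (p 1) (p 0)) : NBPath G (r + 1) (pcons z p) := by
  rw [mem_nch] at hz
  refine ⟨?_, ?_⟩
  · intro i hi
    cases i with
    | zero => simpa using hz.1.symm
    | succ i => simpa using hp.1 i (by omega)
  · intro i hi
    cases i with
    | zero => simpa using hz.2
    | succ i => simpa using hp.2 i (by omega)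

theorem NBPath.snoc {r : ℕ} {p : ℕ → V} (hr : 1 ≤ r) (hp : NBPath G r p) {z : V}
    (hz : z ∈ nch G (p (r - 1)) (p r)) : NBPath G (r + 1) (psnoc r z p) := by
  rw [mem_nch] at hz
  refine ⟨?_, ?_⟩
  · intro i hi
    rcases Nat.lt_or_ge i r with h | h
    · rw [psnoc_le h.le, psnoc_le (by omega : i + 1 ≤ r)]
      exact hp.1 i h
    · have : i = r := by omega
      subst this
      rw [psnoc_le le_rfl, psnoc_last]
      exact hz.1
  · intro i hi
    rcases Nat.lt_or_ge (i + 1) r with h | h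
    · rw [psnoc_le (by omega), psnoc_le (by omega : i + 2 ≤ r)]
      exact hp.2 i (by omega)
    · have : i + 1 = r := by omega
      subst this
      rw [psnoc_le (by omega), psnoc_last]
      simpa only [ne_eq, add_tsub_cancel_right] using hz.2.symm

theorem PF_cons (X X' D : V → V → ℝ) (r i : ℕ) (z : V) (p : ℕ → V) :
    PF X X' D (r + 1) (i + 1) (pcons z p) = X (p 0) z * PF X X' D r i p := by
  unfold PF
  rw [prod_range_succ']
  simp only [pcons_succ, pcons_zero]
  have h : ∏ j ∈ Ico (i + 1 + 1) (r + 1), X' (pcons z p j) (p j) =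
      ∏ j ∈ Ico (i + 1) r, X' (p j) (p (j + 1)) := by
    rw [← prod_Ico_add' (fun j => X' (pcons z p j) (p j)) (i + 1) r 1]
    rfl
  rw [h]
  ring

theorem PF_snoc (X X' D : V → V → ℝ) {r i : ℕ} (hi : i < r) (z : V) (p : ℕ → V) :
    PF X X' D (r + 1) i (psnoc r z p) = X' (p r) z * PF X X' D r i p := by
  unfold PF
  have h1 : ∏ j ∈ range i, X (psnoc r z p (j + 1)) (psnoc r z p j) =
      ∏ j ∈ range i, X (p (j + 1)) (p j) := by
    apply prod_congr rfl
    intro j hj
    rw [mem_range] at hj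
    rw [psnoc_le (by omega), psnoc_le (by omega)]
  have h2 : ∏ j ∈ Ico (i + 1) (r + 1), X' (psnoc r z p j) (psnoc r z p (j + 1)) =
      (∏ j ∈ Ico (i + 1) r, X' (p j) (p (j + 1))) * X' (p r) z := by
    rw [prod_Ico_succ_top (by omega)]
    congr 1
    · apply prod_congr rfl
      intro j hj
      rw [mem_Ico] at hj
      rw [psnoc_le (by omega), psnoc_le (by omega)]
    · rw [psnoc_le le_rfl, psnoc_last]
  rw [h1, h2, psnoc_le hi.le, psnoc_le (by omega : i + 1 ≤ r)]
  ring

section measure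

variable {Ω : Type*} [MeasurableSpace Ω] {P : Measure Ω} [IsProbabilityMeasure P]

/-- bounded measurable transfer data -/
structure EdgeFun (X : V → V → Ω → ℝ) (C : ℝ) : Prop where
  meas : ∀ u z, Measurable (X u z)
  nonneg : ∀ u z ω, 0 ≤ X u z ω
  le : ∀ u z ω, X u z ω ≤ C

theorem measurable_LL {X : V → V → Ω → ℝ} {C : ℝ} (hX : EdgeFun X C) (k : ℕ) :
    ∀ w u, Measurable fun ω => LL G (fun u z => X u z ω) k w u := by
  induction k with
  | zero => intro w u; exact measurable_const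
  | succ k ih =>
    intro w u
    simp only [LL_succ]
    exact Finset.measurable_sum _ fun z _ => (hX.meas u z).mul (ih u z)

theorem measurable_PF {X X' D : V → V → Ω → ℝ} {C C' CD : ℝ} (hX : EdgeFun X C)
    (hX' : EdgeFun X' C') (hD : EdgeFun D CD) (r i : ℕ) (p : ℕ → V) :
    Measurable fun ω => PF (fun u z => X u z ω) (fun u z => X' u z ω) (fun u z => D u z ω) r i p :=
  ((Finset.measurable_prod _ fun j _ => hX.meas _ _).mul
    (Finset.measurable_prod _ fun j _ => hX'.meas _ _)).mul (hD.meas _ _)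

theorem PF_nonneg {X X' D : V → V → Ω → ℝ} {C C' CD : ℝ} (hX : EdgeFun X C)
    (hX' : EdgeFun X' C') (hD : EdgeFun D CD) (r i : ℕ) (p : ℕ → V) (ω : Ω) :
    0 ≤ PF (fun u z => X u z ω) (fun u z => X' u z ω) (fun u z => D u z ω) r i p :=
  mul_nonneg (mul_nonneg (prod_nonneg fun j _ => hX.nonneg _ _ _)
    (prod_nonneg fun j _ => hX'.nonneg _ _ _)) (hD.nonneg _ _ _)

theorem PF_le {X X' D : V → V → Ω → ℝ} {CD : ℝ} (hX : EdgeFun X 1)
    (hX' : EdgeFun X' 1) (hD : EdgeFun D CD) (r i : ℕ) (p : ℕ → V) (ω : Ω) :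
    PF (fun u z => X u z ω) (fun u z => X' u z ω) (fun u z => D u z ω) r i p ≤ CD := by
  have hP : ∏ j ∈ range i, X (p (j + 1)) (p j) ω ≤ 1 :=
    prod_le_one (fun j _ => hX.nonneg _ _ _) fun j _ => hX.le _ _ _
  have hQ : ∏ j ∈ Ico (i + 1) r, X' (p j) (p (j + 1)) ω ≤ 1 :=
    prod_le_one (fun j _ => hX'.nonneg _ _ _) fun j _ => hX'.le _ _ _
  have hP0 : 0 ≤ ∏ j ∈ range i, X (p (j + 1)) (p j) ω := prod_nonneg fun j _ => hX.nonneg _ _ _
  have hQ0 : 0 ≤ ∏ j ∈ Ico (i + 1) r, X' (p j) (p (j + 1)) ω :=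
    prod_nonneg fun j _ => hX'.nonneg _ _ _
  have h1 : (∏ j ∈ range i, X (p (j + 1)) (p j) ω) *
      (∏ j ∈ Ico (i + 1) r, X' (p j) (p (j + 1)) ω) ≤ 1 := mul_le_one₀ hP hQ0 hQ
  calc PF (fun u z => X u z ω) (fun u z => X' u z ω) (fun u z => D u z ω) r i p
      ≤ 1 * D (p i) (p (i + 1)) ω := mul_le_mul_of_nonneg_right h1 (hD.nonneg _ _ _)
    _ = D (p i) (p (i + 1)) ω := one_mul _
    _ ≤ CD := hD.le _ _ _

variable {b : ℕ} {X X' D : V → V → Ω → ℝ} {CD : ℝ}

/-- the integrand of the swap lemma is integrable -/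
theorem integrable_PF_LL (hreg : G.IsRegularOfDegree (b + 1)) (hX : EdgeFun X 1)
    (hX' : EdgeFun X' 1) (hD : EdgeFun D CD) (k l r i : ℕ) (p : ℕ → V) {a c e f : V}
    (h1 : G.Adj a c) (h2 : G.Adj e f) :
    Integrable (fun ω => PF (fun u z => X u z ω) (fun u z => X' u z ω) (fun u z => D u z ω) r i p *
      LL G (fun u z => X u z ω) k a c * LL G (fun u z => X' u z ω) l e f) P := by
  refine Integrable.of_bound (((measurable_PF hX hX' hD r i p).mul
    (measurable_LL hX k a c)).mul (measurable_LL hX' l e f)).aestronglyMeasurable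
    (CD * (b : ℝ) ^ k * (b : ℝ) ^ l) (Filter.Eventually.of_forall fun ω => ?_)
  have e1 := PF_nonneg hX hX' hD r i p ω
  have e2 := PF_le hX hX' hD r i p ω
  have e3 := LL_nonneg (G := G) (fun u z => hX.nonneg u z ω) k a c
  have e4 := LL_nonneg (G := G) (fun u z => hX'.nonneg u z ω) l e f
  have e5 := LL_le hreg (fun u z => hX.nonneg u z ω) (fun u z => hX.le u z ω) k a c h1
  have e6 := LL_le hreg (fun u z => hX'.nonneg u z ω) (fun u z => hX'.le u z ω) l e f h2
  rw [Real.norm_eq_abs, abs_of_nonneg (mul_nonneg (mul_nonneg e1 e3) e4)]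
  exact mul_le_mul (mul_le_mul e2 e5 e3 (e1.trans e2)) e6 e4
    (mul_nonneg (e1.trans e2) (by (clear * -; positivity)))

/-- **Mass transport around an edge.** -/
theorem swap_aux (hreg : G.IsRegularOfDegree (b + 1)) (hX : EdgeFun X 1)
    (hX' : EdgeFun X' 1) (hD : EdgeFun D CD)
    (hinv : ∀ r i, i < r → ∀ p q : ℕ → V, NBPath G r p → NBPath G r q →
      ∫ ω, PF (fun u z => X u z ω) (fun u z => X' u z ω) (fun u z => D u z ω) r i p ∂P =
      ∫ ω, PF (fun u z => X u z ω) (fun u z => X' u z ω) (fun u z => D u z ω) r i q ∂P)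
    (k : ℕ) : ∀ l r i : ℕ, i < r → ∀ p q : ℕ → V, NBPath G r p → NBPath G (r + k + l) q →
      ∫ ω, PF (fun u z => X u z ω) (fun u z => X' u z ω) (fun u z => D u z ω) r i p *
        LL G (fun u z => X u z ω) k (p 1) (p 0) *
        LL G (fun u z => X' u z ω) l (p (r - 1)) (p r) ∂P =
      (b : ℝ) ^ (k + l) *
      ∫ ω, PF (fun u z => X u z ω) (fun u z => X' u z ω) (fun u z => D u z ω)
        (r + k + l) (i + k) q ∂P := by
  induction k with
  | zero =>
    intro l
    induction l with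
    | zero =>
      intro r i hi p q hp hq
      simp only [LL_zero, mul_one, add_zero, pow_zero, one_mul]
      exact hinv r i hi p q hp hq
    | succ l ih =>
      intro r i hi p q hp hq
      simp only [LL_zero, mul_one, add_zero, zero_add] at ih ⊢
      have hadj : G.Adj (p (r - 1)) (p r) := by
        have := hp.1 (r - 1) (by omega)
        rwa [Nat.sub_add_cancel (by omega)] at this
      have hadj0 : G.Adj (p 1) (p 0) := (hp.1 0 (by omega)).symm
      have h1 : ∀ ω, PF (fun u z => X u z ω) (fun u z => X' u z ω) (fun u z => D u z ω) r i p *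
          LL G (fun u z => X' u z ω) (l + 1) (p (r - 1)) (p r) =
          ∑ z ∈ nch G (p (r - 1)) (p r),
            PF (fun u z => X u z ω) (fun u z => X' u z ω) (fun u z => D u z ω)
              (r + 1) i (psnoc r z p) *
            LL G (fun u z => X' u z ω) l (psnoc r z p (r + 1 - 1)) (psnoc r z p (r + 1)) := by
        intro ω
        rw [LL_succ, mul_sum]
        apply sum_congr rfl
        intro z _
        rw [PF_snoc _ _ _ hi, Nat.add_sub_cancel, psnoc_le le_rfl, psnoc_last]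
        ring
      simp only [h1]
      rw [integral_finsetSum]
      · rw [sum_congr rfl (g := fun _ => (b : ℝ) ^ l *
          ∫ ω, PF (fun u z => X u z ω) (fun u z => X' u z ω) (fun u z => D u z ω)
            (r + (l + 1)) i q ∂P)]
        · rw [sum_const, card_nch hreg hadj, nsmul_eq_mul, pow_succ]
          ring
        · intro z hz
          have := ih (r + 1) i (by omega) (psnoc r z p) q (hp.snoc (by omega) hz)
            (by rw [show r + 1 + l = r + (l + 1) by ring]; exact hq)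
          rw [this, show r + 1 + l = r + (l + 1) by ring]
      · intro z hz
        have hz' := (hp.snoc (by omega) hz).1 r (by omega)
        have := integrable_PF_LL (P := P) hreg hX hX' hD 0 l (r + 1) i (psnoc r z p) hadj0
          (e := psnoc r z p (r + 1 - 1)) (f := psnoc r z p (r + 1)) (by simpa only [add_tsub_cancel_right] using hz')
        simpa only [LL_zero, mul_one] using this
  | succ k ih =>
    intro l r i hi p q hp hq
    have hadj : G.Adj (p (r - 1)) (p r) := by
      have := hp.1 (r - 1) (by omega)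
      rwa [Nat.sub_add_cancel (by omega)] at this
    have hadj0 : G.Adj (p 1) (p 0) := (hp.1 0 (by omega)).symm
    have hadjz : ∀ z ∈ nch G (p 1) (p 0), G.Adj (pcons z p 1) (pcons z p 0) := fun z hz =>
      (mem_nch.1 hz).1
    have h1 : ∀ ω, PF (fun u z => X u z ω) (fun u z => X' u z ω) (fun u z => D u z ω) r i p *
        LL G (fun u z => X u z ω) (k + 1) (p 1) (p 0) *
        LL G (fun u z => X' u z ω) l (p (r - 1)) (p r) =
        ∑ z ∈ nch G (p 1) (p 0),
          PF (fun u z => X u z ω) (fun u z => X' u z ω) (fun u z => D u z ω)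
            (r + 1) (i + 1) (pcons z p) *
          LL G (fun u z => X u z ω) k (pcons z p 1) (pcons z p 0) *
          LL G (fun u z => X' u z ω) l (pcons z p (r + 1 - 1)) (pcons z p (r + 1)) := by
      intro ω
      rw [LL_succ, mul_sum, sum_mul]
      apply sum_congr rfl
      intro z _
      have e1 : pcons z p (r + 1 - 1) = p (r - 1) := by
        have : r + 1 - 1 = (r - 1) + 1 := by omega
        rw [this, pcons_succ]
      have e2 : pcons z p 1 = p 0 := rfl
      rw [PF_cons, e1, e2, pcons_zero, pcons_succ]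
      ring
    simp only [h1]
    rw [integral_finsetSum]
    · rw [sum_congr rfl (g := fun _ => (b : ℝ) ^ (k + l) *
        ∫ ω, PF (fun u z => X u z ω) (fun u z => X' u z ω) (fun u z => D u z ω)
          (r + (k + 1) + l) (i + (k + 1)) q ∂P)]
      · rw [sum_const, card_nch hreg hadj0, nsmul_eq_mul, show k + 1 + l = k + l + 1 by ring,
          pow_succ]
        ring
      · intro z hz
        have := ih l (r + 1) (i + 1) (by omega) (pcons z p) q (hp.cons (by omega) hz)
          (by rw [show r + 1 + k + l = r + (k + 1) + l by ring]; exact hq)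
        rw [this, show r + 1 + k + l = r + (k + 1) + l by ring,
          show i + 1 + k = i + (k + 1) by ring]
    · intro z hz
      refine integrable_PF_LL (P := P) hreg hX hX' hD k l (r + 1) (i + 1) (pcons z p)
        (hadjz z hz) ?_
      have e1 : pcons z p (r + 1 - 1) = p (r - 1) := by
        have : r + 1 - 1 = (r - 1) + 1 := by omega
        rw [this, pcons_succ]
      rw [e1, pcons_succ]
      exact hadj

/-- the swap lemma for an edge -/
theorem swap_edge (hreg : G.IsRegularOfDegree (b + 1)) (hX : EdgeFun X 1)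
    (hX' : EdgeFun X' 1) (hD : EdgeFun D CD)
    (hinv : ∀ r i, i < r → ∀ p q : ℕ → V, NBPath G r p → NBPath G r q →
      ∫ ω, PF (fun u z => X u z ω) (fun u z => X' u z ω) (fun u z => D u z ω) r i p ∂P =
      ∫ ω, PF (fun u z => X u z ω) (fun u z => X' u z ω) (fun u z => D u z ω) r i q ∂P)
    {u w : V} (huw : G.Adj u w) (k l : ℕ) {q : ℕ → V} (hq : NBPath G (k + l + 1) q) :
      (b : ℝ) ^ (k + l) *
      ∫ ω, PF (fun u z => X u z ω) (fun u z => X' u z ω) (fun u z => D u z ω)
        (k + l + 1) k q ∂P =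
      ∫ ω, D u w ω * LL G (fun u z => X u z ω) k w u *
        LL G (fun u z => X' u z ω) l u w ∂P := by
  have hp : NBPath G 1 (fun j => if j = 0 then u else w) := by
    refine ⟨?_, ?_⟩
    · intro i hi
      have : i = 0 := by omega
      subst this
      simpa using huw
    · intro i hi
      omega
  have hq' : NBPath G (1 + k + l) q := by
    rw [show 1 + k + l = k + l + 1 by ring]; exact hq
  have h := swap_aux (P := P) hreg hX hX' hD hinv k l 1 0 (by omega) _ q hp hq'
  rw [show 1 + k + l = k + l + 1 by ring, zero_add] at h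
  rw [← h]
  congr 1
  funext ω
  simp only [PF, range_zero, Nat.add_eq_zero_iff, one_ne_zero, and_false, ↓reduceIte, prod_empty, zero_add, Std.le_refl, Ico_eq_empty_of_le, mul_one, one_mul, tsub_self]

end measure

end Vale.Agent.P161
end
end

section

section

/-!
# The weighted path sums of a regular tree as a `PathSum`
-/

open MeasureTheory Finset

namespace Vale.Agent.P161

variable {V : Type*} {G : SimpleGraph V} [G.LocallyFinite]

/-- truncated weighted sum over the nonbacktracking continuations of `w → u` -/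
noncomputable def TT (G : SimpleGraph V) [G.LocallyFinite] (q : ℝ) (X : V → V → ℝ) (n : ℕ)
    (w u : V) : ℝ := ∑ k ∈ range n, q ^ k * LL G X k w u

theorem TT_zero (q : ℝ) (X : V → V → ℝ) (w u : V) : TT G q X 0 w u = 0 := by simp [TT]

theorem TT_succ (q : ℝ) (X : V → V → ℝ) (n : ℕ) (w u : V) :
    TT G q X (n + 1) w u = 1 + q * ∑ z ∈ nch G w u, X u z * TT G q X n u z := by
  unfold TT
  rw [sum_range_succ', LL_zero, pow_zero, mul_one, add_comm]
  congr 1
  simp only [LL_succ, mul_sum]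
  rw [sum_comm]
  apply sum_congr rfl
  intro z _
  apply sum_congr rfl
  intro k _
  rw [pow_succ]
  ring

theorem TT_nonneg {q : ℝ} (hq : 0 ≤ q) {X : V → V → ℝ} (hX : ∀ u z, 0 ≤ X u z) (n : ℕ) (w u : V) :
    0 ≤ TT G q X n w u :=
  sum_nonneg fun k _ => mul_nonneg (pow_nonneg hq _) (LL_nonneg hX k w u)

theorem TT_mono {q : ℝ} (hq : 0 ≤ q) {X : V → V → ℝ} (hX : ∀ u z, 0 ≤ X u z) {n m : ℕ}
    (h : n ≤ m) (w u : V) : TT G q X n w u ≤ TT G q X m w u :=
  sum_le_sum_of_subset_of_nonneg (range_subset_range.2 h)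
    fun k _ _ => mul_nonneg (pow_nonneg hq _) (LL_nonneg hX k w u)

theorem measurable_TT {Ω : Type*} [MeasurableSpace Ω] {X : V → V → Ω → ℝ} {C : ℝ}
    (hX : EdgeFun X C) (q : ℝ) (n : ℕ) (w u : V) :
    Measurable fun ω => TT G q (fun u z => X u z ω) n w u :=
  Finset.measurable_sum _ fun k _ => (measurable_LL hX k w u).const_mul _

/-- the path sums of a regular tree -/
noncomputable def treeSum {Ω : Type*} [MeasurableSpace Ω] {b : ℕ}
    (hreg : G.IsRegularOfDegree (b + 1)) {κ : ℝ} (hκ0 : 0 ≤ κ) (hκ1 : κ ≤ 1)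
    {X : V → V → Ω → ℝ} (hX : EdgeFun X 1) : PathSum (V × V) Ω b κ where
  ch e := (nch G e.1 e.2).map ⟨fun z => (e.2, z), fun z z' h => (Prod.mk.inj h).2⟩
  x e ω := X e.1 e.2 ω
  W n e ω := X e.1 e.2 ω * TT G (κ / b) (fun u z => X u z ω) n e.1 e.2
  D _ := {e | G.Adj e.1 e.2}
  card_ch := by
    intro n y hy
    rw [card_map]
    exact card_nch hreg hy
  ch_mem := by
    intro n y hy z hz
    rw [mem_map] at hz
    obtain ⟨a, ha, rfl⟩ := hz
    exact (mem_nch.1 ha).1
  x_nonneg y ω := hX.nonneg _ _ _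
  x_le_one y ω := hX.le _ _ _
  x_meas y := hX.meas _ _
  W_zero := by
    intro y ω
    simp only [TT_zero, mul_zero]
  W_succ := by
    intro n y ω
    simp only [TT_succ, sum_map]
    rfl
  κ_nonneg := hκ0
  κ_le_one := hκ1

section

variable {Ω : Type*} [MeasurableSpace Ω] {P : Measure Ω} [IsProbabilityMeasure P] {b : ℕ}
  {hreg : G.IsRegularOfDegree (b + 1)} {κ : ℝ} {hκ0 : 0 ≤ κ} {hκ1 : κ ≤ 1}
  {X : V → V → Ω → ℝ} {hX : EdgeFun X 1}

theorem treeSum_x (e : V × V) (ω : Ω) : (treeSum hreg hκ0 hκ1 hX).x e ω = X e.1 e.2 ω := rfl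

theorem treeSum_W (n : ℕ) (e : V × V) (ω : Ω) :
    (treeSum hreg hκ0 hκ1 hX).W n e ω =
      X e.1 e.2 ω * TT G (κ / b) (fun u z => X u z ω) n e.1 e.2 := rfl

end

namespace PathSum

variable {Y Ω : Type*} [MeasurableSpace Ω] {b : ℕ} {κ : ℝ} (S : PathSum Y Ω b κ)

/-- the sum over the children with the root factor removed -/
noncomputable def Vf (n : ℕ) (y : Y) (ω : Ω) : ℝ := 1 + (κ / b) * ∑ z ∈ S.ch y, S.W n z ω

theorem Vf_nonneg (n : ℕ) (y : Y) (ω : Ω) : 0 ≤ S.Vf n y ω := by
  have h1 := S.κ_nonneg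
  have h2 : 0 ≤ ∑ z ∈ S.ch y, S.W n z ω := sum_nonneg fun z _ => S.W_nonneg n z ω
  unfold Vf
  positivity

theorem Vf_le (hb : 0 < b) (n : ℕ) {y : Y} (hy : y ∈ S.D (n + 1)) (ω : Ω) :
    S.Vf n y ω ≤ n + 1 := by
  have hb' : (b : ℝ) ≠ 0 := by positivity
  have h1 := S.κ_nonneg
  have h2 := S.κ_le_one
  have h0 : 0 ≤ ∑ z ∈ S.ch y, S.W n z ω := sum_nonneg fun z _ => S.W_nonneg n z ω
  have h3 : ∑ z ∈ S.ch y, S.W n z ω ≤ b * n := by
    calc ∑ z ∈ S.ch y, S.W n z ω ≤ ∑ z ∈ S.ch y, (n : ℝ) :=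
          sum_le_sum fun z hz => S.W_le hb n z (S.ch_mem n y hy z hz) ω
      _ = b * n := by rw [sum_const, S.card_ch n y hy, nsmul_eq_mul]
  unfold Vf
  calc 1 + (κ / b) * ∑ z ∈ S.ch y, S.W n z ω ≤ 1 + (1 / b) * ∑ z ∈ S.ch y, S.W n z ω := by
        gcongr
    _ ≤ 1 + (1 / b) * (b * n) := by gcongr
    _ = n + 1 := by field_simp; ring

theorem Vf_meas (n : ℕ) (y : Y) : Measurable (S.Vf n y) :=
  measurable_const.add (measurable_const.mul (Finset.measurable_sum _ fun z _ => S.W_meas n z))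

variable {P : Measure Ω} [IsProbabilityMeasure P]

theorem integrable_exp_Vf (hb : 0 < b) (n : ℕ) {y : Y} (hy : y ∈ S.D (n + 1)) (s : ℝ) :
    Integrable (fun ω => Real.exp (s * S.Vf n y ω)) P := by
  refine Integrable.of_bound (Real.measurable_exp.comp
    ((S.Vf_meas n y).const_mul s)).aestronglyMeasurable (Real.exp (|s| * (n + 1)))
    (Filter.Eventually.of_forall fun ω => ?_)
  rw [Real.norm_eq_abs, abs_of_pos (Real.exp_pos _)]
  apply Real.exp_le_exp.2
  calc s * S.Vf n y ω ≤ |s| * S.Vf n y ω :=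
        mul_le_mul_of_nonneg_right (le_abs_self s) (S.Vf_nonneg n y ω)
    _ ≤ |s| * (n + 1) := mul_le_mul_of_nonneg_left (S.Vf_le hb n hy ω) (abs_nonneg _)

theorem integral_exp_Vf_le (hb : 0 < b) {ρ : ℝ} (hρ0 : 0 ≤ ρ) (hρ1 : ρ ≤ 1)
    (hS1 : S.OneStep P ρ) (hS2 : S.ProdBound P) (m n : ℕ) {y : Y} (hy : y ∈ S.D (n + 1)) :
      ∫ ω, Real.exp ((b : ℝ) ^ (m + 1) * ((1 - κ * (1 - ρ)) / 2) * S.Vf n y ω) ∂P ≤
      Real.exp ((b : ℝ) ^ (m + 1) * (Real.log 2 + (m + 1) * ((1 - κ * (1 - ρ)) / 2))) := by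
  have hκ0 := S.κ_nonneg
  have hκ1 := S.κ_le_one
  have hc0 : 0 ≤ (1 - κ * (1 - ρ)) / 2 := by
    have : κ * (1 - ρ) ≤ 1 * 1 := mul_le_mul hκ1 (by linarith only [hρ0]) (by linarith only [hρ1]) zero_le_one
    linarith only [this]
  have hbase := S.integral_exp_pow_le (P := P) hb hρ0 hρ1 hS1 hS2 m n
  set c := (1 - κ * (1 - ρ)) / 2 with hc
  have hprod : Integrable (fun ω => ∏ z ∈ S.ch y,
      Real.exp ((b : ℝ) ^ m * c * S.W n z ω)) P := by
    refine Integrable.of_bound (Finset.measurable_prod _ fun z _ =>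
      S.exp_meas n z _).aestronglyMeasurable
      (∏ z ∈ S.ch y, Real.exp ((b : ℝ) ^ m * c * n))
      (Filter.Eventually.of_forall fun ω => ?_)
    rw [Real.norm_eq_abs, abs_of_nonneg (prod_nonneg fun z _ => (Real.exp_pos _).le)]
    apply prod_le_prod (fun z _ => (Real.exp_pos _).le)
    intro z hz
    apply Real.exp_le_exp.2
    exact mul_le_mul_of_nonneg_left (S.W_le hb n z (S.ch_mem n y hy z hz) ω) (by (clear * - hb hc0; positivity))
  calc ∫ ω, Real.exp ((b : ℝ) ^ (m + 1) * c * S.Vf n y ω) ∂P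
      ≤ ∫ ω, Real.exp ((b : ℝ) ^ (m + 1) * c) *
          ∏ z ∈ S.ch y, Real.exp ((b : ℝ) ^ m * c * S.W n z ω) ∂P := by
        apply integral_mono (S.integrable_exp_Vf hb n hy _) (hprod.const_mul _)
        intro ω
        have h := exp_step_le' (S.ch y) hb m hκ0 hκ1 hc0 (le_refl (1 : ℝ)) (fun z => S.W n z ω)
          fun z _ => S.W_nonneg n z ω
        simp only [one_mul] at h
        exact h
    _ = Real.exp ((b : ℝ) ^ (m + 1) * c) *
          ∫ ω, ∏ z ∈ S.ch y, Real.exp ((b : ℝ) ^ m * c * S.W n z ω) ∂P :=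
        integral_const_mul _ _
    _ ≤ Real.exp ((b : ℝ) ^ (m + 1) * c) *
          ∏ z ∈ S.ch y, ∫ ω, Real.exp ((b : ℝ) ^ m * c * S.W n z ω) ∂P :=
        mul_le_mul_of_nonneg_left (hS2 n y hy _ (by (clear * - hb hc0; positivity))) (Real.exp_pos _).le
    _ ≤ Real.exp ((b : ℝ) ^ (m + 1) * c) *
          ∏ z ∈ S.ch y, Real.exp ((b : ℝ) ^ m * (Real.log 2 + m * c)) := by
        apply mul_le_mul_of_nonneg_left _ (Real.exp_pos _).le
        apply prod_le_prod
        · intro z _
          exact integral_nonneg fun ω => (Real.exp_pos _).le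
        · intro z hz
          exact hbase z (S.ch_mem n y hy z hz)
    _ = Real.exp ((b : ℝ) ^ (m + 1) * (Real.log 2 + (m + 1) * c)) := by
        rw [prod_const, S.card_ch n y hy, ← Real.exp_nat_mul, ← Real.exp_add]
        congr 1
        ring

/-- double exponential tail of `Vf` -/
theorem integral_sq_tail_Vf (hb : 0 < b) {ρ : ℝ} (hρ0 : 0 ≤ ρ) (hρ1 : ρ ≤ 1)
    (hR : 0 < 1 - κ * (1 - ρ)) (hS1 : S.OneStep P ρ) (hS2 : S.ProdBound P)
    (m n : ℕ) {y : Y} (hy : y ∈ S.D (n + 1)) {t : ℝ} (ht : 4 / (1 - κ * (1 - ρ)) ≤ t) :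
    ∫ ω, (if t ≤ S.Vf n y ω then S.Vf n y ω ^ 2 else 0) ∂P ≤
      t ^ 2 * Real.exp (-((b : ℝ) ^ (m + 1) *
        ((1 - κ * (1 - ρ)) / 2 * t - Real.log 2 - (m + 1) * ((1 - κ * (1 - ρ)) / 2)))) := by
  have hb1 : (1 : ℝ) ≤ b := by exact_mod_cast hb
  have hpow := S.integral_exp_Vf_le (P := P) hb hρ0 hρ1 hS1 hS2 m n hy
  set R := 1 - κ * (1 - ρ) with hRdef
  have ht0 : 0 < t := lt_of_lt_of_le (by (clear * - hR; positivity)) ht
  have h1 : 2 ≤ R / 2 * t := by
    rw [div_le_iff₀ hR] at ht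
    linarith only [ht]
  have h2 : 2 ≤ (b : ℝ) ^ (m + 1) * (R / 2) * t := by
    have h3 : (1 : ℝ) ≤ (b : ℝ) ^ (m + 1) := one_le_pow₀ hb1
    rw [mul_assoc]
    linarith only [mul_nonneg (sub_nonneg.2 h1) (sub_nonneg.2 h3), mul_nonneg (mul_self_nonneg (1 : ℝ)) (sub_nonneg.2 h3), mul_nonneg (mul_self_nonneg (1 : ℝ)) (sub_nonneg.2 h1)]
  have h3 := integral_sq_indicator_le (P := P) (W := S.Vf n y)
    (fun s => S.integrable_exp_Vf hb n hy s) ht0 h2 hpow
  refine h3.trans (le_of_eq ?_)
  rw [mul_assoc, ← Real.exp_add]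
  congr 2
  ring

end PathSum

theorem treeSum_Vf {Ω : Type*} [MeasurableSpace Ω] {b : ℕ}
    {hreg : G.IsRegularOfDegree (b + 1)} {κ : ℝ} {hκ0 : 0 ≤ κ} {hκ1 : κ ≤ 1}
    {X : V → V → Ω → ℝ} {hX : EdgeFun X 1} (n : ℕ) (e : V × V) (ω : Ω) :
    (treeSum hreg hκ0 hκ1 hX).Vf n e ω = TT G (κ / b) (fun u z => X u z ω) (n + 1) e.1 e.2 := by
  unfold PathSum.Vf
  rw [TT_succ]
  simp only [treeSum, sum_map]
  rfl

end Vale.Agent.P161
end
end

section

section

open MeasureTheory Filter Topology ProbabilityTheory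

namespace Vale.Agent.P161

variable {V : Type*} {G : SimpleGraph V}

/-- law of the labels -/
noncomputable abbrev lab (V : Type*) : Measure (V → unitInterval) :=
  Measure.infinitePi fun _ : V => (volume : Measure unitInterval)

/-- action of automorphisms on labels -/
def shft (g : G ≃g G) (x : V → unitInterval) : V → unitInterval := fun v => x (g.symm v)

theorem mp_shft (g : G ≃g G) : MeasurePreserving (shft g) (lab V) (lab V) := by
  refine ⟨measurable_pi_lambda _ fun v => measurable_pi_apply _, ?_⟩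
  exact infinitePi_reindex (volume : Measure unitInterval) g.symm.toEquiv

/-- bounded measurable fields equivariant under colour preserving automorphisms -/
structure Fld [G.LocallyFinite] {d : ℕ} (c : EdgeCol G d) (C : ℝ)
    (f : V → (V → unitInterval) → ℝ) : Prop where
  meas : ∀ v, Measurable (f v)
  bdd : ∀ v ω, |f v ω| ≤ C
  inv : ∀ g : G ≃g G, ColMap c g → ∀ v, ∀ᵐ ω ∂(lab V), f (g v) (shft g ω) = f v ω

/-- adjacency operator on fields -/
noncomputable def adjF [G.LocallyFinite] (f : V → (V → unitInterval) → ℝ) :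
    V → (V → unitInterval) → ℝ := fun v ω => nb G (fun u => f u ω) v

variable [G.LocallyFinite] {d : ℕ} {c : EdgeCol G d}

theorem Fld.adj {C : ℝ} {f : V → (V → unitInterval) → ℝ} (hreg : G.IsRegularOfDegree d)
    (hf : Fld c C f) : Fld c (d * C) (adjF (G := G) f) := by
  refine ⟨?_, ?_, ?_⟩
  · intro v
    exact Finset.measurable_sum _ fun u _ => hf.meas u
  · intro v ω
    calc |∑ u ∈ G.neighborFinset v, f u ω| ≤ ∑ u ∈ G.neighborFinset v, |f u ω| :=
          Finset.abs_sum_le_sum_abs _ _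
      _ ≤ ∑ u ∈ G.neighborFinset v, C := Finset.sum_le_sum fun u _ => hf.bdd u ω
      _ = d * C := by
        rw [Finset.sum_const, SimpleGraph.card_neighborFinset_eq_degree, hreg v, nsmul_eq_mul]
  · intro g hg v
    have h1 : ∀ᵐ ω ∂(lab V), ∀ u ∈ G.neighborFinset v, f (g u) (shft g ω) = f u ω := by
      rw [Finset.eventually_all]
      exact fun u _ => hf.inv g hg u
    filter_upwards [h1] with ω hω
    show ∑ u ∈ G.neighborFinset (g v), f u (shft g ω) = ∑ u ∈ G.neighborFinset v, f u ω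
    symm
    refine Finset.sum_nbij (fun u => g u) ?_ ?_ ?_ ?_
    · intro u hu
      rw [SimpleGraph.mem_neighborFinset] at hu ⊢
      exact g.map_adj_iff.2 hu
    · intro a _ b _ h
      exact g.injective h
    · intro w hw
      rw [Finset.mem_coe, SimpleGraph.mem_neighborFinset] at hw
      refine ⟨g.symm w, ?_, by simp⟩
      rw [Finset.mem_coe, SimpleGraph.mem_neighborFinset, ← g.map_adj_iff]
      simpa using hw
    · intro u hu
      exact (hω u hu).symm

theorem Fld.integrable_mul {C C' : ℝ} {f h : V → (V → unitInterval) → ℝ}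
    (hf : Fld c C f) (hh : Fld c C' h) (u v : V) :
    Integrable (fun ω => f u ω * h v ω) (lab V) := by
  refine Integrable.of_bound ((hf.meas u).mul (hh.meas v)).aestronglyMeasurable (C * C') ?_
  refine Eventually.of_forall fun ω => ?_
  rw [Real.norm_eq_abs, abs_mul]
  exact mul_le_mul (hf.bdd u ω) (hh.bdd v ω) (abs_nonneg _) ((abs_nonneg _).trans (hf.bdd u ω))

theorem Fld.integral_pair {C C' : ℝ} {f h : V → (V → unitInterval) → ℝ}
    (hf : Fld c C f) (hh : Fld c C' h) (g : G ≃g G) (hg : ColMap c g) (u v : V) :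
    ∫ ω, f (g u) ω * h (g v) ω ∂(lab V) = ∫ ω, f u ω * h v ω ∂(lab V) := by
  have h1 : ∫ ω, f (g u) ω * h (g v) ω ∂(lab V) =
      ∫ ω, f (g u) (shft g ω) * h (g v) (shft g ω) ∂(lab V) := by
    have hmp := mp_shft g
    conv_lhs => rw [← hmp.map_eq]
    rw [integral_map hmp.measurable.aemeasurable]
    exact ((hf.meas _).mul (hh.meas _)).aestronglyMeasurable
  rw [h1]
  refine integral_congr_ae ?_
  filter_upwards [hf.inv g hg u, hh.inv g hg v] with ω h1 h2
  rw [h1, h2]

theorem Fld.integral_adj {C C' : ℝ} {f h : V → (V → unitInterval) → ℝ}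
    (hf : Fld c C f) (hh : Fld c C' h) (v : V) :
    ∀ w, ∫ ω, h w ω * adjF (G := G) f v ω ∂(lab V) =
      nb G (fun u => ∫ ω, h w ω * f u ω ∂(lab V)) v := by
  intro w
  unfold adjF nb
  simp only [Finset.mul_sum]
  rw [integral_finsetSum]
  intro u _
  exact hh.integrable_mul hf w u

/-- self-adjointness -/
theorem Fld.sym (hG : G.IsTree) {C C' : ℝ} {f h : V → (V → unitInterval) → ℝ}
    (hf : Fld c C f) (hh : Fld c C' h) (o : V) :
    ∫ ω, adjF (G := G) f o ω * h o ω ∂(lab V) = ∫ ω, f o ω * adjF (G := G) h o ω ∂(lab V) := by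
  obtain ⟨τ, hτ, hτc⟩ := exists_tau hG c
  have e1 : ∫ ω, adjF (G := G) f o ω * h o ω ∂(lab V) =
      ∫ ω, h o ω * adjF (G := G) f o ω ∂(lab V) := by simp only [mul_comm]
  rw [e1, hf.integral_adj hh o o, hh.integral_adj hf o o]
  unfold nb
  refine Finset.sum_congr rfl fun u hu => ?_
  rw [SimpleGraph.mem_neighborFinset] at hu
  have hflip : τ o u u = o := by
    obtain ⟨i, hi⟩ := c.surj o u hu
    have h2 := hτc o u i o
    rw [hτ, hi] at h2
    rw [h2, ← hi, c.inv]
  have h3 := hh.integral_pair hf (τ o u) (hτc o u) o u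
  rw [hτ, hflip] at h3
  show ∫ ω, h o ω * f u ω ∂(lab V) = ∫ ω, f o ω * h u ω ∂(lab V)
  rw [← h3]
  simp only [mul_comm]

theorem sq_integral_mul_le {Ω : Type*} [MeasurableSpace Ω] {P : Measure Ω}
    {F H : Ω → ℝ} (hFF : Integrable (fun ω => F ω * F ω) P) (hHH : Integrable (fun ω => H ω * H ω) P)
    (hFH : Integrable (fun ω => F ω * H ω) P) :
    (∫ ω, F ω * H ω ∂P) ^ 2 ≤ (∫ ω, F ω * F ω ∂P) * (∫ ω, H ω * H ω ∂P) := by
  have key : ∀ t : ℝ, 0 ≤ (∫ ω, H ω * H ω ∂P) * (t * t) + (2 * ∫ ω, F ω * H ω ∂P) * t +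
      (∫ ω, F ω * F ω ∂P) := by
    intro t
    have h1 : 0 ≤ ∫ ω, (F ω + t * H ω) ^ 2 ∂P := integral_nonneg fun ω => sq_nonneg _
    have h2 : ∫ ω, (F ω + t * H ω) ^ 2 ∂P =
        (∫ ω, F ω * F ω ∂P) + (2 * t) * (∫ ω, F ω * H ω ∂P) + (t * t) * (∫ ω, H ω * H ω ∂P) := by
      have i1 : Integrable (fun ω => F ω * F ω + (2 * t) * (F ω * H ω)) P :=
        hFF.add (hFH.const_mul _)
      have i2 : Integrable (fun ω => (t * t) * (H ω * H ω)) P := hHH.const_mul _
      rw [← integral_const_mul, ← integral_const_mul, ← integral_add hFF (hFH.const_mul _),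
        ← integral_add i1 i2]
      refine integral_congr_ae (Eventually.of_forall fun ω => ?_)
      ring
    rw [h2] at h1
    linarith
  have := discrim_le_zero key
  unfold discrim at this
  linarith

theorem Fld.iter {C : ℝ} {f : V → (V → unitInterval) → ℝ} (hreg : G.IsRegularOfDegree d)
    (hf : Fld c C f) (n : ℕ) : Fld c ((d : ℝ) ^ n * C) ((adjF (G := G))^[n] f) := by
  induction n with
  | zero => simpa using hf
  | succ n ih =>
    rw [Function.iterate_succ_apply']
    have := ih.adj hreg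
    rw [show (d : ℝ) ^ (n + 1) * C = d * ((d : ℝ) ^ n * C) by ring]
    exact this

theorem Fld.inner_iter (hG : G.IsTree) (hreg : G.IsRegularOfDegree d) {C C' : ℝ}
    {f h : V → (V → unitInterval) → ℝ} (hf : Fld c C f) (hh : Fld c C' h) (o : V) (n m : ℕ) :
    ∫ ω, (adjF (G := G))^[n] f o ω * (adjF (G := G))^[m] h o ω ∂(lab V) =
      ∫ ω, f o ω * (adjF (G := G))^[n + m] h o ω ∂(lab V) := by
  induction n generalizing m with
  | zero => simp
  | succ n ih =>
    rw [Function.iterate_succ_apply']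
    rw [(hf.iter hreg n).sym hG (hh.iter hreg m) o]
    have := ih (m + 1)
    rw [Function.iterate_succ_apply'] at this
    rw [this]
    congr 2
    funext ω
    rw [show n + (m + 1) = n + 1 + m by ring]

theorem Fld.corr_iter (hreg : G.IsRegularOfDegree d) {C C' : ℝ}
    {f h : V → (V → unitInterval) → ℝ} (hf : Fld c C f) (hh : Fld c C' h) (w v : V) (n : ℕ) :
    ∫ ω, h w ω * (adjF (G := G))^[n] f v ω ∂(lab V) =
      (nb G)^[n] (fun u => ∫ ω, h w ω * f u ω ∂(lab V)) v := by
  induction n generalizing v with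
  | zero => rfl
  | succ n ih =>
    rw [Function.iterate_succ_apply', Function.iterate_succ_apply',
      (hf.iter hreg n).integral_adj hh v w]
    congr 1
    funext u
    exact ih u

/-- spectral bound for fields whose covariance decays fast -/
theorem Fld.norm_iter_le (hG : G.IsTree) (hd : 2 ≤ d) (hreg : G.IsRegularOfDegree d) {C : ℝ}
    {f : V → (V → unitInterval) → ℝ} (hf : Fld c C f) (o : V) {s K : ℝ} (hs : 0 < s)
    (hs2 : ((d : ℝ) - 1) * s ^ 2 = 1) (hK : 0 ≤ K)
    (hcov : ∀ v, ∫ ω, f o ω * f v ω ∂(lab V) ≤ K * s ^ G.dist o v) (n : ℕ) :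
    ∫ ω, (adjF (G := G))^[n] f o ω * (adjF (G := G))^[n] f o ω ∂(lab V) ≤
      (4 / s ^ 2) ^ n * ∫ ω, f o ω * f o ω ∂(lab V) := by
  set N : ℕ → ℝ := fun n => ∫ ω, (adjF (G := G))^[n] f o ω * (adjF (G := G))^[n] f o ω ∂(lab V)
    with hN
  have h0 : ∀ n, 0 ≤ N n := fun n => integral_nonneg fun ω => mul_self_nonneg _
  have hlc : ∀ n, N (n + 1) ^ 2 ≤ N n * N (n + 2) := by
    intro n
    have e1 : N (n + 1) = ∫ ω, (adjF (G := G))^[n] f o ω * (adjF (G := G))^[n + 2] f o ω ∂(lab V) := by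
      rw [hN]
      simp only
      rw [hf.inner_iter hG hreg hf, hf.inner_iter hG hreg hf]
      congr 2
      funext ω
      rw [show n + 1 + (n + 1) = n + (n + 2) by ring]
    rw [e1]
    refine sq_integral_mul_le ?_ ?_ ?_
    · exact (hf.iter hreg n).integrable_mul (hf.iter hreg n) o o
    · exact (hf.iter hreg (n + 2)).integrable_mul (hf.iter hreg (n + 2)) o o
    · exact (hf.iter hreg n).integrable_mul (hf.iter hreg (n + 2)) o o
  have hbd : ∀ n, N n ≤ K * (4 / s ^ 2) ^ n := by
    intro n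
    rw [hN]
    simp only
    rw [hf.inner_iter hG hreg hf, hf.corr_iter hreg hf]
    calc (nb G)^[n + n] (fun u => ∫ ω, f o ω * f u ω ∂(lab V)) o
        ≤ (nb G)^[n + n] (fun u => K * s ^ G.dist o u) o := nb_iter_mono hcov _ _
      _ ≤ (2 / s) ^ (n + n) * (K * s ^ G.dist o o) := by
          refine nb_iter_super (by positivity) ?_ (n + n) o
          intro v
          rw [nb_const_mul]
          calc K * nb G (fun u => s ^ G.dist o u) v ≤ K * ((2 / s) * s ^ G.dist o v) :=
                mul_le_mul_of_nonneg_left (nb_zeta_le hG hd hreg hs hs2 o v) hK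
            _ = 2 / s * (K * s ^ G.dist o v) := by ring
      _ = K * (4 / s ^ 2) ^ n := by
          rw [SimpleGraph.dist_self, pow_zero, mul_one, ← two_mul, pow_mul, mul_comm]
          congr 2
          rw [div_pow]
          norm_num
  have := logconvex_bound h0 hlc (r := 4 / s ^ 2) (by positivity) hbd n
  simpa only [ge_iff_le, hN, Function.iterate_zero, id_eq] using this

end Vale.Agent.P161
end
end

section

section

open MeasureTheory Filter Topology ProbabilityTheory

namespace Vale.Agent.P161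

variable {V : Type*} {G : SimpleGraph V}

theorem local_field [G.LocallyFinite] (hG : G.IsTree) {d : ℕ} (c : EdgeCol G d) (o : V)
    (B : Finset V) {φ : (B → unitInterval) → ℝ} (hφ : Measurable φ) (hφ1 : ∀ x, |φ x| ≤ 1)
    (hz : ∫ ω, φ (B.restrict ω) ∂(lab V) = 0) {s : ℝ} (hs : 0 < s) (hs1 : s ≤ 1) :
    ∃ h : V → (V → unitInterval) → ℝ, Fld c 1 h ∧ (∀ ω, h o ω = φ (B.restrict ω)) ∧
      ∃ K : ℝ, 0 ≤ K ∧ ∀ v, ∫ ω, h o ω * h v ω ∂(lab V) ≤ K * s ^ G.dist o v := by
  classical
  obtain ⟨τ, hτ, hτc⟩ := exists_tau hG c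
  have hoo : ∀ x, τ o o x = x := by
    intro x
    have : (τ o o : V → V) = id := by
      apply ColMap.unique hG.connected (c := c) (hτc o o) (fun _ _ => rfl) (x := o)
      rw [hτ]; rfl
    exact congrFun this x
  let h : V → (V → unitInterval) → ℝ := fun v ω => φ (fun i : B => ω (τ o v i))
  have hFld : Fld c 1 h := by
    refine ⟨?_, fun v ω => hφ1 _, ?_⟩
    · intro v
      exact hφ.comp (measurable_pi_lambda _ fun i => measurable_pi_apply _)
    · intro g hg v
      refine Eventually.of_forall fun ω => ?_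
      have e : (g : V → V) ∘ (τ o v : V → V) = (τ o (g v) : V → V) := by
        apply ColMap.unique hG.connected (c := c) (hg.comp (hτc o v)) (hτc o (g v)) (x := o)
        simp [hτ]
      show φ (fun i : B => ω (g.symm (τ o (g v) i))) = φ (fun i : B => ω (τ o v i))
      congr 1
      funext i
      have h1 := congrFun e (i : V)
      simp only [Function.comp] at h1
      rw [← h1]
      simp
  have ho : ∀ ω, h o ω = φ (B.restrict ω) := by
    intro ω
    show φ (fun i : B => ω (τ o o i)) = φ (B.restrict ω)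
    congr 1
    funext i
    rw [hoo]
    rfl
  refine ⟨h, hFld, ho, ?_⟩
  obtain ⟨R, hR⟩ : ∃ R : ℕ, ∀ i ∈ B, G.dist o i ≤ R :=
    ⟨B.sup (fun i => G.dist o i), fun i hi => Finset.le_sup (f := fun i => G.dist o i) hi⟩
  refine ⟨(1 / s) ^ (2 * R), by (clear * - hs; positivity), fun v => ?_⟩
  by_cases hv : G.dist o v ≤ 2 * R
  · have h1 : ∫ ω, h o ω * h v ω ∂(lab V) ≤ ∫ ω, (1 : ℝ) ∂(lab V) := by
      refine integral_mono (hFld.integrable_mul hFld o v) (integrable_const _) fun ω => ?_
      show h o ω * h v ω ≤ 1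
      calc h o ω * h v ω ≤ |h o ω * h v ω| := le_abs_self _
        _ = |h o ω| * |h v ω| := abs_mul _ _
        _ ≤ 1 * 1 := mul_le_mul (hFld.bdd o ω) (hFld.bdd v ω) (abs_nonneg _) (by norm_num)
        _ = 1 := by norm_num
    rw [integral_const] at h1
    simp only [probReal_univ, smul_eq_mul, mul_one] at h1
    refine h1.trans ?_
    have h2 : s ^ (2 * R) ≤ s ^ G.dist o v := pow_le_pow_of_le_one hs.le hs1 hv
    calc (1 : ℝ) = (1 / s) ^ (2 * R) * s ^ (2 * R) := by
          rw [← mul_pow, one_div, inv_mul_cancel₀ hs.ne', one_pow]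
      _ ≤ _ := mul_le_mul_of_nonneg_left h2 (by positivity)
  · have hdisj : Disjoint B (B.map (τ o v).toEquiv.toEmbedding) := by
      rw [Finset.disjoint_left]
      intro x hx hx'
      rw [Finset.mem_map] at hx'
      obtain ⟨i, hi, rfl⟩ := hx'
      have h1 := hR _ hx
      have h2 := hR _ hi
      have h3 := dist_aut hG.connected (τ o v) o i
      rw [hτ] at h3
      have h4 := hG.connected.dist_triangle (u := o) (v := τ o v i) (w := v)
      rw [G.dist_comm (u := τ o v i) (v := v), h3] at h4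
      apply hv
      change G.dist o (τ o v i) ≤ R at h1
      omega
    have hind : iIndepFun (fun (i : V) (ω : V → unitInterval) => ω i) (lab V) :=
      iIndepFun_infinitePi (X := fun (_ : V) (u : unitInterval) => u) fun _ => measurable_id
    have hind2 := hind.indepFun_finset B (B.map (τ o v).toEquiv.toEmbedding) hdisj
      fun i => measurable_pi_apply i
    let ψ : ((B.map (τ o v).toEquiv.toEmbedding : Finset V) → unitInterval) → ℝ :=
      fun y => φ (fun i : B => y ⟨τ o v i, Finset.mem_map_of_mem _ i.2⟩)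
    have hψ : Measurable ψ :=
      hφ.comp (measurable_pi_lambda _ fun i => measurable_pi_apply _)
    have hind3 := hind2.comp hφ hψ
    have e1 : ∀ ω, h o ω = (φ ∘ fun (a : V → unitInterval) (i : B) => a i) ω := ho
    have e2 : ∀ ω, h v ω = (ψ ∘ fun (a : V → unitInterval)
        (i : (B.map (τ o v).toEquiv.toEmbedding : Finset V)) => a i) ω := fun ω => rfl
    have h5 : ∫ ω, h o ω * h v ω ∂(lab V) = (∫ ω, h o ω ∂(lab V)) * (∫ ω, h v ω ∂(lab V)) := by
      have := hind3.integral_fun_mul_eq_mul_integral ?_ ?_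
      · simp only [e1, e2]
        exact this
      · refine (hφ.comp ?_).aestronglyMeasurable
        exact measurable_pi_lambda _ fun i => measurable_pi_apply _
      · refine (hψ.comp ?_).aestronglyMeasurable
        exact measurable_pi_lambda _ fun i => measurable_pi_apply _
    rw [h5]
    simp only [ho]
    rw [hz, zero_mul]
    (clear * - hs; positivity)

theorem compare_fields [G.LocallyFinite] (hG : G.IsTree) {d : ℕ} (hreg : G.IsRegularOfDegree d)
    {c : EdgeCol G d} {f h : V → (V → unitInterval) → ℝ} (hf : Fld c 1 f) (hh : Fld c 1 h) (o : V)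
    (n : ℕ) :
    ∫ ω, f o ω * (adjF (G := G))^[n] f o ω ∂(lab V) ≤
      ∫ ω, h o ω * (adjF (G := G))^[n] h o ω ∂(lab V) +
        2 * (d : ℝ) ^ n * ∫ ω, |f o ω - h o ω| ∂(lab V) := by
  have hfn := hf.iter hreg n
  have hhn := hh.iter hreg n
  have e1 : ∫ ω, h o ω * (adjF (G := G))^[n] f o ω ∂(lab V) =
      ∫ ω, f o ω * (adjF (G := G))^[n] h o ω ∂(lab V) := by
    have := hf.inner_iter hG hreg hh o n 0
    simp only [Function.iterate_zero, id] at this
    rw [add_zero] at this
    rw [← this]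
    simp only [mul_comm]
  have i1 := hf.integrable_mul hfn o o
  have i2 := hh.integrable_mul hfn o o
  have i3 := hf.integrable_mul hhn o o
  have i4 := hh.integrable_mul hhn o o
  have e2 : ∫ ω, f o ω * (adjF (G := G))^[n] f o ω ∂(lab V) -
      ∫ ω, h o ω * (adjF (G := G))^[n] h o ω ∂(lab V) =
      ∫ ω, (f o ω - h o ω) * ((adjF (G := G))^[n] f o ω + (adjF (G := G))^[n] h o ω) ∂(lab V) := by
    have e3 : ∫ ω, (f o ω - h o ω) * ((adjF (G := G))^[n] f o ω + (adjF (G := G))^[n] h o ω)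
        ∂(lab V) = (∫ ω, f o ω * (adjF (G := G))^[n] f o ω ∂(lab V) -
          ∫ ω, h o ω * (adjF (G := G))^[n] f o ω ∂(lab V)) +
          (∫ ω, f o ω * (adjF (G := G))^[n] h o ω ∂(lab V) -
          ∫ ω, h o ω * (adjF (G := G))^[n] h o ω ∂(lab V)) := by
      rw [← integral_sub i1 i2, ← integral_sub i3 i4,
        ← integral_add (f := fun ω => f o ω * (adjF (G := G))^[n] f o ω -
            h o ω * (adjF (G := G))^[n] f o ω)
          (g := fun ω => f o ω * (adjF (G := G))^[n] h o ω - h o ω * (adjF (G := G))^[n] h o ω)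
          (i1.sub i2) (i3.sub i4)]
      refine integral_congr_ae (Eventually.of_forall fun ω => ?_)
      ring
    rw [e3, e1]
    ring
  have h3 : ∫ ω, (f o ω - h o ω) * ((adjF (G := G))^[n] f o ω + (adjF (G := G))^[n] h o ω)
      ∂(lab V) ≤ ∫ ω, 2 * (d : ℝ) ^ n * |f o ω - h o ω| ∂(lab V) := by
    have habs : Integrable (fun ω => |f o ω - h o ω|) (lab V) := by
      refine Integrable.of_bound
        ((hf.meas o).sub (hh.meas o)).abs.aestronglyMeasurable 2 (Eventually.of_forall fun ω => ?_)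
      rw [Real.norm_eq_abs, abs_abs]
      calc |f o ω - h o ω| ≤ |f o ω| + |h o ω| := abs_sub _ _
        _ ≤ 1 + 1 := add_le_add (hf.bdd o ω) (hh.bdd o ω)
        _ = 2 := by norm_num
    refine integral_mono ?_ (habs.const_mul _) fun ω => ?_
    · have := (i1.sub i2).add (i3.sub i4)
      refine this.congr (Eventually.of_forall fun ω => ?_)
      simp only [Pi.add_apply, Pi.sub_apply]
      ring
    · show (f o ω - h o ω) * ((adjF (G := G))^[n] f o ω + (adjF (G := G))^[n] h o ω) ≤
        2 * (d : ℝ) ^ n * |f o ω - h o ω|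
      have h5 : |(adjF (G := G))^[n] f o ω + (adjF (G := G))^[n] h o ω| ≤ 2 * (d : ℝ) ^ n := by
        have a1 := hfn.bdd o ω
        have a2 := hhn.bdd o ω
        calc _ ≤ |(adjF (G := G))^[n] f o ω| + |(adjF (G := G))^[n] h o ω| := abs_add_le _ _
          _ ≤ (d : ℝ) ^ n * 1 + (d : ℝ) ^ n * 1 := add_le_add a1 a2
          _ = _ := by ring
      calc _ ≤ |(f o ω - h o ω) * ((adjF (G := G))^[n] f o ω + (adjF (G := G))^[n] h o ω)| :=
            le_abs_self _
        _ = |(adjF (G := G))^[n] f o ω + (adjF (G := G))^[n] h o ω| * |f o ω - h o ω| := by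
            rw [abs_mul, mul_comm]
        _ ≤ _ := mul_le_mul_of_nonneg_right h5 (abs_nonneg _)
  rw [integral_const_mul] at h3
  linarith only [h3, e2]

end Vale.Agent.P161
end
end

section

section

/-! The law of the run: the planted law. -/

open MeasureTheory

namespace Vale.Agent.P161

variable {V : Type*} {G : SimpleGraph V} {μ : Measure (V → ℤˣ)}

/-! ### the channel, for measurable functions -/

theorem chan_law {b : ℝ} (hb : |b| ≤ 1 / 2) {F : ℝ → ℝ} (hF : Measurable F) :
    ∫ u : unitInterval, F (chan b u) =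
      ∫ u : unitInterval, F (2 * (u : ℝ) - 1) * (1 + b * (2 * (u : ℝ) - 1)) := by
  have m1 : Measurable fun u : unitInterval => chan b (u : ℝ) :=
    (continuous_chan b).measurable.comp measurable_subtype_coe
  have m2 : Measurable fun u : unitInterval => 2 * (u : ℝ) - 1 :=
    (measurable_subtype_coe.const_mul 2).sub_const 1
  have m3 : Measurable fun x : ℝ => ENNReal.ofReal (1 + b * x) :=
    ENNReal.measurable_ofReal.comp ((measurable_id.const_mul b).const_add 1)
  set ν1 : Measure ℝ := Measure.map (fun u : unitInterval => chan b (u : ℝ)) volume with hν1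
  set ν0 : Measure ℝ := Measure.map (fun u : unitInterval => 2 * (u : ℝ) - 1) volume with hν0
  set ν2 : Measure ℝ := ν0.withDensity fun x => ENNReal.ofReal (1 + b * x) with hν2
  have : IsProbabilityMeasure ν1 := Measure.isProbabilityMeasure_map m1.aemeasurable
  have : IsProbabilityMeasure ν0 := Measure.isProbabilityMeasure_map m2.aemeasurable
  have hpos : ∀ u : unitInterval, 0 ≤ 1 + b * (2 * (u : ℝ) - 1) := by
    intro u
    have h1 := u.2.1
    have h2 := u.2.2
    have h3 : |2 * (u : ℝ) - 1| ≤ 1 := by rw [abs_le]; constructor <;> linarith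
    have h4 : |b * (2 * (u : ℝ) - 1)| ≤ 1 / 2 := by
      rw [abs_mul]
      nlinarith only [h3, hb, abs_nonneg (2 * (u : ℝ) - 1)]
    linarith only [(abs_le.1 h4).1]
  have key : ∀ f : ℝ → ℝ, Measurable f → ∫ x, f x ∂ν2 =
      ∫ u : unitInterval, f (2 * (u : ℝ) - 1) * (1 + b * (2 * (u : ℝ) - 1)) := by
    intro f hf
    rw [hν2, integral_withDensity_eq_integral_toReal_smul m3
      (Filter.Eventually.of_forall fun x => ENNReal.ofReal_lt_top), hν0,
      integral_map (f := fun x => (ENNReal.ofReal (1 + b * x)).toReal • f x) m2.aemeasurable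
        (m3.ennreal_toReal.smul hf).aestronglyMeasurable]
    congr 1
    funext u
    rw [ENNReal.toReal_ofReal (hpos u), smul_eq_mul, mul_comm]
  have hfin : IsFiniteMeasure ν2 := by
    rw [hν2]
    refine isFiniteMeasure_withDensity ?_
    rw [hν0, lintegral_map m3 m2]
    have : ∀ u : unitInterval, ENNReal.ofReal (1 + b * (2 * (u : ℝ) - 1)) ≤ 2 := by
      intro u
      rw [show (2 : ENNReal) = ENNReal.ofReal 2 by simp]
      apply ENNReal.ofReal_le_ofReal
      have h1 := u.2.1
      have h2 := u.2.2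
      have h3 : |2 * (u : ℝ) - 1| ≤ 1 := by rw [abs_le]; constructor <;> linarith only [h1, h2]
      have h4 : |b * (2 * (u : ℝ) - 1)| ≤ 1 / 2 := by
        rw [abs_mul]
        linarith [mul_nonneg (sub_nonneg.2 hb) (sub_nonneg.2 (abs_nonneg (2 * (u : ℝ) - 1))), mul_nonneg (sub_nonneg.2 h3) (sub_nonneg.2 (abs_nonneg (2 * (u : ℝ) - 1))), mul_nonneg (sub_nonneg.2 h3) (sub_nonneg.2 h3)]
      linarith only [(abs_le.1 h4).2]
    refine ne_of_lt (lt_of_le_of_lt (lintegral_mono this) ?_)
    simp only [lintegral_const, measure_univ, mul_one, ENNReal.ofNat_lt_top]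
  have heq : ν1 = ν2 := by
    apply ext_of_forall_integral_eq_of_IsFiniteMeasure
    intro f
    rw [key f f.continuous.measurable, hν1,
      integral_map m1.aemeasurable f.continuous.measurable.aestronglyMeasurable,
      integral_chan hb f.continuous,
      integral_unitInterval (fun u : ℝ => f (2 * u - 1) * (1 + b * (2 * u - 1)))]
    have h5 := intervalIntegral.integral_comp_mul_sub (a := (0 : ℝ)) (b := 1)
      (fun x : ℝ => f x * (1 + b * x)) (c := 2) (by norm_num) 1
    rw [h5]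
    (clear * -; norm_num)
  have h6 := key F hF
  rw [← h6, ← heq, hν1, integral_map m1.aemeasurable hF.aestronglyMeasurable]

/-! ### the observation values of a run -/

open Classical in
/-- the observation values of the run, `0` outside of the list -/
noncomputable def valsE (μ : Measure (V → ℤˣ)) (e : V × ℕ → ℝ) (U : V × ℕ → unitInterval) :
    List (V × ℕ) → (V × ℕ → ℝ)
  | [] => fun _ => 0
  | i :: l => Function.update (valsE μ e U l) i (obs (e i) (mean μ (runE μ e U l) i.1) (U i))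

theorem valsE_nil (e : V × ℕ → ℝ) (U : V × ℕ → unitInterval) :
    valsE μ e U [] = fun _ => 0 := rfl

theorem valsE_cons [DecidableEq (V × ℕ)] (e : V × ℕ → ℝ) (U : V × ℕ → unitInterval) (i : V × ℕ)
    (l : List (V × ℕ)) : valsE μ e U (i :: l) =
      Function.update (valsE μ e U l) i (obs (e i) (mean μ (runE μ e U l) i.1) (U i)) := by
  have h : ∀ (i1 i2 : DecidableEq (V × ℕ)) (f : V × ℕ → ℝ) (a : V × ℕ) (x : ℝ),
      @Function.update (V × ℕ) (fun _ => ℝ) i1 f a x =
        @Function.update (V × ℕ) (fun _ => ℝ) i2 f a x := by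
    intro i1 i2 f a x
    rw [Subsingleton.elim i1 i2]
  rw [valsE]
  exact h _ _ _ _ _

theorem valsE_of_notMem {e : V × ℕ → ℝ} {U : V × ℕ → unitInterval} {l : List (V × ℕ)}
    {i : V × ℕ} (h : i ∉ l) : valsE μ e U l i = 0 := by
  classical
  induction l with
  | nil => rfl
  | cons j l ih =>
    rw [valsE_cons, Function.update_of_ne, ih fun h' => h (List.mem_cons_of_mem _ h')]
    rintro rfl
    exact h List.mem_cons_self

theorem gd_update [DecidableEq (V × ℕ)] {w : V × ℕ → ℝ} (hw : Gd w) {i : V × ℕ} {a : ℝ}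
    (ha : |a| ≤ 1 / 2) : Gd (Function.update w i a) := by
  intro j
  by_cases h : j = i
  · subst h
    rw [Function.update_self]
    exact ha
  · rw [Function.update_of_ne h]
    exact hw j

theorem gd_zero : Gd (fun _ : V × ℕ => (0 : ℝ)) := fun i => by norm_num

theorem gd_valsE [IsProbabilityMeasure μ] {e : V × ℕ → ℝ} (he : StrOK e)
    (U : V × ℕ → unitInterval) (l : List (V × ℕ)) : Gd (valsE μ e U l) := by
  classical
  induction l with
  | nil => exact gd_zero
  | cons i l ih =>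
    rw [valsE_cons]
    exact gd_update ih (abs_obs_runE_le he U l i i.1 (U i))

theorem lk_update [DecidableEq (V × ℕ)] {S : Finset (V × ℕ)} {w : V × ℕ → ℝ} {i : V × ℕ}
    (hi : i ∈ S) (hw : w i = 0) (a : ℝ) (σ : V → ℤˣ) :
    lk S (Function.update w i a) σ = (1 + a * sp σ i.1) * lk S w σ := by
  unfold lk
  rw [← Finset.mul_prod_erase S _ hi, ← Finset.mul_prod_erase S (fun i => 1 + w i * sp σ i.1) hi,
    Function.update_self, hw, zero_mul, add_zero, one_mul]
  congr 1
  refine Finset.prod_congr rfl fun j hj => ?_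
  rw [Function.update_of_ne (Finset.ne_of_mem_erase hj)]

theorem lik_runE {e : V × ℕ → ℝ} {U : V × ℕ → unitInterval} {l : List (V × ℕ)} (hl : l.Nodup)
    {S : Finset (V × ℕ)} (hS : ∀ i ∈ l, i ∈ S) (σ : V → ℤˣ) :
    lik (runE μ e U l) σ = lk S (valsE μ e U l) σ := by
  classical
  induction l with
  | nil => simp [runE_nil, lik_nil, valsE_nil, lk]
  | cons i l ih =>
    rw [List.nodup_cons] at hl
    rw [runE_cons, lik_cons, valsE_cons, lk_update (hS i List.mem_cons_self)
      (valsE_of_notMem hl.1), ih hl.2 fun j hj => hS j (List.mem_cons_of_mem _ hj)]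

theorem mean_runE_eq {e : V × ℕ → ℝ} {U : V × ℕ → unitInterval} {l : List (V × ℕ)}
    (hl : l.Nodup) {S : Finset (V × ℕ)} (hS : ∀ i ∈ l, i ∈ S) (v : V) :
    mean μ (runE μ e U l) v = pmn μ S v (valsE μ e U l) := by
  unfold mean post pmn NN ZZ WW
  simp only [lik_runE hl hS, one_mul]

theorem ZZ_update [IsProbabilityMeasure μ] [DecidableEq (V × ℕ)] {S : Finset (V × ℕ)}
    {w : V × ℕ → ℝ} {i : V × ℕ} (hi : i ∈ S) (hw : w i = 0) (a : ℝ) :
    ZZ μ S (Function.update w i a) = ZZ μ S w + a * NN μ S i.1 w := by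
  unfold ZZ NN WW
  rw [← integral_const_mul, ← integral_add (int_mul_lk S w (localP_const 1))
    ((int_mul_lk S w (localP_sp (Set.mem_univ i.1))).const_mul a)]
  congr 1
  funext σ
  rw [lk_update hi hw]
  ring

theorem measurable_valsE [IsProbabilityMeasure μ] {Ω : Type*} [MeasurableSpace Ω]
    {e : Ω → V × ℕ → ℝ} (hem : ∀ i, Measurable fun ω => e ω i) (he : ∀ ω, StrOK (e ω))
    {U : Ω → V × ℕ → unitInterval} (hU : Measurable U) (l : List (V × ℕ)) :
    Measurable fun ω => valsE μ (e ω) (U ω) l := by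
  classical
  induction l with
  | nil => exact measurable_const
  | cons i l ih =>
    simp only [valsE_cons]
    rw [measurable_pi_iff]
    intro j
    by_cases h : j = i
    · subst h
      simp only [Function.update_self]
      exact measurable_obs_aux2 (hem j) (measurable_mean_runE hem he hU l j.1)
        (measurable_subtype_coe.comp ((measurable_pi_apply j).comp hU))
    · simp only [Function.update_of_ne h]
      exact (measurable_pi_apply j).comp ih

theorem valsE_congr {e e' : V × ℕ → ℝ} {U U' : V × ℕ → unitInterval} {l : List (V × ℕ)}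
    (hee : ∀ i ∈ l, e i = e' i) (h : ∀ i ∈ l, U i = U' i) : valsE μ e U l = valsE μ e' U' l := by
  classical
  induction l with
  | nil => rfl
  | cons i l ih =>
    rw [valsE_cons, valsE_cons, ih (fun j hj => hee j (List.mem_cons_of_mem _ hj))
      (fun j hj => h j (List.mem_cons_of_mem _ hj)), h i List.mem_cons_self,
      hee i List.mem_cons_self, runE_congr (fun j hj => hee j (List.mem_cons_of_mem _ hj))
      (fun j hj => h j (List.mem_cons_of_mem _ hj))]

open Classical in
/-- the reference values -/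
noncomputable def refvE (e : V × ℕ → ℝ) (l : List (V × ℕ)) (U : V × ℕ → unitInterval) :
    V × ℕ → ℝ := fun i => if i ∈ l then e i * (2 * (U i : ℝ) - 1) else 0

theorem abs_two_mul_sub_one_le (u : unitInterval) : |2 * (u : ℝ) - 1| ≤ 1 := by
  rw [abs_le]
  constructor <;> linarith only [u.2.1, u.2.2]

theorem abs_ref_le {e : V × ℕ → ℝ} (he : StrOK e) (i : V × ℕ) (u : unitInterval) :
    |e i * (2 * (u : ℝ) - 1)| ≤ 1 / 2 := by
  rw [abs_mul, abs_of_nonneg (he.nonneg i)]
  have := abs_two_mul_sub_one_le u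
  have h2 := he.le i
  have h3 := he.nonneg i
  nlinarith [abs_nonneg (2 * (u : ℝ) - 1)]

theorem gd_refvE {e : V × ℕ → ℝ} (he : StrOK e) (l : List (V × ℕ)) (U : V × ℕ → unitInterval) :
    Gd (refvE e l U) := by
  intro i
  unfold refvE
  split_ifs
  · exact abs_ref_le he i (U i)
  · norm_num

theorem measurable_refvE (e : V × ℕ → ℝ) (l : List (V × ℕ)) : Measurable (refvE e l) := by
  rw [measurable_pi_iff]
  intro i
  unfold refvE
  by_cases h : i ∈ l
  · simp only [if_pos h]
    exact (((measurable_subtype_coe.comp (measurable_pi_apply i)).const_mul 2).sub_const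
      1).const_mul _
  · simp only [if_neg h]
    exact measurable_const

theorem measurable_update_pair [DecidableEq (V × ℕ)] (i : V × ℕ) :
    Measurable fun p : (V × ℕ → ℝ) × ℝ => Function.update p.1 i p.2 := by
  rw [measurable_pi_iff]
  intro j
  by_cases h : j = i
  · subst h
    simpa only [Function.update_self] using measurable_snd
  · simp only [Function.update_of_ne h]
    exact (measurable_pi_apply j).comp measurable_fst

/-- LAW OF THE RUN, for fixed strengths -/
theorem law_valsE [IsProbabilityMeasure μ] {e : V × ℕ → ℝ} (he : StrOK e) (S : Finset (V × ℕ)) :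
    ∀ l : List (V × ℕ), l.Nodup → (∀ i ∈ l, i ∈ S) → ∀ Φ : (V × ℕ → ℝ) → ℝ, BF Φ →
    ∫ U, Φ (valsE μ e U l) ∂(noise V) =
      ∫ U, Φ (refvE e l U) * ZZ μ S (refvE e l U) ∂(noise V) := by
  classical
  intro l
  induction l with
  | nil =>
    intro _ _ Φ _
    have h1 : ∀ U : V × ℕ → unitInterval, refvE e [] U = fun _ => 0 := by
      intro U
      funext i
      simp [refvE]
    have h2 : ZZ μ S (fun _ => 0) = 1 := by
      unfold ZZ WW lk
      simp
    simp only [valsE_nil, h1, h2, mul_one]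
  | cons i l ih =>
    intro hl hS Φ hΦ
    rw [List.nodup_cons] at hl
    have hiS := hS i List.mem_cons_self
    have hS' : ∀ j ∈ l, j ∈ S := fun j hj => hS j (List.mem_cons_of_mem _ hj)
    obtain ⟨hΦm, C, hC⟩ := hΦ
    have hC0 : 0 ≤ C := (abs_nonneg _).trans (hC _ gd_zero)
    have mvals : Measurable fun U : V × ℕ → unitInterval => valsE μ e U l :=
      measurable_valsE (e := fun _ : V × ℕ → unitInterval => e) (fun _ => measurable_const)
        (fun _ => he) measurable_id l
    have mmean : Measurable fun U : V × ℕ → unitInterval => mean μ (runE μ e U l) i.1 :=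
      measurable_mean_runE' he l i.1
    -- step 1: the fresh coordinate
    have s1 := integral_step l hl.1
      (fun U u => Φ (Function.update (valsE μ e U l) i
        (obs (e i) (mean μ (runE μ e U l) i.1) (u : ℝ))))
      (by
        refine hΦm.comp ((measurable_update_pair i).comp (mvals.prodMk ?_))
        exact measurable_obs_aux2 measurable_const mmean
          (measurable_subtype_coe.comp (measurable_pi_apply i)))
      (by
        intro U U' hUU
        funext u
        rw [valsE_congr (fun _ _ => rfl) hUU, runE_congr_noise hUU])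
      (C := C) (fun U u => hC _ (gd_update (gd_valsE he U l)
        (abs_obs_runE_le he U l i i.1 u)))
    have e0 : ∫ U, Φ (valsE μ e U (i :: l)) ∂(noise V) =
        ∫ U, Φ (Function.update (valsE μ e U l) i
          (obs (e i) (mean μ (runE μ e U l) i.1) (U i : ℝ))) ∂(noise V) := by
      simp only [valsE_cons]
    rw [e0, s1]
    -- step 2: the channel
    set Ψ : unitInterval → (V × ℕ → ℝ) → ℝ := fun u w =>
      Φ (Function.update w i (e i * (2 * (u : ℝ) - 1))) *
        (1 + e i * (2 * (u : ℝ) - 1) * pmn μ S i.1 w) with hΨ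
    have s2 : ∀ U : V × ℕ → unitInterval,
        ∫ u : unitInterval, Φ (Function.update (valsE μ e U l) i
          (obs (e i) (mean μ (runE μ e U l) i.1) (u : ℝ))) =
        ∫ u : unitInterval, Ψ u (valsE μ e U l) := by
      intro U
      have hb : |e i * mean μ (runE μ e U l) i.1| ≤ 1 / 2 :=
        abs_eps_mul (he.nonneg i) (he.le i) (abs_mean_le (good_runE he U l) i.1)
      have h1 := chan_law hb
        (F := fun x => Φ (Function.update (valsE μ e U l) i (e i * x)))
        (hΦm.comp ((measurable_update_pair i).comp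
          (measurable_const.prodMk (measurable_id.const_mul _))))
      unfold obs
      rw [h1]
      congr 1
      funext u
      rw [hΨ]
      simp only
      rw [← mean_runE_eq hl.2 hS']
      ring
    simp only [s2]
    -- measurability and bounds of Ψ
    have hΨm : Measurable fun p : (V × ℕ → ℝ) × unitInterval => Ψ p.2 p.1 := by
      have m1 : Measurable fun p : (V × ℕ → ℝ) × unitInterval =>
          e i * (2 * (p.2 : ℝ) - 1) :=
        (((measurable_subtype_coe.comp measurable_snd).const_mul 2).sub_const 1).const_mul _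
      refine (hΦm.comp ((measurable_update_pair i).comp (measurable_fst.prodMk m1))).mul ?_
      exact (m1.mul ((BF_pmn S i.1).1.comp measurable_fst)).const_add 1
    have hΨb : ∀ u w, Gd w → |Ψ u w| ≤ C * 2 := by
      intro u w hw
      rw [hΨ]
      simp only
      rw [abs_mul]
      refine mul_le_mul (hC _ (gd_update hw (abs_ref_le he i u))) ?_ (abs_nonneg _) hC0
      refine (abs_add_le _ _).trans ?_
      rw [abs_one, abs_mul]
      have h1 := abs_ref_le he i u
      have h2 := abs_pmn_le (μ := μ) (S := S) hw i.1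
      nlinarith only [h2, h1, abs_nonneg (pmn μ S i.1 w)]
    have mref := measurable_refvE e l
    have bZ := BF_ZZ (μ := μ) S
    obtain ⟨mZ, CZ, hCZ⟩ := bZ
    have hCZ0 : 0 ≤ CZ := (abs_nonneg _).trans (hCZ _ gd_zero)
    rw [integral_integral_swap]
    · have s3 : ∀ u : unitInterval, ∫ U, Ψ u (valsE μ e U l) ∂(noise V) =
          ∫ U, Ψ u (refvE e l U) * ZZ μ S (refvE e l U) ∂(noise V) := by
        intro u
        refine ih hl.2 hS' (Ψ u) ⟨?_, C * 2, fun w hw => hΨb u w hw⟩
        exact hΨm.comp (measurable_id.prodMk measurable_const)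
      simp only [s3]
      rw [integral_integral_swap]
      · -- undo the fresh coordinate
        have mref' := measurable_refvE e (i :: l)
        rw [integral_fresh (volume : Measure unitInterval) i
          (fun U => Φ (refvE e (i :: l) U) * ZZ μ S (refvE e (i :: l) U))
          ((hΦm.comp mref').mul (mZ.comp mref')) (C := C * CZ) (fun U => by
            rw [abs_mul]
            exact mul_le_mul (hC _ (gd_refvE he _ U)) (hCZ _ (gd_refvE he _ U)) (abs_nonneg _)
              hC0)]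
        congr 1
        funext U
        congr 1
        funext u
        have h1 : refvE e (i :: l) (Function.update U i u) =
            Function.update (refvE e l U) i (e i * (2 * (u : ℝ) - 1)) := by
          funext j
          by_cases hj : j = i
          · subst hj
            simp only [refvE, List.mem_cons, true_or, ↓reduceIte, Function.update_self]
          · rw [Function.update_of_ne hj]
            unfold refvE
            simp only [List.mem_cons, hj, false_or, ne_eq, not_false_eq_true, Function.update_of_ne]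
        have h2 : refvE e l U i = 0 := by simp [refvE, hl.1]
        rw [h1, ZZ_update hiS h2, hΨ]
        simp only
        have h3 := pmn_mul (μ := μ) (S := S) (gd_refvE he l U) i.1
        rw [← h3]
        ring
      · refine Integrable.of_bound (C := C * 2 * CZ) ?_ (Filter.Eventually.of_forall fun p => ?_)
        · exact ((hΨm.comp ((mref.comp measurable_snd).prodMk measurable_fst)).mul
            (mZ.comp (mref.comp measurable_snd))).aestronglyMeasurable
        · simp only [Function.uncurry, Real.norm_eq_abs]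
          rw [abs_mul]
          exact mul_le_mul (hΨb _ _ (gd_refvE he _ _)) (hCZ _ (gd_refvE he _ _)) (abs_nonneg _)
            (by (clear * - hC0; positivity))
    · refine Integrable.of_bound (C := C * 2) ?_ (Filter.Eventually.of_forall fun p => ?_)
      · exact (hΨm.comp ((mvals.comp measurable_fst).prodMk measurable_snd)).aestronglyMeasurable
      · exact hΨb _ _ (gd_valsE he _ _)

end Vale.Agent.P161
end
end

section

section

/-! Subsequence along which the law of the message converges at every time. -/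

open MeasureTheory Filter Topology Set

namespace Vale.Agent.P161

variable {V : Type*}

theorem integral_abs_le_sqrt {Ω : Type*} [MeasurableSpace Ω] {P : Measure Ω}
    [IsProbabilityMeasure P] {X : Ω → ℝ} (hm : Measurable X) {C : ℝ} (hb : ∀ ω, |X ω| ≤ C)
    {a : ℝ} (ha : ∫ ω, X ω ^ 2 ∂P ≤ a) : ∫ ω, |X ω| ∂P ≤ Real.sqrt a := by
  have i2 : Integrable (fun ω => X ω ^ 2) P := by
    refine Integrable.of_bound (hm.pow_const 2).aestronglyMeasurable (C ^ 2)
      (Eventually.of_forall fun ω => ?_)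
    rw [Real.norm_eq_abs, abs_pow]
    exact pow_le_pow_left₀ (abs_nonneg _) (hb ω) 2
  have i1 : Integrable (fun ω => |X ω|) P := by
    refine Integrable.of_bound hm.abs.aestronglyMeasurable C (Eventually.of_forall fun ω => ?_)
    rw [Real.norm_eq_abs, abs_abs]
    exact hb ω
  have hnn : 0 ≤ ∫ ω, |X ω| ∂P := integral_nonneg fun ω => abs_nonneg _
  refine Real.le_sqrt_of_sq_le (le_trans ?_ ha)
  set m := ∫ ω, |X ω| ∂P with hmdef
  have h1 : 0 ≤ ∫ ω, (|X ω| - m) ^ 2 ∂P := integral_nonneg fun ω => sq_nonneg _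
  have h2 : ∫ ω, (|X ω| - m) ^ 2 ∂P = ∫ ω, X ω ^ 2 ∂P - m ^ 2 := by
    have e : ∀ ω, (|X ω| - m) ^ 2 = X ω ^ 2 - 2 * m * |X ω| + m ^ 2 := fun ω => by
      rw [← sq_abs (X ω)]; ring
    simp only [e]
    have i3 : Integrable (fun ω => X ω ^ 2 - 2 * m * |X ω|) P := i2.sub (i1.const_mul _)
    have e2 : ∫ ω, (X ω ^ 2 - 2 * m * |X ω| + m ^ 2) ∂P =
        ∫ ω, (X ω ^ 2 - 2 * m * |X ω|) ∂P + ∫ _ω, m ^ 2 ∂P :=
      integral_add i3 (integrable_const _)
    have e3 : ∫ ω, (X ω ^ 2 - 2 * m * |X ω|) ∂P = ∫ ω, X ω ^ 2 ∂P - ∫ ω, 2 * m * |X ω| ∂P :=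
      integral_sub i2 (i1.const_mul _)
    rw [e2, e3, integral_const_mul, ← hmdef, integral_const, measureReal_def, measure_univ]
    simp
    ring
  linarith

theorem exists_subseq_msg {Ω : Type*} [MeasurableSpace Ω] {P : Measure Ω}
    [IsProbabilityMeasure P] {θ : ℕ → ℝ} {θc : ℝ} (h0 : ∀ n, 0 ≤ θ n) (hle : ∀ n, θ n ≤ θc)
    (hc : θc < 1) (M : ℕ → ℝ → V → Ω → ℝ) (hm : ∀ n t v, Measurable (M n t v))
    (hb : ∀ n t v ω, |M n t v ω| ≤ 1)
    (hgrow : ∀ a : ℝ, 0 < a → ∃ C : ℝ, ∀ n v s t, a ≤ s → s ≤ t →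
      ∫ ω, (M n t v ω - M n s v ω) ^ 2 ∂P ≤ C * (t - s)) (o z : V) :
    ∃ φ : ℕ → ℕ, StrictMono φ ∧ ∀ r : ℝ, 0 < r → ∀ f : ℝ → ℝ, ContinuousOn f (Icc (-1) 1) →
      CauchySeq fun n => ∫ ω, f (tau (θ (φ n)) (M (φ n) r o ω) (M (φ n) r z ω)) ∂P := by
  have h1 : ∀ n, θ n < 1 := fun n => (hle n).trans_lt hc
  have hθc : 0 ≤ θc := (h0 0).trans (hle 0)
  refine exists_subseq_law (fun n r ω => tau (θ n) (M n r o ω) (M n r z ω))
    (fun n r => measurable_tau (hm n r o) (hm n r z) (θ n))
    (fun n r ω => abs_tau_le (h0 n) (h1 n) (hb n r o ω) (hb n r z ω)) ?_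
  intro r hr δ hδ
  obtain ⟨C, hC⟩ := hgrow (r / 2) (by (clear * - hr; positivity))
  set K : ℝ := 1 / (1 - θc) ^ 3 with hK
  have hθ1 : 0 < 1 - θc := by linarith only [hc]
  have hK0 : 0 < K := by positivity
  -- bound for `|s - r|` small
  set a : ℝ := δ / (2 * K) with ha
  have ha0 : 0 < a := by positivity
  refine ⟨min (r / 2) (a ^ 2 / (|C| + 1)), lt_min (by positivity) (by positivity), ?_⟩
  intro s hs n
  have hs1 : |s - r| < r / 2 := hs.trans_le (min_le_left _ _)
  have hs2 : |s - r| < a ^ 2 / (|C| + 1) := hs.trans_le (min_le_right _ _)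
  have hsr : r / 2 ≤ s := by
    have := (abs_lt.1 hs1).1
    linarith only [this]
  have hdiff : ∀ v, ∫ ω, (M n s v ω - M n r v ω) ^ 2 ∂P ≤ a ^ 2 := by
    intro v
    have h2 : ∫ ω, (M n s v ω - M n r v ω) ^ 2 ∂P ≤ |C| * |s - r| := by
      rcases le_total s r with h | h
      · have h3 := hC n v s r hsr h
        have h4 : ∫ ω, (M n s v ω - M n r v ω) ^ 2 ∂P = ∫ ω, (M n r v ω - M n s v ω) ^ 2 ∂P := by
          congr 1; funext ω; ring
        rw [h4]
        refine h3.trans ?_
        rw [abs_sub_comm, abs_of_nonneg (by linarith only [h] : 0 ≤ r - s)]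
        exact mul_le_mul_of_nonneg_right (le_abs_self C) (by linarith only [h])
      · have h3 := hC n v r s (by linarith only [hr]) h
        refine h3.trans ?_
        rw [abs_of_nonneg (by linarith only [h] : 0 ≤ s - r)]
        exact mul_le_mul_of_nonneg_right (le_abs_self C) (by linarith only [h])
    rw [lt_div_iff₀ (by (clear * -; positivity))] at hs2
    have h5 : |C| * |s - r| ≤ |s - r| * (|C| + 1) := by linarith only [abs_nonneg (s - r)]
    linarith only [hs2, h2, h5]
  have hone : ∀ v, ∫ ω, |M n s v ω - M n r v ω| ∂P ≤ a := by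
    intro v
    have h3 := integral_abs_le_sqrt (P := P) ((hm n s v).sub (hm n r v)) (C := 2) (fun ω => by
      have := abs_sub (M n s v ω) (M n r v ω)
      simp only [Pi.sub_apply]
      linarith only [this, hb n s v ω, hb n r v ω]) (hdiff v)
    rwa [Real.sqrt_sq ha0.le] at h3
  have hint : ∀ v, Integrable (fun ω => |M n s v ω - M n r v ω|) P := by
    intro v
    refine Integrable.of_bound ((hm n s v).sub (hm n r v)).abs.aestronglyMeasurable 2
      (Eventually.of_forall fun ω => ?_)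
    rw [Real.norm_eq_abs, abs_abs]
    have := abs_sub (M n s v ω) (M n r v ω)
    linarith only [this, hb n s v ω, hb n r v ω]
  have hKn : 1 / (1 - θ n) ^ 3 ≤ K := by
    have : 0 < 1 - θ n := by linarith only [h1 n]
    have h6 : 1 - θc ≤ 1 - θ n := by linarith only [hle n]
    rw [hK]
    (clear * - hc h6; gcongr)
  calc ∫ ω, |tau (θ n) (M n s o ω) (M n s z ω) - tau (θ n) (M n r o ω) (M n r z ω)| ∂P
      ≤ ∫ ω, K * (|M n s o ω - M n r o ω| + |M n s z ω - M n r z ω|) ∂P := by
        refine integral_mono_of_nonneg (Eventually.of_forall fun ω => abs_nonneg _)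
          (((hint o).add (hint z)).const_mul K) (Eventually.of_forall fun ω => ?_)
        have h7 := abs_tau_sub_le (h0 n) (h1 n) (hb n s o ω) (hb n s z ω) (hb n r o ω)
          (hb n r z ω)
        refine h7.trans ?_
        exact mul_le_mul_of_nonneg_right hKn (by (clear * -; positivity))
    _ = K * (∫ ω, |M n s o ω - M n r o ω| ∂P + ∫ ω, |M n s z ω - M n r z ω| ∂P) := by
        rw [integral_const_mul, integral_add (hint o) (hint z)]
    _ ≤ K * (a + a) := by
        have := hone o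
        have := hone z
        gcongr
    _ = δ := by
        rw [ha]
        field_simp
        ring

end Vale.Agent.P161
end
end

section

section

/-!
# Decorrelation along spheres (step II of the critical point argument)
-/

open MeasureTheory Finset

namespace Vale.Agent.P161

variable {V : Type*} {G : SimpleGraph V} [G.LocallyFinite]

/-! ## Counting on spheres -/

theorem dist_par_of_eq (hG : G.IsTree) {o v : V} {n : ℕ} (h : G.dist o v = n + 1) :
    G.dist o (par G o v) = n := by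
  have hne : o ≠ v := by
    rintro rfl
    simp only [SimpleGraph.dist_self, Nat.right_eq_add, Nat.add_eq_zero_iff, one_ne_zero, and_false] at h
  have := (par_spec hG hne).2
  omega

theorem dist_par_iter_of_eq (hG : G.IsTree) {o : V} (k : ℕ) : ∀ {v : V} {n : ℕ},
    G.dist o v = n + k → G.dist o ((par G o)^[k] v) = n := by
  induction k with
  | zero => intro v n h; simpa using h
  | succ k ih =>
    intro v n h
    rw [Function.iterate_succ_apply]
    exact ih (dist_par_of_eq hG (by omega))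

theorem filter_par_sph [DecidableEq V] (hG : G.IsTree) {o u : V} {n : ℕ}
    (hu : u ∈ sph hG.connected o n) :
    (sph hG.connected o (n + 1)).filter (fun v => par G o v = u) = chil G o u := by
  rw [mem_sph] at hu
  ext v
  rw [mem_filter, mem_sph, mem_chil]
  constructor
  · rintro ⟨h1, h2⟩
    have hne : o ≠ v := by
      rintro rfl
      simp at h1
    have := par_spec hG hne
    rw [h2] at this
    exact ⟨this.1, this.2.symm⟩
  · intro h
    refine ⟨by rw [h.2, hu], ?_⟩
    exact par_eq_of_mem_chil hG (mem_chil.2 h)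

theorem sum_sph_par {d : ℕ} (hG : G.IsTree) (hreg : G.IsRegularOfDegree d) (o : V) {n : ℕ}
    (hn : 1 ≤ n) (g : V → ℝ) :
    ∑ v ∈ sph hG.connected o (n + 1), g (par G o v)
      = ((d - 1 : ℕ) : ℝ) * ∑ u ∈ sph hG.connected o n, g u := by
  classical
  rw [← Finset.sum_fiberwise_of_maps_to (s := sph hG.connected o (n + 1))
    (t := sph hG.connected o n) (g := par G o)]
  · rw [Finset.mul_sum]
    refine Finset.sum_congr rfl fun u hu => ?_
    rw [filter_par_sph hG hu]
    have hne : o ≠ u := by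
      rintro rfl
      rw [mem_sph] at hu
      simp at hu
      omega
    rw [Finset.sum_congr rfl (g := fun _ => g u)
      (fun v hv => by rw [par_eq_of_mem_chil hG hv]), Finset.sum_const,
      card_chil hG hreg hne, nsmul_eq_mul]
  · intro v hv
    rw [mem_sph] at hv ⊢
    exact dist_par_of_eq hG hv

theorem sum_sph_par_iter {d : ℕ} (hG : G.IsTree) (hreg : G.IsRegularOfDegree d) (o : V) {n : ℕ}
    (hn : 1 ≤ n) (k : ℕ) (g : V → ℝ) :
    ∑ v ∈ sph hG.connected o (n + k), g ((par G o)^[k] v)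
      = ((d - 1 : ℕ) : ℝ) ^ k * ∑ u ∈ sph hG.connected o n, g u := by
  induction k with
  | zero => simp only [add_zero, Function.iterate_zero, id_eq, pow_zero, one_mul]
  | succ k ih =>
    have h := sum_sph_par hG hreg o (n := n + k) (by omega) (fun v => g ((par G o)^[k] v))
    simp only [← Function.iterate_succ_apply] at h
    rw [← add_assoc, h, ih, pow_succ]
    ring

open Classical in
/-- descendants of `x` at depth `k` seen from the root `o` -/
noncomputable def desc (hG : G.IsTree) (o : V) (k : ℕ) (x : V) : Finset V :=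
  (sph hG.connected o (G.dist o x + k)).filter (fun y => (par G o)^[k] y = x)

theorem mem_desc (hG : G.IsTree) {o x y : V} {k : ℕ} :
    y ∈ desc hG o k x ↔ G.dist o y = G.dist o x + k ∧ (par G o)^[k] y = x := by
  classical
  unfold desc
  rw [mem_filter, mem_sph]

theorem card_desc {d : ℕ} (hG : G.IsTree) (hreg : G.IsRegularOfDegree d) {o x : V}
    (hx : o ≠ x) (k : ℕ) : ((desc hG o k x).card : ℝ) = ((d - 1 : ℕ) : ℝ) ^ k := by
  classical
  have h1 : 1 ≤ G.dist o x := by
    rw [Nat.one_le_iff_ne_zero, Ne, hG.connected.dist_eq_zero_iff]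
    exact hx
  have h := sum_sph_par_iter hG hreg o h1 k (fun u => if u = x then 1 else 0)
  rw [Finset.sum_ite_eq' , if_pos (by rw [mem_sph]), mul_one] at h
  rw [← h]
  unfold desc
  rw [Finset.card_filter]
  push_cast
  rfl

/-- double sums over a sphere, grouped by the ancestor -/
theorem sum_sph_desc (hG : G.IsTree) (o : V) (n k : ℕ) (h : V → V → ℝ) :
    ∑ v ∈ sph hG.connected o (n + k), h ((par G o)^[k] v) v
      = ∑ x ∈ sph hG.connected o n, ∑ y ∈ desc hG o k x, h x y := by
  classical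
  rw [← Finset.sum_fiberwise_of_maps_to (s := sph hG.connected o (n + k))
    (t := sph hG.connected o n) (g := (par G o)^[k])]
  · refine Finset.sum_congr rfl fun x hx => ?_
    rw [mem_sph] at hx
    have : desc hG o k x
        = (sph hG.connected o (n + k)).filter (fun y => (par G o)^[k] y = x) := by
      unfold desc
      rw [hx]
    rw [this]
    refine Finset.sum_congr rfl fun y hy => ?_
    rw [(mem_filter.1 hy).2]
  · intro v hv
    rw [mem_sph] at hv ⊢
    exact dist_par_iter_of_eq hG k hv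


/-! ## L² estimates -/

section L2

variable {Ω : Type*} [MeasurableSpace Ω] {P : Measure Ω}

theorem MemLp.mul_int {X Y : Ω → ℝ} (hX : MemLp X 2 P) (hY : MemLp Y 2 P) :
    Integrable (fun ω => X ω * Y ω) P := hX.integrable_mul hY

/-- Cauchy-Schwarz with explicit bounds -/
theorem integral_mul_le_of_sq {X Y : Ω → ℝ} (hX : MemLp X 2 P) (hY : MemLp Y 2 P) {a b : ℝ}
    (ha : 0 ≤ a) (hb : 0 ≤ b) (hXa : ∫ ω, X ω ^ 2 ∂P ≤ a ^ 2)
    (hYb : ∫ ω, Y ω ^ 2 ∂P ≤ b ^ 2) : ∫ ω, X ω * Y ω ∂P ≤ a * b := by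
  have key : ∀ ε : ℝ, 0 < ε → ∫ ω, X ω * Y ω ∂P ≤ (a + ε) * (b + ε) := by
    intro ε hε
    have ha' : 0 < a + ε := by linarith only [ha, hε]
    have hb' : 0 < b + ε := by linarith
    set t : ℝ := (b + ε) / (a + ε) with ht
    have ht0 : 0 < t := div_pos hb' ha'
    have h1 : ∫ ω, X ω * Y ω ∂P ≤ ∫ ω, (t / 2 * X ω ^ 2 + 1 / (2 * t) * Y ω ^ 2) ∂P := by
      refine integral_mono (MemLp.mul_int hX hY)
        ((hX.integrable_sq.const_mul _).add (hY.integrable_sq.const_mul _)) ?_
      intro ω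
      have h2 : t / 2 * X ω ^ 2 + 1 / (2 * t) * Y ω ^ 2 - X ω * Y ω
          = 1 / (2 * t) * (t * X ω - Y ω) ^ 2 := by
        field_simp
        ring
      have h3 : 0 ≤ 1 / (2 * t) * (t * X ω - Y ω) ^ 2 := by (clear * - hb hε ha; positivity)
      simp only
      linarith only [h3, h2]
    rw [integral_add (hX.integrable_sq.const_mul _) (hY.integrable_sq.const_mul _),
      integral_const_mul, integral_const_mul] at h1
    have h4 : t / 2 * ∫ ω, X ω ^ 2 ∂P ≤ (a + ε) * (b + ε) / 2 := by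
      calc t / 2 * ∫ ω, X ω ^ 2 ∂P ≤ t / 2 * (a + ε) ^ 2 := by
            refine mul_le_mul_of_nonneg_left (hXa.trans ?_) (by (clear * - hb hε ha; positivity))
            exact pow_le_pow_left₀ ha (by linarith only [hε]) 2
        _ = (a + ε) * (b + ε) / 2 := by
            rw [ht]; (clear * - ha hε hb; field_simp)
    have h5 : 1 / (2 * t) * ∫ ω, Y ω ^ 2 ∂P ≤ (a + ε) * (b + ε) / 2 := by
      calc 1 / (2 * t) * ∫ ω, Y ω ^ 2 ∂P ≤ 1 / (2 * t) * (b + ε) ^ 2 := by
            refine mul_le_mul_of_nonneg_left (hYb.trans ?_) (by (clear * - hb hε ha; positivity))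
            exact pow_le_pow_left₀ hb (by linarith only [hε]) 2
        _ = (a + ε) * (b + ε) / 2 := by
            rw [ht]; (clear * - ha hε hb; field_simp)
    linarith only [h5, h4, h1]
  by_contra hcon
  push Not at hcon
  set c : ℝ := ∫ ω, X ω * Y ω ∂P - a * b with hc
  have hc0 : 0 < c := by linarith only [hcon]
  set ε : ℝ := min 1 (c / (2 * (a + b + 1))) with hε
  have hab : 0 < 2 * (a + b + 1) := by linarith only [ha, hb]
  have hε0 : 0 < ε := lt_min one_pos (div_pos hc0 hab)
  have hε1 : ε ≤ 1 := min_le_left _ _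
  have hε2 : ε ≤ c / (2 * (a + b + 1)) := min_le_right _ _
  rw [le_div_iff₀ hab] at hε2
  have := key ε hε0
  nlinarith only [hε0, hε2, this, ha, hb, hε1]

theorem integral_sq_sum_of_uncorr {ι : Type*} {g : ι → Ω → ℝ} (hg : ∀ i, MemLp (g i) 2 P)
    (D : Finset ι) (h : ∀ i ∈ D, ∀ j ∈ D, i ≠ j → ∫ ω, g i ω * g j ω ∂P = 0) :
    ∫ ω, (∑ i ∈ D, g i ω) ^ 2 ∂P = ∑ i ∈ D, ∫ ω, g i ω ^ 2 ∂P := by
  classical
  have h1 : ∀ ω, (∑ i ∈ D, g i ω) ^ 2 = ∑ i ∈ D, ∑ j ∈ D, g i ω * g j ω := by
    intro ω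
    rw [sq, Finset.sum_mul_sum]
  simp only [h1]
  rw [integral_finsetSum _ (fun i _ => integrable_finsetSum _
    (fun j _ => MemLp.mul_int (hg i) (hg j)))]
  refine Finset.sum_congr rfl fun i hi => ?_
  rw [integral_finsetSum _ (fun j _ => MemLp.mul_int (hg i) (hg j))]
  rw [Finset.sum_eq_single i]
  · simp only [sq]
  · intro j hj hne
    exact h i hi j hj hne.symm
  · intro hi'
    exact absurd hi hi'

variable [IsProbabilityMeasure P]

theorem decor_desc {ι : Type*} {f f' : ι → Ω → ℝ} (hf : ∀ v, MemLp (f v) 2 P)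
    (hf' : ∀ v, MemLp (f' v) 2 P) {e e' C A δ : ℝ} (hC : 0 ≤ C) (hA : 0 ≤ A)
    (hvar : ∀ v, ∫ ω, (f v ω - e) ^ 2 ∂P ≤ C ^ 2) (hvar' : ∀ v, ∫ ω, (f' v ω - e') ^ 2 ∂P ≤ C ^ 2)
    (D : Finset ι)
    (hcov : ∀ y ∈ D, ∀ z ∈ D, y ≠ z → ∫ ω, (f y ω - e) * (f z ω - e) ∂P = 0)
    (hcov' : ∀ y ∈ D, ∀ z ∈ D, y ≠ z → ∫ ω, (f' y ω - e') * (f' z ω - e') ∂P = 0)
    (hδ : |e - e'| ≤ δ) {X : Ω → ℝ} (hX : MemLp X 2 P) (hXA : ∫ ω, X ω ^ 2 ∂P ≤ A ^ 2) :
    ∫ ω, X ω * (∑ y ∈ D, (f y ω - f' y ω)) ∂P
      ≤ A * (3 * C * Real.sqrt D.card + 2 * D.card * δ) := by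
  have hδ0 : 0 ≤ δ := (abs_nonneg _).trans hδ
  have hfe : ∀ v, MemLp (fun ω => f v ω - e) 2 P := fun v => (hf v).sub (memLp_const e)
  have hfe' : ∀ v, MemLp (fun ω => f' v ω - e') 2 P := fun v => (hf' v).sub (memLp_const e')
  have h1 := integral_sq_sum_of_uncorr hfe D hcov
  have h2 := integral_sq_sum_of_uncorr hfe' D hcov'
  have h1' : ∫ ω, (∑ y ∈ D, (f y ω - e)) ^ 2 ∂P ≤ D.card * C ^ 2 := by
    rw [h1]
    calc ∑ y ∈ D, ∫ ω, (f y ω - e) ^ 2 ∂P ≤ ∑ _y ∈ D, C ^ 2 :=
          Finset.sum_le_sum fun y _ => hvar y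
      _ = D.card * C ^ 2 := by rw [Finset.sum_const, nsmul_eq_mul]
  have h2' : ∫ ω, (∑ y ∈ D, (f' y ω - e')) ^ 2 ∂P ≤ D.card * C ^ 2 := by
    rw [h2]
    calc ∑ y ∈ D, ∫ ω, (f' y ω - e') ^ 2 ∂P ≤ ∑ _y ∈ D, C ^ 2 :=
          Finset.sum_le_sum fun y _ => hvar' y
      _ = D.card * C ^ 2 := by rw [Finset.sum_const, nsmul_eq_mul]
  have hS1 : MemLp (fun ω => ∑ y ∈ D, (f y ω - e)) 2 P := memLp_finsetSum D fun y _ => hfe y
  have hS2 : MemLp (fun ω => ∑ y ∈ D, (f' y ω - e')) 2 P := memLp_finsetSum D fun y _ => hfe' y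
  have hS : MemLp (fun ω => ∑ y ∈ D, (f y ω - f' y ω)) 2 P :=
    memLp_finsetSum D fun y _ => (hf y).sub (hf' y)
  have hdec : ∀ ω, ∑ y ∈ D, (f y ω - f' y ω)
      = ∑ y ∈ D, (f y ω - e) - ∑ y ∈ D, (f' y ω - e') + D.card * (e - e') := by
    intro ω
    rw [← Finset.sum_sub_distrib, ← nsmul_eq_mul, ← Finset.sum_const, ← Finset.sum_add_distrib]
    refine Finset.sum_congr rfl fun y _ => ?_
    ring
  have hn0 : (0 : ℝ) ≤ D.card := Nat.cast_nonneg _
  have hsq : Real.sqrt D.card ^ 2 = D.card := Real.sq_sqrt hn0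
  have h3 : ∫ ω, (∑ y ∈ D, (f y ω - f' y ω)) ^ 2 ∂P
      ≤ (3 * C * Real.sqrt D.card + 2 * D.card * δ) ^ 2 := by
    have hI1 : Integrable (fun ω => 3 * (∑ y ∈ D, (f y ω - e)) ^ 2) P :=
      hS1.integrable_sq.const_mul _
    have hI2 : Integrable (fun ω => 3 * (∑ y ∈ D, (f' y ω - e')) ^ 2) P :=
      hS2.integrable_sq.const_mul _
    have hI12 : Integrable (fun ω => 3 * (∑ y ∈ D, (f y ω - e)) ^ 2
        + 3 * (∑ y ∈ D, (f' y ω - e')) ^ 2) P := hI1.add hI2
    have h4 : ∫ ω, (∑ y ∈ D, (f y ω - f' y ω)) ^ 2 ∂P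
        ≤ ∫ ω, (3 * (∑ y ∈ D, (f y ω - e)) ^ 2 + 3 * (∑ y ∈ D, (f' y ω - e')) ^ 2
          + 3 * (D.card * (e - e')) ^ 2) ∂P := by
      refine integral_mono hS.integrable_sq (hI12.add (integrable_const _)) ?_
      intro ω
      simp only
      rw [hdec ω]
      (by_contra nlg; linarith only [nlg, mul_nonneg (sq_nonneg (∑ y ∈ D, (f' y ω - e') + D.card * (e - e'))) (sq_nonneg (∑ y ∈ D, (f' y ω - e') + D.card * (e - e'))), mul_nonneg (sq_nonneg (∑ y ∈ D, (f y ω - e) - D.card * (e - e'))) (sq_nonneg (∑ y ∈ D, (f' y ω - e') + D.card * (e - e'))), mul_nonneg (sq_nonneg (∑ y ∈ D, (f y ω - e) - D.card * (e - e'))) (sq_nonneg (∑ y ∈ D, (f y ω - e) - D.card * (e - e'))), mul_nonneg (le_of_lt (sub_pos.2 (not_le.1 nlg))) (sq_nonneg (∑ y ∈ D, (f' y ω - e') + D.card * (e - e'))), mul_nonneg (le_of_lt (sub_pos.2 (not_le.1 nlg))) (sq_nonneg (∑ y ∈ D, (f y ω - e) - D.card * (e - e'))), mul_pos (sub_pos.2 (not_le.1 nlg)) (sub_pos.2 (not_le.1 nlg))])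
    rw [integral_add hI12 (integrable_const _), integral_add hI1 hI2, integral_const_mul,
      integral_const_mul, integral_const] at h4
    simp only [probReal_univ, one_smul] at h4
    have h5 : (D.card * (e - e')) ^ 2 ≤ (D.card * δ) ^ 2 := by
      rw [mul_pow, mul_pow]
      refine mul_le_mul_of_nonneg_left ?_ (by (clear * -; positivity))
      rw [← sq_abs (e - e')]
      exact pow_le_pow_left₀ (abs_nonneg _) hδ 2
    have h6 : (0 : ℝ) ≤ C * Real.sqrt D.card * (D.card * δ) := by (clear * - hC hδ0; positivity)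
    have h7 : (0 : ℝ) ≤ C ^ 2 * D.card := by (clear * -; positivity)
    have h8 : (0 : ℝ) ≤ (D.card * δ) ^ 2 := by (clear * -; positivity)
    have h9 : (3 * C * Real.sqrt D.card + 2 * D.card * δ) ^ 2
        = 9 * (C ^ 2 * D.card) + 12 * (C * Real.sqrt D.card * (D.card * δ))
          + 4 * (D.card * δ) ^ 2 := by
      calc (3 * C * Real.sqrt D.card + 2 * D.card * δ) ^ 2
          = 9 * (C ^ 2 * Real.sqrt D.card ^ 2) + 12 * (C * Real.sqrt D.card * (D.card * δ))
            + 4 * (D.card * δ) ^ 2 := by ring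
        _ = _ := by rw [hsq]
    rw [h9]
    linarith
  exact integral_mul_le_of_sq hX hS hA (by (clear * - hC hδ0; positivity)) hXA h3

end L2


/-! ## The double sum -/

/-- banded double sum -/
theorem sum_band_le {n K : ℕ} {a c r δ : ℝ} (ha : 0 ≤ a) (hc : 0 ≤ c) (hr : 0 ≤ r) (hr1 : r < 1)
    (hδ : 0 ≤ δ) {B : ℕ → ℝ} (hB0 : ∀ k, 0 ≤ B k) (hB1 : ∀ k, B k ≤ a)
    (hB2 : ∀ k, B k ≤ c * r ^ k + δ) :
    ∑ i ∈ range n, ∑ j ∈ range n, B (if i ≤ j then j - i else i - j)
      ≤ n * (2 * (K * a + c * (r ^ K / (1 - r)) + n * δ)) := by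
  have hsum : ∑ k ∈ range n, B k ≤ K * a + c * (r ^ K / (1 - r)) + n * δ := by
    have h1 : ∑ k ∈ range n, B k ≤ ∑ k ∈ range n, ((if k < K then a else 0)
        + (if k < K then 0 else c * r ^ k) + δ) := by
      refine Finset.sum_le_sum fun k _ => ?_
      by_cases hk : k < K
      · simp only [hk, if_true]
        linarith only [hδ, hB1 k]
      · simp only [hk, if_false]
        linarith only [hB2 k]
    refine h1.trans ?_
    rw [Finset.sum_add_distrib, Finset.sum_add_distrib, Finset.sum_const, card_range,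
      nsmul_eq_mul]
    refine add_le_add (add_le_add ?_ ?_) le_rfl
    · rw [← Finset.sum_filter, Finset.sum_const, nsmul_eq_mul]
      refine mul_le_mul_of_nonneg_right ?_ ha
      have : ((range n).filter fun k => k < K) ⊆ range K := by
        intro k hk
        rw [mem_filter] at hk
        exact mem_range.2 hk.2
      exact_mod_cast (card_le_card this).trans (by rw [card_range])
    · have h2 : ∑ k ∈ range n, (if k < K then 0 else c * r ^ k)
          ≤ ∑ k ∈ range n, c * r ^ (K + k) := by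
        rcases Nat.le_total n K with h | h
        · rw [Finset.sum_eq_zero]
          · exact Finset.sum_nonneg fun k _ => by (clear * - hc hr; positivity)
          · intro k hk
            rw [if_pos (lt_of_lt_of_le (mem_range.1 hk) h)]
        · obtain ⟨m, rfl⟩ := Nat.exists_eq_add_of_le h
          rw [Finset.sum_range_add]
          rw [Finset.sum_eq_zero (s := range K)
            (fun k hk => by rw [if_pos (mem_range.1 hk)]), zero_add]
          have h3 : ∑ k ∈ range m, (if K + k < K then 0 else c * r ^ (K + k))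
              = ∑ k ∈ range m, c * r ^ (K + k) :=
            Finset.sum_congr rfl fun k _ => by rw [if_neg (by omega)]
          rw [h3]
          refine Finset.sum_le_sum_of_subset_of_nonneg ?_ fun k _ _ => by (clear * - hc hr; positivity)
          intro k hk
          rw [mem_range] at hk ⊢
          omega
      refine h2.trans ?_
      rw [← Finset.mul_sum]
      refine mul_le_mul_of_nonneg_left ?_ hc
      simp only [pow_add]
      rw [← Finset.mul_sum, div_eq_mul_inv]
      refine mul_le_mul_of_nonneg_left ?_ (by (clear * - hr; positivity))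
      have h4 := geom_sum_Ico_le_of_lt_one (m := 0) (n := n) hr hr1
      rw [← Finset.range_eq_Ico, pow_zero, one_div] at h4
      exact h4
  have hrow : ∀ i ∈ range n, ∑ j ∈ range n, B (if i ≤ j then j - i else i - j)
      ≤ 2 * (K * a + c * (r ^ K / (1 - r)) + n * δ) := by
    intro i hi
    rw [mem_range] at hi
    have h1 : ∑ j ∈ range n, B (if i ≤ j then j - i else i - j)
        ≤ ∑ k ∈ range n, B k + ∑ k ∈ range n, B k := by
      obtain ⟨m, rfl⟩ := Nat.exists_eq_add_of_le hi.le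
      rw [Finset.sum_range_add]
      refine add_le_add ?_ ?_
      · have h2 : ∑ j ∈ range i, B (if i ≤ j then j - i else i - j)
            = ∑ j ∈ range i, B (j + 1) := by
          rw [← Finset.sum_range_reflect (fun j => B (j + 1)) i]
          refine Finset.sum_congr rfl fun j hj => ?_
          rw [mem_range] at hj
          rw [if_neg (by omega)]
          congr 1
          omega
        rw [h2]
        have h3 : ∑ j ∈ range i, B (j + 1) ≤ ∑ j ∈ range (i + 1), B j := by
          rw [Finset.sum_range_succ']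
          linarith only [hB0 0]
        refine h3.trans (Finset.sum_le_sum_of_subset_of_nonneg ?_ fun k _ _ => hB0 k)
        intro k hk
        rw [mem_range] at hk ⊢
        omega
      · have h2 : ∑ k ∈ range m, B (if i ≤ i + k then i + k - i else i - (i + k))
            = ∑ k ∈ range m, B k := by
          refine Finset.sum_congr rfl fun j _ => ?_
          rw [if_pos (by omega)]
          congr 1
          omega
        rw [h2]
        refine Finset.sum_le_sum_of_subset_of_nonneg ?_ fun k _ _ => hB0 k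
        intro k hk
        rw [mem_range] at hk ⊢
        omega
    linarith only [hsum, h1]
  calc ∑ i ∈ range n, ∑ j ∈ range n, B (if i ≤ j then j - i else i - j)
      ≤ ∑ _i ∈ range n, 2 * (K * a + c * (r ^ K / (1 - r)) + n * δ) :=
        Finset.sum_le_sum hrow
    _ = n * (2 * (K * a + c * (r ^ K / (1 - r)) + n * δ)) := by
        rw [Finset.sum_const, card_range, nsmul_eq_mul]


/-! ## The decorrelation estimate on a sphere -/

section Sphere

variable {Ω : Type*} [MeasurableSpace Ω] {P : Measure Ω}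

/-- Core estimate: `X v` are square integrable with second moments at most `A ^ 2`, and the
product with the sum over the descendants at depth `k` is small. -/
theorem decor_core {d : ℕ} (hG : G.IsTree) (hreg : G.IsRegularOfDegree d) (hd : 2 ≤ d) (o : V)
    {X : V → Ω → ℝ} (hX : ∀ v, MemLp (X v) 2 P) {A c r δ : ℝ} (hA : 0 ≤ A) (hc : 0 ≤ c)
    (hr : 0 ≤ r) (hr1 : r < 1) (hδ : 0 ≤ δ)
    (hXA : ∀ v, ∫ ω, X v ω ^ 2 ∂P ≤ A ^ 2)
    (hXD : ∀ x, o ≠ x → ∀ k, ∫ ω, X x ω * (∑ y ∈ desc hG o k x, X y ω) ∂P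
      ≤ ((d - 1 : ℕ) : ℝ) ^ k * (c * r ^ k + δ)) (n K : ℕ) :
    ∑ v ∈ sph hG.connected o n, ∫ ω, (∑ a ∈ range n, X ((par G o)^[a] v) ω) ^ 2 ∂P
      ≤ (sph hG.connected o n).card * (n * (2 * (K * A ^ 2 + c * (r ^ K / (1 - r)) + n * δ))) := by
  classical
  set S := sph hG.connected o n with hS
  have hb : (0 : ℝ) < ((d - 1 : ℕ) : ℝ) := by
    have : 1 ≤ d - 1 := by omega
    exact_mod_cast this
  -- the pair estimate
  have hpair : ∀ a k : ℕ, a + k < n →
      ∑ v ∈ S, ∫ ω, X ((par G o)^[a + k] v) ω * X ((par G o)^[a] v) ω ∂P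
        ≤ S.card * (c * r ^ k + δ) := by
    intro a k hak
    obtain ⟨m, hm⟩ : ∃ m, n = (m + 1 + k) + a := ⟨n - 1 - k - a, by omega⟩
    have h1 : ∑ v ∈ S, ∫ ω, X ((par G o)^[a + k] v) ω * X ((par G o)^[a] v) ω ∂P
        = ((d - 1 : ℕ) : ℝ) ^ a * ∑ y ∈ sph hG.connected o (m + 1 + k),
          ∫ ω, X ((par G o)^[k] y) ω * X y ω ∂P := by
      rw [← sum_sph_par_iter hG hreg o (by omega) a, hS, hm]
      refine Finset.sum_congr rfl fun v _ => ?_
      rw [add_comm a k, Function.iterate_add_apply]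
    have h2 : ∑ y ∈ sph hG.connected o (m + 1 + k), ∫ ω, X ((par G o)^[k] y) ω * X y ω ∂P
        = ∑ x ∈ sph hG.connected o (m + 1), ∑ y ∈ desc hG o k x, ∫ ω, X x ω * X y ω ∂P :=
      sum_sph_desc hG o (m + 1) k (fun x y => ∫ ω, X x ω * X y ω ∂P)
    have h3 : ∀ x ∈ sph hG.connected o (m + 1), ∑ y ∈ desc hG o k x, ∫ ω, X x ω * X y ω ∂P
        ≤ ((d - 1 : ℕ) : ℝ) ^ k * (c * r ^ k + δ) := by
      intro x hx
      have hne : o ≠ x := by
        rintro rfl
        rw [mem_sph] at hx
        simp at hx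
      refine le_trans (le_of_eq ?_) (hXD x hne k)
      rw [← integral_finsetSum _ (fun y _ => MemLp.mul_int (hX x) (hX y))]
      refine integral_congr_ae ?_
      filter_upwards with ω
      rw [Finset.mul_sum]
    have h4 : (S.card : ℝ) = ((d - 1 : ℕ) : ℝ) ^ (k + a)
        * ((sph hG.connected o (m + 1)).card : ℝ) := by
      have := sum_sph_par_iter hG hreg o (n := m + 1) (by omega) (k + a) (fun _ => (1 : ℝ))
      rw [Finset.sum_const, Finset.sum_const, nsmul_eq_mul, nsmul_eq_mul, mul_one, mul_one] at this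
      rw [← this, hS, hm, add_assoc]
    rw [h1, h2, h4]
    calc ((d - 1 : ℕ) : ℝ) ^ a * ∑ x ∈ sph hG.connected o (m + 1),
          ∑ y ∈ desc hG o k x, ∫ ω, X x ω * X y ω ∂P
        ≤ ((d - 1 : ℕ) : ℝ) ^ a * ∑ _x ∈ sph hG.connected o (m + 1),
          ((d - 1 : ℕ) : ℝ) ^ k * (c * r ^ k + δ) :=
          mul_le_mul_of_nonneg_left (Finset.sum_le_sum h3) (by (clear * - hb; positivity))
      _ = _ := by
          rw [Finset.sum_const, nsmul_eq_mul, pow_add]
          ring
  have hpair0 : ∀ a a' : ℕ, ∑ v ∈ S, ∫ ω, X ((par G o)^[a] v) ω * X ((par G o)^[a'] v) ω ∂P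
      ≤ S.card * A ^ 2 := by
    intro a a'
    calc ∑ v ∈ S, ∫ ω, X ((par G o)^[a] v) ω * X ((par G o)^[a'] v) ω ∂P
        ≤ ∑ _v ∈ S, A * A := Finset.sum_le_sum fun v _ =>
          integral_mul_le_of_sq (hX _) (hX _) hA hA (hXA _) (hXA _)
      _ = S.card * A ^ 2 := by rw [Finset.sum_const, nsmul_eq_mul, sq]
  -- expansion of the square
  have hexp : ∑ v ∈ S, ∫ ω, (∑ a ∈ range n, X ((par G o)^[a] v) ω) ^ 2 ∂P
      = ∑ i ∈ range n, ∑ j ∈ range n,
        ∑ v ∈ S, ∫ ω, X ((par G o)^[i] v) ω * X ((par G o)^[j] v) ω ∂P := by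
    have h1 : ∀ v, ∫ ω, (∑ a ∈ range n, X ((par G o)^[a] v) ω) ^ 2 ∂P
        = ∑ i ∈ range n, ∑ j ∈ range n,
          ∫ ω, X ((par G o)^[i] v) ω * X ((par G o)^[j] v) ω ∂P := by
      intro v
      have h2 : ∀ ω, (∑ a ∈ range n, X ((par G o)^[a] v) ω) ^ 2
          = ∑ i ∈ range n, ∑ j ∈ range n, X ((par G o)^[i] v) ω * X ((par G o)^[j] v) ω := by
        intro ω
        rw [sq, Finset.sum_mul_sum]
      simp only [h2]
      rw [integral_finsetSum _ (fun i _ => integrable_finsetSum _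
        (fun j _ => MemLp.mul_int (hX _) (hX _)))]
      refine Finset.sum_congr rfl fun i _ => ?_
      rw [integral_finsetSum _ (fun j _ => MemLp.mul_int (hX _) (hX _))]
    simp only [h1]
    rw [Finset.sum_comm]
    refine Finset.sum_congr rfl fun i _ => ?_
    rw [Finset.sum_comm]
  rw [hexp]
  -- entrywise bound
  set B : ℕ → ℝ := fun k => min (A ^ 2) (c * r ^ k + δ) with hB
  have hentry : ∀ i ∈ range n, ∀ j ∈ range n,
      ∑ v ∈ S, ∫ ω, X ((par G o)^[i] v) ω * X ((par G o)^[j] v) ω ∂P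
        ≤ S.card * B (if i ≤ j then j - i else i - j) := by
    intro i hi j hj
    rw [mem_range] at hi hj
    have hc0 : (0 : ℝ) ≤ S.card := Nat.cast_nonneg _
    rw [hB]
    simp only
    rw [mul_min_of_nonneg _ _ hc0]
    refine le_min (hpair0 i j) ?_
    by_cases hij : i ≤ j
    · rw [if_pos hij]
      have := hpair i (j - i) (by omega)
      rw [Nat.add_sub_cancel' hij] at this
      refine le_trans (le_of_eq ?_) this
      refine Finset.sum_congr rfl fun v _ => ?_
      refine integral_congr_ae ?_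
      filter_upwards with ω
      ring
    · rw [if_neg hij]
      have := hpair j (i - j) (by (clear * - hi hij; omega))
      rw [Nat.add_sub_cancel' (by omega)] at this
      exact this
  have hband := sum_band_le (n := n) (K := K) (a := A ^ 2) (c := c) (r := r) (δ := δ) (B := B)
    (by (clear * -; positivity)) hc hr hr1 hδ (fun k => le_min (by (clear * -; positivity)) (by (clear * - hc hr hδ; positivity)))
    (fun k => min_le_left _ _) (fun k => min_le_right _ _)
  calc ∑ i ∈ range n, ∑ j ∈ range n,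
        ∑ v ∈ S, ∫ ω, X ((par G o)^[i] v) ω * X ((par G o)^[j] v) ω ∂P
      ≤ ∑ i ∈ range n, ∑ j ∈ range n, S.card * B (if i ≤ j then j - i else i - j) :=
        Finset.sum_le_sum fun i hi => Finset.sum_le_sum fun j hj => hentry i hi j hj
    _ = S.card * ∑ i ∈ range n, ∑ j ∈ range n, B (if i ≤ j then j - i else i - j) := by
        rw [Finset.mul_sum]
        refine Finset.sum_congr rfl fun i _ => ?_
        rw [Finset.mul_sum]
    _ ≤ _ := mul_le_mul_of_nonneg_left hband (Nat.cast_nonneg _)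


theorem sqrt_pow_eq {b : ℝ} (hb : 0 < b) (k : ℕ) :
    Real.sqrt (b ^ k) = b ^ k * (1 / Real.sqrt b) ^ k := by
  have hs : 0 < Real.sqrt b := Real.sqrt_pos.mpr hb
  have h1 : b ^ k * (1 / Real.sqrt b) ^ k = Real.sqrt b ^ k := by
    rw [← mul_pow]
    congr 1
    rw [mul_one_div, div_eq_iff hs.ne', Real.mul_self_sqrt hb.le]
  rw [h1]
  have h2 : b ^ k = (Real.sqrt b ^ k) ^ 2 := by
    rw [← pow_mul, mul_comm, pow_mul, Real.sq_sqrt hb.le]
  rw [h2, Real.sqrt_sq (by positivity)]

/-- **Decorrelation along a sphere** for two bounded families, each of which has uncorrelated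
values on the descendants at a given depth of a vertex. -/
theorem decor_sphere [IsProbabilityMeasure P] {d : ℕ} (hG : G.IsTree)
    (hreg : G.IsRegularOfDegree d) (hd : 3 ≤ d) (o : V) {f f' : V → Ω → ℝ}
    (hf : ∀ v, MemLp (f v) 2 P) (hf' : ∀ v, MemLp (f' v) 2 P) {e e' C A δ : ℝ}
    (hC : 0 ≤ C) (hA : 0 ≤ A) (hvar : ∀ v, ∫ ω, (f v ω - e) ^ 2 ∂P ≤ C ^ 2)
    (hvar' : ∀ v, ∫ ω, (f' v ω - e') ^ 2 ∂P ≤ C ^ 2) (hδ : |e - e'| ≤ δ)
    (hXA : ∀ v, ∫ ω, (f v ω - f' v ω) ^ 2 ∂P ≤ A ^ 2)
    (hcov : ∀ x, o ≠ x → ∀ k, ∀ y ∈ desc hG o k x, ∀ z ∈ desc hG o k x, y ≠ z →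
      ∫ ω, (f y ω - e) * (f z ω - e) ∂P = 0)
    (hcov' : ∀ x, o ≠ x → ∀ k, ∀ y ∈ desc hG o k x, ∀ z ∈ desc hG o k x, y ≠ z →
      ∫ ω, (f' y ω - e') * (f' z ω - e') ∂P = 0) (n K : ℕ) :
    ∑ v ∈ sph hG.connected o n,
      ∫ ω, (∑ a ∈ range n, (f ((par G o)^[a] v) ω - f' ((par G o)^[a] v) ω)) ^ 2 ∂P
      ≤ (sph hG.connected o n).card * (n * (2 * (K * A ^ 2
        + 3 * C * A * ((1 / Real.sqrt ((d - 1 : ℕ) : ℝ)) ^ K
          / (1 - 1 / Real.sqrt ((d - 1 : ℕ) : ℝ))) + n * (2 * A * δ)))) := by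
  have hδ0 : 0 ≤ δ := (abs_nonneg _).trans hδ
  have hb2 : (2 : ℝ) ≤ ((d - 1 : ℕ) : ℝ) := by
    have : 2 ≤ d - 1 := by omega
    exact_mod_cast this
  have hb0 : (0 : ℝ) < ((d - 1 : ℕ) : ℝ) := by linarith only [hb2]
  have hs1 : 1 < Real.sqrt ((d - 1 : ℕ) : ℝ) := by
    rw [Real.lt_sqrt (by norm_num)]
    linarith only [hb2]
  have hs0 : 0 < Real.sqrt ((d - 1 : ℕ) : ℝ) := by linarith only [hs1]
  refine decor_core hG hreg (by omega) o (X := fun v ω => f v ω - f' v ω)
    (fun v => (hf v).sub (hf' v)) hA (by (clear * - hC hA; positivity)) (by positivity) ?_ (by (clear * - hA hδ0; positivity)) hXA ?_ n K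
  · rw [div_lt_one hs0]
    exact hs1
  · intro x hx k
    refine (decor_desc hf hf' hC hA hvar hvar' (desc hG o k x) (hcov x hx k) (hcov' x hx k) hδ
      ((hf x).sub (hf' x)) (hXA x)).trans (le_of_eq ?_)
    rw [card_desc hG hreg hx k, sqrt_pow_eq hb0 k]
    ring

end Sphere

/-! ## Products of transfer factors -/

theorem abs_prod_sub_prod_le_log {n : ℕ} {x y : ℕ → ℝ} (hx : ∀ i, 0 < x i) (hx1 : ∀ i, x i ≤ 1)
    (hy : ∀ i, 0 < y i) (hy1 : ∀ i, y i ≤ 1) :
    |∏ i ∈ range n, x i - ∏ i ∈ range n, y i|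
      ≤ |∑ i ∈ range n, (Real.log (x i) - Real.log (y i))| := by
  have key : ∀ a b : ℝ, 0 < a → a ≤ 1 → 0 < b → b ≤ 1 → a ≤ b →
      |a - b| ≤ |Real.log a - Real.log b| := by
    intro a b ha ha1 hb hb1 hab
    have hlog : Real.log a ≤ Real.log b := Real.log_le_log ha hab
    rw [abs_of_nonpos (by linarith only [hab]), abs_of_nonpos (by linarith only [hlog])]
    have h1 : Real.log (a / b) ≤ a / b - 1 := Real.log_le_sub_one_of_pos (by (clear * - ha hb; positivity))
    rw [Real.log_div ha.ne' hb.ne'] at h1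
    have h2 : b * (a / b - 1) = a - b := by (clear * - hb; field_simp)
    have h3 : a / b - 1 ≤ 0 := by
      rw [sub_nonpos, div_le_one hb]; exact hab
    nlinarith only [h2, hb, h1, hb1, hab]
  have hpx : 0 < ∏ i ∈ range n, x i := Finset.prod_pos fun i _ => hx i
  have hpy : 0 < ∏ i ∈ range n, y i := Finset.prod_pos fun i _ => hy i
  have hpx1 : ∏ i ∈ range n, x i ≤ 1 :=
    Finset.prod_le_one (fun i _ => (hx i).le) fun i _ => hx1 i
  have hpy1 : ∏ i ∈ range n, y i ≤ 1 :=
    Finset.prod_le_one (fun i _ => (hy i).le) fun i _ => hy1 i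
  have hlx : Real.log (∏ i ∈ range n, x i) = ∑ i ∈ range n, Real.log (x i) :=
    Real.log_prod fun i _ => (hx i).ne'
  have hly : Real.log (∏ i ∈ range n, y i) = ∑ i ∈ range n, Real.log (y i) :=
    Real.log_prod fun i _ => (hy i).ne'
  rw [Finset.sum_sub_distrib, ← hlx, ← hly]
  rcases le_total (∏ i ∈ range n, x i) (∏ i ∈ range n, y i) with h | h
  · exact key _ _ hpx hpx1 hpy hpy1 h
  · rw [abs_sub_comm, abs_sub_comm (Real.log _)]
    exact key _ _ hpy hpy1 hpx hpx1 h

end Vale.Agent.P161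
end
end

section

section

/-!
# Step (II) of the critical point argument at the level of the fields
-/

open MeasureTheory Finset

namespace Vale.Agent.P161

variable {V : Type*} {G : SimpleGraph V} [G.LocallyFinite]

/-! ## Geometry: an edge separating two descendants -/

theorem par_eq_of_between (hG : G.IsTree) {o w y : V}
    (h : G.dist o y = G.dist o w + G.dist w y) (hne : w ≠ y) : par G w y = par G o y := by
  have h1 := par_spec hG hne
  have hwy : 0 < G.dist w y := by
    rw [Nat.pos_iff_ne_zero, Ne, hG.connected.dist_eq_zero_iff]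
    exact hne
  have hoy : o ≠ y := by
    rintro rfl
    rw [SimpleGraph.dist_self] at h
    omega
  have h2 := par_spec hG hoy
  have h3 : G.dist o (par G w y) ≤ G.dist o w + G.dist w (par G w y) :=
    hG.connected.dist_triangle
  have h4 : G.dist o (par G w y) + 1 = G.dist o y := by
    rcases dist_adj_cases hG h1.1 o with h5 | h5
    · omega
    · omega
  exact adj_dist_unique hG h1.1 h2.1 h4 h2.2

theorem dist_par_iter_le (hG : G.IsTree) (o : V) (j : ℕ) (y : V) :
    G.dist ((par G o)^[j] y) y ≤ j := by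
  induction j with
  | zero => simp
  | succ j ih =>
    rw [Function.iterate_succ_apply']
    have h1 : G.dist (par G o ((par G o)^[j] y)) ((par G o)^[j] y) ≤ 1 := by
      by_cases h : o = (par G o)^[j] y
      · rw [← h, par_self, SimpleGraph.dist_self]
        omega
      · rw [SimpleGraph.dist_eq_one_iff_adj.2 (par_spec hG h).1]
    have h2 : G.dist (par G o ((par G o)^[j] y)) y
        ≤ G.dist (par G o ((par G o)^[j] y)) ((par G o)^[j] y)
          + G.dist ((par G o)^[j] y) y := hG.connected.dist_triangle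
    omega

theorem dist_par_iter_eq (hG : G.IsTree) {o : V} {j : ℕ} {y : V} (h : j ≤ G.dist o y) :
    G.dist ((par G o)^[j] y) y = j := by
  have h1 := dist_par_iter_le hG o j y
  have h2 := dist_par_iter hG o y j
  have h3 : G.dist o y ≤ G.dist o ((par G o)^[j] y) + G.dist ((par G o)^[j] y) y :=
    hG.connected.dist_triangle
  omega

theorem par_iter_eq_of_between (hG : G.IsTree) {o u : V} (j : ℕ) : ∀ z : V,
    G.dist u z = j → G.dist o z = G.dist o u + j → (par G o)^[j] z = u := by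
  induction j with
  | zero =>
    intro z h1 h2
    exact (hG.connected.dist_eq_zero_iff.1 h1).symm
  | succ j ih =>
    intro z h1 h2
    have hne : u ≠ z := by
      rintro rfl
      simp at h1
    have h3 := par_eq_of_between hG (o := o) (w := u) (y := z) (by omega) hne
    have h4 := par_spec hG hne
    have hoz : o ≠ z := by
      rintro rfl
      rw [SimpleGraph.dist_self] at h2
      omega
    have h5 := par_spec hG hoz
    rw [Function.iterate_succ_apply]
    refine ih (par G o z) ?_ ?_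
    · rw [← h3]
      omega
    · omega

theorem exists_sep (hG : G.IsTree) {o x : V} {k : ℕ} {y z : V} (hx : o ≠ x)
    (hy : y ∈ desc hG o k x) (hz : z ∈ desc hG o k x) (hne : y ≠ z) :
    ∃ u w, G.Adj u w ∧ y ∈ side G u w ∧ z ∈ side G w u ∧ par G w y = par G o y ∧
      par G u z = par G o z := by
  classical
  rw [mem_desc] at hy hz
  have hex : ∃ i, (par G o)^[i] y = (par G o)^[i] z := ⟨k, by rw [hy.2, hz.2]⟩
  set i := Nat.find hex with hi
  have hieq : (par G o)^[i] y = (par G o)^[i] z := Nat.find_spec hex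
  have hik : i ≤ k := Nat.find_min' hex (by rw [hy.2, hz.2])
  have hi0 : i ≠ 0 := by
    intro h0
    rw [h0] at hieq
    exact hne hieq
  obtain ⟨j, hj⟩ : ∃ j, i = j + 1 := ⟨i - 1, by omega⟩
  have hmin : (par G o)^[j] y ≠ (par G o)^[j] z := by
    intro h
    have := Nat.find_min' hex h
    omega
  have hxpos : 0 < G.dist o x := by
    rw [Nat.pos_iff_ne_zero, Ne, hG.connected.dist_eq_zero_iff]
    exact hx
  set u := (par G o)^[j] y with hu
  set w := (par G o)^[i] y with hw
  have hwu : par G o u = w := by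
    rw [hw, hj, Function.iterate_succ_apply']
  have hdu : G.dist o u = G.dist o y - j := dist_par_iter hG o y j
  have hdw : G.dist o w = G.dist o y - i := dist_par_iter hG o y i
  have hou : o ≠ u := by
    intro h
    rw [← h, SimpleGraph.dist_self] at hdu
    (clear * - hy hz hex hik hj hxpos hdu; omega)
  have hpu := par_spec hG hou
  rw [hwu] at hpu
  have huy : G.dist u y = j := dist_par_iter_eq hG (by (clear * - hy hz hex hik hj hxpos; omega))
  have hwy : G.dist w y = i := dist_par_iter_eq hG (by omega)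
  have hwz : G.dist w z = i := by
    rw [hieq]
    exact dist_par_iter_eq hG (by omega)
  have hadj : G.Adj u w := hpu.1.symm
  have hwney : w ≠ y := by
    rintro h
    rw [h, SimpleGraph.dist_self] at hwy
    omega
  have hwnez : w ≠ z := by
    rintro h
    rw [h, SimpleGraph.dist_self] at hwz
    omega
  -- the distance from u to z
  have huz : G.dist u z = i + 1 := by
    rcases dist_adj_cases hG hadj z with h | h
    · -- dist z w = dist z u + 1
      exfalso
      rw [G.dist_comm (u := z) (v := w), G.dist_comm (u := z) (v := u), hwz] at h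
      have := par_iter_eq_of_between hG (o := o) (u := u) j z (by omega) (by omega)
      exact hmin this.symm
    · rw [G.dist_comm (u := z) (v := w), G.dist_comm (u := z) (v := u), hwz] at h
      exact h
  refine ⟨u, w, hadj, ?_, ?_, ?_, ?_⟩
  · simp only [side, Set.mem_ofPred_eq]
    rw [G.dist_comm (u := y) (v := u), G.dist_comm (u := y) (v := w)]
    omega
  · simp only [side, Set.mem_ofPred_eq]
    rw [G.dist_comm (u := z) (v := u), G.dist_comm (u := z) (v := w)]
    omega
  · exact par_eq_of_between hG (by omega) hwney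
  · have hunez : u ≠ z := by
      rintro h
      rw [h, SimpleGraph.dist_self] at huz
      omega
    have h1 : par G w z = par G o z := par_eq_of_between hG (by omega) hwnez
    rw [← h1]
    -- `w` lies between `u` and `z`
    have h2 : G.dist u w = 1 := SimpleGraph.dist_eq_one_iff_adj.2 hadj
    exact (par_eq_of_between hG (o := u) (w := w) (y := z) (by omega) hwnez).symm


/-! ## The clipped logarithm of the transfer factor -/

/-- clipping to `[-1/2, 1/2]` -/
noncomputable def cliph (x : ℝ) : ℝ := max (-(1 / 2)) (min x (1 / 2))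

theorem abs_cliph_le (x : ℝ) : |cliph x| ≤ 1 / 2 := by
  unfold cliph
  rw [abs_le]
  constructor
  · exact le_max_left _ _
  · exact max_le (by norm_num) (min_le_right _ _)

theorem continuous_cliph : Continuous cliph := by
  unfold cliph
  fun_prop

theorem cliph_of_abs {x : ℝ} (h : |x| ≤ 1 / 2) : cliph x = x := by
  obtain ⟨h1, h2⟩ := abs_le.1 h
  unfold cliph
  rw [min_eq_left h2, max_eq_right h1]

theorem cliph_neg (x : ℝ) : cliph (-x) = -cliph x := by
  unfold cliph
  rcases le_total x (1 / 2) with h1 | h1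
  · rcases le_total (-(1 / 2)) x with h2 | h2
    · rw [min_eq_left h1, max_eq_right h2, min_eq_left (by linarith only [h2]), max_eq_right (by linarith only [h1])]
    · rw [min_eq_left h1, max_eq_left h2, min_eq_right (by linarith only [h2]),
        max_eq_right (by norm_num)]
      ring
  · have e1 : min x (1 / 2) = 1 / 2 := min_eq_right h1
    have e2 : max (-(1 / 2) : ℝ) (1 / 2) = 1 / 2 := max_eq_right (by norm_num)
    have e3 : min (-x) (1 / 2) = -x := min_eq_left (by linarith only [h1])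
    have e4 : max (-(1 / 2)) (-x) = -(1 / 2) := max_eq_left (by linarith only [h1])
    rw [e1, e2, e3, e4]

theorem abs_cliph_le_abs (x : ℝ) : |cliph x| ≤ |x| := by
  rcases le_total |x| (1 / 2) with h | h
  · rw [cliph_of_abs h]
  · exact (abs_cliph_le x).trans h

theorem abs_cliph_sub_le (x y : ℝ) : |cliph x - cliph y| ≤ |x - y| := by
  unfold cliph
  refine (abs_max_sub_max_le_max _ _ _ _).trans ?_
  rw [sub_self, abs_zero, max_eq_right (abs_nonneg _)]
  refine (abs_min_sub_min_le_max _ _ _ _).trans ?_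
  rw [sub_self, abs_zero, max_eq_left (abs_nonneg _)]

/-- the clipped logarithm of the transfer factor -/
noncomputable def xiF (θ x : ℝ) : ℝ := Real.log (xf θ (cliph x))

theorem xiF_neg (θ x : ℝ) : xiF θ (-x) = xiF θ x := by
  unfold xiF
  rw [cliph_neg, xf_neg]

theorem xf_cliph_pos {θ : ℝ} (h0 : 0 ≤ θ) (h1 : θ < 1) (x : ℝ) : 0 < xf θ (cliph x) :=
  xf_pos (theta_sq_lt h0 h1) (lt_of_le_of_lt (abs_cliph_le x) (by norm_num))

theorem continuous_xiF {θ : ℝ} (h0 : 0 ≤ θ) (h1 : θ < 1) : Continuous (xiF θ) := by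
  unfold xiF
  refine Continuous.log ?_ (fun x => (xf_cliph_pos h0 h1 x).ne')
  unfold xf
  have hc := continuous_cliph
  refine Continuous.div (by fun_prop) (by fun_prop) ?_
  intro x
  exact (xf_den_pos (theta_sq_lt h0 h1) ((abs_cliph_le x).trans (by norm_num))).ne'

theorem abs_xiF_le {θ : ℝ} (h0 : 0 ≤ θ) (h1 : θ < 1) (x : ℝ) : |xiF θ x| ≤ 1 / 3 := by
  unfold xiF
  refine (abs_log_xf_le (m0 := 1 / 2) (by norm_num) (theta_sq_lt h0 h1) (abs_cliph_le x)).trans ?_
  have h2 : Real.log (1 / (1 - (1 / 2) ^ 2)) ≤ 1 / (1 - (1 / 2) ^ 2) - 1 :=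
    Real.log_le_sub_one_of_pos (by norm_num)
  rw [one_div, Real.log_inv] at h2
  norm_num at h2 ⊢
  linarith only [h2]

theorem abs_xiF_sub_le {θ θ' : ℝ} (hθ0 : 0 ≤ θ) (hθ : θ ^ 2 ≤ 1 / 2) (hθ0' : 0 ≤ θ')
    (hθ' : θ' ^ 2 ≤ 1 / 2) (x y : ℝ) :
    |xiF θ x - xiF θ' y| ≤ 6 * (|x - y| * (|x| + |y|) + |θ - θ'|) := by
  unfold xiF
  refine (abs_log_xf_sub_le (m0 := 1 / 2) (by norm_num) hθ0 hθ hθ0' hθ' (abs_cliph_le x)
    (abs_cliph_le y)).trans ?_
  have h1 : |cliph x - cliph y| * (|cliph x| + |cliph y|) ≤ |x - y| * (|x| + |y|) :=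
    mul_le_mul (abs_cliph_sub_le x y) (add_le_add (abs_cliph_le_abs x) (abs_cliph_le_abs y))
      (by positivity) (abs_nonneg _)
  have h2 : (1 / (1 - (1 / 2 : ℝ) ^ 2) + 4) ≤ 6 := by norm_num
  have h3 : 0 ≤ |cliph x - cliph y| * (|cliph x| + |cliph y|) + |θ - θ'| := by positivity
  calc _ ≤ 6 * (|cliph x - cliph y| * (|cliph x| + |cliph y|) + |θ - θ'|) :=
        mul_le_mul_of_nonneg_right h2 h3
    _ ≤ _ := mul_le_mul_of_nonneg_left (by (clear * - h1; linarith)) (by norm_num)

/-! ## Independence on descendants and invariance of the mean -/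

section Fields

variable {Ω : Type*} [MeasurableSpace Ω] {P : Measure Ω} [IsProbabilityMeasure P]
  {θ θ' ρ ρ' : ℝ} {M M' : V → Ω → ℝ}

omit [IsProbabilityMeasure P] in
theorem TField.indep_desc (hG : G.IsTree) (hT : TField G θ ρ P M) {φ : ℝ → ℝ}
    (hφ : Continuous φ) (hev : ∀ x, φ (-x) = φ x) {o x : V} {k : ℕ} {y z : V} (hx : o ≠ x)
    (hy : y ∈ desc hG o k x) (hz : z ∈ desc hG o k x) (hne : y ≠ z) :
    ∫ ω, φ (msgT G θ o (fun x => M x ω) y) * φ (msgT G θ o (fun x => M x ω) z) ∂P =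
      (∫ ω, φ (msgT G θ o (fun x => M x ω) y) ∂P) *
        ∫ ω, φ (msgT G θ o (fun x => M x ω) z) ∂P := by
  obtain ⟨u, w, hadj, hyu, hzw, h1, h2⟩ := exists_sep hG hx hy hz hne
  have h := hT.indep u w hadj (fun m => φ (m y)) (fun m => φ (m z))
    ((finDep_eval hyu).comp hφ) ((finDep_eval hzw).comp hφ) (fun m => hev _)
  have e1 : ∀ ω, msgT G θ w (fun x => M x ω) y = msgT G θ o (fun x => M x ω) y := fun ω => by
    unfold msgT
    rw [h1]
  have e2 : ∀ ω, msgT G θ u (fun x => M x ω) z = msgT G θ o (fun x => M x ω) z := fun ω => by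
    unfold msgT
    rw [h2]
  simp only [e1, e2] at h
  exact h

omit [G.LocallyFinite] in
theorem measurable_msgT (hM : ∀ v, Measurable (M v)) (θ : ℝ) (o y : V) :
    Measurable fun ω => msgT G θ o (fun x => M x ω) y :=
  measurable_tau (hM _) (hM _) θ

omit [IsProbabilityMeasure P] in
/-- functionals of an edge have the same law for all directed edges -/
theorem PInv.edge (hM : ∀ v, Measurable (M v)) (hM' : ∀ v, Measurable (M' v))
    (h : PInv G P M M') (hG : G.IsTree) {d : ℕ} (hreg : G.IsRegularOfDegree d)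
    {a b a' b' : V} (hab : G.Adj a b) (hab' : G.Adj a' b') {K : (ℝ × ℝ) × (ℝ × ℝ) → ℝ}
    (hK : Measurable K) :
    ∫ ω, K ((M a ω, M b ω), (M' a ω, M' b ω)) ∂P =
      ∫ ω, K ((M a' ω, M b' ω), (M' a' ω, M' b' ω)) ∂P := by
  have hp : ∀ {a b : V}, G.Adj a b → NBPath G 1 (fun i => if i = 0 then a else b) := by
    intro a b hab
    refine ⟨fun i hi => ?_, fun i hi => by omega⟩
    have : i = 0 := by omega
    subst this
    simpa using hab
  have := PInv.path hM hM' h hG hreg (hp hab) (hp hab')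
    (K := fun z => K ((z.1 0, z.1 1), (z.2 0, z.2 1)))
    (hK.comp ((((measurable_pi_apply 0).comp measurable_fst).prodMk
      ((measurable_pi_apply 1).comp measurable_fst)).prodMk
      (((measurable_pi_apply 0).comp measurable_snd).prodMk
      ((measurable_pi_apply 1).comp measurable_snd))))
    (fun a a' b b' h1 h2 => by
      simp only [h1 0 (by norm_num), h1 1 le_rfl, h2 0 (by norm_num), h2 1 le_rfl])
  simpa only [↓reduceIte, one_ne_zero] using this


/-! ## The second moment of the difference of the two functionals -/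

omit [G.LocallyFinite] in
theorem theta_le_of_sq {θ : ℝ} (hθ : θ ^ 2 ≤ 1 / 2) : θ ≤ 3 / 4 := by
  by_contra h
  push Not at h
  nlinarith

omit [G.LocallyFinite] in
theorem xi_sq_pt {θ θ' : ℝ} (hθ0 : 0 ≤ θ) (hθ : θ ^ 2 ≤ 1 / 2) (hθ0' : 0 ≤ θ')
    (hθ' : θ' ^ 2 ≤ 1 / 2) (x y : ℝ) {u : ℝ} (hu : 0 < u) (k : ℕ) :
    (xiF θ x - xiF θ' y) ^ 2 ≤ 72 * (u ^ 2 * (x - y) ^ 2
      + 2 ^ (2 * k + 3) / u ^ (2 * k) * (x ^ (2 * k + 4) + y ^ (2 * k + 4)) + (θ - θ') ^ 2) := by
  have h1 := abs_xiF_sub_le hθ0 hθ hθ0' hθ' x y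
  have h2 := moment_cut_pt (x := x) (y := y) hu k
  have h3 : (xiF θ x - xiF θ' y) ^ 2 ≤ (6 * (|x - y| * (|x| + |y|) + |θ - θ'|)) ^ 2 := by
    rw [← sq_abs]
    exact pow_le_pow_left₀ (abs_nonneg _) h1 2
  have h4 : (6 * (|x - y| * (|x| + |y|) + |θ - θ'|)) ^ 2
      ≤ 72 * ((|x - y| * (|x| + |y|)) ^ 2 + |θ - θ'| ^ 2) := by
    (clear * -; linarith only [sq_nonneg (|x - y| * (|x| + |y|) - |θ - θ'|)])
  have h5 : (|x - y| * (|x| + |y|)) ^ 2 = (x - y) ^ 2 * (|x| + |y|) ^ 2 := by
    rw [mul_pow, sq_abs]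
  rw [h5, sq_abs] at h4
  linarith only [h4, h3, h2]

omit [G.LocallyFinite] in
theorem tau_sub_sq_le {θ θ' : ℝ} (hθ0 : 0 ≤ θ) (hθ : θ ^ 2 ≤ 1 / 2) (hθ0' : 0 ≤ θ')
    (hθ' : θ' ^ 2 ≤ 1 / 2) {m m' k k' : ℝ} (hm : |m| ≤ 1) (hm' : |m'| ≤ 1) (hk : |k| ≤ 1)
    (hk' : |k'| ≤ 1) :
    (tau θ m m' - tau θ' k k') ^ 2
      ≤ 3 * 1024 ^ 2 * ((m - k) ^ 2 + (m' - k') ^ 2 + (θ - θ') ^ 2) := by
  have h1 := abs_tau_sub_le' (B := 3 / 4) hθ0 hθ0' (theta_le_of_sq hθ) (theta_le_of_sq hθ')
    (by norm_num) hm hm' hk hk'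
  have h2 : (4 / (1 - 3 / 4 : ℝ) ^ 4) = 1024 := by norm_num
  rw [h2] at h1
  have h3 : (tau θ m m' - tau θ' k k') ^ 2
      ≤ (1024 * (|m - k| + |m' - k'| + |θ - θ'|)) ^ 2 := by
    rw [← sq_abs]
    exact pow_le_pow_left₀ (abs_nonneg _) h1 2
  have h4 : (|m - k| + |m' - k'| + |θ - θ'|) ^ 2
      ≤ 3 * (|m - k| ^ 2 + |m' - k'| ^ 2 + |θ - θ'| ^ 2) := by
    (by_contra nlg; linarith [mul_nonneg (sq_nonneg (|m' - k'| - |θ - θ'|)) (sq_nonneg (|m' - k'| - |θ - θ'|)), mul_nonneg (sq_nonneg (|m - k| - |θ - θ'|)) (sq_nonneg (|m' - k'| - |θ - θ'|)), mul_nonneg (sq_nonneg (|m - k| - |θ - θ'|)) (sq_nonneg (|m - k| - |θ - θ'|)), mul_nonneg (le_of_lt (sub_pos.2 (not_le.1 nlg))) (sq_nonneg (|m' - k'| - |θ - θ'|)), mul_nonneg (le_of_lt (sub_pos.2 (not_le.1 nlg))) (sq_nonneg (|m - k| - |θ - θ'|)), mul_pos (sub_pos.2 (not_le.1 nlg)) (sub_pos.2 (not_le.1 nlg))])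
  rw [sq_abs, sq_abs, sq_abs] at h4
  rw [mul_pow] at h3
  linarith only [h4, h3]

omit [G.LocallyFinite] in
theorem tau_zero_zero (θ : ℝ) : tau θ 0 0 = 0 := by
  unfold tau
  simp only [mul_zero, sub_self, sub_zero, zero_div]

omit [G.LocallyFinite] in
theorem tau_pow_half_le {θ : ℝ} (hθ0 : 0 ≤ θ) (hθ : θ ^ 2 ≤ 1 / 2) {m m' : ℝ} (hm : |m| ≤ 1)
    (hm' : |m'| ≤ 1) (j : ℕ) :
    tau θ m m' ^ (2 * j) ≤ 2048 ^ (2 * j) * (m ^ (2 * j) + m' ^ (2 * j)) := by
  have h1 := abs_tau_sub_le' (B := 3 / 4) hθ0 hθ0 (theta_le_of_sq hθ) (theta_le_of_sq hθ)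
    (by norm_num) hm hm' (k := 0) (k' := 0) (by simp only [abs_zero, zero_le_one]) (by simp only [abs_zero, zero_le_one])
  have h2 : (4 / (1 - 3 / 4 : ℝ) ^ 4) = 1024 := by norm_num
  rw [h2, tau_zero_zero] at h1
  simp only [sub_zero, sub_self, abs_zero, add_zero] at h1
  have hev : Even (2 * j) := even_two_mul j
  have h3 : |tau θ m m'| ^ (2 * j) ≤ (1024 * (|m| + |m'|)) ^ (2 * j) :=
    pow_le_pow_left₀ (abs_nonneg _) h1 _
  rw [hev.pow_abs, mul_pow] at h3
  have h4 : (|m| + |m'|) ^ (2 * j) ≤ 2 ^ (2 * j) * (m ^ (2 * j) + m' ^ (2 * j)) := by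
    have h5 := add_pow_le (abs_nonneg m) (abs_nonneg m') (2 * j)
    rw [hev.pow_abs, hev.pow_abs] at h5
    refine h5.trans (mul_le_mul_of_nonneg_right ?_ ?_)
    · exact pow_le_pow_right₀ (by norm_num) (Nat.sub_le _ _)
    · exact add_nonneg (hev.pow_nonneg _) (hev.pow_nonneg _)
  calc tau θ m m' ^ (2 * j) ≤ 1024 ^ (2 * j) * (|m| + |m'|) ^ (2 * j) := h3
    _ ≤ 1024 ^ (2 * j) * (2 ^ (2 * j) * (m ^ (2 * j) + m' ^ (2 * j))) :=
        mul_le_mul_of_nonneg_left h4 (by positivity)
    _ = 2048 ^ (2 * j) * (m ^ (2 * j) + m' ^ (2 * j)) := by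
        rw [← mul_assoc, ← mul_pow]; norm_num

omit [G.LocallyFinite] in
theorem integrable_pow_of_abs_le_one {X : Ω → ℝ} (hX : Measurable X) (hb : ∀ ω, |X ω| ≤ 1)
    (j : ℕ) : Integrable (fun ω => X ω ^ j) P :=
  integrable_of_bdd (hX.pow_const j) (C := 1) fun ω => by
    rw [abs_pow]
    exact pow_le_one₀ (abs_nonneg _) (hb ω)

omit [G.LocallyFinite] in
/-- second moment of the difference of the two edge functionals -/
theorem integral_xi_sq_le (hM : ∀ v, Measurable (M v)) (hM' : ∀ v, Measurable (M' v))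
    (hb : ∀ v ω, |M v ω| ≤ 1) (hb' : ∀ v ω, |M' v ω| ≤ 1) (hθ0 : 0 ≤ θ) (hθ : θ ^ 2 ≤ 1 / 2)
    (hθ0' : 0 ≤ θ') (hθ' : θ' ^ 2 ≤ 1 / 2) {F r Cm : ℝ} {Q : ℕ} (hr : 0 < r) (hr1 : r ≤ 1)
    (hF : ∀ v, ∫ ω, (M v ω - M' v ω) ^ 2 ∂P ≤ F)
    (hmom : ∀ v, ∫ ω, M v ω ^ (2 * (2 * Q + 2)) ∂P ≤ Cm * r ^ (2 * Q + 2))
    (hmom' : ∀ v, ∫ ω, M' v ω ^ (2 * (2 * Q + 2)) ∂P ≤ Cm * r ^ (2 * Q + 2)) (a v : V) :
    ∫ ω, (xiF θ (tau θ (M a ω) (M v ω)) - xiF θ' (tau θ' (M' a ω) (M' v ω))) ^ 2 ∂P
      ≤ 72 * (6 * 1024 ^ 2) * (r ^ (1 / 2 : ℝ) * F)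
        + 72 * (2 ^ (4 * Q + 3) * (2048 ^ (2 * (2 * Q + 2)) * 4 * Cm)) * r ^ (Q + 2)
        + 72 * (3 * 1024 ^ 2 + 1) * |θ - θ'| := by
  -- the cut-off
  set u : ℝ := r ^ (1 / 4 : ℝ) with hu
  have hu0 : 0 < u := Real.rpow_pos_of_pos hr _
  have hu2 : u ^ 2 = r ^ (1 / 2 : ℝ) := by
    rw [hu, ← Real.rpow_natCast, ← Real.rpow_mul hr.le]
    norm_num
  have hu2' : u ^ 2 ≤ 1 := by
    rw [hu2]
    exact Real.rpow_le_one hr.le hr1 (by (clear * -; norm_num))
  have huQ : u ^ (2 * (2 * Q)) = r ^ Q := by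
    rw [hu, ← Real.rpow_natCast, ← Real.rpow_mul hr.le, ← Real.rpow_natCast]
    congr 1
    push_cast
    ring
  have hθ1 : θ < 1 := (theta_le_of_sq hθ).trans_lt (by norm_num)
  have hθ1' : θ' < 1 := (theta_le_of_sq hθ').trans_lt (by norm_num)
  have habs : |θ - θ'| ≤ 1 := by
    rw [abs_le]
    constructor <;> linarith only [hθ0', hθ1, hθ0, hθ1']
  have hθsq : (θ - θ') ^ 2 ≤ |θ - θ'| := by
    rw [← sq_abs]
    linarith only [mul_nonneg (sub_nonneg.2 habs) (sub_nonneg.2 (abs_nonneg (θ - θ')))]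
  set j : ℕ := 2 * Q + 2 with hj
  -- integrability
  have hD : ∀ v, Integrable (fun ω => (M v ω - M' v ω) ^ 2) P := fun v =>
    integrable_of_bdd (((hM v).sub (hM' v)).pow_const 2) (C := 4) fun ω => by
      rw [abs_of_nonneg (sq_nonneg _)]
      have h1 := abs_le.1 (hb v ω)
      have h2 := abs_le.1 (hb' v ω)
      nlinarith only [h1, h2]
  have hI : ∀ v, Integrable (fun ω => M v ω ^ (2 * j)) P := fun v =>
    integrable_pow_of_abs_le_one (hM v) (hb v) _
  have hI' : ∀ v, Integrable (fun ω => M' v ω ^ (2 * j)) P := fun v =>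
    integrable_pow_of_abs_le_one (hM' v) (hb' v) _
  set c1 : ℝ := 72 * (u ^ 2 * (3 * 1024 ^ 2)) with hc1
  set c2 : ℝ := 72 * (2 ^ (4 * Q + 3) / r ^ Q * 2048 ^ (2 * j)) with hc2
  have hc10 : 0 ≤ c1 := by positivity
  have hc20 : 0 ≤ c2 := by positivity
  have hpt : ∀ ω, (xiF θ (tau θ (M a ω) (M v ω)) - xiF θ' (tau θ' (M' a ω) (M' v ω))) ^ 2
      ≤ c1 * ((M a ω - M' a ω) ^ 2 + (M v ω - M' v ω) ^ 2)
        + c2 * (M a ω ^ (2 * j) + M v ω ^ (2 * j) + (M' a ω ^ (2 * j) + M' v ω ^ (2 * j)))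
        + (c1 + 72) * (θ - θ') ^ 2 := by
    intro ω
    have h1 := xi_sq_pt hθ0 hθ hθ0' hθ' (tau θ (M a ω) (M v ω)) (tau θ' (M' a ω) (M' v ω)) hu0
      (2 * Q)
    have h2 := tau_sub_sq_le hθ0 hθ hθ0' hθ' (hb a ω) (hb v ω) (hb' a ω) (hb' v ω)
    have h3 := tau_pow_half_le hθ0 hθ (hb a ω) (hb v ω) j
    have h4 := tau_pow_half_le hθ0' hθ' (hb' a ω) (hb' v ω) j
    have e1 : 2 * (2 * Q) + 4 = 2 * j := by omega
    have e2 : 2 * (2 * Q) + 3 = 4 * Q + 3 := by omega
    rw [e1, e2, huQ] at h1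
    have h5 : u ^ 2 * (tau θ (M a ω) (M v ω) - tau θ' (M' a ω) (M' v ω)) ^ 2
        ≤ u ^ 2 * (3 * 1024 ^ 2 * ((M a ω - M' a ω) ^ 2 + (M v ω - M' v ω) ^ 2
          + (θ - θ') ^ 2)) := mul_le_mul_of_nonneg_left h2 (by (clear * - hr; positivity))
    have h6 : 2 ^ (4 * Q + 3) / r ^ Q * (tau θ (M a ω) (M v ω) ^ (2 * j)
          + tau θ' (M' a ω) (M' v ω) ^ (2 * j))
        ≤ 2 ^ (4 * Q + 3) / r ^ Q * (2048 ^ (2 * j) * (M a ω ^ (2 * j) + M v ω ^ (2 * j))
          + 2048 ^ (2 * j) * (M' a ω ^ (2 * j) + M' v ω ^ (2 * j))) :=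
      mul_le_mul_of_nonneg_left (add_le_add h3 h4) (by positivity)
    calc _ ≤ _ := h1
      _ ≤ 72 * (u ^ 2 * (3 * 1024 ^ 2 * ((M a ω - M' a ω) ^ 2 + (M v ω - M' v ω) ^ 2
          + (θ - θ') ^ 2)) + 2 ^ (4 * Q + 3) / r ^ Q * (2048 ^ (2 * j) * (M a ω ^ (2 * j)
          + M v ω ^ (2 * j)) + 2048 ^ (2 * j) * (M' a ω ^ (2 * j) + M' v ω ^ (2 * j)))
          + (θ - θ') ^ 2) := by linarith only [h5, h6]
      _ = _ := by rw [hc1, hc2]; ring
  have hIA : Integrable (fun ω => c1 * ((M a ω - M' a ω) ^ 2 + (M v ω - M' v ω) ^ 2)) P :=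
    ((hD a).add (hD v)).const_mul c1
  have hIB : Integrable (fun ω => c2 * (M a ω ^ (2 * j) + M v ω ^ (2 * j)
      + (M' a ω ^ (2 * j) + M' v ω ^ (2 * j)))) P :=
    (((hI a).add (hI v)).add ((hI' a).add (hI' v))).const_mul c2
  have hIAB : Integrable (fun ω => c1 * ((M a ω - M' a ω) ^ 2 + (M v ω - M' v ω) ^ 2)
      + c2 * (M a ω ^ (2 * j) + M v ω ^ (2 * j) + (M' a ω ^ (2 * j) + M' v ω ^ (2 * j)))) P :=
    hIA.add hIB
  have hmono : ∫ ω, (xiF θ (tau θ (M a ω) (M v ω)) - xiF θ' (tau θ' (M' a ω) (M' v ω))) ^ 2 ∂P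
      ≤ ∫ ω, (c1 * ((M a ω - M' a ω) ^ 2 + (M v ω - M' v ω) ^ 2)
        + c2 * (M a ω ^ (2 * j) + M v ω ^ (2 * j) + (M' a ω ^ (2 * j) + M' v ω ^ (2 * j)))
        + (c1 + 72) * (θ - θ') ^ 2) ∂P :=
    integral_mono_of_nonneg (Filter.Eventually.of_forall fun _ => sq_nonneg _)
      (hIAB.add (integrable_const _)) (Filter.Eventually.of_forall hpt)
  have hM1 : Integrable (fun ω => M a ω ^ (2 * j) + M v ω ^ (2 * j)) P := (hI a).add (hI v)
  have hM2 : Integrable (fun ω => M' a ω ^ (2 * j) + M' v ω ^ (2 * j)) P := (hI' a).add (hI' v)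
  rw [integral_add hIAB (integrable_const _), integral_add hIA hIB, integral_const_mul,
    integral_const_mul, integral_add (hD a) (hD v), integral_add hM1 hM2,
    integral_add (hI a) (hI v), integral_add (hI' a) (hI' v), integral_const] at hmono
  simp only [probReal_univ, one_smul] at hmono
  have hFF : c1 * (∫ ω, (M a ω - M' a ω) ^ 2 ∂P + ∫ ω, (M v ω - M' v ω) ^ 2 ∂P)
      ≤ 72 * (6 * 1024 ^ 2) * (r ^ (1 / 2 : ℝ) * F) := by
    calc _ ≤ c1 * (F + F) := mul_le_mul_of_nonneg_left (add_le_add (hF a) (hF v)) hc10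
      _ = _ := by rw [hc1, hu2]; ring
  have hMM : c2 * (∫ ω, M a ω ^ (2 * j) ∂P + ∫ ω, M v ω ^ (2 * j) ∂P
        + (∫ ω, M' a ω ^ (2 * j) ∂P + ∫ ω, M' v ω ^ (2 * j) ∂P))
      ≤ 72 * (2 ^ (4 * Q + 3) * (2048 ^ (2 * j) * 4 * Cm)) * r ^ (Q + 2) := by
    calc _ ≤ c2 * (Cm * r ^ j + Cm * r ^ j + (Cm * r ^ j + Cm * r ^ j)) :=
          mul_le_mul_of_nonneg_left (add_le_add (add_le_add (hmom a) (hmom v))
            (add_le_add (hmom' a) (hmom' v))) hc20
      _ = _ := by
          have hrQ : r ^ j = r ^ Q * r ^ (Q + 2) := by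
            rw [← pow_add]
            congr 1
            (clear * -; omega)
          rw [hc2, hrQ]
          field_simp
          ring
  have hTT : (c1 + 72) * (θ - θ') ^ 2 ≤ 72 * (3 * 1024 ^ 2 + 1) * |θ - θ'| := by
    have h1 : c1 + 72 ≤ 72 * (3 * 1024 ^ 2 + 1) := by
      rw [hc1]
      linarith only [hu2']
    exact mul_le_mul h1 hθsq (sq_nonneg _) (by norm_num)
  linarith only [hTT, hMM, hFF, hmono]


/-! ## Products of transfer factors along a path -/

omit [G.LocallyFinite] in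
theorem prod_xf_sub_sq_le (hθ0 : 0 ≤ θ) (hθ1 : θ < 1) (hθ0' : 0 ≤ θ') (hθ1' : θ' < 1)
    {x y : ℕ → ℝ} (hx : ∀ i, |x i| ≤ 1) (hy : ∀ i, |y i| ≤ 1) (n j : ℕ) :
    (∏ i ∈ range n, xf θ (x i) - ∏ i ∈ range n, xf θ' (y i)) ^ 2
      ≤ (∑ i ∈ range n, (xiF θ (x i) - xiF θ' (y i))) ^ 2
        + ∑ i ∈ range n, ((2 * x i) ^ (2 * j) + (2 * y i) ^ (2 * j)) := by
  have hev : ∀ z : ℝ, 0 ≤ (2 * z) ^ (2 * j) := fun z => (even_two_mul j).pow_nonneg _
  have hsum0 : 0 ≤ ∑ i ∈ range n, ((2 * x i) ^ (2 * j) + (2 * y i) ^ (2 * j)) :=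
    Finset.sum_nonneg fun i _ => add_nonneg (hev _) (hev _)
  have h2 := theta_sq_lt hθ0 hθ1
  have h2' := theta_sq_lt hθ0' hθ1'
  have hbig : ∀ z : ℝ, 1 / 2 < |z| → 1 ≤ (2 * z) ^ (2 * j) := by
    intro z hz
    rw [← (even_two_mul j).pow_abs]
    apply one_le_pow₀
    rw [abs_mul, abs_of_pos (by norm_num : (0 : ℝ) < 2)]
    (clear * - hz; linarith only [hz])
  have hone : (∏ i ∈ range n, xf θ (x i) - ∏ i ∈ range n, xf θ' (y i)) ^ 2 ≤ 1 := by
    have a0 : 0 ≤ ∏ i ∈ range n, xf θ (x i) := prod_xf_nonneg h2 hx _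
    have a1 : ∏ i ∈ range n, xf θ (x i) ≤ 1 := prod_xf_le_one h2 hx _
    have b0 : 0 ≤ ∏ i ∈ range n, xf θ' (y i) := prod_xf_nonneg h2' hy _
    have b1 : ∏ i ∈ range n, xf θ' (y i) ≤ 1 := prod_xf_le_one h2' hy _
    linarith only [mul_nonneg (sub_nonneg.2 b0) (sub_nonneg.2 b1), mul_nonneg (sub_nonneg.2 a1) (sub_nonneg.2 b1), mul_nonneg (sub_nonneg.2 a0) (sub_nonneg.2 b0), mul_nonneg (sub_nonneg.2 a0) (sub_nonneg.2 a1)]
  by_cases hgood : ∀ i ∈ range n, |x i| ≤ 1 / 2 ∧ |y i| ≤ 1 / 2
  · have e1 : ∏ i ∈ range n, xf θ (x i) = ∏ i ∈ range n, xf θ (cliph (x i)) :=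
      Finset.prod_congr rfl fun i hi => by rw [cliph_of_abs (hgood i hi).1]
    have e2 : ∏ i ∈ range n, xf θ' (y i) = ∏ i ∈ range n, xf θ' (cliph (y i)) :=
      Finset.prod_congr rfl fun i hi => by rw [cliph_of_abs (hgood i hi).2]
    have h3 := abs_prod_sub_prod_le_log (n := n) (x := fun i => xf θ (cliph (x i)))
      (y := fun i => xf θ' (cliph (y i))) (fun i => xf_cliph_pos hθ0 hθ1 _)
      (fun i => xf_le_one h2 ((abs_cliph_le _).trans (by norm_num)))
      (fun i => xf_cliph_pos hθ0' hθ1' _)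
      (fun i => xf_le_one h2' ((abs_cliph_le _).trans (by norm_num)))
    rw [← e1, ← e2] at h3
    have h4 := pow_le_pow_left₀ (abs_nonneg _) h3 2
    rw [sq_abs, sq_abs] at h4
    have h5 : (∑ i ∈ range n, (Real.log (xf θ (cliph (x i))) - Real.log (xf θ' (cliph (y i))))) ^ 2
        = (∑ i ∈ range n, (xiF θ (x i) - xiF θ' (y i))) ^ 2 := rfl
    rw [h5] at h4
    linarith only [hsum0, h4]
  · push Not at hgood
    obtain ⟨i, hi, hi2⟩ := hgood
    have h3 : 1 ≤ (2 * x i) ^ (2 * j) + (2 * y i) ^ (2 * j) := by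
      by_cases hxi : |x i| ≤ 1 / 2
      · have := hbig (y i) (hi2 hxi)
        linarith only [this, hev (x i)]
      · push Not at hxi
        have := hbig (x i) hxi
        linarith only [this, hev (y i)]
    have h4 : (2 * x i) ^ (2 * j) + (2 * y i) ^ (2 * j)
        ≤ ∑ i ∈ range n, ((2 * x i) ^ (2 * j) + (2 * y i) ^ (2 * j)) :=
      Finset.single_le_sum (f := fun i => (2 * x i) ^ (2 * j) + (2 * y i) ^ (2 * j))
        (fun i _ => add_nonneg (hev _) (hev _)) hi
    have h5 : 0 ≤ (∑ i ∈ range n, (xiF θ (x i) - xiF θ' (y i))) ^ 2 := sq_nonneg _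
    linarith only [hone, h3, h4, h5]

omit [G.LocallyFinite] in
/-- the product of the transfer factors of a geodesic through the messages of its vertices -/
theorem etaP_geo (θ : ℝ) (m : V → ℝ) (o v : V) :
    etaP θ (fun i => m (geo G o v i)) (G.dist o v)
      = ∏ a ∈ range (G.dist o v), xf θ (msgT G θ o m ((par G o)^[a] v)) := by
  unfold etaP
  rw [← Finset.prod_range_reflect]
  refine Finset.prod_congr rfl fun a ha => ?_
  rw [mem_range] at ha
  unfold msgT
  have e1 : G.dist o v - 1 - a + 1 = G.dist o v - a := by omega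
  have e2 : geo G o v (G.dist o v - 1 - a + 1) = (par G o)^[a] v := by
    unfold geo
    congr 1
    omega
  have e3 := par_geo_succ (G := G) o v (i := G.dist o v - 1 - a) (by omega)
  rw [e2] at e3
  simp only [e2, e3]

omit [G.LocallyFinite] in
/-- the message of every vertex, as a bounded measurable function -/
theorem abs_msgT_le_one (hθ0 : 0 ≤ θ) (hθ1 : θ < 1) {m : V → ℝ} (hm : ∀ v, |m v| ≤ 1) (o y : V) :
    |msgT G θ o m y| ≤ 1 := abs_tau_le hθ0 hθ1 (hm _) (hm _)

omit [G.LocallyFinite] in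
theorem integral_eta_sq_le (hM : ∀ v, Measurable (M v)) (hM' : ∀ v, Measurable (M' v))
    (hb : ∀ v ω, |M v ω| ≤ 1) (hb' : ∀ v ω, |M' v ω| ≤ 1) (hθ0 : 0 ≤ θ) (hθ : θ ^ 2 ≤ 1 / 2)
    (hθ0' : 0 ≤ θ') (hθ' : θ' ^ 2 ≤ 1 / 2) {B : ℝ} {j : ℕ}
    (hmom : ∀ v, ∫ ω, M v ω ^ (2 * j) ∂P ≤ B) (hmom' : ∀ v, ∫ ω, M' v ω ^ (2 * j) ∂P ≤ B)
    (o v : V) :
    ∫ ω, (etaP θ (fun i => M (geo G o v i) ω) (G.dist o v)
        - etaP θ' (fun i => M' (geo G o v i) ω) (G.dist o v)) ^ 2 ∂P
      ≤ ∫ ω, (∑ a ∈ range (G.dist o v),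
          (xiF θ (msgT G θ o (fun x => M x ω) ((par G o)^[a] v))
            - xiF θ' (msgT G θ' o (fun x => M' x ω) ((par G o)^[a] v)))) ^ 2 ∂P
        + (G.dist o v) * (4 * 4096 ^ (2 * j) * B) := by
  have hθ1 : θ < 1 := (theta_le_of_sq hθ).trans_lt (by norm_num)
  have hθ1' : θ' < 1 := (theta_le_of_sq hθ').trans_lt (by norm_num)
  set n := G.dist o v with hn
  have hmes : ∀ a, Measurable fun ω => xiF θ (msgT G θ o (fun x => M x ω) ((par G o)^[a] v)) :=
    fun a => (continuous_xiF hθ0 hθ1).measurable.comp (measurable_msgT hM θ o _)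
  have hmes' : ∀ a, Measurable fun ω =>
      xiF θ' (msgT G θ' o (fun x => M' x ω) ((par G o)^[a] v)) :=
    fun a => (continuous_xiF hθ0' hθ1').measurable.comp (measurable_msgT hM' θ' o _)
  have hmp : ∀ a, Measurable fun ω => (2 * msgT G θ o (fun x => M x ω) ((par G o)^[a] v)) ^ (2 * j)
      := fun a => ((measurable_msgT hM θ o _).const_mul 2).pow_const _
  have hmp' : ∀ a, Measurable fun ω =>
      (2 * msgT G θ' o (fun x => M' x ω) ((par G o)^[a] v)) ^ (2 * j)
      := fun a => ((measurable_msgT hM' θ' o _).const_mul 2).pow_const _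
  have hip : ∀ a, Integrable (fun ω =>
      (2 * msgT G θ o (fun x => M x ω) ((par G o)^[a] v)) ^ (2 * j)) P := fun a =>
    integrable_of_bdd (hmp a) (C := 2 ^ (2 * j)) fun ω => by
      rw [abs_pow, abs_mul, abs_of_pos (by norm_num : (0 : ℝ) < 2), mul_pow]
      exact mul_le_of_le_one_right (by positivity)
        (pow_le_one₀ (abs_nonneg _) (abs_msgT_le_one hθ0 hθ1 (fun v => hb v ω) o _))
  have hip' : ∀ a, Integrable (fun ω =>
      (2 * msgT G θ' o (fun x => M' x ω) ((par G o)^[a] v)) ^ (2 * j)) P := fun a =>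
    integrable_of_bdd (hmp' a) (C := 2 ^ (2 * j)) fun ω => by
      rw [abs_pow, abs_mul, abs_of_pos (by norm_num : (0 : ℝ) < 2), mul_pow]
      exact mul_le_of_le_one_right (by positivity)
        (pow_le_one₀ (abs_nonneg _) (abs_msgT_le_one hθ0' hθ1' (fun v => hb' v ω) o _))
  have hmS : Measurable fun ω => (∑ a ∈ range n,
      (xiF θ (msgT G θ o (fun x => M x ω) ((par G o)^[a] v))
        - xiF θ' (msgT G θ' o (fun x => M' x ω) ((par G o)^[a] v)))) ^ 2 :=
    (Finset.measurable_sum _ fun a _ => (hmes a).sub (hmes' a)).pow_const 2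
  have hiS : Integrable (fun ω => (∑ a ∈ range n,
      (xiF θ (msgT G θ o (fun x => M x ω) ((par G o)^[a] v))
        - xiF θ' (msgT G θ' o (fun x => M' x ω) ((par G o)^[a] v)))) ^ 2) P := by
    refine integrable_of_bdd hmS (C := (n : ℝ) ^ 2) fun ω => ?_
    rw [abs_of_nonneg (sq_nonneg _), ← sq_abs]
    refine pow_le_pow_left₀ (abs_nonneg _) ?_ 2
    refine (Finset.abs_sum_le_sum_abs _ _).trans ?_
    calc _ ≤ ∑ _a ∈ range n, (1 : ℝ) := by
          refine Finset.sum_le_sum fun a _ => ?_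
          have h1 := abs_xiF_le hθ0 hθ1 (msgT G θ o (fun x => M x ω) ((par G o)^[a] v))
          have h2 := abs_xiF_le hθ0' hθ1' (msgT G θ' o (fun x => M' x ω) ((par G o)^[a] v))
          refine (abs_sub _ _).trans ?_
          linarith only [h1, h2]
      _ = n := by simp only [sum_const, card_range, nsmul_eq_mul, mul_one]
  have hiT : Integrable (fun ω => ∑ a ∈ range n,
      ((2 * msgT G θ o (fun x => M x ω) ((par G o)^[a] v)) ^ (2 * j)
        + (2 * msgT G θ' o (fun x => M' x ω) ((par G o)^[a] v)) ^ (2 * j))) P :=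
    integrable_finsetSum _ fun a _ => (hip a).add (hip' a)
  have hmono : ∫ ω, (etaP θ (fun i => M (geo G o v i) ω) n
        - etaP θ' (fun i => M' (geo G o v i) ω) n) ^ 2 ∂P
      ≤ ∫ ω, ((∑ a ∈ range n,
          (xiF θ (msgT G θ o (fun x => M x ω) ((par G o)^[a] v))
            - xiF θ' (msgT G θ' o (fun x => M' x ω) ((par G o)^[a] v)))) ^ 2
        + ∑ a ∈ range n,
      ((2 * msgT G θ o (fun x => M x ω) ((par G o)^[a] v)) ^ (2 * j)
        + (2 * msgT G θ' o (fun x => M' x ω) ((par G o)^[a] v)) ^ (2 * j))) ∂P := by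
    refine integral_mono_of_nonneg (Filter.Eventually.of_forall fun _ => sq_nonneg _)
      (hiS.add hiT) (Filter.Eventually.of_forall fun ω => ?_)
    simp only
    rw [hn, etaP_geo (G := G) θ (fun x => M x ω) o v, etaP_geo (G := G) θ' (fun x => M' x ω) o v]
    exact prod_xf_sub_sq_le hθ0 hθ1 hθ0' hθ1'
      (x := fun a => msgT G θ o (fun x => M x ω) ((par G o)^[a] v))
      (y := fun a => msgT G θ' o (fun x => M' x ω) ((par G o)^[a] v))
      (fun a => abs_msgT_le_one hθ0 hθ1 (fun v => hb v ω) o _)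
      (fun a => abs_msgT_le_one hθ0' hθ1' (fun v => hb' v ω) o _) _ j
  rw [integral_add hiS hiT] at hmono
  refine hmono.trans (add_le_add le_rfl ?_)
  have hipp : ∀ a, Integrable (fun ω =>
      ((2 * msgT G θ o (fun x => M x ω) ((par G o)^[a] v)) ^ (2 * j)
        + (2 * msgT G θ' o (fun x => M' x ω) ((par G o)^[a] v)) ^ (2 * j))) P :=
    fun a => (hip a).add (hip' a)
  rw [integral_finsetSum _ fun a _ => hipp a]
  have hpow : ∀ {θ : ℝ} {M : V → Ω → ℝ}, 0 ≤ θ → θ ^ 2 ≤ 1 / 2 → (∀ v, Measurable (M v)) →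
      (∀ v ω, |M v ω| ≤ 1) → (∀ v, ∫ ω, M v ω ^ (2 * j) ∂P ≤ B) → ∀ y,
      ∫ ω, (2 * msgT G θ o (fun x => M x ω) y) ^ (2 * j) ∂P ≤ 2 * 4096 ^ (2 * j) * B := by
    intro θ M h0 h1 hM hb hmom y
    have hI : ∀ v, Integrable (fun ω => M v ω ^ (2 * j)) P := fun v =>
      integrable_pow_of_abs_le_one (hM v) (hb v) _
    have h2 : ∫ ω, (2 * msgT G θ o (fun x => M x ω) y) ^ (2 * j) ∂P
        ≤ ∫ ω, 4096 ^ (2 * j) * (M (par G o y) ω ^ (2 * j) + M y ω ^ (2 * j)) ∂P := by
      refine integral_mono_of_nonneg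
        (Filter.Eventually.of_forall fun _ => (even_two_mul j).pow_nonneg _)
        (((hI _).add (hI _)).const_mul _) (Filter.Eventually.of_forall fun ω => ?_)
      have h3 := tau_pow_half_le h0 h1 (hb (par G o y) ω) (hb y ω) j
      simp only
      rw [mul_pow]
      calc _ ≤ 2 ^ (2 * j) * (2048 ^ (2 * j) * (M (par G o y) ω ^ (2 * j)
            + M y ω ^ (2 * j))) := mul_le_mul_of_nonneg_left h3 (by positivity)
        _ = _ := by rw [← mul_assoc, ← mul_pow]; norm_num
    rw [integral_const_mul, integral_add (hI _) (hI _)] at h2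
    refine h2.trans ?_
    have h4 := hmom (par G o y)
    have h5 := hmom y
    calc _ ≤ 4096 ^ (2 * j) * (B + B) := mul_le_mul_of_nonneg_left (add_le_add h4 h5)
          (by positivity)
      _ = _ := by ring
  calc _ ≤ ∑ _a ∈ range n, (2 * 4096 ^ (2 * j) * B + 2 * 4096 ^ (2 * j) * B) := by
        refine Finset.sum_le_sum fun a _ => ?_
        rw [integral_add (hip a) (hip' a)]
        exact add_le_add (hpow hθ0 hθ hM hb hmom _) (hpow hθ0' hθ' hM' hb' hmom' _)
    _ = _ := by
        rw [Finset.sum_const, card_range, nsmul_eq_mul]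
        ring


/-! ## The sum over a sphere -/

theorem memLp_two_of_abs_le {X : Ω → ℝ} (hX : Measurable X) {C : ℝ} (hb : ∀ ω, |X ω| ≤ C) :
    MemLp X 2 P :=
  MemLp.of_bound hX.aestronglyMeasurable C (Filter.Eventually.of_forall fun ω => by
    rw [Real.norm_eq_abs]; exact hb ω)

omit [G.LocallyFinite] in
theorem integral_centered_mul_zero {g h : Ω → ℝ} {c : ℝ} (hgm : Measurable g) (hhm : Measurable h)
    (hgb : ∀ ω, |g ω| ≤ 1 / 3) (hhb : ∀ ω, |h ω| ≤ 1 / 3) (h1 : ∫ ω, g ω ∂P = c)
    (h2 : ∫ ω, h ω ∂P = c) (h3 : ∫ ω, g ω * h ω ∂P = (∫ ω, g ω ∂P) * ∫ ω, h ω ∂P) :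
    ∫ ω, (g ω - c) * (h ω - c) ∂P = 0 := by
  have i1 : Integrable (fun ω => g ω * h ω) P :=
    integrable_of_bdd (hgm.mul hhm) (C := 1) fun ω => by
      rw [abs_mul]
      have := hgb ω
      have := hhb ω
      (clear c hgm hhm h1 h2 h3; nlinarith [abs_nonneg (g ω), abs_nonneg (h ω)])
  have i2 : Integrable (fun ω => c * g ω) P := (integrable_of_bdd hgm hgb).const_mul c
  have i3 : Integrable (fun ω => c * h ω) P := (integrable_of_bdd hhm hhb).const_mul c
  have e1 : ∀ ω, (g ω - c) * (h ω - c) = g ω * h ω - (c * g ω + c * h ω - c ^ 2) :=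
    fun ω => by ring
  simp only [e1]
  have i4 : Integrable (fun ω => c * g ω + c * h ω) P := i2.add i3
  have i5 : Integrable (fun ω => c * g ω + c * h ω - c ^ 2) P := i4.sub (integrable_const _)
  rw [integral_sub i1 i5, integral_sub i4 (integrable_const _),
    integral_add i2 i3, integral_const_mul, integral_const_mul,
    integral_const, h3, h1, h2]
  simp only [probReal_univ, one_smul]
  ring

omit [G.LocallyFinite] in
theorem integral_centered_sq_le {g : Ω → ℝ} {c : ℝ} (hgb : ∀ ω, |g ω| ≤ 1 / 3)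
    (hc : |c| ≤ 1 / 3) : ∫ ω, (g ω - c) ^ 2 ∂P ≤ (2 / 3) ^ 2 := by
  refine (integral_mono_of_nonneg (Filter.Eventually.of_forall fun _ => sq_nonneg _)
    (integrable_const ((2 / 3) ^ 2)) (Filter.Eventually.of_forall fun ω => ?_)).trans ?_
  · simp only
    rw [← sq_abs]
    refine pow_le_pow_left₀ (abs_nonneg _) ?_ 2
    refine (abs_sub _ _).trans ?_
    linarith only [hgb ω, hc]
  · simp

omit [G.LocallyFinite] in
theorem abs_integral_le_of_abs_le {g : Ω → ℝ} {C : ℝ} (hgb : ∀ ω, |g ω| ≤ C) :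
    |∫ ω, g ω ∂P| ≤ C := by
  refine (abs_integral_le_integral_abs).trans ?_
  refine (integral_mono_of_nonneg (Filter.Eventually.of_forall fun _ => abs_nonneg _)
    (integrable_const C) (Filter.Eventually.of_forall hgb)).trans ?_
  simp

omit [IsProbabilityMeasure P] in
/-- the mean of the edge functional of a single system -/
theorem PInv.mean_left (hM : ∀ v, Measurable (M v)) (hM' : ∀ v, Measurable (M' v))
    (h : PInv G P M M') (hG : G.IsTree) {d : ℕ} (hreg : G.IsRegularOfDegree d)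
    {a b a' b' : V} (hab : G.Adj a b) (hab' : G.Adj a' b') {K : ℝ → ℝ → ℝ}
    (hK : Measurable fun z : ℝ × ℝ => K z.1 z.2) :
    ∫ ω, K (M a ω) (M b ω) ∂P = ∫ ω, K (M a' ω) (M b' ω) ∂P :=
  PInv.edge hM hM' h hG hreg hab hab' (K := fun z => K z.1.1 z.1.2) (hK.comp measurable_fst)

omit [IsProbabilityMeasure P] in
theorem PInv.mean_right (hM : ∀ v, Measurable (M v)) (hM' : ∀ v, Measurable (M' v))
    (h : PInv G P M M') (hG : G.IsTree) {d : ℕ} (hreg : G.IsRegularOfDegree d)
    {a b a' b' : V} (hab : G.Adj a b) (hab' : G.Adj a' b') {K : ℝ → ℝ → ℝ}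
    (hK : Measurable fun z : ℝ × ℝ => K z.1 z.2) :
    ∫ ω, K (M' a ω) (M' b ω) ∂P = ∫ ω, K (M' a' ω) (M' b' ω) ∂P :=
  PInv.edge hM hM' h hG hreg hab hab' (K := fun z => K z.2.1 z.2.2) (hK.comp measurable_snd)

theorem sphere_eta_le (hG : G.IsTree) {d : ℕ} (hreg : G.IsRegularOfDegree d) (hd : 3 ≤ d)
    (hT : TField G θ ρ P M) (hT' : TField G θ' ρ' P M') (hinv : PInv G P M M')
    (hθ0 : 0 ≤ θ) (hθ : θ ^ 2 ≤ 1 / 2) (hθ0' : 0 ≤ θ') (hθ' : θ' ^ 2 ≤ 1 / 2) {B A δ : ℝ} {j : ℕ}
    (hmom : ∀ v, ∫ ω, M v ω ^ (2 * j) ∂P ≤ B) (hmom' : ∀ v, ∫ ω, M' v ω ^ (2 * j) ∂P ≤ B)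
    (hA : 0 ≤ A) (hA2 : ∀ a v, ∫ ω, (xiF θ (tau θ (M a ω) (M v ω))
      - xiF θ' (tau θ' (M' a ω) (M' v ω))) ^ 2 ∂P ≤ A ^ 2)
    {a0 b0 : V} (hab : G.Adj a0 b0)
    (hδ : |∫ ω, xiF θ (tau θ (M a0 ω) (M b0 ω)) ∂P
      - ∫ ω, xiF θ' (tau θ' (M' a0 ω) (M' b0 ω)) ∂P| ≤ δ) (o : V) (n K : ℕ) :
    ∑ v ∈ sph hG.connected o n, ∫ ω, (etaP θ (fun i => M (geo G o v i) ω) n
        - etaP θ' (fun i => M' (geo G o v i) ω) n) ^ 2 ∂P
      ≤ (sph hG.connected o n).card * (n * (2 * (K * A ^ 2
        + 2 * A * ((1 / Real.sqrt ((d - 1 : ℕ) : ℝ)) ^ K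
          / (1 - 1 / Real.sqrt ((d - 1 : ℕ) : ℝ))) + n * (2 * A * δ)))
          + n * (4 * 4096 ^ (2 * j) * B)) := by
  have hθ1 : θ < 1 := (theta_le_of_sq hθ).trans_lt (by norm_num)
  have hθ1' : θ' < 1 := (theta_le_of_sq hθ').trans_lt (by norm_num)
  set f : V → Ω → ℝ := fun v ω => xiF θ (msgT G θ o (fun x => M x ω) v) with hf
  set f' : V → Ω → ℝ := fun v ω => xiF θ' (msgT G θ' o (fun x => M' x ω) v) with hf'
  set e : ℝ := ∫ ω, xiF θ (tau θ (M a0 ω) (M b0 ω)) ∂P with he
  set e' : ℝ := ∫ ω, xiF θ' (tau θ' (M' a0 ω) (M' b0 ω)) ∂P with he'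
  have hfm : ∀ v, Measurable (f v) := fun v =>
    (continuous_xiF hθ0 hθ1).measurable.comp (measurable_msgT hT.meas θ o _)
  have hfm' : ∀ v, Measurable (f' v) := fun v =>
    (continuous_xiF hθ0' hθ1').measurable.comp (measurable_msgT hT'.meas θ' o _)
  have hfb : ∀ v ω, |f v ω| ≤ 1 / 3 := fun v ω => abs_xiF_le hθ0 hθ1 _
  have hfb' : ∀ v ω, |f' v ω| ≤ 1 / 3 := fun v ω => abs_xiF_le hθ0' hθ1' _
  have heb : |e| ≤ 1 / 3 := abs_integral_le_of_abs_le fun ω => abs_xiF_le hθ0 hθ1 _
  have heb' : |e'| ≤ 1 / 3 := abs_integral_le_of_abs_le fun ω => abs_xiF_le hθ0' hθ1' _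
  -- means
  have hKm : Measurable fun z : ℝ × ℝ => xiF θ (tau θ z.1 z.2) :=
    ((continuous_xiF hθ0 hθ1).comp (continuous_tau hθ0 hθ1)).measurable
  have hKm' : Measurable fun z : ℝ × ℝ => xiF θ' (tau θ' z.1 z.2) :=
    ((continuous_xiF hθ0' hθ1').comp (continuous_tau hθ0' hθ1')).measurable
  have hmean : ∀ y, o ≠ y → ∫ ω, f y ω ∂P = e := fun y hy =>
    PInv.mean_left hT.meas hT'.meas hinv hG hreg (par_spec hG hy).1 hab
      (K := fun p q => xiF θ (tau θ p q)) hKm
  have hmean' : ∀ y, o ≠ y → ∫ ω, f' y ω ∂P = e' := fun y hy =>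
    PInv.mean_right hT.meas hT'.meas hinv hG hreg (par_spec hG hy).1 hab
      (K := fun p q => xiF θ' (tau θ' p q)) hKm'
  -- covariances
  have hne_o : ∀ {x : V} {k : ℕ} {y : V}, o ≠ x → y ∈ desc hG o k x → o ≠ y := by
    intro x k y hx hy h
    rw [mem_desc] at hy
    rw [← h, SimpleGraph.dist_self] at hy
    have : 0 < G.dist o x := by
      rw [Nat.pos_iff_ne_zero, Ne, hG.connected.dist_eq_zero_iff]
      exact hx
    omega
  have hcov : ∀ x, o ≠ x → ∀ k, ∀ y ∈ desc hG o k x, ∀ z ∈ desc hG o k x, y ≠ z →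
      ∫ ω, (f y ω - e) * (f z ω - e) ∂P = 0 := fun x hx k y hy z hz hne =>
    integral_centered_mul_zero (hfm y) (hfm z) (hfb y) (hfb z) (hmean y (hne_o hx hy))
      (hmean z (hne_o hx hz))
      (hT.indep_desc hG (continuous_xiF hθ0 hθ1) (xiF_neg θ) hx hy hz hne)
  have hcov' : ∀ x, o ≠ x → ∀ k, ∀ y ∈ desc hG o k x, ∀ z ∈ desc hG o k x, y ≠ z →
      ∫ ω, (f' y ω - e') * (f' z ω - e') ∂P = 0 := fun x hx k y hy z hz hne =>
    integral_centered_mul_zero (hfm' y) (hfm' z) (hfb' y) (hfb' z) (hmean' y (hne_o hx hy))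
      (hmean' z (hne_o hx hz))
      (hT'.indep_desc hG (continuous_xiF hθ0' hθ1') (xiF_neg θ') hx hy hz hne)
  have hdec := decor_sphere (P := P) hG hreg hd o (f := f) (f' := f')
    (fun v => memLp_two_of_abs_le (hfm v) (hfb v))
    (fun v => memLp_two_of_abs_le (hfm' v) (hfb' v)) (e := e) (e' := e') (C := 2 / 3) (A := A)
    (δ := δ) (by norm_num) hA (fun v => integral_centered_sq_le (hfb v) heb)
    (fun v => integral_centered_sq_le (hfb' v) heb') hδ
    (fun v => hA2 _ _) hcov hcov' n K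
  have hper : ∀ v ∈ sph hG.connected o n,
      ∫ ω, (etaP θ (fun i => M (geo G o v i) ω) n
        - etaP θ' (fun i => M' (geo G o v i) ω) n) ^ 2 ∂P
      ≤ ∫ ω, (∑ a ∈ range n, (f ((par G o)^[a] v) ω - f' ((par G o)^[a] v) ω)) ^ 2 ∂P
        + n * (4 * 4096 ^ (2 * j) * B) := by
    intro v hv
    rw [mem_sph] at hv
    have := integral_eta_sq_le (G := G) (P := P) hT.meas hT'.meas hT.bdd hT'.bdd hθ0 hθ hθ0' hθ'
      hmom hmom' o v
    rw [hv] at this
    exact this
  refine (Finset.sum_le_sum hper).trans ?_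
  rw [Finset.sum_add_distrib, Finset.sum_const, nsmul_eq_mul, mul_add]
  refine add_le_add ?_ le_rfl
  refine hdec.trans (le_of_eq ?_)
  norm_num

end Fields

end Vale.Agent.P161
end
end

section

section

/-! Continuity of the correlations of the free Ising measure in the parameter. -/

open MeasureTheory Filter Topology

namespace Vale.Agent.P161

variable {V : Type*} {G : SimpleGraph V}

open Classical in
theorem IsFreeIsing.integral_restrict {θ : ℝ} (h0 : 0 ≤ θ) (h1 : θ < 1)
    {μ : Measure (V → ℤˣ)} (hμ : IsFreeIsing G θ μ) {D : Finset V}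
    (hD : (G.induce (D : Set V)).Connected) (F : (D → ℤˣ) → ℝ) :
    ∫ σ, F (D.restrict σ) ∂μ = ∑ η : D → ℤˣ, wt G θ D (ext1 D η) * F η := by
  have := msc_units
  have := hμ.isProb
  have hint : Integrable F (μ.map D.restrict) := Integrable.of_finite
  have e1 : ∫ σ, F (D.restrict σ) ∂μ = ∫ η, F η ∂(μ.map D.restrict) := by
    rw [integral_map (Finset.measurable_restrict D).aemeasurable hint.1]
  rw [e1, integral_fintype hint]
  refine Finset.sum_congr rfl fun η _ => ?_
  rw [smul_eq_mul]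
  congr 1
  rw [measureReal_def, Measure.map_apply (Finset.measurable_restrict D) (measurableSet_singleton _)]
  have e2 : (D.restrict : (V → ℤˣ) → (D → ℤˣ)) ⁻¹' {η} =
      {σ : V → ℤˣ | ∀ v ∈ D, σ v = ext1 D η v} := by
    ext σ
    simp only [Set.mem_preimage, Set.mem_singleton_iff, Set.mem_ofPred_eq]
    constructor
    · intro h v hv
      rw [ext1_of_mem η hv, ← h]
      rfl
    · intro h
      funext v
      have h2 := h v v.2
      rw [ext1_of_mem η v.2] at h2
      exact h2
  rw [e2, hμ.marginal D hD, ENNReal.toReal_ofReal]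
  · rfl
  · exact wt_nonneg h0 h1 D _

/-- the correlations depend continuously on the parameter -/
theorem tendsto_integral_spS [G.LocallyFinite] (hG : G.IsTree) {θ : ℕ → ℝ} {θc : ℝ}
    (h0 : ∀ n, 0 ≤ θ n) (h1 : ∀ n, θ n < 1) (hc0 : 0 ≤ θc) (hc1 : θc < 1)
    (hθ : Tendsto θ atTop (𝓝 θc)) {ν : ℕ → Measure (V → ℤˣ)} {μ : Measure (V → ℤˣ)}
    (hν : ∀ n, IsFreeIsing G (θ n) (ν n)) (hμ : IsFreeIsing G θc μ) (S : Finset V) :
    Tendsto (fun n => ∫ σ, spS S σ ∂(ν n)) atTop (𝓝 (∫ σ, spS S σ ∂μ)) := by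
  classical
  have hne : Nonempty V := hG.connected.nonempty
  obtain ⟨D, hSD, hD⟩ := exists_connected_superset hG S
  let F : (D → ℤˣ) → ℝ := fun η => spS S (ext1 D η)
  have hF : ∀ σ : V → ℤˣ, spS S σ = F (D.restrict σ) := by
    intro σ
    have hdep : DependsOn (spS S : (V → ℤˣ) → ℝ) (D : Set V) := by
      intro x y hxy
      unfold spS sp
      exact Finset.prod_congr rfl fun v hv => by rw [hxy v (by exact_mod_cast hSD hv)]
    exact dependsOn_eq_ext1 hdep σ
  simp only [hF]
  simp only [fun n => (hν n).integral_restrict (h0 n) (h1 n) hD F,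
    hμ.integral_restrict hc0 hc1 hD F]
  refine tendsto_finsetSum _ fun η _ => Tendsto.mul_const _ ?_
  unfold wt
  refine Tendsto.const_mul _ (tendsto_finsetProd _ fun e _ => ?_)
  exact ((hθ.mul_const _).const_add 1).div_const 2

end Vale.Agent.P161
end
end

section

section

/-! Accumulation of information for variable strengths. -/

open MeasureTheory

namespace Vale.Agent.P161

variable {V : Type*} {G : SimpleGraph V} {μ : Measure (V → ℤˣ)}

theorem integrable_mean_sqE [IsProbabilityMeasure μ] {e : V × ℕ → ℝ} (he : StrOK e)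
    (l : List (V × ℕ)) (v : V) :
    Integrable (fun U => mean μ (runE μ e U l) v ^ 2) (noise V) := by
  apply integrable_of_bdd ((measurable_mean_runE' he l v).pow_const 2) (C := 1)
  intro U
  rw [abs_pow]
  exact pow_le_one₀ (abs_nonneg _) (abs_mean_le (good_runE he U l) v)

theorem integral_var_eqE [IsProbabilityMeasure μ] {e : V × ℕ → ℝ} (he : StrOK e)
    (l : List (V × ℕ)) (v : V) :
    ∫ U, (1 - mean μ (runE μ e U l) v ^ 2) ∂(noise V) =
      1 - ∫ U, mean μ (runE μ e U l) v ^ 2 ∂(noise V) := by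
  rw [integral_sub (integrable_const _) (integrable_mean_sqE he l v)]
  simp

theorem var_antitoneE [IsProbabilityMeasure μ] {e : V × ℕ → ℝ} (he : StrOK e)
    (l : List (V × ℕ)) {i : V × ℕ} (hi : i ∉ l) (v : V) :
    ∫ U, (1 - mean μ (runE μ e U (i :: l)) v ^ 2) ∂(noise V) ≤
      ∫ U, (1 - mean μ (runE μ e U l) v ^ 2) ∂(noise V) := by
  rw [integral_var_eqE he, integral_var_eqE he, sq_stepE he l hi v]
  have : 0 ≤ ∫ U, (cov μ (runE μ e U l) i.1 v * incr (e i) (mean μ (runE μ e U l) i.1) (U i)) ^ 2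
      ∂(noise V) := integral_nonneg fun _ => sq_nonneg _
  linarith only [this]

theorem var_stepE [IsProbabilityMeasure μ] {e : V × ℕ → ℝ} (he : StrOK e)
    (l : List (V × ℕ)) {i : V × ℕ} (hi : i ∉ l) :
    ∫ U, (1 - mean μ (runE μ e U (i :: l)) i.1 ^ 2) ∂(noise V) ≤
      ∫ U, (1 - mean μ (runE μ e U l) i.1 ^ 2) ∂(noise V) -
      e i ^ 2 / 9 * (∫ U, (1 - mean μ (runE μ e U l) i.1 ^ 2) ∂(noise V)) ^ 2 := by
  have m1 := measurable_mean_runE' (μ := μ) he l i.1
  have n1 := measurable_incr_runE' (μ := μ) he l i.1 i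
  have bm1 : ∀ U, |mean μ (runE μ e U l) i.1| ≤ 1 := fun U => abs_mean_le (good_runE he U l) i.1
  have bv : ∀ U, 0 ≤ 1 - mean μ (runE μ e U l) i.1 ^ 2 ∧ 1 - mean μ (runE μ e U l) i.1 ^ 2 ≤ 1 := by
    intro U
    have := bm1 U
    rw [← sq_le_one_iff_abs_le_one] at this
    constructor
    · linarith
    · linarith only [sq_nonneg (mean μ (runE μ e U l) i.1)]
  have bn1 : ∀ U : V × ℕ → unitInterval, |incr (e i) (mean μ (runE μ e U l) i.1) (U i)| ≤ 2 * e i :=
    fun U => abs_incr_le (he.nonneg i) (he.le i) (bm1 U) (U i).2.1 (U i).2.2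
  have bn1' : ∀ U : V × ℕ → unitInterval, ∀ u : unitInterval,
      incr (e i) (mean μ (runE μ e U l) i.1) u ^ 2 ≤ 4 * e i ^ 2 := fun U u => by
    have := abs_incr_le (he.nonneg i) (he.le i) (bm1 U) u.2.1 u.2.2
    have := pow_le_pow_left₀ (abs_nonneg _) this 2
    rw [sq_abs] at this
    linarith only [this]
  have hpos : 0 ≤ ∫ U, (1 - mean μ (runE μ e U l) i.1 ^ 2) ^ 2 *
      (incr (e i) (mean μ (runE μ e U l) i.1) (U i) ^ 2 - e i ^ 2 / 9) ∂(noise V) := by
    rw [integral_step l hi (fun U u => (1 - mean μ (runE μ e U l) i.1 ^ 2) ^ 2 *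
      (incr (e i) (mean μ (runE μ e U l) i.1) u ^ 2 - e i ^ 2 / 9))
      (((measurable_const.sub (m1.pow_const 2)).pow_const 2).mul
        ((n1.pow_const 2).sub_const _))
      (fun U U' h => by funext u; rw [runE_congr_noise h]) (C := 1 * (4 * e i ^ 2 + e i ^ 2 / 9))
      (fun U u => by
        rw [abs_mul]
        refine mul_le_mul ?_ ?_ (abs_nonneg _) (by norm_num)
        · rw [abs_pow, abs_of_nonneg (bv U).1]
          exact pow_le_one₀ (bv U).1 (bv U).2
        · refine (abs_sub _ _).trans ?_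
          rw [abs_of_nonneg (sq_nonneg _), abs_of_nonneg (by (clear * -; positivity))]
          linarith only [bn1' U u])]
    apply integral_nonneg
    intro U
    simp only [Pi.zero_apply]
    rw [integral_const_mul]
    apply mul_nonneg (sq_nonneg _)
    have hi2 : Integrable (fun u : unitInterval => incr (e i) (mean μ (runE μ e U l) i.1) (u : ℝ) ^ 2)
        volume := by
      apply integrable_of_bdd _ (C := 4 * e i ^ 2)
      · intro u
        rw [abs_of_nonneg (sq_nonneg _)]
        exact bn1' U u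
      · have ho : Measurable fun u : unitInterval =>
            obs (e i) (mean μ (runE μ e U l) i.1) (u : ℝ) :=
          measurable_obs_aux measurable_const measurable_subtype_coe
        unfold incr
        exact (ho.div (measurable_const.add (ho.mul measurable_const))).pow_const 2
    rw [integral_sub hi2 (integrable_const _)]
    have := le_integral_incr_sq (he.nonneg i) (he.le i) (bm1 U)
    simp only [integral_const, probReal_univ, smul_eq_mul, one_mul]
    linarith only [this]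
  have i1 : Integrable (fun U => (1 - mean μ (runE μ e U l) i.1 ^ 2) ^ 2 *
      incr (e i) (mean μ (runE μ e U l) i.1) (U i) ^ 2) (noise V) := by
    apply integrable_of_bdd (((measurable_const.sub (m1.pow_const 2)).pow_const 2).mul
        (n1.pow_const 2)) (C := 1 * (4 * e i ^ 2))
    intro U
    rw [Pi.mul_apply, abs_mul]
    refine mul_le_mul ?_ ?_ (abs_nonneg _) (by norm_num)
    · simp only [Pi.sub_apply]
      rw [abs_pow, abs_of_nonneg (bv U).1]
      exact pow_le_one₀ (bv U).1 (bv U).2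
    · rw [abs_of_nonneg (sq_nonneg _)]
      exact bn1' U (U i)
  have i2 : Integrable (fun U => (1 - mean μ (runE μ e U l) i.1 ^ 2) ^ 2) (noise V) := by
    apply integrable_of_bdd ((measurable_const.sub (m1.pow_const 2)).pow_const 2) (C := 1)
    intro U
    simp only [Pi.sub_apply]
    rw [abs_pow, abs_of_nonneg (bv U).1]
    exact pow_le_one₀ (bv U).1 (bv U).2
  have i3 : Integrable (fun U => (1 - mean μ (runE μ e U l) i.1 ^ 2)) (noise V) :=
    (integrable_const _).sub (integrable_mean_sqE he l i.1)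
  have hexp : ∫ U, (1 - mean μ (runE μ e U l) i.1 ^ 2) ^ 2 *
      (incr (e i) (mean μ (runE μ e U l) i.1) (U i) ^ 2 - e i ^ 2 / 9) ∂(noise V) =
      ∫ U, (1 - mean μ (runE μ e U l) i.1 ^ 2) ^ 2 *
      incr (e i) (mean μ (runE μ e U l) i.1) (U i) ^ 2 ∂(noise V) -
      (∫ U, (1 - mean μ (runE μ e U l) i.1 ^ 2) ^ 2 ∂(noise V)) * (e i ^ 2 / 9) := by
    rw [← integral_mul_const, ← integral_sub i1 (i2.mul_const _)]
    congr 1
    funext U
    ring
  have hjen : (∫ U, (1 - mean μ (runE μ e U l) i.1 ^ 2) ∂(noise V)) ^ 2 ≤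
      ∫ U, (1 - mean μ (runE μ e U l) i.1 ^ 2) ^ 2 ∂(noise V) := by
    set a := ∫ U, (1 - mean μ (runE μ e U l) i.1 ^ 2) ∂(noise V) with ha
    have h0 : 0 ≤ ∫ U, ((1 - mean μ (runE μ e U l) i.1 ^ 2) - a) ^ 2 ∂(noise V) :=
      integral_nonneg fun _ => sq_nonneg _
    have e' : ∀ U, ((1 - mean μ (runE μ e U l) i.1 ^ 2) - a) ^ 2 =
        (1 - mean μ (runE μ e U l) i.1 ^ 2) ^ 2 - 2 * a * (1 - mean μ (runE μ e U l) i.1 ^ 2)
          + a ^ 2 := fun U => by ring
    simp only [e'] at h0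
    have e2 := integral_add (i2.sub (i3.const_mul (2 * a))) (integrable_const (a ^ 2))
    simp only [Pi.sub_apply] at e2
    rw [e2, integral_sub i2 (i3.const_mul (2 * a)), integral_const_mul, ← ha] at h0
    simp only [integral_const, probReal_univ, smul_eq_mul, one_mul] at h0
    linarith only [h0]
  rw [integral_var_eqE he (i :: l), sq_stepE he l hi i.1]
  have hcov : ∀ U, (cov μ (runE μ e U l) i.1 i.1 * incr (e i) (mean μ (runE μ e U l) i.1) (U i)) ^ 2 =
      (1 - mean μ (runE μ e U l) i.1 ^ 2) ^ 2 * incr (e i) (mean μ (runE μ e U l) i.1) (U i) ^ 2 := by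
    intro U
    rw [cov_self (good_runE he U l), mul_pow]
  simp only [hcov]
  have hve := integral_var_eqE (μ := μ) he l i.1
  have hc : 0 ≤ e i ^ 2 / 9 := by (clear * -; positivity)
  rw [hexp] at hpos
  linarith only [mul_nonneg (sq_nonneg (1 * e i : ℝ)) (sub_nonneg.2 hjen), hve, hpos]

/-- Information accumulation with variable strengths. -/
theorem integral_var_leE [IsProbabilityMeasure μ] {e : V × ℕ → ℝ} (he : StrOK e) {c : ℝ}
    (hc0 : 0 ≤ c) (l : List (V × ℕ)) (hl : l.Nodup) (v : V) :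
    ((open Classical in l.filter (fun i => i.1 = v ∧ c ≤ e i)).length : ℝ) * (c ^ 2 / 9) *
        (∫ U, (1 - mean μ (runE μ e U l) v ^ 2) ∂(noise V)) ^ 2 ≤
      1 - ∫ U, (1 - mean μ (runE μ e U l) v ^ 2) ∂(noise V) := by
  classical
  have hA0 : ∀ l : List (V × ℕ), 0 ≤ ∫ U, (1 - mean μ (runE μ e U l) v ^ 2) ∂(noise V) := by
    intro l
    apply integral_nonneg
    intro U
    have := abs_mean_le (μ := μ) (good_runE (μ := μ) he U l) v
    rw [← sq_le_one_iff_abs_le_one] at this
    simp only [Pi.zero_apply]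
    linarith only [this]
  induction l with
  | nil =>
    rw [integral_var_eqE he]
    have : 0 ≤ ∫ U, mean μ (runE μ e U []) v ^ 2 ∂(noise V) := integral_nonneg fun _ => sq_nonneg _
    simp only [List.filter_nil, List.length_nil, Nat.cast_zero, zero_mul]
    linarith only [this]
  | cons i l ih =>
    rw [List.nodup_cons] at hl
    have h := ih hl.2
    have hanti := var_antitoneE (μ := μ) he l hl.1 v
    by_cases hiv : i.1 = v ∧ c ≤ e i
    · have hst := var_stepE (μ := μ) he l hl.1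
      rw [hiv.1] at hst
      rw [List.filter_cons_of_pos (by simp [hiv]), List.length_cons]
      push_cast
      have a0 := hA0 l
      have a1 := hA0 (i :: l)
      set A := ∫ U, (1 - mean μ (runE μ e U l) v ^ 2) ∂(noise V)
      set A' := ∫ U, (1 - mean μ (runE μ e U (i :: l)) v ^ 2) ∂(noise V)
      have hsq : A' ^ 2 ≤ A ^ 2 := pow_le_pow_left₀ a1 hanti 2
      set n : ℝ := ((l.filter (fun i => decide (i.1 = v ∧ c ≤ e i))).length : ℝ)
      have hn : 0 ≤ n := Nat.cast_nonneg _
      have hce : c ^ 2 ≤ e i ^ 2 := pow_le_pow_left₀ hc0 hiv.2 2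
      have hst2 : A' ≤ A - c ^ 2 / 9 * A ^ 2 := by
        refine hst.trans ?_
        have : c ^ 2 / 9 * A ^ 2 ≤ e i ^ 2 / 9 * A ^ 2 := by (clear * - hce; gcongr)
        linarith only [this]
      calc (n + 1) * (c ^ 2 / 9) * A' ^ 2 ≤ (n + 1) * (c ^ 2 / 9) * A ^ 2 := by (clear * - hsq; gcongr)
        _ = n * (c ^ 2 / 9) * A ^ 2 + c ^ 2 / 9 * A ^ 2 := by ring
        _ ≤ (1 - A) + c ^ 2 / 9 * A ^ 2 := by (clear * - h; gcongr)
        _ ≤ 1 - A' := by linarith only [hst2]
    · rw [List.filter_cons_of_neg (by simpa only [Bool.decide_and, Bool.and_eq_true, decide_eq_true_eq, not_and, not_le] using hiv)]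
      have a1 := hA0 (i :: l)
      set A := ∫ U, (1 - mean μ (runE μ e U l) v ^ 2) ∂(noise V)
      set A' := ∫ U, (1 - mean μ (runE μ e U (i :: l)) v ^ 2) ∂(noise V)
      have hsq : A' ^ 2 ≤ A ^ 2 := pow_le_pow_left₀ a1 hanti 2
      set n : ℝ := ((l.filter (fun i => decide (i.1 = v ∧ c ≤ e i))).length : ℝ)
      have hn : 0 ≤ n := Nat.cast_nonneg _
      calc n * (c ^ 2 / 9) * A' ^ 2 ≤ n * (c ^ 2 / 9) * A ^ 2 := by (clear * - hsq; gcongr)
        _ ≤ 1 - A := h
        _ ≤ 1 - A' := by linarith only [hanti]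

end Vale.Agent.P161
end
end
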