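import Vale.Agent.P161.MathlibUsed
import Vale.Agent.P161.Bdl.B2
import Vale.Agent.P161.Bdl.B1

set_option linter.all false

section

section

/-! Conversion of the estimate (I) (a family of bounds indexed by a threshold `t` and a depth `m`)
into the form needed by the closing argument. -/

open Real

namespace Vale.Agent.P161

/-- the weight at time `r` -/
noncomputable def wgt (r : ℝ) : ℝ := if Int.fract r < 1 / 2 then Int.fract r / 2 else 0

theorem wgt_nonneg (r : ℝ) : 0 ≤ wgt r := by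
  unfold wgt
  split_ifs
  · have := Int.fract_nonneg r
    linarith only [this]
  · exact le_rfl

theorem wgt_le (r : ℝ) : wgt r ≤ 1 / 2 := by
  unfold wgt
  split_ifs
  · have := Int.fract_lt_one r
    linarith only [this]
  · norm_num

theorem wgt_le_self {r : ℝ} (hr : 0 ≤ r) : wgt r ≤ r / 2 := by
  unfold wgt
  split_ifs
  · have h1 : (0 : ℝ) ≤ ⌊r⌋ := by exact_mod_cast Int.floor_nonneg.2 hr
    have := Int.floor_add_fract r
    linarith only [h1, this]
  · linarith only [hr]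

theorem ite_mul_eq_wgt (r S : ℝ) :
    (if Int.fract r < 1 / 2 then Int.fract r / 2 * S else 0) = wgt r * S := by
  unfold wgt
  split_ifs <;> simp

theorem measurable_wgt : Measurable wgt := by
  unfold wgt
  exact Measurable.ite (measurableSet_lt measurable_fract measurable_const)
    (measurable_fract.div_const 2) measurable_const

theorem convI_sq {t L B : ℝ} (ht : 0 ≤ t) (h : t ≤ L + B) :
    t ^ 2 ≤ 2 * L ^ 2 + 2 * B ^ 2 := by
  have h4 : t ^ 2 ≤ (L + B) ^ 2 := pow_le_pow_left₀ ht h 2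
  (clear * - h4; linarith only [sq_nonneg (L - B), h4])

theorem convI_small {A J L r t : ℝ} (hA1 : 1 ≤ A) (hJ : 1 ≤ J) (hr : 0 < r) (h1 : r ≤ 1)
    (ht0 : 0 ≤ t) (ht : t ≤ L + A / r) :
    wgt r * t ^ 2 ≤ A ^ 2 * J * (1 / r + L ^ 2) := by
  have hA2 : 1 ≤ A ^ 2 := one_le_pow₀ hA1
  have hA2J : 1 ≤ A ^ 2 * J := one_le_mul_of_one_le_of_one_le hA2 hJ
  have hr1 : 0 < 1 / r := by (clear * - hr; positivity)
  have h3 := convI_sq ht0 ht
  have h5 : r ≤ A ^ 2 * J := h1.trans hA2J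
  have h6 : A ^ 2 ≤ A ^ 2 * J := le_mul_of_one_le_right (sq_nonneg A) hJ
  calc wgt r * t ^ 2 ≤ (r / 2) * (2 * L ^ 2 + 2 * (A / r) ^ 2) :=
        mul_le_mul (wgt_le_self hr.le) h3 (sq_nonneg _) (by positivity)
    _ = r * L ^ 2 + A ^ 2 * (1 / r) := by field_simp
    _ ≤ A ^ 2 * J * L ^ 2 + A ^ 2 * J * (1 / r) :=
        add_le_add (mul_le_mul_of_nonneg_right h5 (sq_nonneg L))
          (mul_le_mul_of_nonneg_right h6 hr1.le)
    _ = _ := by ring

theorem convI_large {A J L r t : ℝ} (hA1 : 1 ≤ A) (hr : 0 < r) (hrJ : r ≤ J) (h1 : 1 ≤ r)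
    (ht0 : 0 ≤ t) (ht : t ≤ L + A) :
    wgt r * t ^ 2 ≤ A ^ 2 * J * (1 / r + L ^ 2) := by
  have hJ : 1 ≤ J := h1.trans hrJ
  have hA2 : 1 ≤ A ^ 2 := one_le_pow₀ hA1
  have hA2J : 1 ≤ A ^ 2 * J := one_le_mul_of_one_le_of_one_le hA2 hJ
  have h3 := convI_sq ht0 ht
  have h4 : 1 ≤ J * (1 / r) := by
    rw [mul_one_div, le_div_iff₀ hr]
    linarith only [hrJ]
  calc wgt r * t ^ 2 ≤ (1 / 2) * (2 * L ^ 2 + 2 * A ^ 2) :=
        mul_le_mul (wgt_le r) h3 (sq_nonneg _) (by norm_num)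
    _ = L ^ 2 + A ^ 2 * 1 := by ring
    _ ≤ A ^ 2 * J * L ^ 2 + A ^ 2 * (J * (1 / r)) :=
        add_le_add (le_mul_of_one_le_left (sq_nonneg L) hA2J)
          (mul_le_mul_of_nonneg_left h4 (sq_nonneg A))
    _ = _ := by ring

theorem convI_exp {x y E : ℝ} (hx0 : 0 ≤ x) (hyx : y ≤ x + x ^ 2)
    (hE : E = exp (log 2 * x)) : y * exp (-E) ≤ 32 * exp (-(1 / 2 * exp (1 / 2 * x))) := by
  have hlog' : 1 / 2 ≤ log 2 := by
    have := log_two_gt_d9
    (clear * - this; linarith)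
  have hE1 : 1 ≤ E := by
    rw [hE]
    exact one_le_exp (mul_nonneg (by linarith only [hlog']) hx0)
  have h1 : log 2 * x + 1 ≤ E := by
    rw [hE]
    exact add_one_le_exp _
  have h2 : 1 + x ≤ 2 * E := by
    have h9 : 1 / 2 * x ≤ log 2 * x := mul_le_mul_of_nonneg_right hlog' hx0
    linarith only [h1, h9]
  have hxE : y ≤ 4 * E ^ 2 := by
    have h5 : (1 + x) ^ 2 ≤ (2 * E) ^ 2 := pow_le_pow_left₀ (by linarith only [hx0]) h2 2
    have h7 : (1 + x) ^ 2 = 1 + 2 * x + x ^ 2 := by ring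
    have h8 : (2 * E) ^ 2 = 4 * E ^ 2 := by ring
    linarith only [hx0, hyx, h5]
  have h1' : (E / 2) ^ 2 / 2 ≤ exp (E / 2) := by
    have := quadratic_le_exp_of_nonneg (x := E / 2) (by linarith only [hE1])
    linarith
  have h2' : exp (-E) = exp (-(1 / 2 * E)) * exp (-(E / 2)) := by
    rw [← exp_add]; congr 1; ring
  have h3 : exp (E / 2) * exp (-(E / 2)) = 1 := by rw [← exp_add]; simp
  have h4 : 0 < exp (-(E / 2)) := exp_pos _
  have h5 : E ^ 2 * exp (-(E / 2)) ≤ 8 := by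
    calc E ^ 2 * exp (-(E / 2)) = 8 * ((E / 2) ^ 2 / 2 * exp (-(E / 2))) := by ring
      _ ≤ 8 * (exp (E / 2) * exp (-(E / 2))) := by (clear * - h1'; gcongr)
      _ = 8 := by rw [h3]; ring
  have htail : exp (-(1 / 2 * E)) ≤ exp (-(1 / 2 * exp (1 / 2 * x))) := by
    refine exp_le_exp.2 (neg_le_neg ?_)
    have h1 : exp (1 / 2 * x) ≤ E := by
      rw [hE]
      exact exp_le_exp.2 (mul_le_mul_of_nonneg_right hlog' hx0)
    linarith only [h1]
  calc y * exp (-E) ≤ 4 * E ^ 2 * exp (-E) :=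
        mul_le_mul_of_nonneg_right hxE (exp_pos _).le
    _ = 4 * ((E ^ 2 * exp (-(E / 2))) * exp (-(1 / 2 * E))) := by rw [h2']; ring
    _ ≤ 4 * (8 * exp (-(1 / 2 * E))) := by gcongr
    _ ≤ 4 * (8 * exp (-(1 / 2 * exp (1 / 2 * x)))) := by gcongr
    _ = _ := by ring

theorem convI {K c J : ℝ} {b : ℕ} (hb : 2 ≤ b) (hK : 0 ≤ K) (hc : 0 < c)
    (hJ : 1 ≤ J) {L r F S err : ℝ} (hL : 0 ≤ L) (hr : 0 < r) (hrJ : r ≤ J) (hF : 0 ≤ F)
    (herr : 0 ≤ err)
    (hS : ∀ (t : ℝ) (m : ℕ), 4 / (c * min r 1) ≤ t → 1 ≤ t → (m : ℝ) + 1 ≤ t →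
      S ≤ K * (t ^ 2 * F + t ^ 2 * exp (-((b : ℝ) ^ (m + 1) *
        ((c * min r 1) * (t - m - 1) / 2 - log 2))) + err)) :
    (if Int.fract r < 1 / 2 then Int.fract r / 2 * S else 0) ≤
      (32 * K * (3 + 4 / c) ^ 2 * J) * (1 / r + L ^ 2) * F
        + (32 * K * (3 + 4 / c) ^ 2 * J) * (1 / r) ^ 0 *
          exp (-(1 / 2 * exp (1 / 2 * (1 / r + L)))) + K * err := by
  set A : ℝ := 3 + 4 / c with hA
  have hA1 : 1 ≤ A := by
    have : 0 < 4 / c := by positivity
    linarith only [this]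
  set R0 : ℝ := c * min r 1 with hR0
  have hR0pos : 0 < R0 := by
    rw [hR0]
    exact mul_pos hc (lt_min hr one_pos)
  set m : ℕ := ⌈1 / r + L⌉₊ with hm
  have hx0 : 0 ≤ 1 / r + L := by positivity
  have hm1 : 1 / r + L ≤ m := Nat.le_ceil _
  have hm2 : (m : ℝ) < 1 / r + L + 1 := Nat.ceil_lt_add_one hx0
  set t : ℝ := m + 1 + 4 / R0 with ht
  have h4R : 0 < 4 / R0 := by positivity
  have hm0 : (0 : ℝ) ≤ m := Nat.cast_nonneg m
  have ht0 : 0 ≤ t := by rw [ht]; positivity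
  have hS' := hS t m (by rw [ht]; linarith only []) (by rw [ht]; linarith only [h4R]) (by rw [ht]; linarith only [h4R])
  have he1 : R0 * (t - m - 1) / 2 - log 2 = 2 - log 2 := by
    rw [ht]
    field_simp
    ring
  rw [he1] at hS'
  have hwt : wgt r * t ^ 2 ≤ A ^ 2 * J * (1 / r + L ^ 2) := by
    rcases le_total r 1 with h1 | h1
    · refine convI_small hA1 hJ hr h1 ht0 ?_
      have e1 : R0 = c * r := by rw [hR0, min_eq_left h1]
      rw [ht, e1, hA]
      have h3 : 1 ≤ 1 / r := by rw [le_div_iff₀ hr]; linarith only [h1]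
      have h4 : 4 / (c * r) = 4 / c * (1 / r) := by field_simp
      have h5 : (3 + 4 / c) / r = 3 * (1 / r) + 4 / c * (1 / r) := by ring
      rw [h4, h5]
      linarith only [h3, hm2]
    · refine convI_large hA1 hr hrJ h1 ht0 ?_
      have e1 : R0 = c := by rw [hR0, min_eq_right h1, mul_one]
      rw [ht, e1, hA]
      have h3 : 1 / r ≤ 1 := by rw [div_le_iff₀ hr]; linarith only [h1]
      linarith only [hm2, h3]
  clear_value t
  clear hS ht
  set x : ℝ := 1 / r + L with hx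
  set E : ℝ := exp (log 2 * x) with hE
  have hbE : E ≤ (b : ℝ) ^ (m + 1) := by
    have h1 : E ≤ (2 : ℝ) ^ (m + 1) := by
      have h2 : (2 : ℝ) ^ (m + 1) = exp (log 2 * ((m : ℝ) + 1)) := by
        rw [← rpow_natCast (2 : ℝ) (m + 1), rpow_def_of_pos (by norm_num)]
        push_cast
        ring_nf
      rw [h2]
      refine exp_le_exp.2 (mul_le_mul_of_nonneg_left (by linarith only [hm1]) ?_)
      have := log_two_gt_d9
      linarith only [this]
    refine h1.trans (pow_le_pow_left₀ (by norm_num) ?_ _)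
    exact_mod_cast hb
  have hexp : exp (-((b : ℝ) ^ (m + 1) * (2 - log 2))) ≤ exp (-E) := by
    refine exp_le_exp.2 (neg_le_neg (hbE.trans ?_))
    have h1 : 0 ≤ (b : ℝ) ^ (m + 1) := by positivity
    have hlog : 1 ≤ 2 - log 2 := by
      have := log_two_lt_d9
      linarith only [this]
    exact le_mul_of_one_le_right h1 hlog
  have hy : (1 / r + L ^ 2) * exp (-E) ≤ 32 * exp (-(1 / 2 * exp (1 / 2 * x))) := by
    refine convI_exp hx0 ?_ hE
    have hr1 : 0 < 1 / r := by positivity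
    have h3 : L ≤ x := by rw [hx]; linarith only [hr1]
    have h4 : 1 / r ≤ x := by rw [hx]; linarith only [hL]
    have h6 : L ^ 2 ≤ x ^ 2 := pow_le_pow_left₀ hL h3 2
    linarith only [h6, hL]
  have hw0 := wgt_nonneg r
  have hw1 : wgt r ≤ 1 := (wgt_le r).trans (by norm_num)
  rw [ite_mul_eq_wgt]
  have hB0 : 0 ≤ A ^ 2 * J * (1 / r + L ^ 2) := by (clear * - hc hJ hr; positivity)
  have h1 : wgt r * S ≤ wgt r * (K * (t ^ 2 * F + t ^ 2 * exp (-E) + err)) := by
    refine mul_le_mul_of_nonneg_left (hS'.trans ?_) hw0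
    refine mul_le_mul_of_nonneg_left ?_ hK
    have := mul_le_mul_of_nonneg_left hexp (sq_nonneg t)
    linarith only [this]
  have h2 : wgt r * (K * (t ^ 2 * F + t ^ 2 * exp (-E) + err)) =
      K * ((wgt r * t ^ 2) * F) + K * ((wgt r * t ^ 2) * exp (-E)) + K * (wgt r * err) := by ring
  have h3 : K * ((wgt r * t ^ 2) * F) ≤ (32 * K * A ^ 2 * J) * (1 / r + L ^ 2) * F := by
    have h7 : 0 ≤ K * (A ^ 2 * J * (1 / r + L ^ 2) * F) := by (clear * - hK hc hJ hr hF; positivity)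
    calc K * ((wgt r * t ^ 2) * F) ≤ K * (A ^ 2 * J * (1 / r + L ^ 2) * F) := by (clear * - hwt hF hK; gcongr)
      _ ≤ 32 * (K * (A ^ 2 * J * (1 / r + L ^ 2) * F)) := by linarith only [h7]
      _ = _ := by ring
  have h4 : K * ((wgt r * t ^ 2) * exp (-E)) ≤
      (32 * K * A ^ 2 * J) * (1 / r) ^ 0 * exp (-(1 / 2 * exp (1 / 2 * x))) := by
    calc K * ((wgt r * t ^ 2) * exp (-E)) ≤ K * ((A ^ 2 * J * (1 / r + L ^ 2)) * exp (-E)) := by
          (clear * - hwt hK; gcongr)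
      _ = K * (A ^ 2 * J) * ((1 / r + L ^ 2) * exp (-E)) := by ring
      _ ≤ K * (A ^ 2 * J) * (32 * exp (-(1 / 2 * exp (1 / 2 * x)))) := by (clear * - hy hK hc hJ; gcongr)
      _ = _ := by ring
  have h5 : K * (wgt r * err) ≤ K * err :=
    mul_le_mul_of_nonneg_left (mul_le_of_le_one_left herr hw1) hK
  rw [h2] at h1
  linarith only [h1, h3, h4, h5]

end Vale.Agent.P161
end
end

section

section

/-! Comparison of finite volumes, averaged over the clocks. -/

open MeasureTheory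

namespace Vale.Agent.P161

variable {V : Type*} {G : SimpleGraph V} {μ : Measure (V → ℤˣ)}

theorem phiE_fl_mono [IsProbabilityMeasure μ] {e : V × ℕ → ℝ} (he : StrOK e)
    (A A' : Set V) (l : List (V × ℕ)) {i : V × ℕ} (hi : i ∉ l) (v : V) :
    phiE μ μ e (fl A l) (fl A' l) v ≤ phiE μ μ e (fl A (i :: l)) (fl A' (i :: l)) v := by
  by_cases h1 : i.1 ∈ A <;> by_cases h2 : i.1 ∈ A'
  · rw [fl_cons_mem h1, fl_cons_mem h2]
    exact phiE_le_both he l _ _ (fun _ => mem_of_mem_fl) (fun _ => mem_of_mem_fl) hi v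
  · rw [fl_cons_mem h1, fl_cons_not_mem h2]
    exact phiE_le_left he l _ _ (fun _ => mem_of_mem_fl) (fun _ => mem_of_mem_fl) hi v
  · rw [fl_cons_not_mem h1, fl_cons_mem h2, phiE_comm, phiE_comm _ (fl A l)]
    exact phiE_le_left he l _ _ (fun _ => mem_of_mem_fl) (fun _ => mem_of_mem_fl) hi v
  · rw [fl_cons_not_mem h1, fl_cons_not_mem h2]

open Classical in
/-- the speed of the comparison when the site `x` is updated -/
noncomputable def gcmp (G : SimpleGraph V) (θ : ℝ) (μ : Measure (V → ℤˣ)) (A A' : Set V) (v x : V)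
    (T : V × ℕ → unitInterval) (l : List (V × ℕ)) : ℝ :=
  if x ∈ A ∧ x ∈ A' then
    1 / 4 * ∫ U, spd μ μ (str T) (fl A l) (fl A' l) x v U ∂(noise V)
  else if x ∈ A ∨ x ∈ A' then (θ ^ 2) ^ G.dist x v else 0

theorem gcmp_nonneg {θ : ℝ} (A A' : Set V) (v x : V)
    (T : V × ℕ → unitInterval) (l : List (V × ℕ)) : 0 ≤ gcmp G θ μ A A' v x T l := by
  classical
  unfold gcmp
  split_ifs
  · exact mul_nonneg (by norm_num) (integral_nonneg fun _ => spd_nonneg _ _ _ _ _ _)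
  · (clear * -; positivity)
  · exact le_rfl

theorem labF_gcmp [IsProbabilityMeasure μ] {θ : ℝ} (h0 : 0 ≤ θ) (h1 : θ < 1)
    (A A' : Set V) (v x : V) : LabF (gcmp G θ μ A A' v x) 640 := by
  classical
  unfold gcmp
  by_cases hx : x ∈ A ∧ x ∈ A'
  · simp only [if_pos hx]
    refine ((labF_spd (μ := μ) (μ' := μ) (fl A) (fl A') (fun l j => mem_of_mem_fl)
      (fun l j => mem_of_mem_fl) x v).const_mul (1 / 4)).mono ?_
    norm_num
  · simp only [if_neg hx]
    by_cases hx' : x ∈ A ∨ x ∈ A'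
    · simp only [if_pos hx']
      refine (LabF.const _).mono ?_
      have : (θ ^ 2) ^ G.dist x v ≤ 1 := pow_le_one₀ (sq_nonneg _) (by nlinarith)
      rw [abs_of_nonneg (by (clear * -; positivity))]
      linarith only [this]
    · simp only [if_neg hx']
      exact (LabF.const _).mono (by simp only [abs_zero, Nat.ofNat_nonneg])

theorem cmp_step [IsProbabilityMeasure μ] (hG : G.IsTree) {θ : ℝ} (h0 : 0 ≤ θ) (h1 : θ < 1)
    (hμ : EdgeSplit G θ μ) (A A' : Set V) (v : V) (T : V × ℕ → unitInterval) {i : V × ℕ}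
    {l : List (V × ℕ)} (hnd : (i :: l).Nodup) :
    phiE μ μ (str T) (fl A (i :: l)) (fl A' (i :: l)) v ≤
      phiE μ μ (str T) (fl A l) (fl A' l) v + (T i : ℝ) * gcmp G θ μ A A' v i.1 T l := by
  classical
  rw [List.nodup_cons] at hnd
  have he := strOK_str T
  have hT0 := (T i).2.1
  have hcov : ∀ (l' : List (V × ℕ)) (U : V × ℕ → unitInterval),
      cov μ (runE μ (str T) U l') i.1 v ^ 2 ≤ (θ ^ 2) ^ G.dist i.1 v := by
    intro l' U
    have k2 := abs_cov_le (μ := μ) hG h0 h1 hμ (good_runE (μ := μ) he U l') i.1 v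
    have h := pow_le_pow_left₀ (abs_nonneg _) k2 2
    rw [sq_abs] at h
    calc _ ≤ _ := h
      _ = _ := by ring
  by_cases ha : i.1 ∈ A <;> by_cases ha' : i.1 ∈ A'
  · rw [fl_cons_mem ha, fl_cons_mem ha']
    refine (phiE_both_le (μ := μ) (μ' := μ) he l (fl A l) (fl A' l)
      (fun _ => mem_of_mem_fl) (fun _ => mem_of_mem_fl) hnd.1 v).trans ?_
    unfold gcmp
    rw [if_pos ⟨ha, ha'⟩, str_sq]
    apply le_of_eq
    ring
  · rw [fl_cons_mem ha, fl_cons_not_mem ha']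
    refine (phiE_left_le (μ := μ) (μ' := μ) he l (fl A l) (fl A' l)
      (fun _ => mem_of_mem_fl) (fun _ => mem_of_mem_fl) hnd.1 v (hcov _)).trans ?_
    unfold gcmp
    rw [if_neg (by (clear * - hnd ha'; tauto)), if_pos (Or.inl ha), str_sq]
    apply le_of_eq
    ring
  · rw [fl_cons_not_mem ha, fl_cons_mem ha', phiE_comm, phiE_comm _ (fl A l)]
    refine (phiE_left_le (μ := μ) (μ' := μ) he l (fl A' l) (fl A l)
      (fun _ => mem_of_mem_fl) (fun _ => mem_of_mem_fl) hnd.1 v (hcov _)).trans ?_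
    unfold gcmp
    rw [if_neg (by (clear * - hnd ha; tauto)), if_pos (Or.inr ha'), str_sq]
    apply le_of_eq
    ring
  · rw [fl_cons_not_mem ha, fl_cons_not_mem ha']
    exact le_add_of_nonneg_right (mul_nonneg hT0 (gcmp_nonneg _ _ _ _ _ _))

/-- pointwise bound of the speed -/
theorem gcmp_le [IsProbabilityMeasure μ] (hG : G.IsTree) {θ : ℝ} (h0 : 0 ≤ θ) (h1 : θ < 1)
    (hμ : EdgeSplit G θ μ) (A A' : Set V) (v x : V) (T : V × ℕ → unitInterval)
    (l : List (V × ℕ)) {c : ℝ} (hc0 : 0 ≤ c)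
    (hc : ¬ (x ∈ A ↔ x ∈ A') → (θ ^ 2) ^ G.dist x v ≤ c) :
    gcmp G θ μ A A' v x T l ≤ 2 * eCE μ μ (str T) (fl A l) (fl A' l) x v +
      8 * (θ ^ 2) ^ G.dist x v * phiE μ μ (str T) (fl A l) (fl A' l) x + c := by
  classical
  have he := strOK_str T
  have hn1 := eCE_nonneg (μ := μ) (μ' := μ) (str T) (fl A l) (fl A' l) x v
  have hn2 := phiE_nonneg (μ := μ) (μ' := μ) (str T) (fl A l) (fl A' l) x
  have hn3 : 0 ≤ 8 * (θ ^ 2) ^ G.dist x v * phiE μ μ (str T) (fl A l) (fl A' l) x := by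
    (clear * - hn2; positivity)
  unfold gcmp
  by_cases hx : x ∈ A ∧ x ∈ A'
  · rw [if_pos hx]
    have key : ∫ U, spd μ μ (str T) (fl A l) (fl A' l) x v U ∂(noise V) ≤
        8 * eCE μ μ (str T) (fl A l) (fl A' l) x v +
        32 * (θ ^ 2) ^ G.dist x v * phiE μ μ (str T) (fl A l) (fl A' l) x := by
      unfold eCE phiE
      rw [← integral_const_mul, ← integral_const_mul, ← integral_add
        ((integrable_eCE he (fl A l) (fl A' l) x v).const_mul _)
        ((integrable_phiE he (fl A l) (fl A' l) x).const_mul _)]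
      refine integral_mono (integrable_spd he _ _ x v)
        (((integrable_eCE he (fl A l) (fl A' l) x v).const_mul _).add
        ((integrable_phiE he (fl A l) (fl A' l) x).const_mul _)) fun U => ?_
      simp only [spd]
      have k2 := abs_cov_le (μ := μ) hG h0 h1 hμ (good_runE (μ := μ) he U (fl A' l)) x v
      have h := pow_le_pow_left₀ (abs_nonneg _) k2 2
      rw [sq_abs] at h
      have h' : cov μ (runE μ (str T) U (fl A' l)) x v ^ 2 ≤ (θ ^ 2) ^ G.dist x v := by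
        calc _ ≤ _ := h
          _ = _ := by ring
      have h3 := mul_le_mul_of_nonneg_right h' (sq_nonneg
        (mean μ (runE μ (str T) U (fl A l)) x - mean μ (runE μ (str T) U (fl A' l)) x))
      linarith only [h3]
    linarith only [key, hc0]
  · rw [if_neg hx]
    by_cases hx' : x ∈ A ∨ x ∈ A'
    · rw [if_pos hx']
      have := hc (by (clear * - hc hx hx'; tauto))
      linarith only [hn1, hn3, this]
    · rw [if_neg hx']
      linarith only [hc0, hn1, hn3]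

variable [Encodable V]

/-- average of the squared difference of the means in the volumes `A` and `A'` -/
noncomputable def acmp (μ : Measure (V → ℤˣ)) (S : Finset (V × ℕ)) (A A' : Set V) (v : V)
    (t : ℝ) : ℝ :=
  avT S (fun T l => phiE μ μ (str T) (fl A l) (fl A' l) v) t

theorem labF_acmp [IsProbabilityMeasure μ] (A A' : Set V) (v : V) :
    LabF (fun T l => phiE μ μ (str T) (fl A l) (fl A' l) v) 4 :=
  labF_phiE (fl A) (fl A') (fun _ _ => mem_of_mem_fl) (fun _ _ => mem_of_mem_fl) v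

theorem acmp_nonneg (S : Finset (V × ℕ)) (A A' : Set V) (v : V) (t : ℝ) :
    0 ≤ acmp μ S A A' v t := avT_nonneg S (fun _ _ => phiE_nonneg _ _ _ _) t

theorem acmp_le_four [IsProbabilityMeasure μ] (S : Finset (V × ℕ)) (A A' : Set V) (v : V)
    (t : ℝ) : acmp μ S A A' v t ≤ 4 :=
  (le_abs_self _).trans (abs_avT_le S (labF_acmp A A' v) t)

theorem acmp_mono [IsProbabilityMeasure μ] (S : Finset (V × ℕ)) (A A' : Set V) (v : V)
    {t' t : ℝ} (ht : t' ≤ t) : acmp μ S A A' v t' ≤ acmp μ S A A' v t :=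
  avT_monotone S (labF_acmp A A' v) (fun T i l hnd =>
    phiE_fl_mono (strOK_str T) A A' l (List.nodup_cons.1 hnd).1 v) ht

theorem stt_zero (T : V × ℕ → unitInterval) (S : Finset (V × ℕ)) : stt T S 0 = [] := by
  rw [List.eq_nil_iff_forall_not_mem]
  intro i hi
  rw [mem_stt] at hi
  have h1 : 0 ≤ arr T i := by
    unfold arr
    have := (T i).2.1
    positivity
  (clear * - hi h1; linarith only [hi.2.2, h1])

theorem acmp_zero (S : Finset (V × ℕ)) (A A' : Set V) (v : V) : acmp μ S A A' v 0 = 0 := by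
  unfold acmp avT
  simp only [stt_zero]
  simp only [phiE, fl, List.filter_nil, sub_self, ne_eq, OfNat.ofNat_ne_zero, not_false_eq_true, zero_pow, integral_zero]

theorem acmp_round [IsProbabilityMeasure μ] [G.LocallyFinite] (hG : G.IsTree) {d : ℕ} (hd : 2 ≤ d)
    (hreg : G.IsRegularOfDegree d) {θ : ℝ} (h0 : 0 ≤ θ) (h1 : θ < 1)
    (hμ : EdgeSplit G θ μ) {L : ℝ} (hL0 : 0 ≤ L)
    (hL : ∀ x v : V, x ≠ v → ∃ u, G.Adj u v ∧ G.dist x v = G.dist x u + 1 ∧
      ∀ H H' : List (V × ℝ), Good H → Good H' →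
        |cov μ H x v - cov μ H' x v| ≤
          L * (|mean μ H u - mean μ H' u| + |mean μ H v - mean μ H' v|) * θ ^ G.dist x u
            + θ * |cov μ H x u - cov μ H' x u|)
    {lam q C1 : ℝ} (hlam : 1 < lam) (hq0 : 0 < q) (hqd : ((d : ℝ) - 1) * q < 1)
    (hq1 : lam ^ 3 * θ ^ 2 ≤ q) (hC1 : 4 ≤ C1)
    (hC1' : lam / (lam - 1) * 2 * L ^ 2 * (1 + lam) ≤ C1 * q * (1 - 1 / lam))
    {K : ℝ} (hK : K = (2 * C1 + 9) * (2 * (d : ℝ) / (1 - ((d : ℝ) - 1) * q)))
    (S : Finset (V × ℕ)) (o : V) (R : ℕ) (A A' : Set V)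
    (hAA : ∀ x, G.dist x o ≤ R → (x ∈ A ↔ x ∈ A')) {t' t : ℝ} (ht : t' ≤ t)
    (hKt : K * (t - t') ≤ 1 / 2) {M' : ℝ}
    (hM' : ∀ w, acmp μ S A A' w t' ≤ M' * lam ^ G.dist w o) (v : V) :
    acmp μ S A A' v t ≤ (2 * M' + 1 / lam ^ R) * lam ^ G.dist v o := by
  classical
  have hlam0 : 0 < lam := by linarith only [hlam]
  have hR0 : 0 < lam ^ R := by positivity
  set F : V → ℝ := fun w => acmp μ S A A' w t / lam ^ G.dist w o with hF
  have hFle : ∀ w, F w ≤ 4 := by
    intro w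
    simp only [hF]
    rw [div_le_iff₀ (by positivity)]
    have h7 := acmp_le_four (μ := μ) S A A' w t
    have h8 : (1 : ℝ) ≤ lam ^ G.dist w o := one_le_pow₀ hlam.le
    linarith only [h7, h8]
  have hbdd : BddAbove (Set.range F) := ⟨4, by rintro _ ⟨w, rfl⟩; exact hFle w⟩
  set M := ⨆ w, F w with hMdef
  have hMle : ∀ w, acmp μ S A A' w t ≤ M * lam ^ G.dist w o := by
    intro w
    have h := le_ciSup hbdd w
    rwa [← hMdef, hF, div_le_iff₀ (by positivity)] at h
  have hM0 : 0 ≤ M := by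
    have h9 : 0 ≤ F v := div_nonneg (acmp_nonneg _ _ _ _ _) (by positivity)
    exact h9.trans (le_ciSup hbdd v)
  have hMrle : ∀ r, r ≤ t → ∀ w, acmp μ S A A' w r ≤ M * lam ^ G.dist w o := fun r hr w =>
    (acmp_mono S A A' w hr).trans (hMle w)
  have hSq0 : 0 ≤ 2 * (d : ℝ) / (1 - ((d : ℝ) - 1) * q) :=
    div_nonneg (by positivity) (by linarith only [hqd])
  have hK0 : 0 ≤ K := by
    rw [hK]
    have : (0 : ℝ) ≤ 2 * C1 + 9 := by linarith only [hC1]
    (clear * - hC1 hd hqd; positivity)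
  have hθlam : θ ^ 2 * lam ≤ q := by
    calc θ ^ 2 * lam = lam * θ ^ 2 := by ring
      _ ≤ lam ^ 3 * θ ^ 2 := by
        gcongr
        calc lam = lam ^ 1 := by ring
          _ ≤ lam ^ 3 := pow_le_pow_right₀ hlam.le (by norm_num)
      _ ≤ q := hq1
  have key : ∀ x w : V, (θ ^ 2) ^ G.dist x w * lam ^ G.dist x o ≤
      q ^ G.dist x w * lam ^ G.dist w o := by
    intro x w
    calc (θ ^ 2) ^ G.dist x w * lam ^ G.dist x o
        ≤ (θ ^ 2) ^ G.dist x w * lam ^ (G.dist x w + G.dist w o) := by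
          gcongr
          · exact hlam.le
          · exact hG.connected.dist_triangle
      _ = (θ ^ 2 * lam) ^ G.dist x w * lam ^ G.dist w o := by
          rw [pow_add, mul_pow]; ring
      _ ≤ q ^ G.dist x w * lam ^ G.dist w o := by (clear * - hlam hθlam; gcongr)
  -- bound of the averaged covariances
  have hcovb : ∀ r, r ≤ t → ∀ x w : V,
      avT S (fun T l => eCE μ μ (str T) (fl A l) (fl A' l) x w) r ≤
        C1 * M * lam ^ G.dist w o * q ^ G.dist x w := by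
    intro r hr x w
    refine rec_bound (θ := θ) (L := L) hG hlam hq0 hq1 hC1 hC1'
      (ph := fun w => acmp μ S A A' w r)
      (E := fun x w => avT S (fun T l => eCE μ μ (str T) (fl A l) (fl A' l) x w) r)
      (fun w => acmp_nonneg _ _ _ _ _) (fun x => ?_) (fun x v hxv => ?_) o hM0 (hMrle r hr) _ x w
      rfl
    · unfold acmp
      rw [← avT_const_mul]
      exact avT_mono S (labF_eCE (fl A) (fl A') (fun _ _ => mem_of_mem_fl)
        (fun _ _ => mem_of_mem_fl) x x) ((labF_acmp A A' x).const_mul 4)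
        (fun T l => eCE_self_le (strOK_str T) _ _ x) r
    · obtain ⟨u, hu1, hu2, hu3⟩ := hL x v hxv
      refine ⟨u, hu1, hu2, ?_⟩
      unfold acmp
      rw [← avT_add S (labF_acmp A A' u) (labF_acmp A A' v), ← avT_const_mul, ← avT_const_mul,
        ← avT_add S (((labF_acmp A A' u).add (labF_acmp A A' v)).const_mul _)
        ((labF_eCE (μ := μ) (μ' := μ) (fl A) (fl A') (fun _ _ => mem_of_mem_fl)
        (fun _ _ => mem_of_mem_fl) x u).const_mul _)]
      exact avT_mono S (labF_eCE (fl A) (fl A') (fun _ _ => mem_of_mem_fl)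
        (fun _ _ => mem_of_mem_fl) x v)
        ((((labF_acmp A A' u).add (labF_acmp A A' v)).const_mul _).add
        ((labF_eCE (μ := μ) (μ' := μ) (fl A) (fl A') (fun _ _ => mem_of_mem_fl)
        (fun _ _ => mem_of_mem_fl) x u).const_mul _))
        (fun T l => eCE_rec h0 hL0 hlam (strOK_str T) _ _ hu3) r
  -- bound of the speed
  have hspeed : ∀ r, r ≤ t → ∀ w x : V, avT S (gcmp G θ μ A A' w x) r ≤
      (2 * C1 + 9) * (M + 1 / lam ^ R) * lam ^ G.dist w o * q ^ G.dist x w := by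
    intro r hr w x
    have hfar : ¬ (x ∈ A ↔ x ∈ A') → (θ ^ 2) ^ G.dist x w ≤
        1 / lam ^ R * lam ^ G.dist w o * q ^ G.dist x w := by
      intro hnot
      have hdist : R ≤ G.dist x o := by
        by_contra hlt
        exact hnot (hAA x (by (clear * - hlt; omega)))
      have h3 : lam ^ R ≤ lam ^ G.dist x o := pow_le_pow_right₀ hlam.le hdist
      have h4 : (θ ^ 2) ^ G.dist x w ≤ q ^ G.dist x w * lam ^ G.dist w o / lam ^ R := by
        rw [le_div_iff₀ hR0]
        calc _ ≤ (θ ^ 2) ^ G.dist x w * lam ^ G.dist x o := by (clear * - h3; gcongr)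
          _ ≤ _ := key x w
      calc _ ≤ _ := h4
        _ = _ := by ring
    have h5 : avT S (gcmp G θ μ A A' w x) r ≤
        avT S (fun T l => 2 * eCE μ μ (str T) (fl A l) (fl A' l) x w +
      8 * (θ ^ 2) ^ G.dist x w * phiE μ μ (str T) (fl A l) (fl A' l) x +
        1 / lam ^ R * lam ^ G.dist w o * q ^ G.dist x w) r :=
      avT_mono S (labF_gcmp h0 h1 A A' w x)
        ((((labF_eCE (fl A) (fl A') (fun _ _ => mem_of_mem_fl)
        (fun _ _ => mem_of_mem_fl) x w).const_mul 2).add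
        ((labF_acmp A A' x).const_mul (8 * (θ ^ 2) ^ G.dist x w))).add (LabF.const _))
        (fun T l => gcmp_le hG h0 h1 hμ A A' w x T l (by positivity) hfar) r
    rw [avT_add S ((((labF_eCE (fl A) (fl A') (fun _ _ => mem_of_mem_fl)
        (fun _ _ => mem_of_mem_fl) x w).const_mul 2).add
        ((labF_acmp A A' x).const_mul (8 * (θ ^ 2) ^ G.dist x w)))) (LabF.const _),
      avT_add S ((labF_eCE (fl A) (fl A') (fun _ _ => mem_of_mem_fl)
        (fun _ _ => mem_of_mem_fl) x w).const_mul 2)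
        ((labF_acmp A A' x).const_mul (8 * (θ ^ 2) ^ G.dist x w)), avT_const_mul, avT_const_mul,
      avT_const] at h5
    have h6 := hcovb r hr x w
    have h7 := hMrle r hr x
    have h8 := key x w
    have hW0 : 0 ≤ lam ^ G.dist w o * q ^ G.dist x w := by positivity
    have hRi : 0 ≤ 1 / lam ^ R := by positivity
    calc _ ≤ _ := h5
      _ ≤ 2 * (C1 * M * lam ^ G.dist w o * q ^ G.dist x w) +
          8 * (θ ^ 2) ^ G.dist x w * (M * lam ^ G.dist x o) +
          1 / lam ^ R * lam ^ G.dist w o * q ^ G.dist x w := by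
        gcongr
        exact h7
      _ = 2 * (C1 * M * lam ^ G.dist w o * q ^ G.dist x w) +
          8 * M * ((θ ^ 2) ^ G.dist x w * lam ^ G.dist x o) +
          1 / lam ^ R * lam ^ G.dist w o * q ^ G.dist x w := by ring
      _ ≤ 2 * (C1 * M * lam ^ G.dist w o * q ^ G.dist x w) +
          8 * M * (q ^ G.dist x w * lam ^ G.dist w o) +
          1 / lam ^ R * lam ^ G.dist w o * q ^ G.dist x w := by (clear * - h8 hM0; gcongr)
      _ = ((2 * C1 + 8) * M + 1 * (1 / lam ^ R)) * (lam ^ G.dist w o * q ^ G.dist x w) := by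
        ring
      _ ≤ ((2 * C1 + 9) * M + (2 * C1 + 9) * (1 / lam ^ R)) *
          (lam ^ G.dist w o * q ^ G.dist x w) := by
        gcongr
        · norm_num
        · linarith only [hC1]
      _ = _ := by ring
  have hMrec : M ≤ M' + (M + 1 / lam ^ R) / 2 := by
    have : Nonempty V := ⟨v⟩
    apply ciSup_le
    intro w
    have hlt := label_time S (Φ := fun T l => phiE μ μ (str T) (fl A l) (fl A' l) w)
      (g := fun x => gcmp G θ μ A A' w x) (w := fun r => r) (C := 640) (Cw := 1)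
      ((labF_acmp A A' w).mono (by norm_num)) (fun x => labF_gcmp h0 h1 A A' w x)
      (fun x T l => gcmp_nonneg _ _ _ _ _ _) measurable_id (fun r hr _ => hr)
      (fun r _ hr => by linarith only [hr])
      (fun T i l _ hnd _ => cmp_step hG h0 h1 hμ A A' w T hnd)
      (S.image Prod.fst) (fun i hi => Finset.mem_image_of_mem _ hi) ht
    have hint : ∀ r ∈ Set.uIoc t' t, ‖(if Int.fract r < 1 / 2 then
        2 * (Int.fract r * ∑ x ∈ S.image Prod.fst, avT S (gcmp G θ μ A A' w x) r) else 0)‖ ≤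
        K * (M + 1 / lam ^ R) * lam ^ G.dist w o := by
      intro r hr
      rw [Set.uIoc_of_le ht] at hr
      have hK1 : 0 ≤ K * (M + 1 / lam ^ R) * lam ^ G.dist w o := by (clear * - hK0 hM0 hlam; positivity)
      by_cases hf : Int.fract r < 1 / 2
      · rw [if_pos hf]
        have hf0 := Int.fract_nonneg r
        have hs0 : 0 ≤ ∑ x ∈ S.image Prod.fst, avT S (gcmp G θ μ A A' w x) r :=
          Finset.sum_nonneg fun x _ => avT_nonneg S (fun T l => gcmp_nonneg _ _ _ _ _ _) r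
        rw [Real.norm_eq_abs, abs_of_nonneg (by (clear * - hs0; positivity))]
        have hs1 : ∑ x ∈ S.image Prod.fst, avT S (gcmp G θ μ A A' w x) r ≤
            ∑ x ∈ S.image Prod.fst, (2 * C1 + 9) * (M + 1 / lam ^ R) * lam ^ G.dist w o *
              q ^ G.dist x w := Finset.sum_le_sum fun x _ => hspeed r hr.2 w x
        rw [← Finset.mul_sum] at hs1
        have hs2 : ∑ x ∈ S.image Prod.fst, q ^ G.dist x w ≤
            2 * (d : ℝ) / (1 - ((d : ℝ) - 1) * q) := by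
          have := sum_pow_dist_le hG hd hreg hq0.le hqd w (S.image Prod.fst)
          simpa only [SimpleGraph.dist_comm] using this
        have hs3 : ∑ x ∈ S.image Prod.fst, avT S (gcmp G θ μ A A' w x) r ≤
            (2 * C1 + 9) * (M + 1 / lam ^ R) * lam ^ G.dist w o *
              (2 * (d : ℝ) / (1 - ((d : ℝ) - 1) * q)) := by
          refine hs1.trans ?_
          (clear * - hs2 hC1 hM0 hlam; gcongr)
        calc 2 * (Int.fract r * ∑ x ∈ S.image Prod.fst, avT S (gcmp G θ μ A A' w x) r)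
            = (2 * Int.fract r) * ∑ x ∈ S.image Prod.fst, avT S (gcmp G θ μ A A' w x) r := by
              ring
          _ ≤ 1 * ∑ x ∈ S.image Prod.fst, avT S (gcmp G θ μ A A' w x) r := by
            gcongr
            linarith only [hf]
          _ ≤ 1 * ((2 * C1 + 9) * (M + 1 / lam ^ R) * lam ^ G.dist w o *
              (2 * (d : ℝ) / (1 - ((d : ℝ) - 1) * q))) := by (clear * - hs3; gcongr)
          _ = _ := by rw [hK]; ring
      · rw [if_neg hf]
        simpa only [norm_zero, one_div, ge_iff_le] using hK1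
    have h13 := intervalIntegral.norm_integral_le_of_norm_le_const hint
    rw [Real.norm_eq_abs, abs_of_nonneg (sub_nonneg.2 ht)] at h13
    have h14 := (le_abs_self _).trans h13
    have hW0 : 0 < lam ^ G.dist w o := by positivity
    rw [hF, div_le_iff₀ hW0]
    have h15 := hM' w
    unfold acmp at h15 ⊢
    have hMR : 0 ≤ M + 1 / lam ^ R := by (clear * - hM0 hlam; positivity)
    calc _ ≤ _ := hlt
      _ ≤ M' * lam ^ G.dist w o + K * (M + 1 / lam ^ R) * lam ^ G.dist w o * (t - t') :=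
        add_le_add h15 h14
      _ = M' * lam ^ G.dist w o + (K * (t - t')) * ((M + 1 / lam ^ R) * lam ^ G.dist w o) := by
        ring
      _ ≤ M' * lam ^ G.dist w o + (1 / 2) * ((M + 1 / lam ^ R) * lam ^ G.dist w o) := by
        (clear * - hKt hM0 hlam; gcongr)
      _ = _ := by ring
  have hMfin : M ≤ 2 * M' + 1 / lam ^ R := by linarith only [hMrec]
  calc _ ≤ M * lam ^ G.dist v o := hMle v
    _ ≤ (2 * M' + 1 / lam ^ R) * lam ^ G.dist v o := by (clear * - hMfin hlam; gcongr)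

/-- THE FINITE VOLUME COMPARISON, averaged over the clocks -/
theorem acmp_estimate [G.LocallyFinite] (hG : G.IsTree) {d : ℕ} (hd : 2 ≤ d)
    (hreg : G.IsRegularOfDegree d) {θ : ℝ} (h0 : 0 ≤ θ) (h1 : ((d : ℝ) - 1) * θ ^ 2 < 1)
    (h1' : θ < 1) :
    ∃ lam : ℝ, 1 < lam ∧ ∃ C : ℝ → ℝ, (∀ t, 0 ≤ C t) ∧
      ∀ (μ : Measure (V → ℤˣ)) [IsProbabilityMeasure μ], EdgeSplit G θ μ →
      ∀ (S : Finset (V × ℕ)) (A A' : Set V) (o : V) (R : ℕ),
        (∀ x, G.dist x o ≤ R → (x ∈ A ↔ x ∈ A')) →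
      ∀ (v : V) (t : ℝ), acmp μ S A A' v t ≤ C t * lam ^ G.dist v o / lam ^ R := by
  obtain ⟨L, hL0, hL⟩ := cov_lip hG h0 h1'
  obtain ⟨lam, q, C1, S0, ε, hlam, hq0, hqd, hlam3, hC1, hC1', -, -, -, -, -, -⟩ :=
    exists_constants hd h1 hL0
  obtain ⟨K, hK⟩ : ∃ K, K = (2 * C1 + 9) * (2 * (d : ℝ) / (1 - ((d : ℝ) - 1) * q)) := ⟨_, rfl⟩
  have hK0 : 0 < K := by
    rw [hK]
    have h2 : (0 : ℝ) < 2 * C1 + 9 := by linarith only [hC1]
    have h3 : 0 < 1 - ((d : ℝ) - 1) * q := by linarith only [hqd]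
    have h4 : (0 : ℝ) < d := by
      have : (2 : ℝ) ≤ d := by exact_mod_cast hd
      linarith only [this]
    positivity
  have hlam0 : 0 < lam := by linarith only [hlam]
  refine ⟨lam, hlam, fun t => 2 ^ (⌈t * (2 * K)⌉₊), fun t => by positivity, ?_⟩
  intro μ hμp hμ S A A' o R hAA
  have hL' := hL μ hμ
  have hR0 : 0 < lam ^ R := by (clear * - hlam; positivity)
  have key : ∀ n : ℕ, ∀ v : V, acmp μ S A A' v (n * (1 / (2 * K))) ≤
      ((2 ^ n - 1) / lam ^ R) * lam ^ G.dist v o := by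
    intro n
    induction n with
    | zero =>
      intro v
      rw [Nat.cast_zero, zero_mul, acmp_zero]
      simp
    | succ n ih =>
      intro v
      have h2 := acmp_round (μ := μ) hG hd hreg h0 h1' hμ hL0 hL' hlam hq0 hqd hlam3 hC1 hC1' hK
        S o R A A' hAA (t' := n * (1 / (2 * K))) (t := (n + 1 : ℕ) * (1 / (2 * K)))
        (by gcongr; simp) (by
          push_cast
          have : K * ((n + 1) * (1 / (2 * K)) - n * (1 / (2 * K))) = 1 / 2 := by
            field_simp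
            ring
          rw [this]) ih v
      refine h2.trans (le_of_eq ?_)
      rw [pow_succ]
      ring
  intro v t
  have ht : t ≤ (⌈t * (2 * K)⌉₊ : ℝ) * (1 / (2 * K)) := by
    have h2 := Nat.le_ceil (t * (2 * K))
    rw [mul_one_div, le_div_iff₀ (by positivity)]
    exact h2
  refine (acmp_mono S A A' v ht).trans ((key _ v).trans ?_)
  have hW : 0 ≤ lam ^ G.dist v o := by positivity
  calc (2 ^ ⌈t * (2 * K)⌉₊ - 1) / lam ^ R * lam ^ G.dist v o
      ≤ (2 ^ ⌈t * (2 * K)⌉₊) / lam ^ R * lam ^ G.dist v o := by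
        gcongr
        linarith only []
    _ = _ := by ring

end Vale.Agent.P161
end
end

section

section

/-! The infinite volume limit of the posterior means, for `(d-1) θ ^ 2 < 1`. -/

open MeasureTheory Filter Topology

namespace Vale.Agent.P161

/-- a bounded sequence with geometrically small squared increments converges almost surely to
its upper limit -/
theorem ae_tendsto_limsup_of_sq_le {Ω : Type*} [MeasurableSpace Ω] {P : Measure Ω}
    [IsProbabilityMeasure P] {X : ℕ → Ω → ℝ} (hm : ∀ n, Measurable (X n))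
    (hb : ∀ n ω, |X n ω| ≤ 1) {C a : ℝ} (ha0 : 0 < a) (ha1 : a < 1)
    (hC : ∀ n, ∫ ω, (X (n + 1) ω - X n ω) ^ 2 ∂P ≤ C * (a ^ 2) ^ n) :
    ∀ᵐ ω ∂P, Tendsto (fun n => X n ω) atTop (𝓝 (limsup (fun n => X n ω) atTop)) := by
  have i2 : ∀ n, Integrable (fun ω => (X (n + 1) ω - X n ω) ^ 2) P := fun n => by
    refine Integrable.of_bound (((hm _).sub (hm n)).pow_const 2).aestronglyMeasurable 4
      (Eventually.of_forall fun ω => ?_)
    rw [Real.norm_eq_abs, abs_of_nonneg (sq_nonneg _)]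
    exact sq_sub_le_four (hb _ _) (hb _ _)
  have i1 : ∀ n, Integrable (fun ω => |X (n + 1) ω - X n ω|) P := fun n => by
    refine Integrable.of_bound ((hm _).sub (hm n)).abs.aestronglyMeasurable 2
      (Eventually.of_forall fun ω => ?_)
    rw [Real.norm_eq_abs, abs_abs]
    refine (abs_sub _ _).trans ?_
    linarith only [hb (n + 1) ω, hb n ω]
  have h1 : ∀ n, ∫ ω, |X (n + 1) ω - X n ω| ∂P ≤ (1 + C) / 2 * a ^ n := by
    intro n
    have han : 0 < a ^ n := by positivity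
    have h2 : ∫ ω, |X (n + 1) ω - X n ω| ∂P ≤
        ∫ ω, (a ^ n + (X (n + 1) ω - X n ω) ^ 2 / a ^ n) / 2 ∂P :=
      integral_mono (i1 n) (((integrable_const _).add ((i2 n).div_const _)).div_const _)
        fun ω => abs_le_quad han
    rw [integral_div, integral_add (integrable_const _) ((i2 n).div_const _), integral_div] at h2
    simp only [integral_const, probReal_univ, smul_eq_mul, one_mul] at h2
    refine h2.trans ?_
    have h3 : (∫ ω, (X (n + 1) ω - X n ω) ^ 2 ∂P) / a ^ n ≤ C * a ^ n := by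
      rw [div_le_iff₀ han]
      refine (hC n).trans (le_of_eq ?_)
      rw [← pow_mul, mul_comm 2 n, pow_mul]
      ring
    linarith only [h3]
  have hs : ∑' n, ENNReal.ofReal ((1 + C) / 2 * a ^ n) ≠ ⊤ := by
    have : Summable fun n : ℕ => (1 + C) / 2 * a ^ n :=
      (summable_geometric_of_lt_one ha0.le ha1).mul_left _
    exact this.tsum_ofReal_ne_top
  have hmm : ∀ n, Measurable fun ω => ENNReal.ofReal |X (n + 1) ω - X n ω| :=
    fun n => ((hm _).sub (hm n)).abs.ennreal_ofReal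
  have h4 : ∫⁻ ω, ∑' n, ENNReal.ofReal |X (n + 1) ω - X n ω| ∂P ≠ ⊤ := by
    rw [lintegral_tsum fun n => (hmm n).aemeasurable]
    refine ne_top_of_le_ne_top hs (ENNReal.tsum_le_tsum fun n => ?_)
    rw [← ofReal_integral_eq_lintegral_ofReal (i1 n) (Eventually.of_forall fun ω => abs_nonneg _)]
    exact ENNReal.ofReal_le_ofReal (h1 n)
  have hm' : Measurable fun ω => ∑' n, ENNReal.ofReal |X (n + 1) ω - X n ω| :=
    Measurable.tsum hmm
  filter_upwards [ae_lt_top hm' h4] with ω hω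
  have h5 : Summable fun n => |X (n + 1) ω - X n ω| := by
    have := ENNReal.summable_toReal hω.ne
    refine this.congr fun n => ?_
    rw [ENNReal.toReal_ofReal (abs_nonneg _)]
  have h6 : CauchySeq fun n => X n ω := by
    refine cauchySeq_of_summable_dist (h5.congr fun n => ?_)
    rw [Real.dist_eq, abs_sub_comm]
  obtain ⟨l, hl⟩ := cauchySeq_tendsto_of_complete h6
  rw [hl.limsup_eq]
  exact hl

theorem limsup_mem {X : ℕ → ℝ} (hb : ∀ n, |X n| ≤ 1) : |limsup X atTop| ≤ 1 := by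
  have h1 : ∀ n, X n ≤ 1 := fun n => (abs_le.1 (hb n)).2
  have h2 : ∀ n, -1 ≤ X n := fun n => (abs_le.1 (hb n)).1
  rw [abs_le]
  constructor
  · refine le_limsup_of_frequently_le (Frequently.of_forall h2) ?_
    exact ⟨1, eventually_map.2 (Eventually.of_forall h1)⟩
  · refine limsup_le_of_le ?_ (Eventually.of_forall h1)
    exact IsBoundedUnder.isCoboundedUnder_le ⟨-1, eventually_map.2 (Eventually.of_forall h2)⟩

section Basic

variable {V : Type*} {G : SimpleGraph V} {μ : Measure (V → ℤˣ)} [Encodable V]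

/-- the items of the volume `B` which may be processed before time `t` -/
noncomputable def vol (B : Finset V) (t : ℝ) : Finset (V × ℕ) := B ×ˢ Finset.range ⌈t⌉₊

theorem stt_eq_vol {T : V × ℕ → unitInterval} {B : Finset V} {t : ℝ} {S : Finset (V × ℕ)}
    (h1 : ∀ i ∈ S, i.1 ∈ B) (h2 : vol B t ⊆ S) : stt T S t = stt T (vol B t) t := by
  apply stt_congr
  · intro i
    constructor
    · rintro ⟨h3, h4, h5⟩
      refine ⟨?_, h4, h5⟩
      unfold vol
      rw [Finset.mem_product, Finset.mem_range]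
      refine ⟨h1 i h3, ?_⟩
      rw [Nat.lt_ceil]
      unfold arr at h5
      have := (T i).2.1
      linarith only [h5, this]
    · rintro ⟨h3, h4, h5⟩
      exact ⟨h2 h3, h4, h5⟩
  · intro i _
    rfl

/-- posterior mean at time `t` in the finite volume `B` -/
noncomputable def fvM (μ : Measure (V → ℤˣ)) (B : Finset V) (t : ℝ) (v : V) (ω : Om V) : ℝ :=
  mean μ (runE μ (str ω.1) ω.2 (stt ω.1 (vol B t) t)) v

/-- posterior covariance at time `t` in the finite volume `B` -/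
noncomputable def fvC (μ : Measure (V → ℤˣ)) (B : Finset V) (t : ℝ) (x v : V) (ω : Om V) : ℝ :=
  cov μ (runE μ (str ω.1) ω.2 (stt ω.1 (vol B t) t)) x v

theorem measurable_fvM [IsProbabilityMeasure μ] (B : Finset V) (t : ℝ) (v : V) :
    Measurable (fvM μ B t v) := by
  unfold fvM
  exact measurable_stt_comp measurable_fst measurable_const (vol B t)
    (F := fun l ω => mean μ (runE μ (str ω.1) ω.2 l) v)
    fun l => measurable_mean_runE (measurable_str measurable_fst) (fun p => strOK_str p.1)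
      measurable_snd l v

theorem measurable_fvC [IsProbabilityMeasure μ] (B : Finset V) (t : ℝ) (x v : V) :
    Measurable (fvC μ B t x v) := by
  unfold fvC
  exact measurable_stt_comp measurable_fst measurable_const (vol B t)
    (F := fun l ω => cov μ (runE μ (str ω.1) ω.2 l) x v)
    fun l => measurable_cov_runE (measurable_str measurable_fst) (fun p => strOK_str p.1)
      measurable_snd l x v

theorem good_fv [IsProbabilityMeasure μ] (B : Finset V) (t : ℝ) (ω : Om V) :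
    Good (runE μ (str ω.1) ω.2 (stt ω.1 (vol B t) t)) := good_runE (strOK_str _) _ _

theorem abs_fvM_le [IsProbabilityMeasure μ] (B : Finset V) (t : ℝ) (v : V) (ω : Om V) :
    |fvM μ B t v ω| ≤ 1 := abs_mean_le (good_fv B t ω) v

/-- integrals of functions of clocks and noise -/
theorem integral_PP {F : Om V → ℝ} (hF : Measurable F) {C : ℝ} (hC : ∀ ω, |F ω| ≤ C) :
    ∫ ω, F ω ∂(PP V) = ∫ T, (∫ U, F (T, U) ∂(noise V)) ∂(noise V) :=
  integral_prod _ (Integrable.of_bound hF.aestronglyMeasurable C (Eventually.of_forall hC))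

theorem fl_stt {T : V × ℕ → unitInterval} {S : Finset (V × ℕ)} {B : Finset V} {t : ℝ}
    (h2 : vol B t ⊆ S) : fl (B : Set V) (stt T S t) = stt T (vol B t) t := by
  classical
  have h1 : stt T (vol B t) t = stt T (S.filter fun i => i.1 ∈ B) t := by
    rw [← stt_eq_vol (T := T) (B := B) (t := t) (S := S.filter fun i => i.1 ∈ B)]
    · intro i hi
      exact (Finset.mem_filter.1 hi).2
    · intro i hi
      rw [Finset.mem_filter]
      refine ⟨h2 hi, ?_⟩
      unfold vol at hi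
      exact (Finset.mem_product.1 hi).1
  rw [h1]
  unfold fl stt
  apply filter_ksrt
  intro x
  rw [mem_alive, mem_alive, Finset.mem_filter]
  simp only [decide_eq_true_eq, Finset.mem_coe]
  (clear * -; tauto)

/-- the comparison of two volumes -/
theorem integral_fvM_sub_sq [IsProbabilityMeasure μ] (B B' : Finset V) (t : ℝ) (v : V) :
    ∫ ω, (fvM μ B t v ω - fvM μ B' t v ω) ^ 2 ∂(PP V) =
      acmp μ (vol (open Classical in B ∪ B') t) B B' v t := by
  classical
  rw [integral_PP (F := fun ω => (fvM μ B t v ω - fvM μ B' t v ω) ^ 2)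
    (((measurable_fvM B t v).sub (measurable_fvM B' t v)).pow_const 2) (C := 4)
    (fun ω => by
      rw [abs_of_nonneg (sq_nonneg _)]
      exact sq_sub_le_four (abs_fvM_le B t v ω) (abs_fvM_le B' t v ω))]
  unfold acmp avT phiE
  have h1 : vol B t ⊆ vol (B ∪ B') t := Finset.product_subset_product_left Finset.subset_union_left
  have h2 : vol B' t ⊆ vol (B ∪ B') t :=
    Finset.product_subset_product_left Finset.subset_union_right
  congr 1
  funext T
  simp only
  rw [fl_stt h1, fl_stt h2]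
  rfl

end Basic

section Balls

variable {V : Type*} {G : SimpleGraph V} [G.LocallyFinite]

/-- balls -/
noncomputable def bal (hG : G.IsTree) (v : V) (n : ℕ) : Finset V := (ball_finite hG v n).toFinset

theorem mem_bal {hG : G.IsTree} {v x : V} {n : ℕ} : x ∈ bal hG v n ↔ G.dist x v ≤ n := by
  unfold bal
  simp only [Set.Finite.mem_toFinset, Set.mem_ofPred_eq]

theorem bal_mono {hG : G.IsTree} {v : V} {n m : ℕ} (h : n ≤ m) : bal hG v n ⊆ bal hG v m := by
  intro x hx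
  rw [mem_bal] at hx ⊢
  omega

theorem bal_subset_of_dist {hG : G.IsTree} {v o : V} {n m : ℕ} (h : n + G.dist v o ≤ m) :
    bal hG v n ⊆ bal hG o m := by
  intro x hx
  rw [mem_bal] at hx ⊢
  have := hG.connected.dist_triangle (u := x) (v := v) (w := o)
  omega

end Balls

section Limit

variable {V : Type*} {G : SimpleGraph V} {μ : Measure (V → ℤˣ)} [Encodable V] [G.LocallyFinite]

/-- the infinite volume posterior mean -/
noncomputable def Minf (hG : G.IsTree) (μ : Measure (V → ℤˣ)) (t : ℝ) (v : V) (ω : Om V) : ℝ :=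
  limsup (fun n => fvM μ (bal hG v n) t v ω) atTop

theorem abs_Minf_le {hG : G.IsTree} [IsProbabilityMeasure μ] (t : ℝ) (v : V) (ω : Om V) :
    |Minf hG μ t v ω| ≤ 1 := limsup_mem fun n => abs_fvM_le _ t v ω

theorem measurable_Minf {hG : G.IsTree} [IsProbabilityMeasure μ] (t : ℝ) (v : V) :
    Measurable (Minf hG μ t v) := by
  unfold Minf
  exact Measurable.limsup fun n => measurable_fvM _ t v

/-- the finite volume estimate holds with the rate `lam` and the constants `C` -/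
structure Rate (G : SimpleGraph V) (μ : Measure (V → ℤˣ)) (lam : ℝ) (C : ℝ → ℝ) : Prop where
  one_lt : 1 < lam
  nonneg : ∀ t, 0 ≤ C t
  est : ∀ (S : Finset (V × ℕ)) (A A' : Set V) (o : V) (R : ℕ),
    (∀ x, G.dist x o ≤ R → (x ∈ A ↔ x ∈ A')) →
    ∀ (v : V) (t : ℝ), acmp μ S A A' v t ≤ C t * lam ^ G.dist v o / lam ^ R

variable {lam : ℝ} {C : ℝ → ℝ}

theorem Rate.fvM_sub [IsProbabilityMeasure μ] (hr : Rate G μ lam C) {hG : G.IsTree}
    {o : V} {R : ℕ} {B B' : Finset V} (hB : bal hG o R ⊆ B) (hB' : bal hG o R ⊆ B')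
    (v : V) (t : ℝ) :
    ∫ ω, (fvM μ B t v ω - fvM μ B' t v ω) ^ 2 ∂(PP V) ≤ C t * lam ^ G.dist v o / lam ^ R := by
  rw [integral_fvM_sub_sq]
  refine hr.est _ _ _ o R (fun x hx => ?_) v t
  have hx' : x ∈ bal hG o R := mem_bal.2 hx
  simp only [Finset.mem_coe]
  exact ⟨fun _ => hB' hx', fun _ => hB hx'⟩

theorem Rate.ae_tendsto [IsProbabilityMeasure μ] (hr : Rate G μ lam C) (hG : G.IsTree)
    (t : ℝ) (v : V) : ∀ᵐ ω ∂(PP V), Tendsto (fun n => fvM μ (bal hG v n) t v ω) atTop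
      (𝓝 (Minf hG μ t v ω)) := by
  have hlam := hr.one_lt
  have hlam0 : 0 < lam := by linarith
  have hs : 0 < Real.sqrt lam := Real.sqrt_pos.2 hlam0
  have hs1 : 1 < Real.sqrt lam := by
    rw [Real.lt_sqrt (by norm_num)]
    simpa using hlam
  refine ae_tendsto_limsup_of_sq_le (a := 1 / Real.sqrt lam) (C := C t)
    (fun n => measurable_fvM _ t v) (fun n ω => abs_fvM_le _ t v ω) (by positivity)
    (by rw [div_lt_one hs]; exact hs1) (fun n => ?_)
  have h := hr.fvM_sub (hG := hG) (o := v) (R := n) (B := bal hG v (n + 1)) (B' := bal hG v n)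
    (bal_mono (by omega)) (le_refl _) v t
  rw [SimpleGraph.dist_self, pow_zero, mul_one] at h
  refine h.trans (le_of_eq ?_)
  rw [div_pow, one_pow, Real.sq_sqrt hlam0.le, div_pow, one_pow]
  ring

/-- the rate of convergence to the infinite volume limit -/
theorem Rate.fvM_sub_Minf [IsProbabilityMeasure μ] (hr : Rate G μ lam C) {hG : G.IsTree}
    {o : V} {R : ℕ} {B : Finset V} (hB : bal hG o R ⊆ B) (v : V) (t : ℝ) :
    ∫ ω, (fvM μ B t v ω - Minf hG μ t v ω) ^ 2 ∂(PP V) ≤ C t * lam ^ G.dist v o / lam ^ R := by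
  have hlim : Tendsto (fun n => ∫ ω, (fvM μ B t v ω - fvM μ (bal hG v n) t v ω) ^ 2 ∂(PP V)) atTop
      (𝓝 (∫ ω, (fvM μ B t v ω - Minf hG μ t v ω) ^ 2 ∂(PP V))) := by
    refine tendsto_integral_of_dominated_convergence (fun _ => 4) (fun n => ?_)
      (integrable_const _) (fun n => Eventually.of_forall fun ω => ?_) ?_
    · exact (((measurable_fvM B t v).sub (measurable_fvM _ t v)).pow_const 2).aestronglyMeasurable
    · rw [Real.norm_eq_abs, abs_of_nonneg (sq_nonneg _)]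
      exact sq_sub_le_four (abs_fvM_le _ t v ω) (abs_fvM_le _ t v ω)
    · filter_upwards [hr.ae_tendsto hG t v] with ω hω
      exact (tendsto_const_nhds.sub hω).pow 2
  refine le_of_tendsto hlim ?_
  filter_upwards [eventually_ge_atTop (R + G.dist v o)] with n hn
  refine hr.fvM_sub hB ?_ v t
  refine bal_subset_of_dist ?_
  rw [SimpleGraph.dist_comm]
  exact hn

/-- existence of a rate, uniform over the models -/
theorem exists_rate (hG : G.IsTree) {d : ℕ} (hd : 2 ≤ d)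
    (hreg : G.IsRegularOfDegree d) {θ : ℝ} (h0 : 0 ≤ θ) (h1 : ((d : ℝ) - 1) * θ ^ 2 < 1)
    (h1' : θ < 1) : ∃ lam : ℝ, ∃ C : ℝ → ℝ, ∀ (μ : Measure (V → ℤˣ)) [IsProbabilityMeasure μ],
      EdgeSplit G θ μ → Rate G μ lam C := by
  obtain ⟨lam, hlam, C, hC0, hC⟩ := acmp_estimate hG hd hreg h0 h1 h1'
  exact ⟨lam, C, fun μ _ hμ => ⟨hlam, hC0, fun S A A' o R hAA v t => hC μ hμ S A A' o R hAA v t⟩⟩

/-- convergence along any exhaustion -/
theorem Rate.tendsto_fvM [IsProbabilityMeasure μ] (hr : Rate G μ lam C) {hG : G.IsTree}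
    (o : V) (v : V) (t : ℝ) :
    Tendsto (fun n => ∫ ω, (fvM μ (bal hG o n) t v ω - Minf hG μ t v ω) ^ 2 ∂(PP V)) atTop
      (𝓝 0) := by
  have hlam := hr.one_lt
  have h1 : Tendsto (fun n : ℕ => C t * lam ^ G.dist v o / lam ^ n) atTop (𝓝 0) := by
    have h2 := (tendsto_pow_atTop_atTop_of_one_lt hlam).const_div_atTop (C t * lam ^ G.dist v o)
    exact h2
  refine squeeze_zero (fun n => integral_nonneg fun _ => sq_nonneg _) (fun n => ?_) h1
  exact hr.fvM_sub_Minf (le_refl _) v t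

end Limit

end Vale.Agent.P161
end
end

section

section

/-! Higher moments of the means along the algorithm. -/

open MeasureTheory

namespace Vale.Agent.P161

/-! ### Elementary inequalities -/

theorem abs_pow_mul_pow_le (m j : ℝ) {a N : ℕ} (ha : a ≤ N) :
    |m| ^ a * |j| ^ (N - a) ≤ |m| ^ N + |j| ^ N := by
  rcases le_total |m| |j| with h | h
  · have h1 : |m| ^ a ≤ |j| ^ a := pow_le_pow_left₀ (abs_nonneg m) h a
    have h2 : |m| ^ a * |j| ^ (N - a) ≤ |j| ^ a * |j| ^ (N - a) :=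
      mul_le_mul_of_nonneg_right h1 (by positivity)
    rw [← pow_add, Nat.add_sub_cancel' ha] at h2
    have h3 : 0 ≤ |m| ^ N := by positivity
    linarith only [h2, h3]
  · have h1 : |j| ^ (N - a) ≤ |m| ^ (N - a) := pow_le_pow_left₀ (abs_nonneg j) h _
    have h2 : |m| ^ a * |j| ^ (N - a) ≤ |m| ^ a * |m| ^ (N - a) :=
      mul_le_mul_of_nonneg_left h1 (by positivity)
    rw [← pow_add, Nat.add_sub_cancel' ha] at h2
    have h3 : 0 ≤ |j| ^ N := by positivity
    linarith only [h2, h3]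

/-- Expansion of an even power to second order. -/
theorem even_pow_add_le (m j : ℝ) (K : ℕ) :
    (m + j) ^ (2 * K + 2) ≤ m ^ (2 * K + 2) + (2 * K + 2) * (m ^ (2 * K + 1) * j) +
      4 ^ (K + 1) * (m ^ (2 * K) * j ^ 2 + j ^ (2 * K + 2)) := by
  have hev : ∀ x : ℝ, |x| ^ (2 * K) = x ^ (2 * K) := fun x => by
    rw [pow_mul, sq_abs, ← pow_mul]
  rw [add_pow, Finset.sum_range_succ, Finset.sum_range_succ]
  have e1 : m ^ (2 * K + 2) * j ^ (2 * K + 2 - (2 * K + 2)) *
      ((2 * K + 2).choose (2 * K + 2) : ℝ) = m ^ (2 * K + 2) := by simp only [tsub_self, pow_zero, mul_one, Nat.choose_self, Nat.cast_one]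
  have e2 : m ^ (2 * K + 1) * j ^ (2 * K + 2 - (2 * K + 1)) *
      ((2 * K + 2).choose (2 * K + 1) : ℝ) = (2 * K + 2) * (m ^ (2 * K + 1) * j) := by
    have h1 : 2 * K + 2 - (2 * K + 1) = 1 := by omega
    have h2 : (2 * K + 2).choose (2 * K + 1) = 2 * K + 2 := by
      have := Nat.choose_succ_self_right (2 * K + 1)
      simpa using this
    rw [h1, h2, pow_one]
    push_cast
    ring
  rw [e1, e2]
  have h3 : ∑ a ∈ Finset.range (2 * K + 1), m ^ a * j ^ (2 * K + 2 - a) *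
      ((2 * K + 2).choose a : ℝ) ≤ ∑ a ∈ Finset.range (2 * K + 1),
      (m ^ (2 * K) * j ^ 2 + j ^ (2 * K + 2)) * ((2 * K + 2).choose a : ℝ) := by
    refine Finset.sum_le_sum fun a ha => ?_
    rw [Finset.mem_range] at ha
    refine mul_le_mul_of_nonneg_right ?_ (Nat.cast_nonneg _)
    have h4 := abs_pow_mul_pow_le m j (a := a) (N := 2 * K) (by omega)
    rw [hev, hev] at h4
    have h5 : m ^ a * j ^ (2 * K + 2 - a) ≤ |m| ^ a * |j| ^ (2 * K - a) * j ^ 2 := by
      have h6 : 2 * K + 2 - a = (2 * K - a) + 2 := by omega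
      rw [h6, pow_add, ← mul_assoc]
      refine mul_le_mul_of_nonneg_right ?_ (sq_nonneg j)
      rw [← abs_pow, ← abs_pow, ← abs_mul]
      exact le_abs_self _
    have h7 := mul_le_mul_of_nonneg_right h4 (sq_nonneg j)
    calc m ^ a * j ^ (2 * K + 2 - a) ≤ |m| ^ a * |j| ^ (2 * K - a) * j ^ 2 := h5
      _ ≤ (m ^ (2 * K) + j ^ (2 * K)) * j ^ 2 := h7
      _ = _ := by ring
  rw [← Finset.mul_sum] at h3
  have h8 : ∑ a ∈ Finset.range (2 * K + 1), ((2 * K + 2).choose a : ℝ) ≤ 4 ^ (K + 1) := by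
    have h9 : ∑ a ∈ Finset.range (2 * K + 1), (2 * K + 2).choose a ≤ 2 ^ (2 * K + 2) := by
      rw [← Nat.sum_range_choose]
      exact Finset.sum_le_sum_of_subset (Finset.range_subset_range.2 (by (clear * -; omega)))
    have h10 : (4 : ℝ) ^ (K + 1) = 2 ^ (2 * K + 2) := by
      rw [show 2 * K + 2 = 2 * (K + 1) by ring, pow_mul]; norm_num
    rw [h10]
    exact_mod_cast h9
  have h11 : 0 ≤ m ^ (2 * K) * j ^ 2 + j ^ (2 * K + 2) := by
    rw [← hev m, show 2 * K + 2 = 2 * (K + 1) by ring, pow_mul j]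
    (clear * -; positivity)
  have h12 := mul_le_mul_of_nonneg_left h8 h11
  linarith only [h12, h3]

variable {V : Type*} {μ : Measure (V → ℤˣ)}

/-- One step of the algorithm: even moments of a mean. -/
theorem pow_stepE [IsProbabilityMeasure μ] {e : V × ℕ → ℝ} (he : StrOK e)
    (l : List (V × ℕ)) {i : V × ℕ} (hi : i ∉ l) (v : V) (K : ℕ) :
    ∫ U, mean μ (runE μ e U (i :: l)) v ^ (2 * K + 2) ∂(noise V) ≤
      ∫ U, mean μ (runE μ e U l) v ^ (2 * K + 2) ∂(noise V) +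
      16 ^ (K + 1) * (e i ^ 2 * ∫ U, mean μ (runE μ e U l) v ^ (2 * K) *
        cov μ (runE μ e U l) i.1 v ^ 2 ∂(noise V) +
        e i ^ (2 * K + 2) * ∫ U, cov μ (runE μ e U l) i.1 v ^ (2 * K + 2) ∂(noise V)) := by
  have he0 := he.nonneg i
  have he1 := he.le i
  have m1 := measurable_mean_runE' (μ := μ) he l v
  have c1 := measurable_cov_runE' (μ := μ) he l i.1 v
  have n1 := measurable_incr_runE' (μ := μ) he l i.1 i
  have bm1 : ∀ U, |mean μ (runE μ e U l) v| ≤ 1 := fun U => abs_mean_le (good_runE he U l) v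
  have bc1 : ∀ U, |cov μ (runE μ e U l) i.1 v| ≤ 2 := fun U =>
    abs_cov_le_two (good_runE he U l) i.1 v
  have bn1 : ∀ U : V × ℕ → unitInterval,
      |incr (e i) (mean μ (runE μ e U l) i.1) (U i)| ≤ 2 * e i :=
    fun U => abs_incr_le he0 he1 (abs_mean_le (good_runE he U l) i.1) (U i).2.1 (U i).2.2
  have z1 := integral_mul_incrE_eq_zero (μ := μ) he l l (fun j hj => hj) hi
    (fun U => (mean μ (runE μ e U l) v) ^ (2 * K + 1) * cov μ (runE μ e U l) i.1 v)
    ((m1.pow_const _).mul c1)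
    (fun U U' h => by rw [runE_congr_noise h])
    (C := 1 * 2) (fun U => by
      rw [abs_mul, abs_pow]
      exact mul_le_mul (pow_le_one₀ (abs_nonneg _) (bm1 U)) (bc1 U) (abs_nonneg _)
        (by norm_num)) i.1
  -- integrability
  have int : ∀ {f : (V × ℕ → unitInterval) → ℝ} (C : ℝ), Measurable f → (∀ U, |f U| ≤ C) →
      Integrable f (noise V) := fun C hf hC =>
    Integrable.of_bound hf.aestronglyMeasurable C (Filter.Eventually.of_forall hC)
  have hpm : ∀ n : ℕ, ∀ U, |mean μ (runE μ e U l) v ^ n| ≤ 1 := fun n U => by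
    rw [abs_pow]; exact pow_le_one₀ (abs_nonneg _) (bm1 U)
  have hpc : ∀ n : ℕ, ∀ U, |cov μ (runE μ e U l) i.1 v ^ n| ≤ 2 ^ n := fun n U => by
    rw [abs_pow]; exact pow_le_pow_left₀ (abs_nonneg _) (bc1 U) n
  have i1 : Integrable (fun U => mean μ (runE μ e U l) v ^ (2 * K + 2)) (noise V) :=
    int 1 (m1.pow_const _) (hpm _)
  have i2 : Integrable (fun U => mean μ (runE μ e U l) v ^ (2 * K) *
      cov μ (runE μ e U l) i.1 v ^ 2) (noise V) :=
    int (1 * 2 ^ 2) ((m1.pow_const _).mul (c1.pow_const _)) fun U => by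
      rw [abs_mul]
      exact mul_le_mul (hpm _ U) (hpc _ U) (abs_nonneg _) (by norm_num)
  have i3 : Integrable (fun U => cov μ (runE μ e U l) i.1 v ^ (2 * K + 2)) (noise V) :=
    int (2 ^ (2 * K + 2)) (c1.pow_const _) (hpc _)
  have i4 : Integrable (fun U => (mean μ (runE μ e U l) v) ^ (2 * K + 1) *
      cov μ (runE μ e U l) i.1 v * incr (e i) (mean μ (runE μ e U l) i.1) (U i)) (noise V) :=
    int (1 * 2 * (2 * e i)) (((m1.pow_const _).mul c1).mul n1) fun U => by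
      rw [abs_mul, abs_mul]
      exact mul_le_mul (mul_le_mul (hpm _ U) (bc1 U) (abs_nonneg _) (by norm_num)) (bn1 U)
        (abs_nonneg _) (by norm_num)
  have i5 : Integrable (fun U => mean μ (runE μ e U (i :: l)) v ^ (2 * K + 2)) (noise V) :=
    int 1 ((measurable_mean_runE' (μ := μ) he (i :: l) v).pow_const _) fun U => by
      rw [abs_pow]
      exact pow_le_one₀ (abs_nonneg _) (abs_mean_le (good_runE he U (i :: l)) v)
  -- pointwise inequality
  have hpt : ∀ U, mean μ (runE μ e U (i :: l)) v ^ (2 * K + 2) ≤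
      mean μ (runE μ e U l) v ^ (2 * K + 2) + (2 * K + 2) *
        ((mean μ (runE μ e U l) v) ^ (2 * K + 1) * cov μ (runE μ e U l) i.1 v *
          incr (e i) (mean μ (runE μ e U l) i.1) (U i)) +
      16 ^ (K + 1) * (e i ^ 2 * (mean μ (runE μ e U l) v ^ (2 * K) *
        cov μ (runE μ e U l) i.1 v ^ 2) +
        e i ^ (2 * K + 2) * cov μ (runE μ e U l) i.1 v ^ (2 * K + 2)) := by
    intro U
    rw [mean_consE_incr he]
    set m := mean μ (runE μ e U l) v
    set c := cov μ (runE μ e U l) i.1 v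
    set n := incr (e i) (mean μ (runE μ e U l) i.1) (U i)
    have h1 := even_pow_add_le m (c * n) K
    have hn : |n| ≤ 2 * e i := bn1 U
    have hn2 : n ^ 2 ≤ 4 * e i ^ 2 := by
      have := pow_le_pow_left₀ (abs_nonneg n) hn 2
      rw [sq_abs] at this
      linarith only [this]
    have hn3 : n ^ (2 * K + 2) ≤ 4 ^ (K + 1) * e i ^ (2 * K + 2) := by
      have h2 := pow_le_pow_left₀ (sq_nonneg n) hn2 (K + 1)
      rw [← pow_mul, mul_pow, ← pow_mul] at h2
      rw [show 2 * K + 2 = 2 * (K + 1) by ring]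
      exact h2
    have hmK : 0 ≤ m ^ (2 * K) := by rw [pow_mul]; (clear * -; positivity)
    have hcK : 0 ≤ c ^ (2 * K + 2) := by
      rw [show 2 * K + 2 = 2 * (K + 1) by ring, pow_mul]; (clear * -; positivity)
    have h3 : m ^ (2 * K) * (c * n) ^ 2 ≤ 4 * (e i ^ 2 * (m ^ (2 * K) * c ^ 2)) := by
      rw [mul_pow]
      have := mul_le_mul_of_nonneg_left hn2 (mul_nonneg hmK (sq_nonneg c))
      linarith only [this]
    have h4 : (c * n) ^ (2 * K + 2) ≤ 4 ^ (K + 1) * (e i ^ (2 * K + 2) * c ^ (2 * K + 2)) := by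
      rw [mul_pow]
      have := mul_le_mul_of_nonneg_left hn3 hcK
      linarith only [this]
    have h5 : 4 * (e i ^ 2 * (m ^ (2 * K) * c ^ 2)) ≤
        4 ^ (K + 1) * (e i ^ 2 * (m ^ (2 * K) * c ^ 2)) := by
      refine mul_le_mul_of_nonneg_right ?_ (by (clear * - hmK; positivity))
      calc (4 : ℝ) = 4 ^ 1 := by norm_num
        _ ≤ 4 ^ (K + 1) := pow_le_pow_right₀ (by norm_num) (by omega)
    have h6 : (4 : ℝ) ^ (K + 1) * (m ^ (2 * K) * (c * n) ^ 2 + (c * n) ^ (2 * K + 2)) ≤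
        16 ^ (K + 1) * (e i ^ 2 * (m ^ (2 * K) * c ^ 2) + e i ^ (2 * K + 2) * c ^ (2 * K + 2)) := by
      have h7 : (16 : ℝ) ^ (K + 1) = 4 ^ (K + 1) * 4 ^ (K + 1) := by
        rw [← mul_pow]; norm_num
      rw [h7, mul_assoc]
      refine mul_le_mul_of_nonneg_left ?_ (by positivity)
      linarith only [h3, h4, h5]
    have h8 : m ^ (2 * K + 1) * (c * n) = m ^ (2 * K + 1) * c * n := by ring
    rw [h8] at h1
    linarith only [h1, h6]
  have i6 := i4.const_mul (2 * (K : ℝ) + 2)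
  have i7 := ((i2.const_mul (e i ^ 2)).add (i3.const_mul (e i ^ (2 * K + 2)))).const_mul
    ((16 : ℝ) ^ (K + 1))
  have h9 := integral_mono i5 ((i1.add i6).add i7) hpt
  refine h9.trans (le_of_eq ?_)
  have i16 : Integrable (fun U => mean μ (runE μ e U l) v ^ (2 * K + 2) + (2 * K + 2) *
      ((mean μ (runE μ e U l) v) ^ (2 * K + 1) * cov μ (runE μ e U l) i.1 v *
        incr (e i) (mean μ (runE μ e U l) i.1) (U i))) (noise V) := i1.add i6
  rw [integral_add' (i1.add i6) i7, integral_add' i1 i6, integral_const_mul, z1, mul_zero,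
    add_zero, integral_const_mul]
  congr 2
  have h10 := integral_add (i2.const_mul (e i ^ 2)) (i3.const_mul (e i ^ (2 * K + 2)))
  rw [integral_const_mul, integral_const_mul] at h10
  exact h10

/-- the even moment of a mean, as a function of the labels -/
noncomputable def momL (μ : Measure (V → ℤˣ)) (o : V) (n : ℕ) (T : V × ℕ → unitInterval)
    (l : List (V × ℕ)) : ℝ :=
  ∫ U, mean μ (runE μ (str T) U l) o ^ n ∂(noise V)

/-- the mixed moment which bounds the growth of `momL` -/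
noncomputable def gmom (μ : Measure (V → ℤˣ)) (o : V) (K : ℕ) (c : ℝ) (v : V)
    (T : V × ℕ → unitInterval) (l : List (V × ℕ)) : ℝ :=
  ∫ U, (mean μ (runE μ (str T) U l) o ^ (2 * K) * cov μ (runE μ (str T) U l) v o ^ 2 +
    c * cov μ (runE μ (str T) U l) v o ^ (2 * K + 2)) ∂(noise V)

theorem labF_momL [IsProbabilityMeasure μ] (o : V) (n : ℕ) : LabF (momL μ o n) 1 := by
  unfold momL
  refine labF_of_int (F := fun T U l => mean μ (runE μ (str T) U l) o ^ n)
    (fun l => ?_) (fun T T' U l h => ?_) (fun T U l => ?_)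
  · exact (measurable_mean_runE (μ := μ) (measurable_str measurable_fst)
      (fun p => strOK_str p.1) measurable_snd l o).pow_const n
  · rw [runE_str_congr (μ := μ) (fun _ h => h) h U]
  · rw [abs_pow]
    exact pow_le_one₀ (abs_nonneg _) (abs_mean_le (good_runE (strOK_str T) U l) o)

theorem gmom_pt_nonneg (o : V) (K : ℕ) {c : ℝ} (hc : 0 ≤ c) (v : V) (H : List (V × ℝ)) :
    0 ≤ mean μ H o ^ (2 * K) * cov μ H v o ^ 2 + c * cov μ H v o ^ (2 * K + 2) := by
  have h1 : 0 ≤ mean μ H o ^ (2 * K) := by rw [pow_mul]; positivity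
  have h2 : 0 ≤ cov μ H v o ^ (2 * K + 2) := by
    rw [show 2 * K + 2 = 2 * (K + 1) by ring, pow_mul]; positivity
  positivity

theorem gmom_nonneg (o : V) (K : ℕ) {c : ℝ} (hc : 0 ≤ c) (v : V)
    (T : V × ℕ → unitInterval) (l : List (V × ℕ)) : 0 ≤ gmom μ o K c v T l :=
  integral_nonneg fun _ => gmom_pt_nonneg o K hc v _

theorem gmom_pt_le [IsProbabilityMeasure μ] (o : V) (K : ℕ) {c : ℝ} (hc : 0 ≤ c) (v : V)
    {H : List (V × ℝ)} (hH : Good H) :
    mean μ H o ^ (2 * K) * cov μ H v o ^ 2 + c * cov μ H v o ^ (2 * K + 2) ≤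
      4 + c * 4 ^ (K + 1) := by
  have h1 : mean μ H o ^ (2 * K) ≤ 1 := by
    have := pow_le_one₀ (n := 2 * K) (abs_nonneg _) (abs_mean_le (μ := μ) hH o)
    rwa [← abs_pow, abs_of_nonneg (by rw [pow_mul]; (clear * -; positivity))] at this
  have h2 : cov μ H v o ^ 2 ≤ 4 := by
    have := abs_le.1 (abs_cov_le_two (μ := μ) hH v o)
    nlinarith
  have h3 : cov μ H v o ^ (2 * K + 2) ≤ 4 ^ (K + 1) := by
    rw [show 2 * K + 2 = 2 * (K + 1) by ring, pow_mul]
    exact pow_le_pow_left₀ (sq_nonneg _) h2 _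
  have h4 : mean μ H o ^ (2 * K) * cov μ H v o ^ 2 ≤ 1 * 4 :=
    mul_le_mul h1 h2 (sq_nonneg _) (by norm_num)
  have h5 := mul_le_mul_of_nonneg_left h3 hc
  linarith only [h4, h5]

theorem measurable_gmom_pt [IsProbabilityMeasure μ] {Ω : Type*} [MeasurableSpace Ω]
    {e : Ω → V × ℕ → ℝ} (hem : ∀ i, Measurable fun ω => e ω i) (he : ∀ ω, StrOK (e ω))
    {U : Ω → V × ℕ → unitInterval} (hU : Measurable U) (l : List (V × ℕ)) (o : V) (K : ℕ)
    (c : ℝ) (v : V) :
    Measurable fun ω => mean μ (runE μ (e ω) (U ω) l) o ^ (2 * K) *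
      cov μ (runE μ (e ω) (U ω) l) v o ^ 2 + c * cov μ (runE μ (e ω) (U ω) l) v o ^ (2 * K + 2) :=
  (((measurable_mean_runE hem he hU l o).pow_const _).mul
    ((measurable_cov_runE hem he hU l v o).pow_const _)).add
    (((measurable_cov_runE hem he hU l v o).pow_const _).const_mul c)

theorem labF_gmom [IsProbabilityMeasure μ] (o : V) (K : ℕ) {c : ℝ} (hc : 0 ≤ c) (v : V) :
    LabF (gmom μ o K c v) (4 + c * 4 ^ (K + 1)) := by
  unfold gmom
  refine labF_of_int (F := fun T U l => mean μ (runE μ (str T) U l) o ^ (2 * K) *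
    cov μ (runE μ (str T) U l) v o ^ 2 + c * cov μ (runE μ (str T) U l) v o ^ (2 * K + 2))
    (fun l => ?_) (fun T T' U l h => ?_) (fun T U l => ?_)
  · exact measurable_gmom_pt (μ := μ) (measurable_str measurable_fst)
      (fun p => strOK_str p.1) measurable_snd l o K c v
  · rw [runE_str_congr (μ := μ) (fun _ h => h) h U]
  · rw [abs_of_nonneg (gmom_pt_nonneg o K hc v _)]
    exact gmom_pt_le o K hc v (good_runE (strOK_str T) U l)

theorem momL_step [IsProbabilityMeasure μ] (o : V) (K : ℕ) {t : ℝ} (ht : 0 < t)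
    (T : V × ℕ → unitInterval) {i : V × ℕ} (l : List (V × ℕ)) (hi : i ∉ l) :
    momL μ o (2 * K + 2) T (i :: l) ≤ momL μ o (2 * K + 2) T l +
      max (T i : ℝ) ((T i : ℝ) ^ (K + 1) / t ^ K) *
        (16 ^ (K + 1) * gmom μ o K (t ^ K) i.1 T l) := by
  have h := pow_stepE (μ := μ) (strOK_str T) l hi o K
  have hT0 : 0 ≤ (T i : ℝ) := (T i).2.1
  have e1 : str T i ^ 2 ≤ max (T i : ℝ) ((T i : ℝ) ^ (K + 1) / t ^ K) := by
    rw [str_sq]
    exact le_trans (by linarith only [hT0]) (le_max_left _ _)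
  have e2 : str T i ^ (2 * K + 2) ≤
      max (T i : ℝ) ((T i : ℝ) ^ (K + 1) / t ^ K) * t ^ K := by
    rw [show 2 * K + 2 = 2 * (K + 1) by ring, pow_mul, str_sq]
    have h1 : ((T i : ℝ) / 4) ^ (K + 1) ≤ (T i : ℝ) ^ (K + 1) :=
      pow_le_pow_left₀ (by positivity) (by linarith only [hT0]) _
    have h2 : (T i : ℝ) ^ (K + 1) = (T i : ℝ) ^ (K + 1) / t ^ K * t ^ K := by
      (clear * - ht; field_simp)
    rw [h2] at h1
    refine h1.trans (mul_le_mul_of_nonneg_right (le_max_right _ _) (by positivity))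
  have int : ∀ {f : (V × ℕ → unitInterval) → ℝ} (C : ℝ), Measurable f → (∀ U, |f U| ≤ C) →
      Integrable f (noise V) := fun C hf hC =>
    Integrable.of_bound hf.aestronglyMeasurable C (Filter.Eventually.of_forall hC)
  have m1 := measurable_mean_runE' (μ := μ) (strOK_str T) l o
  have c1 := measurable_cov_runE' (μ := μ) (strOK_str T) l i.1 o
  have hpm : ∀ n : ℕ, ∀ U, |mean μ (runE μ (str T) U l) o ^ n| ≤ 1 := fun n U => by
    rw [abs_pow]; exact pow_le_one₀ (abs_nonneg _) (abs_mean_le (good_runE (strOK_str T) U l) o)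
  have hpc : ∀ n : ℕ, ∀ U, |cov μ (runE μ (str T) U l) i.1 o ^ n| ≤ 2 ^ n := fun n U => by
    rw [abs_pow]; exact pow_le_pow_left₀ (abs_nonneg _)
      (abs_cov_le_two (good_runE (strOK_str T) U l) i.1 o) n
  have i2 : Integrable (fun U => mean μ (runE μ (str T) U l) o ^ (2 * K) *
      cov μ (runE μ (str T) U l) i.1 o ^ 2) (noise V) :=
    int (1 * 2 ^ 2) ((m1.pow_const _).mul (c1.pow_const _)) fun U => by
      rw [abs_mul]
      exact mul_le_mul (hpm _ U) (hpc _ U) (abs_nonneg _) (by norm_num)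
  have i3 : Integrable (fun U => cov μ (runE μ (str T) U l) i.1 o ^ (2 * K + 2)) (noise V) :=
    int (2 ^ (2 * K + 2)) (c1.pow_const _) (hpc _)
  have e3 : gmom μ o K (t ^ K) i.1 T l = ∫ U, mean μ (runE μ (str T) U l) o ^ (2 * K) *
      cov μ (runE μ (str T) U l) i.1 o ^ 2 ∂(noise V) +
      t ^ K * ∫ U, cov μ (runE μ (str T) U l) i.1 o ^ (2 * K + 2) ∂(noise V) := by
    unfold gmom
    rw [integral_add i2 (i3.const_mul _), integral_const_mul]
  have p2 : 0 ≤ ∫ U, mean μ (runE μ (str T) U l) o ^ (2 * K) *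
      cov μ (runE μ (str T) U l) i.1 o ^ 2 ∂(noise V) := integral_nonneg fun U => by
    have : 0 ≤ mean μ (runE μ (str T) U l) o ^ (2 * K) := by rw [pow_mul]; (clear * -; positivity)
    (clear * - this; positivity)
  have p3 : 0 ≤ ∫ U, cov μ (runE μ (str T) U l) i.1 o ^ (2 * K + 2) ∂(noise V) :=
    integral_nonneg fun U => by
      change 0 ≤ cov μ (runE μ (str T) U l) i.1 o ^ (2 * K + 2)
      rw [show 2 * K + 2 = 2 * (K + 1) by ring, pow_mul]; (clear * -; positivity)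
  rw [e3]
  have h4 := mul_le_mul_of_nonneg_right e1 p2
  have h5 := mul_le_mul_of_nonneg_right e2 p3
  have h6 : (16 : ℝ) ^ (K + 1) * (str T i ^ 2 * (∫ U, mean μ (runE μ (str T) U l) o ^ (2 * K) *
      cov μ (runE μ (str T) U l) i.1 o ^ 2 ∂(noise V)) + str T i ^ (2 * K + 2) *
      ∫ U, cov μ (runE μ (str T) U l) i.1 o ^ (2 * K + 2) ∂(noise V)) ≤
      16 ^ (K + 1) * (max (T i : ℝ) ((T i : ℝ) ^ (K + 1) / t ^ K) *
        (∫ U, mean μ (runE μ (str T) U l) o ^ (2 * K) *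
      cov μ (runE μ (str T) U l) i.1 o ^ 2 ∂(noise V)) +
        max (T i : ℝ) ((T i : ℝ) ^ (K + 1) / t ^ K) * t ^ K *
      ∫ U, cov μ (runE μ (str T) U l) i.1 o ^ (2 * K + 2) ∂(noise V)) :=
    mul_le_mul_of_nonneg_left (add_le_add h4 h5) (by positivity)
  have h7 := h.trans (add_le_add le_rfl h6)
  refine h7.trans (le_of_eq ?_)
  unfold momL
  ring

/-- THE EVOLUTION INEQUALITY for even moments, in finite volume -/
theorem momL_evol [Encodable V] [IsProbabilityMeasure μ] (S : Finset (V × ℕ)) (B : Finset V)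
    (hB : ∀ i ∈ S, i.1 ∈ B) (o : V) (K : ℕ) {t : ℝ} (ht : 0 < t) (ht2 : t ≤ 1 / 2) :
    avT S (momL μ o (2 * K + 2)) t ≤ avT S (momL μ o (2 * K + 2)) 0 +
      ∫ r in (0 : ℝ)..t, 2 * (r * ∑ v ∈ B,
        avT S (fun T l => 16 ^ (K + 1) * gmom μ o K (t ^ K) v T l) r) := by
  have htK : 0 < t ^ K := by positivity
  have hg : ∀ v, LabF (fun T l => 16 ^ (K + 1) * gmom μ o K (t ^ K) v T l)
      (1 + |(16 : ℝ) ^ (K + 1)| * (4 + t ^ K * 4 ^ (K + 1))) := fun v =>
    ((labF_gmom (μ := μ) o K htK.le v).const_mul _).mono (by linarith only [])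
  have h := label_time S (Φ := momL μ o (2 * K + 2))
    (g := fun v T l => 16 ^ (K + 1) * gmom μ o K (t ^ K) v T l)
    (w := fun r => max r (r ^ (K + 1) / t ^ K)) (Cw := 1 + 1 / t ^ K)
    ((labF_momL o (2 * K + 2)).mono (by
      have : 0 ≤ |(16 : ℝ) ^ (K + 1)| * (4 + t ^ K * 4 ^ (K + 1)) := by positivity
      linarith only [this])) hg
    (fun v T l => mul_nonneg (by positivity) (gmom_nonneg o K htK.le v T l))
    (by (clear * -; fun_prop)) (fun r hr _ => hr.trans (le_max_left _ _))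
    (fun r hr hr2 => by
      refine max_le ?_ ?_
      · have : 0 ≤ 1 / t ^ K := by positivity
        linarith only [this, hr2]
      · have h1 : r ^ (K + 1) ≤ 1 := pow_le_one₀ hr (by linarith only [hr2])
        have h2 : r ^ (K + 1) / t ^ K ≤ 1 / t ^ K := by (clear * - h1 ht; gcongr)
        linarith only [h2])
    (fun T i l _ hnd _ => momL_step o K ht T l (List.nodup_cons.1 hnd).1)
    B hB ht.le
  refine h.trans (le_of_eq ?_)
  congr 1
  refine intervalIntegral.integral_congr_ae ?_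
  have hne : ∀ᵐ r : ℝ, r ≠ t := by
    rw [ae_iff]
    simp
  filter_upwards [hne] with r hr hrt
  rw [Set.uIoc_of_le ht.le] at hrt
  have hr0 : 0 < r := hrt.1
  have hrt' : r < t := lt_of_le_of_ne hrt.2 hr
  have hfr : Int.fract r = r := Int.fract_eq_self.2 ⟨hr0.le, by linarith only [ht2, hrt']⟩
  rw [hfr, if_pos (by linarith only [ht2, hrt'])]
  have hw : max r (r ^ (K + 1) / t ^ K) = r := by
    apply max_eq_left
    rw [div_le_iff₀ htK, pow_succ, mul_comm]
    have : r ^ K ≤ t ^ K := pow_le_pow_left₀ hr0.le hrt'.le K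
    exact mul_le_mul_of_nonneg_left this hr0.le
  rw [hw]

theorem even_pow_tangent (m x : ℝ) (K : ℕ) :
    m ^ (2 * K + 2) + (2 * K + 2) * (m ^ (2 * K + 1) * x) ≤ (m + x) ^ (2 * K + 2) := by
  have hev : ∀ y : ℝ, 0 ≤ y ^ (2 * K + 2) := fun y => by
    rw [show 2 * K + 2 = 2 * (K + 1) by ring, pow_mul]; positivity
  by_cases hm : m = 0
  · subst hm
    simp only [zero_add, ne_eq, Nat.add_eq_zero_iff, mul_eq_zero, OfNat.ofNat_ne_zero, false_or,
      one_ne_zero, and_false, not_false_eq_true, zero_pow, zero_mul, mul_zero]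
    exact hev x
  · have h1 : 1 + ((2 * K + 2 : ℕ) : ℝ) * (x / m) ≤ (1 + x / m) ^ (2 * K + 2) := by
      rcases le_total (-2) (x / m) with h | h
      · exact one_add_mul_le_pow h _
      · refine le_trans ?_ (hev _)
        push_cast
        have : (0 : ℝ) ≤ K := Nat.cast_nonneg K
        nlinarith only [h]
    have h2 := mul_le_mul_of_nonneg_left h1 (hev m)
    rw [← mul_pow] at h2
    have h3 : m * (1 + x / m) = m + x := by field_simp
    rw [h3] at h2
    refine le_trans (le_of_eq ?_) h2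
    push_cast
    have h4 : m ^ (2 * K + 2) = m ^ (2 * K + 1) * m := by rw [← pow_succ]
    rw [mul_add, mul_one]
    congr 1
    rw [h4]
    (clear * - hm; field_simp)

theorem momL_mono_step [IsProbabilityMeasure μ] (o : V) (K : ℕ) (T : V × ℕ → unitInterval)
    {i : V × ℕ} (l : List (V × ℕ)) (hi : i ∉ l) :
    momL μ o (2 * K + 2) T l ≤ momL μ o (2 * K + 2) T (i :: l) := by
  have he := strOK_str T
  have m1 := measurable_mean_runE' (μ := μ) he l o
  have c1 := measurable_cov_runE' (μ := μ) he l i.1 o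
  have n1 := measurable_incr_runE' (μ := μ) he l i.1 i
  have bm1 : ∀ U, |mean μ (runE μ (str T) U l) o| ≤ 1 := fun U => abs_mean_le (good_runE he U l) o
  have bc1 : ∀ U, |cov μ (runE μ (str T) U l) i.1 o| ≤ 2 := fun U =>
    abs_cov_le_two (good_runE he U l) i.1 o
  have bn1 : ∀ U : V × ℕ → unitInterval,
      |incr (str T i) (mean μ (runE μ (str T) U l) i.1) (U i)| ≤ 2 * str T i :=
    fun U => abs_incr_le (he.nonneg i) (he.le i) (abs_mean_le (good_runE he U l) i.1)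
      (U i).2.1 (U i).2.2
  have hpm : ∀ n : ℕ, ∀ U, |mean μ (runE μ (str T) U l) o ^ n| ≤ 1 := fun n U => by
    rw [abs_pow]; exact pow_le_one₀ (abs_nonneg _) (bm1 U)
  have z1 := integral_mul_incrE_eq_zero (μ := μ) he l l (fun j hj => hj) hi
    (fun U => (mean μ (runE μ (str T) U l) o) ^ (2 * K + 1) * cov μ (runE μ (str T) U l) i.1 o)
    ((m1.pow_const _).mul c1)
    (fun U U' h => by rw [runE_congr_noise h])
    (C := 1 * 2) (fun U => by
      rw [abs_mul]
      exact mul_le_mul (hpm _ U) (bc1 U) (abs_nonneg _) (by norm_num)) i.1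
  have int : ∀ {f : (V × ℕ → unitInterval) → ℝ} (C : ℝ), Measurable f → (∀ U, |f U| ≤ C) →
      Integrable f (noise V) := fun C hf hC =>
    Integrable.of_bound hf.aestronglyMeasurable C (Filter.Eventually.of_forall hC)
  have i1 : Integrable (fun U => mean μ (runE μ (str T) U l) o ^ (2 * K + 2)) (noise V) :=
    int 1 (m1.pow_const _) (hpm _)
  have i4 : Integrable (fun U => (mean μ (runE μ (str T) U l) o) ^ (2 * K + 1) *
      cov μ (runE μ (str T) U l) i.1 o *
      incr (str T i) (mean μ (runE μ (str T) U l) i.1) (U i)) (noise V) :=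
    int (1 * 2 * (2 * str T i)) (((m1.pow_const _).mul c1).mul n1) fun U => by
      rw [abs_mul, abs_mul]
      exact mul_le_mul (mul_le_mul (hpm _ U) (bc1 U) (abs_nonneg _) (by norm_num)) (bn1 U)
        (abs_nonneg _) (by norm_num)
  have i5 : Integrable (fun U => mean μ (runE μ (str T) U (i :: l)) o ^ (2 * K + 2)) (noise V) :=
    int 1 ((measurable_mean_runE' (μ := μ) he (i :: l) o).pow_const _) fun U => by
      rw [abs_pow]
      exact pow_le_one₀ (abs_nonneg _) (abs_mean_le (good_runE he U (i :: l)) o)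
  unfold momL
  have h9 := integral_mono (i1.add (i4.const_mul (2 * (K : ℝ) + 2))) i5 (fun U => by
    change mean μ (runE μ (str T) U l) o ^ (2 * K + 2) + (2 * (K : ℝ) + 2) *
      ((mean μ (runE μ (str T) U l) o) ^ (2 * K + 1) *
      cov μ (runE μ (str T) U l) i.1 o *
      incr (str T i) (mean μ (runE μ (str T) U l) i.1) (U i)) ≤
      mean μ (runE μ (str T) U (i :: l)) o ^ (2 * K + 2)
    rw [mean_consE_incr he]
    refine le_trans (le_of_eq ?_) (even_pow_tangent _ _ K)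
    ring)
  rw [integral_add' i1 (i4.const_mul _), integral_const_mul, z1, mul_zero, add_zero] at h9
  exact h9

theorem avT_momL_mono [Encodable V] [IsProbabilityMeasure μ] (S : Finset (V × ℕ)) (o : V)
    (K : ℕ) {t' t : ℝ} (ht : t' ≤ t) :
    avT S (momL μ o (2 * K + 2)) t' ≤ avT S (momL μ o (2 * K + 2)) t :=
  avT_monotone S (labF_momL o _) (fun T i l hnd =>
    momL_mono_step o K T l (List.nodup_cons.1 hnd).1) ht

theorem avT_momL_zero [Encodable V] (S : Finset (V × ℕ)) (o : V) (n : ℕ) (hn : n ≠ 0)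
    (h0 : mean μ [] o = 0) : avT S (momL μ o n) 0 = 0 := by
  unfold avT
  simp only [stt_zero, momL, runE_nil, h0, zero_pow hn]
  simp

end Vale.Agent.P161
end
end

section

section

/-! The closing theorem in the form in which the estimates (I) and (II) are proved. -/

open MeasureTheory Filter Topology Set

namespace Vale.Agent.P161

theorem crit_close {ι : Type*} {l : Filter ι} [l.IsCountablyGenerated] [l.NeBot]
    {F S e : ι → ℝ → ℝ} {M C J K c δ t0 : ℝ} {b : ℕ} (hb : 2 ≤ b) (hJ : 1 ≤ J)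
    (h0 : ∀ i t, 0 ≤ F i t) (hM : ∀ i t, F i t ≤ M) (hmono : ∀ i, Monotone (F i))
    (hstart : ∀ i, F i 0 = 0)
    (hSm : ∀ i, Measurable (S i)) (hS0 : ∀ i r, 0 ≤ S i r)
    (hSC : ∀ i, ∀ r ∈ Ioc 0 J, wgt r * S i r ≤ C)
    (hgrow : ∀ i s t, 0 ≤ s → s ≤ t → t ≤ J → F i t ≤ F i s + ∫ r in s..t, wgt r * S i r)
    (ht0 : 0 < t0) (ht0J : t0 ≤ J) (hδ : 0 < δ)
    (hK : 0 ≤ K) (hc : 0 < c)
    (hII : ∀ P : ℕ, ∃ C' : ℝ, ∀ r ∈ Ioc 0 t0, ∀ η : ℝ, 0 < η → ∀ᶠ i in l,
      wgt r * S i r ≤ C' * r ^ (δ - 1) * F i r + C' * r ^ P + η)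
    (he0 : ∀ i r, 0 ≤ e i r) (he : ∀ r ∈ Ioc 0 J, Tendsto (fun i => e i r) l (𝓝 0))
    (hI : ∀ r ∈ Ioc 0 J, ∀ᶠ i in l, ∀ (t : ℝ) (m : ℕ), 4 / (c * min r 1) ≤ t → 1 ≤ t →
      (m : ℝ) + 1 ≤ t →
      S i r ≤ K * (t ^ 2 * F i r + t ^ 2 * Real.exp (-((b : ℝ) ^ (m + 1) *
        ((c * min r 1) * (t - m - 1) / 2 - Real.log 2))) + e i r)) :
    ∀ t ∈ Icc 0 J, Tendsto (fun i => F i t) l (𝓝 0) := by
  refine closing_family (l := l) (F := F) (G := fun i r => wgt r * S i r) (M := M) (C := C)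
    (J := J) (t0 := t0) (δ := δ) (K := 32 * K * (3 + 4 / c) ^ 2 * J) (c := 1 / 2) (k := 0)
    h0 hM hmono hstart (fun i => measurable_wgt.mul (hSm i))
    (fun i r _ => mul_nonneg (wgt_nonneg r) (hS0 i r)) hSC hgrow ht0 ht0J hδ (by norm_num)
    (by (clear * - hK hc hJ; positivity)) hII ?_
  intro L hL r hr η hη
  have h1 : ∀ᶠ i in l, K * e i r < η := by
    have h2 : Tendsto (fun i => K * e i r) l (𝓝 (K * 0)) := (he r hr).const_mul K
    rw [mul_zero] at h2
    exact h2.eventually_lt_const hη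
  filter_upwards [hI r hr, h1] with i hi h2
  have h3 := convI hb hK hc hJ hL hr.1 hr.2 (h0 i r) (he0 i r) hi
  rw [ite_mul_eq_wgt] at h3
  (clear * - h2 h3; linarith only [h3, h2])

end Vale.Agent.P161
end
end

section

section

/-!
# One step bound and independence for the path sums of a field
-/

open MeasureTheory Finset

namespace Vale.Agent.P161

variable {V : Type*} {G : SimpleGraph V} [G.LocallyFinite]

/-- transfer factor of the directed edge `u → z` -/
noncomputable def Xe {Ω : Type*} (θ : ℝ) (M : V → Ω → ℝ) (u z : V) (ω : Ω) : ℝ :=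
  xf θ (tau θ (M u ω) (M z ω))

theorem edgeFun_Xe {Ω : Type*} [MeasurableSpace Ω] {θ : ℝ} (h0 : 0 ≤ θ) (h1 : θ < 1)
    {M : V → Ω → ℝ} (hM : ∀ v, Measurable (M v)) (hb : ∀ v ω, |M v ω| ≤ 1) :
    EdgeFun (Xe θ M) 1 where
  meas u z := measurable_xf (measurable_tau (hM _) (hM _) θ) θ
  nonneg u z ω := xf_nonneg (theta_sq_lt h0 h1) (abs_tau_le h0 h1 (hb _ _) (hb _ _))
  le u z ω := xf_le_one (theta_sq_lt h0 h1) (abs_tau_le h0 h1 (hb _ _) (hb _ _))

/-- children of a vertex seen from a root -/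
theorem dist_nch (hG : G.IsTree) {o a c y : V} (hd : G.dist o c = G.dist o a + 1)
    (hac : G.Adj a c) (hy : y ∈ nch G a c) :
    G.dist o y = G.dist o c + 1 ∧ par G o y = c := by
  rw [mem_nch] at hy
  have h1 : G.dist o y = G.dist o c + 1 := by
    rcases dist_adj_cases hG hy.1 o with h | h
    · exact h
    · exfalso
      exact hy.2 (adj_dist_unique hG hy.1.symm hac h.symm hd.symm)
  refine ⟨h1, ?_⟩
  have hne : o ≠ y := by
    rintro rfl
    simp only [SimpleGraph.dist_self, Nat.right_eq_add, Nat.add_eq_zero_iff, SimpleGraph.dist_eq_zero_iff_eq_or_not_reachable, one_ne_zero, and_false] at h1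
  have h2 := par_spec hG hne
  exact adj_dist_unique hG h2.1 hy.1 h2.2 h1.symm

/-- evaluation of the sums in terms of the messages towards a root -/
theorem LL_msg (hG : G.IsTree) {θ : ℝ} (h0 : 0 ≤ θ) (h1 : θ < 1) {m : V → ℝ}
    (hm : ∀ v, |m v| ≤ 1) (o : V) (k : ℕ) : ∀ a c : V, G.Adj a c →
      G.dist o c = G.dist o a + 1 →
      LL G (fun _ y => xfc θ (msgT G θ o m y)) k a c =
        LL G (fun u z => xf θ (tau θ (m u) (m z))) k a c := by
  induction k with
  | zero => intro a c _ _; rfl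
  | succ k ih =>
    intro a c hac hd
    rw [LL_succ, LL_succ]
    apply sum_congr rfl
    intro y hy
    obtain ⟨hy1, hy2⟩ := dist_nch hG hd hac hy
    rw [ih c y (mem_nch.1 hy).1 hy1]
    congr 1
    unfold msgT
    rw [hy2]
    exact xfc_of_abs (abs_tau_le h0 h1 (hm _) (hm _))

theorem side_mono_child (hG : G.IsTree) {v w c : V} (hvw : G.Adj v w) (hc : c ∈ nch G v w) :
    side G c w ⊆ side G w v := by
  rw [mem_nch] at hc
  intro x hx
  simp only [side, Set.mem_ofPred_eq] at hx ⊢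
  have hwx : G.dist x w = G.dist x c + 1 := by
    rcases dist_adj_cases hG hc.1 x with h | h <;> omega
  rcases dist_adj_cases hG hvw x with h | h
  · exfalso
    exact hc.2 (adj_dist_unique hG hc.1.symm hvw hwx.symm h.symm)
  · omega

theorem finDep_LL (hG : G.IsTree) {θ : ℝ} (h0 : 0 ≤ θ) (h1 : θ < 1) (k : ℕ) :
    ∀ v w : V, G.Adj v w →
      FinDep (side G w v) (fun z : V → ℝ => LL G (fun _ y => xfc θ (z y)) k v w) := by
  induction k with
  | zero => intro v w _; exact finDep_const _ 1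
  | succ k ih =>
    intro v w hvw
    simp only [LL_succ]
    apply FinDep.sum
    intro c hc
    have hc' := mem_nch.1 hc
    have hsub := side_mono_child hG hvw hc
    refine FinDep.mul ((finDep_eval (hsub ?_)).comp (continuous_xfc h0 h1))
      ((ih w c hc'.1).mono hsub)
    simp only [side, Set.mem_ofPred_eq, SimpleGraph.dist_self]
    have : G.dist c w = 1 := SimpleGraph.dist_eq_one_iff_adj.2 hc'.1.symm
    omega

theorem finDep_TT (hG : G.IsTree) {θ : ℝ} (h0 : 0 ≤ θ) (h1 : θ < 1) (q : ℝ) (n : ℕ) {v w : V}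
    (hvw : G.Adj v w) :
    FinDep (side G w v) (fun z : V → ℝ => TT G q (fun _ y => xfc θ (z y)) n v w) := by
  unfold TT
  apply FinDep.sum
  intro k _
  exact (finDep_const _ _).mul (finDep_LL hG h0 h1 k v w hvw)

theorem mem_side_child {v w : V} (h : G.Adj v w) : w ∈ side G w v := by
  simp only [side, Set.mem_ofPred_eq, SimpleGraph.dist_self]
  have : G.dist w v = 1 := SimpleGraph.dist_eq_one_iff_adj.2 h.symm
  omega

/-- the weighted sum below the edge `v → w`, as a function of the messages -/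
noncomputable def Wz (G : SimpleGraph V) [G.LocallyFinite] (θ q : ℝ) (n : ℕ) (v w : V)
    (z : V → ℝ) : ℝ := xfc θ (z w) * TT G q (fun _ y => xfc θ (z y)) n v w

theorem finDep_Wz (hG : G.IsTree) {θ : ℝ} (h0 : 0 ≤ θ) (h1 : θ < 1) (q : ℝ) (n : ℕ) {v w : V}
    (hvw : G.Adj v w) : FinDep (side G w v) (Wz G θ q n v w) :=
  ((finDep_eval (mem_side_child hvw)).comp (continuous_xfc h0 h1)).mul (finDep_TT hG h0 h1 q n hvw)

theorem evenF_Wz (θ q : ℝ) (n : ℕ) (v w : V) (z : V → ℝ) :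
    Wz G θ q n v w (fun y => -z y) = Wz G θ q n v w z := by
  unfold Wz
  simp only [xfc_neg]

theorem Wz_nonneg {θ q : ℝ} (h0 : 0 ≤ θ) (h1 : θ < 1) (hq : 0 ≤ q) (n : ℕ) (v w : V)
    (z : V → ℝ) : 0 ≤ Wz G θ q n v w z :=
  mul_nonneg (xfc_nonneg h0 h1 _) (TT_nonneg hq (fun _ _ => xfc_nonneg h0 h1 _) n v w)

theorem Wz_msg (hG : G.IsTree) {θ : ℝ} (h0 : 0 ≤ θ) (h1 : θ < 1) (q : ℝ) {m : V → ℝ}
    (hm : ∀ v, |m v| ≤ 1) (n : ℕ) {v w : V} (hvw : G.Adj v w) :
    Wz G θ q n v w (msgT G θ v m) =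
      xf θ (tau θ (m v) (m w)) * TT G q (fun u z => xf θ (tau θ (m u) (m z))) n v w := by
  have hd : G.dist v w = G.dist v v + 1 := by
    rw [SimpleGraph.dist_self, SimpleGraph.dist_eq_one_iff_adj.2 hvw]
  have hne : v ≠ w := hvw.ne
  have hp : par G v w = v := by
    have h2 := par_spec hG hne
    exact adj_dist_unique hG h2.1 hvw h2.2 hd.symm
  unfold Wz TT
  have e1 : xfc θ (msgT G θ v m w) = xf θ (tau θ (m v) (m w)) := by
    unfold msgT
    rw [hp]
    exact xfc_of_abs (abs_tau_le h0 h1 (hm _) (hm _))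
  rw [e1]
  congr 1
  apply sum_congr rfl
  intro k _
  rw [LL_msg hG h0 h1 hm v k v w hvw hd]

section field

variable {θ ρ : ℝ} {Ω : Type*} [MeasurableSpace Ω] {P : Measure Ω}
  [IsProbabilityMeasure P] {M : V → Ω → ℝ} {b : ℕ}

/-- the one-step bound for the path sums of a field -/
theorem TField.oneStep (hG : G.IsTree) (hreg : G.IsRegularOfDegree (b + 1)) (h0 : 0 ≤ θ)
    (h1 : θ < 1) (hT : TField G θ ρ P M) {κ : ℝ} (hκ0 : 0 ≤ κ) (hκ1 : κ ≤ 1) :
    (treeSum hreg hκ0 hκ1 (edgeFun_Xe h0 h1 hT.meas hT.bdd)).OneStep P ρ := by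
  rintro n ⟨u, v⟩ huv e he a β c hβ hc haβ
  have huv' : G.Adj u v := huv
  obtain ⟨w, hw, rfl⟩ := mem_map.1 he
  have hw' := mem_nch.1 hw
  have hq : 0 ≤ κ / b := by (clear * - hκ0; positivity)
  simp only [treeSum_W, treeSum_x]
  have h := hT.step u v w huv' hw'.1 (Ne.symm hw'.2)
    (fun z => a + β * Real.exp (c * Wz G θ (κ / b) n v w z))
    ((finDep_Wz hG h0 h1 (κ / b) n hw'.1).comp
      (φ := fun t => a + β * Real.exp (c * t)) (by fun_prop))
    (fun z => by simp only [evenF_Wz])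
    (fun z _ => by
      have h2 : 1 ≤ Real.exp (c * Wz G θ (κ / b) n v w z) :=
        Real.one_le_exp (mul_nonneg hc (Wz_nonneg h0 h1 hq n v w z))
      linarith only [mul_nonneg (sub_nonneg.2 hβ) (sub_nonneg.2 h2), mul_nonneg (mul_self_nonneg (1 : ℝ)) (sub_nonneg.2 haβ)])
  have e1 : ∀ ω, Wz G θ (κ / b) n v w (msgT G θ v fun x => M x ω) =
      xf θ (tau θ (M v ω) (M w ω)) *
        TT G (κ / b) (fun u z => xf θ (tau θ (M u ω) (M z ω))) n v w := fun ω =>
    Wz_msg hG h0 h1 (κ / b) (fun x => hT.bdd x ω) n hw'.1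
  simp only [e1] at h
  exact h

/-- independence of the branches -/
theorem TField.integral_prod_children (hG : G.IsTree) (_h0 : 0 ≤ θ) (_h1 : θ < 1)
    (hT : TField G θ ρ P M) {v : V} (g : V → (V → ℝ) → ℝ) (S : Finset V)
    (hS : ∀ w ∈ S, G.Adj v w) (hg : ∀ w ∈ S, FinDep (side G w v) (g w))
    (hev : ∀ w ∈ S, EvenF (g w)) :
    ∫ ω, ∏ w ∈ S, g w (msgT G θ v fun x => M x ω) ∂P =
      ∏ w ∈ S, ∫ ω, g w (msgT G θ v fun x => M x ω) ∂P := by
  classical
  induction S using Finset.induction_on with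
  | empty => simp only [prod_empty, integral_const, probReal_univ, smul_eq_mul, mul_one]
  | insert w S hw ih =>
    have hadj := hS w (mem_insert_self w S)
    have ih' := ih (fun x hx => hS x (mem_insert_of_mem hx))
      (fun x hx => hg x (mem_insert_of_mem hx)) (fun x hx => hev x (mem_insert_of_mem hx))
    have hsub : ∀ x ∈ S, side G x v ⊆ side G v w := by
      intro x hx
      have hxv := hS x (mem_insert_of_mem hx)
      have hne : x ≠ w := fun h => hw (h ▸ hx)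
      exact side_mono_child hG hadj.symm (mem_nch.2 ⟨hxv, hne⟩)
    have hprod : FinDep (side G v w) (fun z => ∏ x ∈ S, g x z) :=
      FinDep.prod S fun x hx => (hg x (mem_insert_of_mem hx)).mono (hsub x hx)
    have key := hT.indep v w hadj (fun z => ∏ x ∈ S, g x z) (g w) hprod
      (hg w (mem_insert_self w S)) (hev w (mem_insert_self w S))
    have hmsg : ∀ ω, ∏ x ∈ S, g x (msgT G θ w fun x => M x ω) =
        ∏ x ∈ S, g x (msgT G θ v fun x => M x ω) := by
      intro ω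
      apply prod_congr rfl
      intro x hx
      obtain ⟨-, D, hD, hdep⟩ := hg x (mem_insert_of_mem hx)
      apply hdep
      intro y hy
      have hy1 : y ∈ side G x v := hD hy
      have hy2 : y ∈ side G v w := hsub x hx hy1
      have hyv : y ≠ v := by
        rintro rfl
        simp only [side, Set.mem_ofPred_eq, SimpleGraph.dist_self] at hy1
        omega
      unfold msgT
      rw [par_eq_of_side hG hadj.symm hy2 hyv]
    simp only [hmsg] at key
    rw [prod_insert hw, ← ih', mul_comm, ← key]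
    congr 1
    funext ω
    rw [prod_insert hw, mul_comm]

theorem TField.prodBound (hG : G.IsTree) (hreg : G.IsRegularOfDegree (b + 1)) (h0 : 0 ≤ θ)
    (h1 : θ < 1) (hT : TField G θ ρ P M) {κ : ℝ} (hκ0 : 0 ≤ κ) (hκ1 : κ ≤ 1) :
    (treeSum hreg hκ0 hκ1 (edgeFun_Xe h0 h1 hT.meas hT.bdd)).ProdBound P := by
  rintro n ⟨u, v⟩ huv s _
  have h := hT.integral_prod_children hG h0 h1 (v := v)
    (fun w z => Real.exp (s * Wz G θ (κ / b) n v w z)) (nch G u v)
    (fun w hw => (mem_nch.1 hw).1)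
    (fun w hw => (finDep_Wz hG h0 h1 (κ / b) n (mem_nch.1 hw).1).comp
      (φ := fun t => Real.exp (s * t)) (by fun_prop))
    (fun w _ z => by simp only [evenF_Wz])
  have e1 : ∀ w ∈ nch G u v, ∀ ω, Wz G θ (κ / b) n v w (msgT G θ v fun x => M x ω) =
      xf θ (tau θ (M v ω) (M w ω)) *
        TT G (κ / b) (fun u z => xf θ (tau θ (M u ω) (M z ω))) n v w := fun w hw ω =>
    Wz_msg hG h0 h1 (κ / b) (fun x => hT.bdd x ω) n (mem_nch.1 hw).1
  have e2 : ∫ ω, ∏ w ∈ nch G u v,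
        Real.exp (s * Wz G θ (κ / b) n v w (msgT G θ v fun x => M x ω)) ∂P =
      ∫ ω, ∏ w ∈ nch G u v, Real.exp (s * (xf θ (tau θ (M v ω) (M w ω)) *
        TT G (κ / b) (fun u z => xf θ (tau θ (M u ω) (M z ω))) n v w)) ∂P := by
    congr 1
    funext ω
    exact prod_congr rfl fun w hw => by rw [e1 w hw ω]
  have e3 : ∏ w ∈ nch G u v, ∫ ω,
        Real.exp (s * Wz G θ (κ / b) n v w (msgT G θ v fun x => M x ω)) ∂P =
      ∏ w ∈ nch G u v, ∫ ω, Real.exp (s * (xf θ (tau θ (M v ω) (M w ω)) *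
        TT G (κ / b) (fun u z => xf θ (tau θ (M u ω) (M z ω))) n v w)) ∂P := by
    apply prod_congr rfl
    intro w hw
    congr 1
    funext ω
    rw [e1 w hw ω]
  rw [e2, e3] at h
  have e4 : (treeSum hreg hκ0 hκ1 (edgeFun_Xe h0 h1 hT.meas hT.bdd)).ch (u, v) =
      (nch G u v).map ⟨fun z => (v, z), fun z z' h => (Prod.mk.inj h).2⟩ := rfl
  rw [e4]
  simp only [prod_map, treeSum_W]
  exact h.le

end field

end Vale.Agent.P161
end
end

section

section

/-!
# Absorbed Cauchy-Schwarz for two different parameters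
-/

open Finset

namespace Vale.Agent.P161

section theta

variable {θ θ' c t m m' : ℝ}

theorem sq_lt_one_of_le (h0 : 0 ≤ θ) (hθ : θ ≤ c) (hc : c < 1) : θ ^ 2 < 1 :=
  pow_lt_one₀ h0 (lt_of_le_of_lt hθ hc) two_ne_zero

theorem gam_le (h0 : 0 ≤ θ) (hθ : θ ≤ c) : 1 - c ^ 2 ≤ 1 - θ ^ 2 := by
  have := pow_le_pow_left₀ h0 hθ 2
  linarith

theorem gam_pos (h0 : 0 ≤ c) (hc : c < 1) : 0 < 1 - c ^ 2 := by
  have : c ^ 2 < 1 := pow_lt_one₀ h0 hc two_ne_zero
  linarith only [this]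

/-- Lipschitz dependence of the transfer factor on the parameter -/
theorem abs_theta_xf_sub_le (h0 : 0 ≤ θ) (hθ : θ ≤ c) (h0' : 0 ≤ θ') (hθ' : θ' ≤ c) (hc : c < 1)
    (ht : |t| ≤ 1) :
    |θ * xf θ t - θ' * xf θ' t| ≤ 2 / (1 - c ^ 2) * |θ - θ'| := by
  have hc0 : 0 ≤ c := h0.trans hθ
  have hγ : 0 < 1 - c ^ 2 := gam_pos hc0 hc
  have h1 := sq_lt_one_of_le h0 hθ hc
  have h1' := sq_lt_one_of_le h0' hθ' hc
  have hD := xf_den_pos h1 ht
  have hD' := xf_den_pos h1' ht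
  have ht2 : t ^ 2 ≤ 1 := by rw [← sq_abs]; exact pow_le_one₀ (abs_nonneg _) ht
  have hx1 := xf_le_one h1 ht
  have hx0 := xf_nonneg h1 ht
  have key : θ * xf θ t - θ' * xf θ' t =
      (θ - θ') * xf θ t * ((1 + θ * θ' * t ^ 2) / (1 - θ' ^ 2 * t ^ 2)) := by
    have gen : ∀ a D D' : ℝ, D ≠ 0 → D' ≠ 0 →
        θ * (a / D) - θ' * (a / D') = a * (θ * D' - θ' * D) / (D * D') := by
      intro a D D' hd hd'
      (clear * - hd' hd; field_simp)
    have e3 : θ * (1 - θ' ^ 2 * t ^ 2) - θ' * (1 - θ ^ 2 * t ^ 2) =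
        (θ - θ') * (1 + θ * θ' * t ^ 2) := by ring
    unfold xf
    have gen2 : ∀ a b e D D' : ℝ, a * (b * e) / (D * D') = b * (a / D) * (e / D') := by
      intro a b e D D'
      simp only [div_eq_mul_inv, mul_inv]
      ring
    rw [gen _ _ _ hD.ne' hD'.ne', e3, gen2]
  have h3 : |(1 + θ * θ' * t ^ 2) / (1 - θ' ^ 2 * t ^ 2)| ≤ 2 / (1 - c ^ 2) := by
    have h4 : 0 ≤ θ * θ' * t ^ 2 := by (clear * - h0 h0'; positivity)
    have h5 : θ * θ' * t ^ 2 ≤ 1 := by
      have h6 : θ * θ' ≤ 1 := by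
        have := hθ.trans hc.le
        have := hθ'.trans hc.le
        nlinarith only [hθ, hc, h0, hθ']
      have h7 : θ * θ' * t ^ 2 ≤ 1 * 1 := mul_le_mul h6 ht2 (sq_nonneg _) zero_le_one
      linarith only [h7]
    rw [abs_div, abs_of_nonneg (by linarith only [h4]), abs_of_pos hD']
    have h6 : 1 - c ^ 2 ≤ 1 - θ' ^ 2 * t ^ 2 := (gam_le h0' hθ').trans (xf_den_ge ht)
    exact div_le_div₀ (by norm_num) (by linarith only [h5]) hγ h6
  rw [key, abs_mul, abs_mul, abs_of_nonneg hx0]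
  calc |θ - θ'| * xf θ t * |(1 + θ * θ' * t ^ 2) / (1 - θ' ^ 2 * t ^ 2)|
      ≤ |θ - θ'| * 1 * (2 / (1 - c ^ 2)) :=
        mul_le_mul (mul_le_mul_of_nonneg_left hx1 (abs_nonneg _)) h3 (abs_nonneg _)
          (by (clear * -; positivity))
    _ = _ := by ring

end theta

section absorb2

variable {θ θ' c : ℝ} {m m' : ℕ → ℝ}

/-- **Absorbed Cauchy-Schwarz inequality** for two parameters. -/
theorem absorb2 (h0 : 0 ≤ θ) (hθ : θ ≤ c) (h0' : 0 ≤ θ') (hθ' : θ' ≤ c) (hc : c < 1)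
    (hm : ∀ i, |m i| ≤ 1) (hm' : ∀ i, |m' i| ≤ 1) (n : ℕ) :
    (∏ i ∈ range n, (θ * xf θ (m i)) - ∏ i ∈ range n, (θ' * xf θ' (m' i))) ^ 2 ≤
      8 / (1 - c ^ 2) ^ 3 * ∑ i ∈ range n, θ ^ (2 * (i + 1)) * θ' ^ (2 * (n - (i + 1))) *
        ((∏ j ∈ range i, xf θ (m j)) * (∏ j ∈ Ico (i + 1) n, xf θ' (m' j))) *
          (m i - m' i) ^ 2 +
      8 / (1 - c ^ 2) ^ 2 * (θ - θ') ^ 2 * n *
        ∑ i ∈ range n, θ ^ (2 * i) * θ' ^ (2 * (n - (i + 1))) *
        ((∏ j ∈ range i, xf θ (m j)) * (∏ j ∈ Ico (i + 1) n, xf θ' (m' j))) := by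
  have hc0 : 0 ≤ c := h0.trans hθ
  have hγ : 0 < 1 - c ^ 2 := gam_pos hc0 hc
  have h1 := sq_lt_one_of_le h0 hθ hc
  have h1' := sq_lt_one_of_le h0' hθ' hc
  have hγθ := gam_le h0 hθ
  have hγθ' := gam_le h0' hθ'
  set P : ℕ → ℝ := fun i => ∏ j ∈ range i, xf θ (m j) with hP
  set Q : ℕ → ℝ := fun i => ∏ j ∈ Ico (i + 1) n, xf θ' (m' j) with hQ
  have hP0 : ∀ i, 0 ≤ P i := fun i => prod_xf_nonneg h1 hm _
  have hQ0 : ∀ i, 0 ≤ Q i := fun i => prod_xf_nonneg h1' hm' _
  have hP1 : ∀ i, P i ≤ 1 := fun i => prod_xf_le_one h1 hm _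
  have hQ1 : ∀ i, Q i ≤ 1 := fun i => prod_xf_le_one h1' hm' _
  have hPQ : ∀ i, 0 ≤ P i * Q i := fun i => mul_nonneg (hP0 i) (hQ0 i)
  have hPQ1 : ∀ i, P i * Q i ≤ 1 := fun i => mul_le_one₀ (hP1 i) (hQ0 i) (hQ1 i)
  have hPθ : ∀ i, ∏ j ∈ range i, (θ * xf θ (m j)) = θ ^ i * P i := by
    intro i
    rw [prod_mul_distrib, prod_const, card_range]
  have hQθ : ∀ i, ∏ j ∈ Ico (i + 1) n, (θ' * xf θ' (m' j)) = θ' ^ (n - (i + 1)) * Q i := by
    intro i
    rw [prod_mul_distrib, prod_const, Nat.card_Ico]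
  set A : ℝ := ∑ i ∈ range n, (θ ^ (i + 1) * θ' ^ (n - (i + 1)) *
      (Real.sqrt (P i * Q i) * |m i - m' i|)) *
        (Real.sqrt (P i * Q i) * ((|m i| + |m' i|) / (1 - c ^ 2))) with hA
  set B : ℝ := ∑ i ∈ range n, (θ ^ i * θ' ^ (n - (i + 1)) * (P i * Q i)) *
      (2 / (1 - c ^ 2) * |θ - θ'|) with hB
  have hA0 : 0 ≤ A := sum_nonneg fun i _ => by (clear * - h0 h0' hγ; positivity)
  have hB0 : 0 ≤ B := sum_nonneg fun i _ =>
    mul_nonneg (mul_nonneg (by (clear * - h0 h0'; positivity)) (hPQ i)) (by (clear * - hγ; positivity))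
  -- first bound by absolute values
  have h2 : |∏ i ∈ range n, (θ * xf θ (m i)) - ∏ i ∈ range n, (θ' * xf θ' (m' i))| ≤ A + B := by
    rw [prod_sub_prod_range, hA, hB, ← sum_add_distrib]
    refine (abs_sum_le_sum_abs _ _).trans (sum_le_sum fun i _ => ?_)
    rw [hPθ, hQθ, abs_mul, abs_mul, abs_of_nonneg (mul_nonneg (pow_nonneg h0 _) (hP0 i)),
      abs_of_nonneg (mul_nonneg (pow_nonneg h0' _) (hQ0 i))]
    have h3 : |θ * xf θ (m i) - θ' * xf θ' (m' i)| ≤
        θ * (|m i - m' i| * ((|m i| + |m' i|) / (1 - c ^ 2))) +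
          2 / (1 - c ^ 2) * |θ - θ'| := by
      have e1 : θ * xf θ (m i) - θ' * xf θ' (m' i) =
          θ * (xf θ (m i) - xf θ (m' i)) + (θ * xf θ (m' i) - θ' * xf θ' (m' i)) := by ring
      rw [e1]
      refine (abs_add_le _ _).trans (add_le_add ?_ (abs_theta_xf_sub_le h0 hθ h0' hθ' hc (hm' i)))
      rw [abs_mul, abs_of_nonneg h0]
      apply mul_le_mul_of_nonneg_left _ h0
      refine (abs_xf_sub_le h1 (hm i) (hm' i)).trans ?_
      rw [mul_div_assoc]
      apply mul_le_mul_of_nonneg_left _ (abs_nonneg _)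
      exact div_le_div_of_nonneg_left (by (clear * -; positivity)) hγ hγθ
    calc θ ^ i * P i * |θ * xf θ (m i) - θ' * xf θ' (m' i)| * (θ' ^ (n - (i + 1)) * Q i)
        ≤ θ ^ i * P i * (θ * (|m i - m' i| * ((|m i| + |m' i|) / (1 - c ^ 2))) +
          2 / (1 - c ^ 2) * |θ - θ'|) * (θ' ^ (n - (i + 1)) * Q i) :=
          mul_le_mul_of_nonneg_right
            (mul_le_mul_of_nonneg_left h3 (mul_nonneg (pow_nonneg h0 _) (hP0 i)))
            (mul_nonneg (pow_nonneg h0' _) (hQ0 i))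
      _ = θ ^ (i + 1) * θ' ^ (n - (i + 1)) * (P i * Q i) *
            (|m i - m' i| * ((|m i| + |m' i|) / (1 - c ^ 2))) +
          (θ ^ i * θ' ^ (n - (i + 1)) * (P i * Q i)) * (2 / (1 - c ^ 2) * |θ - θ'|) := by
          ring
      _ = _ := by
          congr 1
          nth_rewrite 1 [← Real.mul_self_sqrt (hPQ i)]
          ring
  -- Cauchy-Schwarz for A
  have h5 : ∑ i ∈ range n, (Real.sqrt (P i * Q i) * ((|m i| + |m' i|) / (1 - c ^ 2))) ^ 2 ≤
      4 / (1 - c ^ 2) ^ 3 := by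
    have h6 : ∀ i ∈ range n, (Real.sqrt (P i * Q i) * ((|m i| + |m' i|) / (1 - c ^ 2))) ^ 2 ≤
        2 / (1 - c ^ 2) ^ 2 * (P i * m i ^ 2 + Q i * m' i ^ 2) := by
      intro i _
      rw [mul_pow, Real.sq_sqrt (hPQ i), div_pow]
      have h7 : (|m i| + |m' i|) ^ 2 ≤ 2 * (m i ^ 2 + m' i ^ 2) := by
        linarith only [sq_abs (m' i), sq_abs (m i), sq_nonneg (|m i| - |m' i|)]
      have h8 : P i * Q i * (|m i| + |m' i|) ^ 2 ≤ 2 * (P i * m i ^ 2 + Q i * m' i ^ 2) := by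
        have h9 : P i * Q i * m i ^ 2 ≤ P i * m i ^ 2 := by
          apply mul_le_mul_of_nonneg_right _ (sq_nonneg _)
          exact mul_le_of_le_one_right (hP0 i) (hQ1 i)
        have h10 : P i * Q i * m' i ^ 2 ≤ Q i * m' i ^ 2 := by
          apply mul_le_mul_of_nonneg_right _ (sq_nonneg _)
          exact mul_le_of_le_one_left (hQ0 i) (hP1 i)
        calc P i * Q i * (|m i| + |m' i|) ^ 2 ≤ P i * Q i * (2 * (m i ^ 2 + m' i ^ 2)) :=
              mul_le_mul_of_nonneg_left h7 (hPQ i)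
          _ = 2 * (P i * Q i * m i ^ 2 + P i * Q i * m' i ^ 2) := by ring
          _ ≤ _ := by linarith only [h9, h10]
      rw [mul_div_assoc', div_mul_eq_mul_div]
      exact div_le_div_of_nonneg_right h8 (by (clear * - hγ; positivity))
    refine (sum_le_sum h6).trans ?_
    rw [← mul_sum, sum_add_distrib]
    have h11 : ∑ i ∈ range n, P i * m i ^ 2 ≤ 1 / (1 - c ^ 2) :=
      (sum_prod_range_sq_le h1 hm n).trans
        (div_le_div_of_nonneg_left zero_le_one hγ hγθ)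
    have h12 : ∑ i ∈ range n, Q i * m' i ^ 2 ≤ 1 / (1 - c ^ 2) :=
      (sum_prod_Ico_sq_le h1' hm' n).trans
        (div_le_div_of_nonneg_left zero_le_one hγ hγθ')
    calc 2 / (1 - c ^ 2) ^ 2 * (∑ i ∈ range n, P i * m i ^ 2 + ∑ i ∈ range n, Q i * m' i ^ 2)
        ≤ 2 / (1 - c ^ 2) ^ 2 * (1 / (1 - c ^ 2) + 1 / (1 - c ^ 2)) :=
          mul_le_mul_of_nonneg_left (add_le_add h11 h12) (by (clear * - hγ; positivity))
      _ = 4 / (1 - c ^ 2) ^ 3 := by
          have := hγ.ne'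
          field_simp
          norm_num
  set SA : ℝ := ∑ i ∈ range n, θ ^ (2 * (i + 1)) * θ' ^ (2 * (n - (i + 1))) *
        (P i * Q i) * (m i - m' i) ^ 2 with hSA
  set SB : ℝ := ∑ i ∈ range n, θ ^ (2 * i) * θ' ^ (2 * (n - (i + 1))) * (P i * Q i) with hSB
  have h4 : ∑ i ∈ range n, (θ ^ (i + 1) * θ' ^ (n - (i + 1)) *
      (Real.sqrt (P i * Q i) * |m i - m' i|)) ^ 2 = SA := by
    apply sum_congr rfl
    intro i _
    rw [mul_pow, mul_pow, mul_pow, Real.sq_sqrt (hPQ i), sq_abs, ← pow_mul, ← pow_mul,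
      mul_comm (i + 1) 2, mul_comm (n - (i + 1)) 2]
    ring
  have hSA0 : 0 ≤ SA := by rw [← h4]; exact sum_nonneg fun i _ => sq_nonneg _
  have hAsq : A ^ 2 ≤ SA * (4 / (1 - c ^ 2) ^ 3) := by
    have h3 := sum_mul_sq_le_sq_mul_sq (range n)
      (fun i => θ ^ (i + 1) * θ' ^ (n - (i + 1)) * (Real.sqrt (P i * Q i) * |m i - m' i|))
      (fun i => Real.sqrt (P i * Q i) * ((|m i| + |m' i|) / (1 - c ^ 2)))
    rw [h4] at h3
    exact h3.trans (mul_le_mul_of_nonneg_left h5 hSA0)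
  have hBsq : B ^ 2 ≤ 4 / (1 - c ^ 2) ^ 2 * (θ - θ') ^ 2 * n * SB := by
    have h6 : B = (∑ i ∈ range n, θ ^ i * θ' ^ (n - (i + 1)) * (P i * Q i)) *
        (2 / (1 - c ^ 2) * |θ - θ'|) := by rw [hB, sum_mul]
    have h7 : (∑ i ∈ range n, θ ^ i * θ' ^ (n - (i + 1)) * (P i * Q i)) ^ 2 ≤ n * SB := by
      have h8 := sq_sum_le_card_mul_sum_sq (s := range n)
        (f := fun i => θ ^ i * θ' ^ (n - (i + 1)) * (P i * Q i))
      rw [card_range] at h8
      refine h8.trans (mul_le_mul_of_nonneg_left (sum_le_sum fun i _ => ?_) (Nat.cast_nonneg n))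
      rw [mul_pow, mul_pow, ← pow_mul, ← pow_mul, mul_comm i 2, mul_comm (n - (i + 1)) 2]
      apply mul_le_mul_of_nonneg_left _ (by (clear * - h0 h0'; positivity))
      rw [sq]
      exact mul_le_of_le_one_left (hPQ i) (hPQ1 i)
    rw [h6, mul_pow]
    calc (∑ i ∈ range n, θ ^ i * θ' ^ (n - (i + 1)) * (P i * Q i)) ^ 2 *
          (2 / (1 - c ^ 2) * |θ - θ'|) ^ 2
        ≤ (n * SB) * (2 / (1 - c ^ 2) * |θ - θ'|) ^ 2 :=
          mul_le_mul_of_nonneg_right h7 (sq_nonneg _)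
      _ = _ := by rw [mul_pow, sq_abs, div_pow]; ring
  calc (∏ i ∈ range n, (θ * xf θ (m i)) - ∏ i ∈ range n, (θ' * xf θ' (m' i))) ^ 2
      = |∏ i ∈ range n, (θ * xf θ (m i)) - ∏ i ∈ range n, (θ' * xf θ' (m' i))| ^ 2 :=
        (sq_abs _).symm
    _ ≤ (A + B) ^ 2 := pow_le_pow_left₀ (abs_nonneg _) h2 2
    _ ≤ 2 * A ^ 2 + 2 * B ^ 2 := by linarith only [sq_nonneg (A - B)]
    _ ≤ 2 * (SA * (4 / (1 - c ^ 2) ^ 3)) +
        2 * (4 / (1 - c ^ 2) ^ 2 * (θ - θ') ^ 2 * n * SB) := by linarith only [hAsq, hBsq]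
    _ = _ := by ring

end absorb2

end Vale.Agent.P161
end
end

section

section

/-!
# Module (I), part a: the pathwise inequality and the transfer to an edge
-/

open MeasureTheory Finset

namespace Vale.Agent.P161

variable {V : Type*} {G : SimpleGraph V} [G.LocallyFinite]

section pathwise

variable {θ θ' c : ℝ}

theorem xf_symm (h0 : 0 < θ) (h1 : θ < 1) {m m' : ℝ} (hm : |m| ≤ 1) (hm' : |m'| ≤ 1) :
    (1 - m ^ 2) * xf θ (tau θ m m') = (1 - m' ^ 2) * xf θ (tau θ m' m) := by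
  have h := tau_symm h0.le h1 hm hm'
  rw [rho_eq_xf, rho_eq_xf] at h
  apply mul_left_cancel₀ h0.ne'
  linarith only [h]

/-- turning a product of transfer factors around -/
theorem turn (h0 : 0 < θ) (h1 : θ < 1) {a : ℕ → ℝ} (ha : ∀ i, |a i| ≤ 1) (k : ℕ) :
    (1 - a 0 ^ 2) * ∏ i ∈ range k, xf θ (tau θ (a i) (a (i + 1))) =
      (1 - a k ^ 2) * ∏ i ∈ range k, xf θ (tau θ (a (i + 1)) (a i)) := by
  induction k with
  | zero => simp only [range_zero, prod_empty, mul_one]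
  | succ k ih =>
    rw [prod_range_succ, prod_range_succ]
    have h := xf_symm h0 h1 (ha k) (ha (k + 1))
    calc (1 - a 0 ^ 2) * ((∏ i ∈ range k, xf θ (tau θ (a i) (a (i + 1)))) *
          xf θ (tau θ (a k) (a (k + 1))))
        = ((1 - a 0 ^ 2) * ∏ i ∈ range k, xf θ (tau θ (a i) (a (i + 1)))) *
          xf θ (tau θ (a k) (a (k + 1))) := by ring
      _ = (∏ i ∈ range k, xf θ (tau θ (a (i + 1)) (a i))) *
          ((1 - a k ^ 2) * xf θ (tau θ (a k) (a (k + 1)))) := by rw [ih]; ring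
      _ = _ := by rw [h]; ring

theorem turn_le (h0 : 0 < θ) (h1 : θ < 1) {a : ℕ → ℝ} (ha : ∀ i, |a i| ≤ 1) (k : ℕ) :
    (1 - a 0 ^ 2) * ∏ i ∈ range k, xf θ (tau θ (a i) (a (i + 1))) ≤
      ∏ i ∈ range k, xf θ (tau θ (a (i + 1)) (a i)) := by
  rw [turn h0 h1 ha k]
  have h2 : 0 ≤ ∏ i ∈ range k, xf θ (tau θ (a (i + 1)) (a i)) :=
    prod_nonneg fun i _ =>
      xf_nonneg (theta_sq_lt h0.le h1) (abs_tau_le h0.le h1 (ha _) (ha _))
  exact mul_le_of_le_one_left h2 (by (by_contra nlg; linarith [mul_pos (sub_pos.2 (not_le.1 nlg)) (sub_pos.2 (not_le.1 nlg)), mul_nonneg (sq_nonneg (a k : ℝ)) (le_of_lt (sub_pos.2 (not_le.1 nlg)))]))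

/-- squared difference of the two messages along an edge -/
noncomputable def Dl (θ θ' : ℝ) (m m' : V → ℝ) (u z : V) : ℝ :=
  (tau θ (m u) (m z) - tau θ' (m' u) (m' z)) ^ 2

/-- pathwise inequality for the difference of the two covariances along a path -/
theorem covP_sub_sq_le (h0 : 0 < θ) (hθ : θ ≤ c) (h0' : 0 < θ') (hθ' : θ' ≤ c) (hc : c < 1)
    {m m' : V → ℝ} (hm : ∀ v, |m v| ≤ 1) (hm' : ∀ v, |m' v| ≤ 1) (n : ℕ) (p : ℕ → V) :
    (covP θ (fun i => m (p i)) n - covP θ' (fun i => m' (p i)) n) ^ 2 ≤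
      16 / (1 - c ^ 2) ^ 3 * ∑ i ∈ range n, θ ^ (2 * (i + 1)) * θ' ^ (2 * (n - (i + 1))) *
        PF (fun u z => xf θ (tau θ (m u) (m z))) (fun u z => xf θ' (tau θ' (m' u) (m' z)))
          (Dl θ θ' m m') n i p +
      16 / (1 - c ^ 2) ^ 2 * (θ - θ') ^ 2 * n *
        ∑ i ∈ range n, θ ^ (2 * i) * θ' ^ (2 * (n - (i + 1))) *
        PF (fun u z => xf θ (tau θ (m u) (m z))) (fun u z => xf θ' (tau θ' (m' u) (m' z)))
          (fun _ _ => 1) n i p +
      8 * ((m (p 0) - m' (p 0)) ^ 2 * (θ' ^ (2 * n) * etaP θ' (fun i => m' (p i)) n)) := by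
  have hc0 : 0 < c := h0.trans_le hθ
  have h1 : θ < 1 := lt_of_le_of_lt hθ hc
  have h1' : θ' < 1 := lt_of_le_of_lt hθ' hc
  have hγ : 0 < 1 - c ^ 2 := gam_pos hc0.le hc
  set a : ℕ → ℝ := fun i => m (p i) with ha
  set a' : ℕ → ℝ := fun i => m' (p i) with ha'
  have hb : ∀ i, |a i| ≤ 1 := fun i => hm _
  have hb' : ∀ i, |a' i| ≤ 1 := fun i => hm' _
  set Pi := ∏ i ∈ range n, (θ * xf θ (tau θ (a i) (a (i + 1)))) with hPi
  set Pi' := ∏ i ∈ range n, (θ' * xf θ' (tau θ' (a' i) (a' (i + 1)))) with hPi'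
  have e1 : covP θ a n = (1 - a 0 ^ 2) * Pi := by
    unfold covP
    simp only [rho_eq_xf]
    rfl
  have e2 : covP θ' a' n = (1 - a' 0 ^ 2) * Pi' := by
    unfold covP
    simp only [rho_eq_xf]
    rfl
  have ea : 0 ≤ 1 - a 0 ^ 2 := one_sub_sq_nonneg_of_abs (hb 0)
  have ea1 : 1 - a 0 ^ 2 ≤ 1 := by nlinarith only []
  have heta0 := etaP_nonneg (θ := θ') (a := a') h0'.le h1' hb' n
  have heta1 := etaP_le_one (θ := θ') (a := a') h0'.le h1' hb' n
  have ePi' : Pi' = θ' ^ n * etaP θ' a' n := by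
    rw [hPi', prod_mul_distrib, prod_const, card_range]
    rfl
  have ePi'2 : Pi' ^ 2 ≤ θ' ^ (2 * n) * etaP θ' a' n := by
    rw [ePi', mul_pow, ← pow_mul, mul_comm n 2]
    apply mul_le_mul_of_nonneg_left _ (by positivity)
    rw [sq]
    exact mul_le_of_le_one_left heta0 heta1
  -- first step
  have s1 : (covP θ a n - covP θ' a' n) ^ 2 ≤
      2 * ((1 - a 0 ^ 2) * (Pi - Pi') ^ 2) +
        8 * ((a 0 - a' 0) ^ 2 * (θ' ^ (2 * n) * etaP θ' a' n)) := by
    rw [e1, e2]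
    have d1 : (1 - a 0 ^ 2) * Pi - (1 - a' 0 ^ 2) * Pi' =
        (1 - a 0 ^ 2) * (Pi - Pi') + (a' 0 - a 0) * (a' 0 + a 0) * Pi' := by ring
    rw [d1]
    have d2 : ((1 - a 0 ^ 2) * (Pi - Pi') + (a' 0 - a 0) * (a' 0 + a 0) * Pi') ^ 2 ≤
        2 * ((1 - a 0 ^ 2) * (Pi - Pi')) ^ 2 +
          2 * ((a' 0 - a 0) * (a' 0 + a 0) * Pi') ^ 2 := by
      linarith only [sq_nonneg ((1 - a 0 ^ 2) * (Pi - Pi') - (a' 0 - a 0) * (a' 0 + a 0) * Pi')]
    have d3 : ((1 - a 0 ^ 2) * (Pi - Pi')) ^ 2 ≤ (1 - a 0 ^ 2) * (Pi - Pi') ^ 2 := by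
      rw [mul_pow, sq (1 - a 0 ^ 2), mul_assoc]
      exact mul_le_of_le_one_left (mul_nonneg ea (sq_nonneg _)) ea1
    have d4 : (a' 0 + a 0) ^ 2 ≤ 4 := by
      have := abs_add_le (a' 0) (a 0)
      have h2 : |a' 0 + a 0| ≤ 2 := by linarith only [this, hb 0, hb' 0]
      rw [← sq_abs]
      linarith only [mul_nonneg (sub_nonneg.2 h2) (sub_nonneg.2 (abs_nonneg (a' 0 + a 0))), mul_nonneg (sub_nonneg.2 h2) (sub_nonneg.2 h2)]
    have d5 : ((a' 0 - a 0) * (a' 0 + a 0) * Pi') ^ 2 ≤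
        4 * ((a 0 - a' 0) ^ 2 * (θ' ^ (2 * n) * etaP θ' a' n)) := by
      calc ((a' 0 - a 0) * (a' 0 + a 0) * Pi') ^ 2
          = (a 0 - a' 0) ^ 2 * ((a' 0 + a 0) ^ 2 * Pi' ^ 2) := by ring
        _ ≤ (a 0 - a' 0) ^ 2 * (4 * (θ' ^ (2 * n) * etaP θ' a' n)) := by
            apply mul_le_mul_of_nonneg_left _ (sq_nonneg _)
            exact mul_le_mul d4 ePi'2 (sq_nonneg _) (by norm_num)
        _ = _ := by ring
    linarith only [d5, d3, d2]
  -- second step
  have s2 := absorb2 h0.le hθ h0'.le hθ' hc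
    (m := fun i => tau θ (a i) (a (i + 1))) (m' := fun i => tau θ' (a' i) (a' (i + 1)))
    (fun i => abs_tau_le h0.le h1 (hb _) (hb _)) (fun i => abs_tau_le h0'.le h1' (hb' _) (hb' _)) n
  rw [← hPi, ← hPi'] at s2
  have s3 := mul_le_mul_of_nonneg_left s2 ea
  -- turning around
  have s4 : ∀ i, (1 - a 0 ^ 2) * ((∏ j ∈ range i, xf θ (tau θ (a j) (a (j + 1)))) *
      (∏ j ∈ Ico (i + 1) n, xf θ' (tau θ' (a' j) (a' (j + 1))))) ≤
      (∏ j ∈ range i, xf θ (tau θ (a (j + 1)) (a j))) *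
      (∏ j ∈ Ico (i + 1) n, xf θ' (tau θ' (a' j) (a' (j + 1)))) := by
    intro i
    rw [← mul_assoc]
    apply mul_le_mul_of_nonneg_right (turn_le h0 h1 hb i)
    exact prod_nonneg fun j _ =>
      xf_nonneg (theta_sq_lt h0'.le h1') (abs_tau_le h0'.le h1' (hb' _) (hb' _))
  have s5 : (1 - a 0 ^ 2) * ∑ i ∈ range n, θ ^ (2 * (i + 1)) * θ' ^ (2 * (n - (i + 1))) *
        ((∏ j ∈ range i, xf θ (tau θ (a j) (a (j + 1)))) *
          (∏ j ∈ Ico (i + 1) n, xf θ' (tau θ' (a' j) (a' (j + 1))))) *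
          (tau θ (a i) (a (i + 1)) - tau θ' (a' i) (a' (i + 1))) ^ 2 ≤
      ∑ i ∈ range n, θ ^ (2 * (i + 1)) * θ' ^ (2 * (n - (i + 1))) *
        PF (fun u z => xf θ (tau θ (m u) (m z))) (fun u z => xf θ' (tau θ' (m' u) (m' z)))
          (Dl θ θ' m m') n i p := by
    rw [mul_sum]
    apply sum_le_sum
    intro i _
    unfold PF Dl
    have h2 : 0 ≤ θ ^ (2 * (i + 1)) * θ' ^ (2 * (n - (i + 1))) := by positivity
    calc (1 - a 0 ^ 2) * (θ ^ (2 * (i + 1)) * θ' ^ (2 * (n - (i + 1))) *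
        ((∏ j ∈ range i, xf θ (tau θ (a j) (a (j + 1)))) *
          (∏ j ∈ Ico (i + 1) n, xf θ' (tau θ' (a' j) (a' (j + 1))))) *
          (tau θ (a i) (a (i + 1)) - tau θ' (a' i) (a' (i + 1))) ^ 2)
        = θ ^ (2 * (i + 1)) * θ' ^ (2 * (n - (i + 1))) *
          (((1 - a 0 ^ 2) * ((∏ j ∈ range i, xf θ (tau θ (a j) (a (j + 1)))) *
          (∏ j ∈ Ico (i + 1) n, xf θ' (tau θ' (a' j) (a' (j + 1)))))) *
          (tau θ (a i) (a (i + 1)) - tau θ' (a' i) (a' (i + 1))) ^ 2) := by ring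
      _ ≤ _ := by
          apply mul_le_mul_of_nonneg_left _ h2
          exact mul_le_mul_of_nonneg_right (s4 i) (sq_nonneg _)
  have s6 : (1 - a 0 ^ 2) * ∑ i ∈ range n, θ ^ (2 * i) * θ' ^ (2 * (n - (i + 1))) *
        ((∏ j ∈ range i, xf θ (tau θ (a j) (a (j + 1)))) *
          (∏ j ∈ Ico (i + 1) n, xf θ' (tau θ' (a' j) (a' (j + 1))))) ≤
      ∑ i ∈ range n, θ ^ (2 * i) * θ' ^ (2 * (n - (i + 1))) *
        PF (fun u z => xf θ (tau θ (m u) (m z))) (fun u z => xf θ' (tau θ' (m' u) (m' z)))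
          (fun _ _ => 1) n i p := by
    rw [mul_sum]
    apply sum_le_sum
    intro i _
    unfold PF
    have h2 : 0 ≤ θ ^ (2 * i) * θ' ^ (2 * (n - (i + 1))) := by positivity
    rw [mul_one]
    calc (1 - a 0 ^ 2) * (θ ^ (2 * i) * θ' ^ (2 * (n - (i + 1))) *
        ((∏ j ∈ range i, xf θ (tau θ (a j) (a (j + 1)))) *
          (∏ j ∈ Ico (i + 1) n, xf θ' (tau θ' (a' j) (a' (j + 1))))))
        = θ ^ (2 * i) * θ' ^ (2 * (n - (i + 1))) *
          ((1 - a 0 ^ 2) * ((∏ j ∈ range i, xf θ (tau θ (a j) (a (j + 1)))) *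
          (∏ j ∈ Ico (i + 1) n, xf θ' (tau θ' (a' j) (a' (j + 1)))))) := by ring
      _ ≤ _ := mul_le_mul_of_nonneg_left (s4 i) h2
  have c1 : 0 ≤ 8 / (1 - c ^ 2) ^ 3 := by (clear * - hγ; positivity)
  have c2 : 0 ≤ 8 / (1 - c ^ 2) ^ 2 * (θ - θ') ^ 2 * n := by (clear * - hγ; positivity)
  have s7 := mul_le_mul_of_nonneg_left s5 c1
  have s8 := mul_le_mul_of_nonneg_left s6 c2
  have s9 : (1 - a 0 ^ 2) * (Pi - Pi') ^ 2 ≤
      8 / (1 - c ^ 2) ^ 3 * ∑ i ∈ range n, θ ^ (2 * (i + 1)) * θ' ^ (2 * (n - (i + 1))) *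
        PF (fun u z => xf θ (tau θ (m u) (m z))) (fun u z => xf θ' (tau θ' (m' u) (m' z)))
          (Dl θ θ' m m') n i p +
      8 / (1 - c ^ 2) ^ 2 * (θ - θ') ^ 2 * n *
        ∑ i ∈ range n, θ ^ (2 * i) * θ' ^ (2 * (n - (i + 1))) *
        PF (fun u z => xf θ (tau θ (m u) (m z))) (fun u z => xf θ' (tau θ' (m' u) (m' z)))
          (fun _ _ => 1) n i p := by
    refine s3.trans ?_
    rw [mul_add]
    refine add_le_add ?_ ?_
    · rw [mul_left_comm]; exact s7
    · rw [mul_left_comm]; exact s8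
  calc (covP θ a n - covP θ' a' n) ^ 2 ≤ _ := s1
    _ ≤ _ := by
      have e3 : 16 / (1 - c ^ 2) ^ 3 = 2 * (8 / (1 - c ^ 2) ^ 3) := by ring
      have e4 : 16 / (1 - c ^ 2) ^ 2 = 2 * (8 / (1 - c ^ 2) ^ 2) := by ring
      rw [e3, e4]
      have e5 : (a 0 - a' 0) = m (p 0) - m' (p 0) := rfl
      rw [e5]
      linarith only [s3, s7, s8]

end pathwise

section inv

variable {Ω : Type*} [MeasurableSpace Ω] {P : Measure Ω} {M M' : V → Ω → ℝ}

/-- the marked path functional has the same expectation for all paths of the same length -/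
theorem integral_PF_inv (hM : ∀ v, Measurable (M v)) (hM' : ∀ v, Measurable (M' v))
    (hinv : PInv G P M M') (hG : G.IsTree) {d : ℕ} (hreg : G.IsRegularOfDegree d) (θ θ' : ℝ)
    {φ : ℝ × ℝ × ℝ × ℝ → ℝ} (hφ : Measurable φ) {r i : ℕ} (hi : i < r) {p q : ℕ → V}
    (hp : NBPath G r p) (hq : NBPath G r q) :
    ∫ ω, PF (fun u z => Xe θ M u z ω) (fun u z => Xe θ' M' u z ω)
        (fun u z => φ (M u ω, M z ω, M' u ω, M' z ω)) r i p ∂P =
      ∫ ω, PF (fun u z => Xe θ M u z ω) (fun u z => Xe θ' M' u z ω)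
        (fun u z => φ (M u ω, M z ω, M' u ω, M' z ω)) r i q ∂P := by
  set K : (ℕ → ℝ) × (ℕ → ℝ) → ℝ := fun z =>
    (∏ j ∈ range i, xf θ (tau θ (z.1 (j + 1)) (z.1 j))) *
      (∏ j ∈ Ico (i + 1) r, xf θ' (tau θ' (z.2 j) (z.2 (j + 1)))) *
      φ (z.1 i, z.1 (i + 1), z.2 i, z.2 (i + 1)) with hK
  have m1 : ∀ j, Measurable fun z : (ℕ → ℝ) × (ℕ → ℝ) => z.1 j := fun j =>
    (measurable_pi_apply j).comp measurable_fst
  have m2 : ∀ j, Measurable fun z : (ℕ → ℝ) × (ℕ → ℝ) => z.2 j := fun j =>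
    (measurable_pi_apply j).comp measurable_snd
  have hKm : Measurable K := by
    refine ((Finset.measurable_fun_prod _ fun j _ => ?_).mul
      (Finset.measurable_fun_prod _ fun j _ => ?_)).mul (hφ.comp ?_)
    · exact measurable_xf (measurable_tau (m1 _) (m1 _) θ) θ
    · exact measurable_xf (measurable_tau (m2 _) (m2 _) θ') θ'
    · exact (m1 _).prodMk ((m1 _).prodMk ((m2 _).prodMk (m2 _)))
  exact PInv.path hM hM' hinv hG hreg hp hq hKm (by
    intro a a' b b' h1 h2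
    simp only [hK]
    have e1 : ∏ j ∈ range i, xf θ (tau θ (a (j + 1)) (a j)) =
        ∏ j ∈ range i, xf θ (tau θ (a' (j + 1)) (a' j)) := by
      apply prod_congr rfl
      intro j hj
      rw [mem_range] at hj
      rw [h1 _ (by omega), h1 _ (by omega)]
    have e2 : ∏ j ∈ Ico (i + 1) r, xf θ' (tau θ' (b j) (b (j + 1))) =
        ∏ j ∈ Ico (i + 1) r, xf θ' (tau θ' (b' j) (b' (j + 1))) := by
      apply prod_congr rfl
      intro j hj
      rw [mem_Ico] at hj
      rw [h2 _ (by omega), h2 _ (by omega)]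
    rw [e1, e2, h1 _ (by omega), h1 _ (by omega), h2 _ (by omega), h2 _ (by omega)])

end inv

end Vale.Agent.P161
end
end

section

section

/-!
# Module (I), part b: summation over spheres
-/

open MeasureTheory Finset

namespace Vale.Agent.P161

variable {V : Type*} {G : SimpleGraph V} [G.LocallyFinite]

section numeric

theorem sum_diag_le {f : ℕ → ℕ → ℝ} (hf : ∀ i j, 0 ≤ f i j) (N : ℕ) :
    ∑ n ∈ range N, ∑ i ∈ range (n + 1), f i (n - i) ≤ ∑ i ∈ range N, ∑ j ∈ range N, f i j := by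
  rw [sum_range_diag_flip]
  apply sum_le_sum
  intro i _
  exact sum_le_sum_of_subset_of_nonneg (range_subset_range.2 (Nat.sub_le N i))
    fun j _ _ => hf i j

theorem sum_succ_mul_pow_le {r : ℝ} (h0 : 0 ≤ r) (h1 : r < 1) (N : ℕ) :
    ∑ i ∈ range N, ((i : ℝ) + 1) * r ^ i ≤ 1 / (1 - r) ^ 2 := by
  have hp : 0 < 1 - r := by linarith
  have key : (∑ i ∈ range N, ((i : ℝ) + 1) * r ^ i) * (1 - r) ^ 2 =
      1 - (N + 1) * r ^ N + N * r ^ (N + 1) := by
    induction N with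
    | zero => simp
    | succ N ih =>
      rw [sum_range_succ, add_mul, ih]
      push_cast
      ring
  rw [le_div_iff₀ (by positivity), key]
  have h2 : N * r ^ (N + 1) ≤ (N + 1) * r ^ N := by
    rw [pow_succ]
    have h3 : 0 ≤ r ^ N := pow_nonneg h0 N
    have h4 : r ^ N * r ≤ r ^ N := mul_le_of_le_one_right h3 h1.le
    have h5 : (0 : ℝ) ≤ N := Nat.cast_nonneg N
    nlinarith only [h3, h4]
  linarith only [h2]

theorem sqrt_rate {R : ℝ} (h1 : R ≤ 1) : R / 2 ≤ 1 - Real.sqrt (1 - R) := by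
  have h2 : 0 ≤ 1 - R := by linarith
  have h3 := Real.sq_sqrt h2
  have h4 := Real.sqrt_nonneg (1 - R)
  linarith only [sq_nonneg (Real.sqrt (1 - R) - 1), h3]

end numeric

section sums

variable {Ω : Type*} [MeasurableSpace Ω] {P : Measure Ω} [IsProbabilityMeasure P] {b : ℕ}
  {X X' D : V → V → Ω → ℝ} {CD : ℝ}

theorem integrable_D_LL (hreg : G.IsRegularOfDegree (b + 1)) (hX : EdgeFun X 1)
    (hX' : EdgeFun X' 1) (hD : EdgeFun D CD) {u w : V} (huw : G.Adj u w) (k l : ℕ) :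
    Integrable (fun ω => D u w ω * LL G (fun u z => X u z ω) k w u *
        LL G (fun u z => X' u z ω) l u w) P := by
  refine Integrable.of_bound (((hD.meas u w).mul
    (measurable_LL hX k w u)).mul (measurable_LL hX' l u w)).aestronglyMeasurable
    (CD * (b : ℝ) ^ k * (b : ℝ) ^ l) (Filter.Eventually.of_forall fun ω => ?_)
  have e1 := hD.nonneg u w ω
  have e2 := hD.le u w ω
  have e3 := LL_nonneg (G := G) (fun u z => hX.nonneg u z ω) k w u
  have e4 := LL_nonneg (G := G) (fun u z => hX'.nonneg u z ω) l u w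
  have e5 := LL_le hreg (fun u z => hX.nonneg u z ω) (fun u z => hX.le u z ω) k w u huw.symm
  have e6 := LL_le hreg (fun u z => hX'.nonneg u z ω) (fun u z => hX'.le u z ω) l u w huw
  rw [Real.norm_eq_abs, abs_of_nonneg (mul_nonneg (mul_nonneg e1 e3) e4)]
  exact mul_le_mul (mul_le_mul e2 e5 e3 (e1.trans e2)) e6 e4
    (mul_nonneg (e1.trans e2) (by (clear * -; positivity)))

/-- the sum over a sphere of the marked path functional is bounded by the functional around one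
edge -/
theorem sphere_term (hG : G.IsTree) (hreg : G.IsRegularOfDegree (b + 1)) (hX : EdgeFun X 1)
    (hX' : EdgeFun X' 1) (hD : EdgeFun D CD)
    (hinv : ∀ r i, i < r → ∀ p q : ℕ → V, NBPath G r p → NBPath G r q →
      ∫ ω, PF (fun u z => X u z ω) (fun u z => X' u z ω) (fun u z => D u z ω) r i p ∂P =
      ∫ ω, PF (fun u z => X u z ω) (fun u z => X' u z ω) (fun u z => D u z ω) r i q ∂P)
    {u w : V} (huw : G.Adj u w) (o : V) {n i : ℕ} (hi : i ≤ n) :
    ∑ v ∈ sph hG.connected o (n + 1),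
      ∫ ω, PF (fun u z => X u z ω) (fun u z => X' u z ω) (fun u z => D u z ω)
        (n + 1) i (geo G o v) ∂P ≤
      (b + 1) * ∫ ω, D u w ω * LL G (fun u z => X u z ω) i w u *
        LL G (fun u z => X' u z ω) (n - i) u w ∂P := by
  have hr : 0 ≤ ∫ ω, D u w ω * LL G (fun u z => X u z ω) i w u *
        LL G (fun u z => X' u z ω) (n - i) u w ∂P :=
    integral_nonneg fun ω => mul_nonneg (mul_nonneg (hD.nonneg u w ω)
      (LL_nonneg (fun u z => hX.nonneg u z ω) i w u))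
      (LL_nonneg (fun u z => hX'.nonneg u z ω) (n - i) u w)
  rcases (sph hG.connected o (n + 1)).eq_empty_or_nonempty with h | ⟨v0, hv0⟩
  · rw [h, sum_empty]
    (clear * - hr; positivity)
  · rw [mem_sph] at hv0
    have hnb : ∀ v, G.dist o v = n + 1 → NBPath G (n + 1) (geo G o v) := by
      intro v hv
      have := nbPath_geo hG o v
      rwa [hv] at this
    set B := ∫ ω, PF (fun u z => X u z ω) (fun u z => X' u z ω) (fun u z => D u z ω)
        (n + 1) i (geo G o v0) ∂P with hB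
    have hB0 : 0 ≤ B := integral_nonneg fun ω => PF_nonneg hX hX' hD _ _ _ ω
    have e1 : ∑ v ∈ sph hG.connected o (n + 1),
        ∫ ω, PF (fun u z => X u z ω) (fun u z => X' u z ω) (fun u z => D u z ω)
        (n + 1) i (geo G o v) ∂P = (sph hG.connected o (n + 1)).card * B := by
      rw [← nsmul_eq_mul, ← sum_const]
      apply sum_congr rfl
      intro v hv
      rw [mem_sph] at hv
      exact hinv (n + 1) i (by omega) _ _ (hnb v hv) (hnb v0 hv0)
    have e2 : ((sph hG.connected o (n + 1)).card : ℝ) ≤ (b + 1) * (b : ℝ) ^ n := by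
      have := card_sph_le hG (d := b + 1) hreg o n
      rw [Nat.add_sub_cancel] at this
      exact_mod_cast this
    have e3 : (b : ℝ) ^ n * B = ∫ ω, D u w ω * LL G (fun u z => X u z ω) i w u *
        LL G (fun u z => X' u z ω) (n - i) u w ∂P := by
      have hq : NBPath G (i + (n - i) + 1) (geo G o v0) := by
        rw [show i + (n - i) + 1 = n + 1 by omega]
        exact hnb v0 hv0
      have h := swap_edge (P := P) hreg hX hX' hD hinv huw i (n - i) hq
      rw [show i + (n - i) = n by omega] at h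
      exact h
    rw [e1, ← e3]
    calc ((sph hG.connected o (n + 1)).card : ℝ) * B ≤ ((b + 1) * (b : ℝ) ^ n) * B :=
          mul_le_mul_of_nonneg_right e2 hB0
      _ = _ := by ring

/-- all spheres up to radius `N`, weighted -/
theorem ball_sum (hG : G.IsTree) (hreg : G.IsRegularOfDegree (b + 1)) (hX : EdgeFun X 1)
    (hX' : EdgeFun X' 1) (hD : EdgeFun D CD)
    (hinv : ∀ r i, i < r → ∀ p q : ℕ → V, NBPath G r p → NBPath G r q →
      ∫ ω, PF (fun u z => X u z ω) (fun u z => X' u z ω) (fun u z => D u z ω) r i p ∂P =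
      ∫ ω, PF (fun u z => X u z ω) (fun u z => X' u z ω) (fun u z => D u z ω) r i q ∂P)
    {u w : V} (huw : G.Adj u w) (o : V) {q q' : ℝ} (hq : 0 ≤ q) (hq' : 0 ≤ q') (N : ℕ) :
    ∑ n ∈ range N, ∑ v ∈ sph hG.connected o (n + 1), ∑ i ∈ range (n + 1),
      q ^ i * q' ^ (n - i) *
      ∫ ω, PF (fun u z => X u z ω) (fun u z => X' u z ω) (fun u z => D u z ω)
        (n + 1) i (geo G o v) ∂P ≤
      (b + 1) * ∫ ω, D u w ω * TT G q (fun u z => X u z ω) N w u *
        TT G q' (fun u z => X' u z ω) N u w ∂P := by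
  set F : ℕ → ℕ → ℝ := fun i j => q ^ i * q' ^ j *
    ∫ ω, D u w ω * LL G (fun u z => X u z ω) i w u * LL G (fun u z => X' u z ω) j u w ∂P with hF
  have hF0 : ∀ i j, 0 ≤ F i j := fun i j => mul_nonneg (by (clear * - hq hq'; positivity))
    (integral_nonneg fun ω => mul_nonneg (mul_nonneg (hD.nonneg u w ω)
      (LL_nonneg (fun u z => hX.nonneg u z ω) i w u))
      (LL_nonneg (fun u z => hX'.nonneg u z ω) j u w))
  have h1 : ∀ n ∈ range N, ∑ v ∈ sph hG.connected o (n + 1), ∑ i ∈ range (n + 1),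
      q ^ i * q' ^ (n - i) *
      ∫ ω, PF (fun u z => X u z ω) (fun u z => X' u z ω) (fun u z => D u z ω)
        (n + 1) i (geo G o v) ∂P ≤ (b + 1) * ∑ i ∈ range (n + 1), F i (n - i) := by
    intro n _
    rw [sum_comm, mul_sum]
    apply sum_le_sum
    intro i hi
    rw [mem_range] at hi
    rw [← mul_sum]
    have h2 := sphere_term (P := P) hG hreg hX hX' hD hinv huw o (n := n) (i := i) (by omega)
    have h3 := mul_le_mul_of_nonneg_left h2 (show 0 ≤ q ^ i * q' ^ (n - i) by (clear * - hq hq'; positivity))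
    refine h3.trans (le_of_eq ?_)
    rw [hF]
    ring
  refine (sum_le_sum h1).trans ?_
  rw [← mul_sum]
  apply mul_le_mul_of_nonneg_left _ (by (clear * -; positivity))
  refine (sum_diag_le hF0 N).trans (le_of_eq ?_)
  have h4 : ∀ ω, D u w ω * TT G q (fun u z => X u z ω) N w u *
        TT G q' (fun u z => X' u z ω) N u w =
      ∑ i ∈ range N, ∑ j ∈ range N, q ^ i * q' ^ j *
        (D u w ω * LL G (fun u z => X u z ω) i w u * LL G (fun u z => X' u z ω) j u w) := by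
    intro ω
    unfold TT
    rw [mul_assoc, sum_mul_sum, mul_sum]
    apply sum_congr rfl
    intro i _
    rw [mul_sum]
    apply sum_congr rfl
    intro j _
    ring
  simp only [h4]
  rw [integral_finsetSum]
  · apply sum_congr rfl
    intro i _
    rw [integral_finsetSum]
    · apply sum_congr rfl
      intro j _
      rw [hF, integral_const_mul]
    · intro j _
      exact (integrable_D_LL hreg hX hX' hD huw i j).const_mul _
  · intro i _
    exact integrable_finsetSum _ fun j _ =>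
      (integrable_D_LL hreg hX hX' hD huw i j).const_mul _

/-- only the first edge marked -/
theorem ball_sum_zero (hG : G.IsTree) (hreg : G.IsRegularOfDegree (b + 1)) (hX : EdgeFun X 1)
    (hX' : EdgeFun X' 1) (hD : EdgeFun D CD)
    (hinv : ∀ r i, i < r → ∀ p q : ℕ → V, NBPath G r p → NBPath G r q →
      ∫ ω, PF (fun u z => X u z ω) (fun u z => X' u z ω) (fun u z => D u z ω) r i p ∂P =
      ∫ ω, PF (fun u z => X u z ω) (fun u z => X' u z ω) (fun u z => D u z ω) r i q ∂P)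
    {u w : V} (huw : G.Adj u w) (o : V) {q' : ℝ} (hq' : 0 ≤ q') (N : ℕ) :
    ∑ n ∈ range N, ∑ v ∈ sph hG.connected o (n + 1), q' ^ n *
      ∫ ω, PF (fun u z => X u z ω) (fun u z => X' u z ω) (fun u z => D u z ω)
        (n + 1) 0 (geo G o v) ∂P ≤
      (b + 1) * ∫ ω, D u w ω * TT G q' (fun u z => X' u z ω) N u w ∂P := by
  have h1 : ∀ n ∈ range N, ∑ v ∈ sph hG.connected o (n + 1), q' ^ n *
      ∫ ω, PF (fun u z => X u z ω) (fun u z => X' u z ω) (fun u z => D u z ω)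
        (n + 1) 0 (geo G o v) ∂P ≤ (b + 1) * ∫ ω, q' ^ n * (D u w ω *
          LL G (fun u z => X' u z ω) n u w) ∂P := by
    intro n _
    rw [← mul_sum, integral_const_mul]
    have h2 := sphere_term (P := P) hG hreg hX hX' hD hinv huw o (n := n) (i := 0) (by omega)
    simp only [LL_zero, mul_one, Nat.sub_zero] at h2
    have h3 := mul_le_mul_of_nonneg_left h2 (show 0 ≤ q' ^ n by (clear * - hq'; positivity))
    refine h3.trans (le_of_eq ?_)
    ring
  refine (sum_le_sum h1).trans (le_of_eq ?_)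
  rw [← mul_sum]
  congr 1
  have h4 : ∀ ω, D u w ω * TT G q' (fun u z => X' u z ω) N u w =
      ∑ n ∈ range N, q' ^ n * (D u w ω * LL G (fun u z => X' u z ω) n u w) := by
    intro ω
    unfold TT
    rw [mul_sum]
    apply sum_congr rfl
    intro i _
    ring
  simp only [h4]
  rw [integral_finsetSum]
  intro n _
  have := integrable_D_LL (P := P) hreg hX hX' hD huw 0 n
  simp only [LL_zero, mul_one] at this
  exact this.const_mul _

end sums

section decay

variable {θ ρ : ℝ} {Ω : Type*} [MeasurableSpace Ω] {P : Measure Ω}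
  [IsProbabilityMeasure P] {M : V → Ω → ℝ} {b : ℕ}

theorem integrable_X_LL (hreg : G.IsRegularOfDegree (b + 1)) {X : V → V → Ω → ℝ}
    (hX : EdgeFun X 1) (k : ℕ) {v w : V} (hvw : G.Adj v w) :
    Integrable (fun ω => X v w ω * LL G (fun u z => X u z ω) k v w) P := by
  refine Integrable.of_bound ((hX.meas v w).mul (measurable_LL hX k v w)).aestronglyMeasurable
    ((b : ℝ) ^ k) (Filter.Eventually.of_forall fun ω => ?_)
  have e3 := LL_nonneg (G := G) (fun u z => hX.nonneg u z ω) k v w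
  have e5 := LL_le hreg (fun u z => hX.nonneg u z ω) (fun u z => hX.le u z ω) k v w hvw
  rw [Real.norm_eq_abs, abs_of_nonneg (mul_nonneg (hX.nonneg v w ω) e3)]
  calc X v w ω * LL G (fun u z => X u z ω) k v w ≤ 1 * (b : ℝ) ^ k :=
        mul_le_mul (hX.le v w ω) e5 e3 zero_le_one
    _ = _ := one_mul _

theorem TField.integral_X_LL_le (hG : G.IsTree) (hb : 1 ≤ b)
    (hreg : G.IsRegularOfDegree (b + 1)) (h0 : 0 ≤ θ) (h1 : θ < 1) (hρ : ρ ≤ 1)
    (hT : TField G θ ρ P M) (k : ℕ) : ∀ v w : V, G.Adj v w →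
    ∫ ω, Xe θ M v w ω * LL G (fun u z => Xe θ M u z ω) k v w ∂P ≤
      (b : ℝ) ^ k * (1 - ρ) ^ (k + 1) := by
  have hX := edgeFun_Xe h0 h1 hT.meas hT.bdd
  induction k with
  | zero =>
    intro v w hvw
    obtain ⟨y, hy, hne⟩ := exists_other (d := b + 1) (by omega) hreg v w
    have h := hT.step v w y hvw hy hne (fun _ => 1) (finDep_const _ 1)
      (fun z => rfl) (fun z _ => by norm_num)
    simp only [mul_one, integral_const, smul_eq_mul, probReal_univ] at h
    simp only [LL_zero, mul_one, pow_zero, one_mul, zero_add, pow_one]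
    exact h
  | succ k ih =>
    intro v w hvw
    have e1 : ∀ ω, Xe θ M v w ω * LL G (fun u z => Xe θ M u z ω) (k + 1) v w =
        ∑ y ∈ nch G v w, Xe θ M v w ω *
          (Xe θ M w y ω * LL G (fun u z => Xe θ M u z ω) k w y) := by
      intro ω
      rw [LL_succ, mul_sum]
    simp only [e1]
    have hint : ∀ y ∈ nch G v w, Integrable (fun ω => Xe θ M v w ω *
          (Xe θ M w y ω * LL G (fun u z => Xe θ M u z ω) k w y)) P := by
      intro y hy
      refine (integrable_X_LL (P := P) hreg hX k (mem_nch.1 hy).1).bdd_mul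
        (c := 1) (hX.meas v w).aestronglyMeasurable (Filter.Eventually.of_forall fun ω => ?_)
      rw [Real.norm_eq_abs, abs_of_nonneg (hX.nonneg v w ω)]
      exact hX.le v w ω
    rw [integral_finsetSum _ hint]
    have h2 : ∀ y ∈ nch G v w, ∫ ω, Xe θ M v w ω *
          (Xe θ M w y ω * LL G (fun u z => Xe θ M u z ω) k w y) ∂P ≤
        (1 - ρ) * ((b : ℝ) ^ k * (1 - ρ) ^ (k + 1)) := by
      intro y hy
      have hy' := mem_nch.1 hy
      have h := hT.step v w y hvw hy'.1 (Ne.symm hy'.2)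
        (fun z => xfc θ (z y) * LL G (fun _ y => xfc θ (z y)) k w y)
        (((finDep_eval (mem_side_child hy'.1)).comp (continuous_xfc h0 h1)).mul
          (finDep_LL hG h0 h1 k w y hy'.1))
        (fun z => by simp only [xfc_neg])
        (fun z _ => mul_nonneg (xfc_nonneg h0 h1 _)
          (LL_nonneg (fun _ _ => xfc_nonneg h0 h1 _) k w y))
      have e2 : ∀ ω, xfc θ (msgT G θ w (fun x => M x ω) y) *
          LL G (fun _ y => xfc θ (msgT G θ w (fun x => M x ω) y)) k w y =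
          Xe θ M w y ω * LL G (fun u z => Xe θ M u z ω) k w y := by
        intro ω
        have hd : G.dist w y = G.dist w w + 1 := by
          rw [SimpleGraph.dist_self, SimpleGraph.dist_eq_one_iff_adj.2 hy'.1]
        have hp : par G w y = w := by
          have h2 := par_spec hG hy'.1.ne
          exact adj_dist_unique hG h2.1 hy'.1 h2.2 hd.symm
        rw [LL_msg hG h0 h1 (fun v => hT.bdd v ω) w k w y hy'.1 hd]
        congr 1
        unfold msgT Xe
        rw [hp]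
        exact xfc_of_abs (abs_tau_le h0 h1 (hT.bdd _ _) (hT.bdd _ _))
      simp only [e2] at h
      refine h.trans ?_
      exact mul_le_mul_of_nonneg_left (ih w y hy'.1) (by linarith only [hρ])
    refine (sum_le_sum h2).trans (le_of_eq ?_)
    rw [sum_const, card_nch hreg hvw, nsmul_eq_mul]
    ring

theorem TField.integral_LL_le (hG : G.IsTree) (hb : 1 ≤ b)
    (hreg : G.IsRegularOfDegree (b + 1)) (h0 : 0 ≤ θ) (h1 : θ < 1) (hρ : ρ ≤ 1)
    (hT : TField G θ ρ P M) (k : ℕ) {v w : V} (hvw : G.Adj v w) :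
    ∫ ω, LL G (fun u z => Xe θ M u z ω) k v w ∂P ≤ ((b : ℝ) * (1 - ρ)) ^ k := by
  have hX := edgeFun_Xe h0 h1 hT.meas hT.bdd
  cases k with
  | zero => simp only [LL_zero, integral_const, probReal_univ, smul_eq_mul, mul_one, pow_zero, Std.le_refl]
  | succ k =>
    simp only [LL_succ]
    rw [integral_finsetSum _ fun y hy => integrable_X_LL hreg hX k (mem_nch.1 hy).1]
    refine (sum_le_sum fun y hy =>
      hT.integral_X_LL_le hG hb hreg h0 h1 hρ k w y (mem_nch.1 hy).1).trans (le_of_eq ?_)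
    rw [sum_const, card_nch hreg hvw, nsmul_eq_mul, mul_pow]
    ring

end decay

end Vale.Agent.P161
end
end

section

section

/-!
# Module (I), part c: the single sum, the swap and the tails at the level of `TField`
-/

open MeasureTheory Finset

namespace Vale.Agent.P161

variable {V : Type*} {G : SimpleGraph V} [G.LocallyFinite]

section swap

variable {Ω : Type*} [MeasurableSpace Ω] {P : Measure Ω} {M M' : V → Ω → ℝ}

omit [G.LocallyFinite] in
theorem PInv.symm (hM : ∀ v, Measurable (M v)) (hM' : ∀ v, Measurable (M' v))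
    (h : PInv G P M M') : PInv G P M' M := by
  intro g
  have m1 : Measurable fun ω => ((fun v => M (g v) ω, fun v => M' (g v) ω) : (V → ℝ) × (V → ℝ)) :=
    (measurable_pi_lambda _ fun v => hM (g v)).prodMk (measurable_pi_lambda _ fun v => hM' (g v))
  have m2 : Measurable fun ω => ((fun v => M v ω, fun v => M' v ω) : (V → ℝ) × (V → ℝ)) :=
    (measurable_pi_lambda _ fun v => hM v).prodMk (measurable_pi_lambda _ fun v => hM' v)
  have h2 := congrArg (Measure.map Prod.swap) (h g)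
  rw [Measure.map_map measurable_swap m1, Measure.map_map measurable_swap m2] at h2
  exact h2

/-- the swap of the two ends of a path -/
theorem swap_covT {θ' : ℝ} (h0 : 0 ≤ θ') (h1 : θ' < 1) (hM : ∀ v, Measurable (M v))
    (hM' : ∀ v, Measurable (M' v)) (hb' : ∀ v ω, |M' v ω| ≤ 1) (hinv : PInv G P M M')
    (hG : G.IsTree) {d : ℕ} (hreg : G.IsRegularOfDegree d) (o v : V) :
    ∫ ω, covT G θ' (fun x => M' x ω) o v ^ 2 * (M v ω - M' v ω) ^ 2 ∂P =
      ∫ ω, covT G θ' (fun x => M' x ω) o v ^ 2 * (M o ω - M' o ω) ^ 2 ∂P := by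
  set n := G.dist o v with hn
  have hp := nbPath_geo hG o v
  rw [← hn] at hp
  have hq := hp.reverse
  set K : (ℕ → ℝ) × (ℕ → ℝ) → ℝ := fun z => covP θ' z.2 n ^ 2 * (z.1 n - z.2 n) ^ 2 with hK
  have m1 : ∀ j, Measurable fun z : (ℕ → ℝ) × (ℕ → ℝ) => z.1 j := fun j =>
    (measurable_pi_apply j).comp measurable_fst
  have m2 : ∀ j, Measurable fun z : (ℕ → ℝ) × (ℕ → ℝ) => z.2 j := fun j =>
    (measurable_pi_apply j).comp measurable_snd
  have hKm : Measurable K := by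
    refine (Measurable.pow_const ?_ 2).mul (((m1 n).sub (m2 n)).pow_const 2)
    simp only [covP_eq]
    refine (measurable_const.sub ((m2 0).pow_const 2)).mul (Measurable.const_mul ?_ _)
    unfold etaP
    exact Finset.measurable_fun_prod _ fun j _ =>
      measurable_xf (measurable_tau (m2 _) (m2 _) θ') θ'
  have key := PInv.path hM hM' hinv hG hreg hp hq hKm (by
    intro a a' b b' h2 h3
    simp only [hK]
    rw [h2 n le_rfl, h3 n le_rfl]
    congr 2
    unfold covP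
    rw [h3 0 (Nat.zero_le _)]
    congr 1
    apply prod_congr rfl
    intro j hj
    rw [mem_range] at hj
    rw [h3 _ (by omega), h3 _ (by omega)])
  simp only [hK] at key
  have e1 : geo G o v n = v := geo_dist o v
  have e2 : geo G o v (n - n) = o := by rw [Nat.sub_self]; exact geo_zero hG o v
  rw [e1, e2] at key
  have e3 : ∀ ω, covP θ' (fun i => M' (geo G o v (n - i)) ω) n =
      covP θ' (fun i => M' (geo G o v i) ω) n := fun ω =>
    covP_reverse (a := fun i => M' (geo G o v i) ω) h0 h1 (fun i => hb' _ ω) n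
  simp only [e3] at key
  exact key

end swap

/-- finite sums are bounded by sums over spheres -/
theorem sum_le_spheres (hG : G.IsTree) (o : V) (A : Finset V) {g : V → ℝ} (hg : ∀ v, 0 ≤ g v) :
    ∃ N : ℕ, ∑ v ∈ A, g v ≤ g o + ∑ n ∈ range N, ∑ v ∈ sph hG.connected o (n + 1), g v := by
  classical
  set N := A.sup (fun v => G.dist o v) with hN
  refine ⟨N, ?_⟩
  have h1 : ∑ v ∈ A, g v = ∑ n ∈ range (N + 1), ∑ v ∈ A with G.dist o v = n, g v := by
    symm
    apply sum_fiberwise_of_maps_to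
    intro v hv
    rw [mem_range, Nat.lt_succ_iff]
    exact le_sup (f := fun v => G.dist o v) hv
  rw [h1, sum_range_succ']
  rw [add_comm]
  refine add_le_add ?_ (sum_le_sum fun n _ => ?_)
  · calc ∑ v ∈ A with G.dist o v = 0, g v ≤ ∑ v ∈ {o}, g v := by
          apply sum_le_sum_of_subset_of_nonneg
          · intro v hv
            rw [mem_filter] at hv
            rw [mem_singleton]
            exact (hG.connected.dist_eq_zero_iff.1 hv.2).symm
          · intro v _ _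
            exact hg v
      _ = g o := sum_singleton _ _
  · apply sum_le_sum_of_subset_of_nonneg
    · intro v hv
      rw [mem_filter] at hv
      rw [mem_sph]
      exact hv.2
    · intro v _ _
      exact hg v

/-- the bound of the tail -/
noncomputable def EE (b : ℕ) (R t : ℝ) (m : ℕ) : ℝ :=
  t ^ 2 * Real.exp (-((b : ℝ) ^ (m + 1) * (R / 2 * (t - (m + 1)) - Real.log 2)))

theorem EE_nonneg (b : ℕ) (R t : ℝ) (m : ℕ) : 0 ≤ EE b R t m := by unfold EE; positivity

section tail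

variable {θ ρ : ℝ} {Ω : Type*} [MeasurableSpace Ω] {P : Measure Ω}
  [IsProbabilityMeasure P] {M : V → Ω → ℝ} {b : ℕ}

theorem TField.integral_tail (hG : G.IsTree) (hb : 0 < b)
    (hreg : G.IsRegularOfDegree (b + 1)) (h0 : 0 ≤ θ) (h1 : θ < 1) (hκ : b * θ ^ 2 ≤ 1)
    (hρ0 : 0 ≤ ρ) (hρ1 : ρ ≤ 1) {R : ℝ} (hR0 : 0 < R) (hR : R ≤ 1 - b * θ ^ 2 * (1 - ρ))
    (hT : TField G θ ρ P M) {v w : V} (hvw : G.Adj v w) (N m : ℕ) {t : ℝ}
    (ht : 4 / R ≤ t) (htm : (m : ℝ) + 1 ≤ t) :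
    ∫ ω, (if t ≤ TT G (θ ^ 2) (fun u z => Xe θ M u z ω) (N + 1) v w then
      TT G (θ ^ 2) (fun u z => Xe θ M u z ω) (N + 1) v w ^ 2 else 0) ∂P ≤ EE b R t m := by
  have hb' : (b : ℝ) ≠ 0 := by positivity
  have hκ0 : (0 : ℝ) ≤ b * θ ^ 2 := by (clear * - hb; positivity)
  have hX := edgeFun_Xe h0 h1 hT.meas hT.bdd
  have hS1 := hT.oneStep hG hreg h0 h1 hκ0 hκ
  have hS2 := hT.prodBound hG hreg h0 h1 hκ0 hκ
  have hRR : 0 < 1 - b * θ ^ 2 * (1 - ρ) := lt_of_lt_of_le hR0 hR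
  have ht' : 4 / (1 - b * θ ^ 2 * (1 - ρ)) ≤ t :=
    (div_le_div_of_nonneg_left (by norm_num) hR0 hR).trans ht
  have key := (treeSum hreg hκ0 hκ hX).integral_sq_tail_Vf (P := P) hb hρ0 hρ1 hRR hS1 hS2 m N
    (y := (v, w)) hvw ht'
  have e1 : (b : ℝ) * θ ^ 2 / b = θ ^ 2 := by (clear * - hb'; field_simp)
  simp only [treeSum_Vf, e1] at key
  refine key.trans ?_
  unfold EE
  apply mul_le_mul_of_nonneg_left _ (sq_nonneg _)
  apply Real.exp_le_exp.2
  apply neg_le_neg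
  apply mul_le_mul_of_nonneg_left _ (by positivity)
  have h2 : R / 2 * (t - (m + 1)) ≤ (1 - b * θ ^ 2 * (1 - ρ)) / 2 * (t - (m + 1)) :=
    mul_le_mul_of_nonneg_right (by linarith only [hR]) (by linarith only [htm])
  (clear * - h2; linarith)

theorem TField.integrable_tail (hreg : G.IsRegularOfDegree (b + 1)) (h0 : 0 ≤ θ) (h1 : θ < 1)
    (hT : TField G θ ρ P M) {v w : V} (hvw : G.Adj v w) (N : ℕ) (t : ℝ) :
    Integrable (fun ω => if t ≤ TT G (θ ^ 2) (fun u z => Xe θ M u z ω) (N + 1) v w then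
      TT G (θ ^ 2) (fun u z => Xe θ M u z ω) (N + 1) v w ^ 2 else 0) P := by
  have hX := edgeFun_Xe h0 h1 hT.meas hT.bdd
  have hm := measurable_TT (G := G) hX (θ ^ 2) (N + 1) v w
  have hle : ∀ ω, TT G (θ ^ 2) (fun u z => Xe θ M u z ω) (N + 1) v w ≤
      ∑ k ∈ range (N + 1), (θ ^ 2) ^ k * (b : ℝ) ^ k := fun ω =>
    sum_le_sum fun k _ => mul_le_mul_of_nonneg_left
      (LL_le hreg (fun u z => hX.nonneg u z ω) (fun u z => hX.le u z ω) k v w hvw) (by (clear * -; positivity))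
  refine Integrable.of_bound (Measurable.ite (measurableSet_le measurable_const hm)
    (hm.pow_const 2) measurable_const).aestronglyMeasurable
    ((∑ k ∈ range (N + 1), (θ ^ 2) ^ k * (b : ℝ) ^ k) ^ 2) (Filter.Eventually.of_forall fun ω => ?_)
  have h2 := TT_nonneg (G := G) (sq_nonneg θ) (fun u z => hX.nonneg u z ω) (N + 1) v w
  split_ifs with h
  · rw [Real.norm_eq_abs, abs_of_nonneg (sq_nonneg _)]
    exact pow_le_pow_left₀ h2 (hle ω) 2
  · rw [norm_zero]
    (clear * -; positivity)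

end tail

section single

variable {θ' ρ' : ℝ} {Ω : Type*} [MeasurableSpace Ω] {P : Measure Ω}
  [IsProbabilityMeasure P] {M M' : V → Ω → ℝ} {b : ℕ}

theorem integrable_sub_sq (hM : ∀ v, Measurable (M v)) (hM' : ∀ v, Measurable (M' v))
    (hb : ∀ v ω, |M v ω| ≤ 1) (hb' : ∀ v ω, |M' v ω| ≤ 1) (o : V) :
    Integrable (fun ω => (M o ω - M' o ω) ^ 2) P :=
  integrable_of_bdd (((hM o).sub (hM' o)).pow_const 2) (C := 4) fun ω => by
    rw [abs_of_nonneg (sq_nonneg _)]
    have h1 := abs_sub (M o ω) (M' o ω)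
    have h2 : |M o ω - M' o ω| ≤ 2 := by linarith [hb o ω, hb' o ω]
    rw [← sq_abs]
    linarith only [mul_nonneg (sub_nonneg.2 h2) (sub_nonneg.2 (abs_nonneg (M o ω - M' o ω))), mul_nonneg (sub_nonneg.2 h2) (sub_nonneg.2 h2)]

/-- the sum with one system -/
theorem single_V (hG : G.IsTree) (hb : 0 < b) (hreg : G.IsRegularOfDegree (b + 1))
    (h0 : 0 < θ') (h1 : θ' < 1) (hκ : b * θ' ^ 2 ≤ 1)
    (hρ0 : 0 ≤ ρ') (hρ1 : ρ' ≤ 1) {R : ℝ} (hR0 : 0 < R) (hR : R ≤ 1 - b * θ' ^ 2 * (1 - ρ'))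
    (hM : ∀ v, Measurable (M v)) (hbM : ∀ v ω, |M v ω| ≤ 1)
    (hT : TField G θ' ρ' P M') (hinv : PInv G P M M') (o : V) (A : Finset V) (m : ℕ) {t : ℝ}
    (ht1 : 1 ≤ t) (ht : 4 / R ≤ t) (htm : (m : ℝ) + 1 ≤ t) :
    ∑ v ∈ A, ∫ ω, (M o ω - M' o ω) ^ 2 *
      (θ' ^ (2 * G.dist o v) * etaP θ' (fun i => M' (geo G o v i) ω) (G.dist o v)) ∂P ≤
      (b + 2) * (t * ∫ ω, (M o ω - M' o ω) ^ 2 ∂P + 4 * EE b R t m) := by
  set F := ∫ ω, (M o ω - M' o ω) ^ 2 ∂P with hF
  have hF0 : 0 ≤ F := integral_nonneg fun ω => sq_nonneg _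
  have hE0 := EE_nonneg b R t m
  have hX := edgeFun_Xe h0.le h1 hT.meas hT.bdd
  have hD4 : ∀ u ω, (M u ω - M' u ω) ^ 2 ≤ 4 := by
    intro u ω
    have h2 := abs_sub (M u ω) (M' u ω)
    have h3 : |M u ω - M' u ω| ≤ 2 := by linarith only [h2, hbM u ω, hT.bdd u ω]
    rw [← sq_abs]
    linarith only [mul_nonneg (sub_nonneg.2 h3) (sub_nonneg.2 (abs_nonneg (M u ω - M' u ω))), mul_nonneg (sub_nonneg.2 h3) (sub_nonneg.2 h3)]
  obtain ⟨w, how, -⟩ := exists_other (d := b + 1) (by omega) hreg o o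
  -- the marked edge function
  set φ : ℝ × ℝ × ℝ × ℝ → ℝ := fun z => (z.1 - z.2.2.1) ^ 2 * xf θ' (tau θ' z.2.2.1 z.2.2.2) with hφ
  have hφm : Measurable φ := by
    refine ((measurable_fst.sub ?_).pow_const 2).mul (measurable_xf (measurable_tau ?_ ?_ θ') θ')
    · exact measurable_fst.comp (measurable_snd.comp measurable_snd)
    · exact measurable_fst.comp (measurable_snd.comp measurable_snd)
    · exact measurable_snd.comp (measurable_snd.comp measurable_snd)
  have hD : EdgeFun (fun u z ω => φ (M u ω, M z ω, M' u ω, M' z ω)) 4 := by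
    refine ⟨fun u z => hφm.comp ((hM u).prodMk ((hM z).prodMk ((hT.meas u).prodMk (hT.meas z)))),
      fun u z ω => mul_nonneg (sq_nonneg _) (hX.nonneg u z ω), fun u z ω => ?_⟩
    calc (M u ω - M' u ω) ^ 2 * xf θ' (tau θ' (M' u ω) (M' z ω)) ≤ 4 * 1 :=
          mul_le_mul (hD4 u ω) (hX.le u z ω) (hX.nonneg u z ω) (by norm_num)
      _ = 4 := by norm_num
  have hXM := edgeFun_Xe (θ := θ') h0.le h1 hM hbM
  obtain ⟨N, hN⟩ := sum_le_spheres hG o A (g := fun v => ∫ ω, (M o ω - M' o ω) ^ 2 *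
      (θ' ^ (2 * G.dist o v) * etaP θ' (fun i => M' (geo G o v i) ω) (G.dist o v)) ∂P)
    (fun v => integral_nonneg fun ω => mul_nonneg (sq_nonneg _)
      (mul_nonneg (by (clear * - h0; positivity)) (etaP_nonneg h0.le h1 (fun i => hT.bdd _ ω) _)))
  refine hN.trans ?_
  have key := ball_sum_zero (P := P) hG hreg hXM hX hD
    (fun r i hi p q hp hq => integral_PF_inv hM hT.meas hinv hG hreg θ' θ' hφm hi hp hq)
    how o (sq_nonneg θ') N
  -- the root term
  have e0 : ∫ ω, (M o ω - M' o ω) ^ 2 *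
      (θ' ^ (2 * G.dist o o) * etaP θ' (fun i => M' (geo G o o i) ω) (G.dist o o)) ∂P = F := by
    simp only [SimpleGraph.dist_self, mul_zero, pow_zero, etaP, range_zero, prod_empty, mul_one, hF]
  -- terms on spheres
  have e1 : ∀ n, ∀ v ∈ sph hG.connected o (n + 1), ∫ ω, (M o ω - M' o ω) ^ 2 *
      (θ' ^ (2 * G.dist o v) * etaP θ' (fun i => M' (geo G o v i) ω) (G.dist o v)) ∂P =
      θ' ^ 2 * ((θ' ^ 2) ^ n * ∫ ω, PF (fun u z => Xe θ' M u z ω) (fun u z => Xe θ' M' u z ω)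
        (fun u z => φ (M u ω, M z ω, M' u ω, M' z ω)) (n + 1) 0 (geo G o v) ∂P) := by
    intro n v hv
    rw [mem_sph] at hv
    rw [hv, ← integral_const_mul, ← integral_const_mul]
    congr 1
    funext ω
    unfold PF etaP
    rw [range_zero, prod_empty, one_mul, zero_add, prod_range_eq_mul_Ico _ (Nat.succ_pos n)]
    simp only [geo_zero hG, Xe, hφ]
    rw [show θ' ^ (2 * (n + 1)) = θ' ^ 2 * (θ' ^ 2) ^ n by rw [← pow_mul, ← pow_add]; ring_nf]
    ring
  rw [e0, sum_congr rfl fun n _ => sum_congr rfl (e1 n)]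
  have e2 : ∑ n ∈ range N, ∑ v ∈ sph hG.connected o (n + 1), θ' ^ 2 * ((θ' ^ 2) ^ n *
      ∫ ω, PF (fun u z => Xe θ' M u z ω) (fun u z => Xe θ' M' u z ω)
        (fun u z => φ (M u ω, M z ω, M' u ω, M' z ω)) (n + 1) 0 (geo G o v) ∂P) ≤
      (b + 1) * ∫ ω, φ (M o ω, M w ω, M' o ω, M' w ω) *
        TT G (θ' ^ 2) (fun u z => Xe θ' M' u z ω) N o w ∂P := by
    have h2 : θ' ^ 2 ≤ 1 := pow_le_one₀ h0.le h1.le
    have h3 : 0 ≤ (b + 1 : ℝ) * ∫ ω, φ (M o ω, M w ω, M' o ω, M' w ω) *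
        TT G (θ' ^ 2) (fun u z => Xe θ' M' u z ω) N o w ∂P :=
      mul_nonneg (by positivity) (integral_nonneg fun ω => mul_nonneg (hD.nonneg o w ω)
        (TT_nonneg (sq_nonneg _) (fun u z => hX.nonneg u z ω) N o w))
    simp only [← mul_sum]
    simp only [← mul_sum] at key
    exact (mul_le_mul_of_nonneg_left key (sq_nonneg θ')).trans (mul_le_of_le_one_left h3 h2)
  -- pointwise bound
  have hI1 := integrable_sub_sq (P := P) hM hT.meas hbM hT.bdd o
  have hI2 := hT.integrable_tail hreg h0.le h1 how N t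
  have e3 : ∫ ω, φ (M o ω, M w ω, M' o ω, M' w ω) *
        TT G (θ' ^ 2) (fun u z => Xe θ' M' u z ω) N o w ∂P ≤
      ∫ ω, (t * (M o ω - M' o ω) ^ 2 + 4 *
        (if t ≤ TT G (θ' ^ 2) (fun u z => Xe θ' M' u z ω) (N + 1) o w then
      TT G (θ' ^ 2) (fun u z => Xe θ' M' u z ω) (N + 1) o w ^ 2 else 0)) ∂P := by
    apply integral_mono_of_nonneg
    · exact Filter.Eventually.of_forall fun ω => mul_nonneg (hD.nonneg o w ω)
        (TT_nonneg (sq_nonneg _) (fun u z => hX.nonneg u z ω) N o w)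
    · exact (hI1.const_mul _).add (hI2.const_mul _)
    · refine Filter.Eventually.of_forall fun ω => ?_
      simp only
      have g1 := TT_mono (G := G) (sq_nonneg θ') (fun u z => hX.nonneg u z ω) (Nat.le_succ N) o w
      have g0 := TT_nonneg (G := G) (sq_nonneg θ') (fun u z => hX.nonneg u z ω) N o w
      have g2 : φ (M o ω, M w ω, M' o ω, M' w ω) ≤ (M o ω - M' o ω) ^ 2 :=
        mul_le_of_le_one_right (sq_nonneg _) (hX.le o w ω)
      have g3 := hD4 o ω
      have g4 := sq_nonneg (M o ω - M' o ω)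
      set W := TT G (θ' ^ 2) (fun u z => Xe θ' M' u z ω) (N + 1) o w with hW
      have g5 : φ (M o ω, M w ω, M' o ω, M' w ω) *
          TT G (θ' ^ 2) (fun u z => Xe θ' M' u z ω) N o w ≤ (M o ω - M' o ω) ^ 2 * W :=
        mul_le_mul g2 g1 g0 g4
      refine g5.trans ?_
      split_ifs with h
      · have g6 : (M o ω - M' o ω) ^ 2 * W ≤ 4 * W ^ 2 := by
          have : W ≤ W ^ 2 := by nlinarith only [ht1, h]
          linarith only [mul_nonneg (sq_nonneg (M o ω - M' o ω : ℝ)) (sub_nonneg.2 this), mul_nonneg (sq_nonneg (W : ℝ)) (sub_nonneg.2 g3)]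
        nlinarith only [g6, ht1]
      · push Not at h
        have g6 : (M o ω - M' o ω) ^ 2 * W ≤ (M o ω - M' o ω) ^ 2 * t :=
          mul_le_mul_of_nonneg_left h.le g4
        linarith only [g6]
  have e4 : ∫ ω, (t * (M o ω - M' o ω) ^ 2 + 4 *
        (if t ≤ TT G (θ' ^ 2) (fun u z => Xe θ' M' u z ω) (N + 1) o w then
      TT G (θ' ^ 2) (fun u z => Xe θ' M' u z ω) (N + 1) o w ^ 2 else 0)) ∂P ≤
      t * F + 4 * EE b R t m := by
    rw [integral_add (hI1.const_mul _) (hI2.const_mul _), integral_const_mul, integral_const_mul]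
    have h3 := hT.integral_tail hG hb hreg h0.le h1 hκ hρ0 hρ1 hR0 hR how N m ht htm
    linarith only [h3]
  have e5 := mul_le_mul_of_nonneg_left (e3.trans e4) (show (0 : ℝ) ≤ b + 1 by positivity)
  have e6 : F ≤ t * F + 4 * EE b R t m := by
    have h5 : F ≤ t * F := le_mul_of_one_le_left hF0 ht1
    linarith only [hE0, h5]
  have e7 : (b + 2 : ℝ) * (t * F + 4 * EE b R t m) =
      (t * F + 4 * EE b R t m) + (b + 1) * (t * F + 4 * EE b R t m) := by ring
  rw [e7]
  exact add_le_add e6 (e2.trans e5)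

end single

end Vale.Agent.P161
end
end

section

section

/-!
# Step (II): the single sum, linear in the cut-off, and the two groups of terms
-/

open MeasureTheory Finset

namespace Vale.Agent.P161

variable {V : Type*} {G : SimpleGraph V} [G.LocallyFinite]

section single

variable {θ' ρ' : ℝ} {Ω : Type*} [MeasurableSpace Ω] {P : Measure Ω}
  [IsProbabilityMeasure P] {M M' : V → Ω → ℝ} {b : ℕ}

/-- the pointwise bound used in `single_V_lin` -/
theorem lin_pt {D4 W t : ℝ} (h0 : 0 ≤ D4) (h4 : D4 ≤ 4) (ht : 1 ≤ t) (hW : 0 ≤ W) :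
    D4 * W ≤ t * D4 + 4 * (if t ≤ W then W ^ 2 else 0) := by
  split_ifs with h
  · have g6 : D4 * W ≤ 4 * W ^ 2 := by
      have : W ≤ W ^ 2 := by nlinarith
      calc D4 * W ≤ 4 * W := mul_le_mul_of_nonneg_right h4 hW
        _ ≤ 4 * W ^ 2 := by linarith only [this]
    have : 0 ≤ t * D4 := mul_nonneg (by linarith) h0
    linarith
  · push Not at h
    have g6 : D4 * W ≤ D4 * t := mul_le_mul_of_nonneg_left h.le h0
    linarith only [g6]

/-- the sum with one system, linear version -/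
theorem single_V_lin (hG : G.IsTree) (hb : 0 < b) (hreg : G.IsRegularOfDegree (b + 1))
    (h0 : 0 < θ') (h1 : θ' < 1) (hκ : b * θ' ^ 2 ≤ 1)
    (hρ0 : 0 ≤ ρ') (hρ1 : ρ' ≤ 1) {R : ℝ} (hR0 : 0 < R) (hR : R ≤ 1 - b * θ' ^ 2 * (1 - ρ'))
    (hM : ∀ v, Measurable (M v)) (hbM : ∀ v ω, |M v ω| ≤ 1)
    (hT : TField G θ' ρ' P M') (hinv : PInv G P M M') (o : V) (A : Finset V) (m : ℕ) {t : ℝ}
    (ht1 : 1 ≤ t) (ht : 4 / R ≤ t) (htm : (m : ℝ) + 1 ≤ t) :
    ∑ v ∈ A, ∫ ω, (M o ω - M' o ω) ^ 2 *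
      (θ' ^ (2 * G.dist o v) * etaP θ' (fun i => M' (geo G o v i) ω) (G.dist o v)) ∂P ≤
      (b + 2) * (t * ∫ ω, (M o ω - M' o ω) ^ 2 ∂P + 4 * EE b R t m) := by
  set F := ∫ ω, (M o ω - M' o ω) ^ 2 ∂P with hF
  have hF0 : 0 ≤ F := integral_nonneg fun ω => sq_nonneg _
  have hE0 := EE_nonneg b R t m
  have hX := edgeFun_Xe h0.le h1 hT.meas hT.bdd
  have hD4 : ∀ u ω, (M u ω - M' u ω) ^ 2 ≤ 4 := by
    intro u ω
    have h2 := abs_sub (M u ω) (M' u ω)
    have h3 : |M u ω - M' u ω| ≤ 2 := by linarith only [h2, hbM u ω, hT.bdd u ω]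
    rw [← sq_abs]
    linarith only [mul_nonneg (sub_nonneg.2 h3) (sub_nonneg.2 (abs_nonneg (M u ω - M' u ω))), mul_nonneg (sub_nonneg.2 h3) (sub_nonneg.2 h3)]
  obtain ⟨w, how, -⟩ := exists_other (d := b + 1) (by omega) hreg o o
  -- the marked edge function
  set φ : ℝ × ℝ × ℝ × ℝ → ℝ := fun z => (z.1 - z.2.2.1) ^ 2 * xf θ' (tau θ' z.2.2.1 z.2.2.2) with hφ
  have hφm : Measurable φ := by
    refine ((measurable_fst.sub ?_).pow_const 2).mul (measurable_xf (measurable_tau ?_ ?_ θ') θ')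
    · exact measurable_fst.comp (measurable_snd.comp measurable_snd)
    · exact measurable_fst.comp (measurable_snd.comp measurable_snd)
    · exact measurable_snd.comp (measurable_snd.comp measurable_snd)
  have hD : EdgeFun (fun u z ω => φ (M u ω, M z ω, M' u ω, M' z ω)) 4 := by
    refine ⟨fun u z => hφm.comp ((hM u).prodMk ((hM z).prodMk ((hT.meas u).prodMk (hT.meas z)))),
      fun u z ω => mul_nonneg (sq_nonneg _) (hX.nonneg u z ω), fun u z ω => ?_⟩
    calc (M u ω - M' u ω) ^ 2 * xf θ' (tau θ' (M' u ω) (M' z ω)) ≤ 4 * 1 :=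
          mul_le_mul (hD4 u ω) (hX.le u z ω) (hX.nonneg u z ω) (by norm_num)
      _ = 4 := by norm_num
  have hXM := edgeFun_Xe (θ := θ') h0.le h1 hM hbM
  obtain ⟨N, hN⟩ := sum_le_spheres hG o A (g := fun v => ∫ ω, (M o ω - M' o ω) ^ 2 *
      (θ' ^ (2 * G.dist o v) * etaP θ' (fun i => M' (geo G o v i) ω) (G.dist o v)) ∂P)
    (fun v => integral_nonneg fun ω => mul_nonneg (sq_nonneg _)
      (mul_nonneg (by positivity) (etaP_nonneg h0.le h1 (fun i => hT.bdd _ ω) _)))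
  refine hN.trans ?_
  have key := ball_sum_zero (P := P) hG hreg hXM hX hD
    (fun r i hi p q hp hq => integral_PF_inv hM hT.meas hinv hG hreg θ' θ' hφm hi hp hq)
    how o (sq_nonneg θ') N
  -- the root term
  have e0 : ∫ ω, (M o ω - M' o ω) ^ 2 *
      (θ' ^ (2 * G.dist o o) * etaP θ' (fun i => M' (geo G o o i) ω) (G.dist o o)) ∂P = F := by
    simp only [SimpleGraph.dist_self, mul_zero, pow_zero, etaP, range_zero, prod_empty, mul_one, hF]
  -- terms on spheres
  have e1 : ∀ n, ∀ v ∈ sph hG.connected o (n + 1), ∫ ω, (M o ω - M' o ω) ^ 2 *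
      (θ' ^ (2 * G.dist o v) * etaP θ' (fun i => M' (geo G o v i) ω) (G.dist o v)) ∂P =
      θ' ^ 2 * ((θ' ^ 2) ^ n * ∫ ω, PF (fun u z => Xe θ' M u z ω) (fun u z => Xe θ' M' u z ω)
        (fun u z => φ (M u ω, M z ω, M' u ω, M' z ω)) (n + 1) 0 (geo G o v) ∂P) := by
    intro n v hv
    rw [mem_sph] at hv
    rw [hv, ← integral_const_mul, ← integral_const_mul]
    congr 1
    funext ω
    unfold PF etaP
    rw [range_zero, prod_empty, one_mul, zero_add, prod_range_eq_mul_Ico _ (Nat.succ_pos n)]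
    simp only [geo_zero hG, hφ, Xe]
    rw [show θ' ^ (2 * (n + 1)) = θ' ^ 2 * (θ' ^ 2) ^ n by rw [← pow_mul, ← pow_add]; ring_nf]
    ring
  rw [e0, sum_congr rfl fun n _ => sum_congr rfl (e1 n)]
  have e2 : ∑ n ∈ range N, ∑ v ∈ sph hG.connected o (n + 1), θ' ^ 2 * ((θ' ^ 2) ^ n *
      ∫ ω, PF (fun u z => Xe θ' M u z ω) (fun u z => Xe θ' M' u z ω)
        (fun u z => φ (M u ω, M z ω, M' u ω, M' z ω)) (n + 1) 0 (geo G o v) ∂P) ≤
      (b + 1) * ∫ ω, φ (M o ω, M w ω, M' o ω, M' w ω) *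
        TT G (θ' ^ 2) (fun u z => Xe θ' M' u z ω) N o w ∂P := by
    have h2 : θ' ^ 2 ≤ 1 := pow_le_one₀ h0.le h1.le
    have h3 : 0 ≤ (b + 1 : ℝ) * ∫ ω, φ (M o ω, M w ω, M' o ω, M' w ω) *
        TT G (θ' ^ 2) (fun u z => Xe θ' M' u z ω) N o w ∂P :=
      mul_nonneg (by positivity) (integral_nonneg fun ω => mul_nonneg (hD.nonneg o w ω)
        (TT_nonneg (sq_nonneg _) (fun u z => hX.nonneg u z ω) N o w))
    simp only [← mul_sum]
    simp only [← mul_sum] at key
    exact (mul_le_mul_of_nonneg_left key (sq_nonneg θ')).trans (mul_le_of_le_one_left h3 h2)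
  -- pointwise bound
  have hI1 := integrable_sub_sq (P := P) hM hT.meas hbM hT.bdd o
  have hI2 := hT.integrable_tail hreg h0.le h1 how N t
  have e3 : ∫ ω, φ (M o ω, M w ω, M' o ω, M' w ω) *
        TT G (θ' ^ 2) (fun u z => Xe θ' M' u z ω) N o w ∂P ≤
      ∫ ω, (t * (M o ω - M' o ω) ^ 2 + 4 *
        (if t ≤ TT G (θ' ^ 2) (fun u z => Xe θ' M' u z ω) (N + 1) o w then
      TT G (θ' ^ 2) (fun u z => Xe θ' M' u z ω) (N + 1) o w ^ 2 else 0)) ∂P := by
    apply integral_mono_of_nonneg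
    · exact Filter.Eventually.of_forall fun ω => mul_nonneg (hD.nonneg o w ω)
        (TT_nonneg (sq_nonneg _) (fun u z => hX.nonneg u z ω) N o w)
    · exact (hI1.const_mul _).add (hI2.const_mul _)
    · refine Filter.Eventually.of_forall fun ω => ?_
      simp only
      have g1 := TT_mono (G := G) (sq_nonneg θ') (fun u z => hX.nonneg u z ω) (Nat.le_succ N) o w
      have g0 := TT_nonneg (G := G) (sq_nonneg θ') (fun u z => hX.nonneg u z ω) N o w
      have g2 : φ (M o ω, M w ω, M' o ω, M' w ω) ≤ (M o ω - M' o ω) ^ 2 :=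
        mul_le_of_le_one_right (sq_nonneg _) (hX.le o w ω)
      have g4 := sq_nonneg (M o ω - M' o ω)
      have g5 : φ (M o ω, M w ω, M' o ω, M' w ω) *
          TT G (θ' ^ 2) (fun u z => Xe θ' M' u z ω) N o w ≤ (M o ω - M' o ω) ^ 2 *
          TT G (θ' ^ 2) (fun u z => Xe θ' M' u z ω) (N + 1) o w :=
        mul_le_mul g2 g1 g0 g4
      exact g5.trans (lin_pt g4 (hD4 o ω) ht1 (g0.trans g1))
  have e4 : ∫ ω, (t * (M o ω - M' o ω) ^ 2 + 4 *
        (if t ≤ TT G (θ' ^ 2) (fun u z => Xe θ' M' u z ω) (N + 1) o w then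
      TT G (θ' ^ 2) (fun u z => Xe θ' M' u z ω) (N + 1) o w ^ 2 else 0)) ∂P ≤
      t * F + 4 * EE b R t m := by
    rw [integral_add (hI1.const_mul _) (hI2.const_mul _), integral_const_mul, integral_const_mul]
    have h3 := hT.integral_tail hG hb hreg h0.le h1 hκ hρ0 hρ1 hR0 hR how N m ht htm
    linarith only [h3]
  have e5 := mul_le_mul_of_nonneg_left (e3.trans e4) (show (0 : ℝ) ≤ b + 1 by positivity)
  have e6 : F ≤ t * F + 4 * EE b R t m := by
    have h5 : F ≤ t * F := le_mul_of_one_le_left hF0 ht1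
    linarith only [hE0, h5]
  have e7 : (b + 2 : ℝ) * (t * F + 4 * EE b R t m) =
      (t * F + 4 * EE b R t m) + (b + 1) * (t * F + 4 * EE b R t m) := by ring
  rw [e7]
  exact add_le_add e6 (e2.trans e5)

end single

section groups

variable {θ θ' ρ ρ' : ℝ} {Ω : Type*} [MeasurableSpace Ω] {P : Measure Ω}
  [IsProbabilityMeasure P] {M M' : V → Ω → ℝ} {b : ℕ}

theorem integral_sq_mul_Vr_eq (hG : G.IsTree) (hM : ∀ v, Measurable (M v))
    (hM' : ∀ v, Measurable (M' v)) (hb : ∀ v ω, |M v ω| ≤ 1) (hb' : ∀ v ω, |M' v ω| ≤ 1)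
    (h0 : 0 ≤ θ) (h1 : θ < 1) (o : V) (R : ℕ) :
    ∃ A : Finset V, ∫ ω, (M o ω - M' o ω) ^ 2 * Vr hG θ (fun x => M x ω) o R ∂P =
      ∑ v ∈ A, ∫ ω, (M o ω - M' o ω) ^ 2 *
      (θ ^ (2 * G.dist o v) * etaP θ (fun i => M (geo G o v i) ω) (G.dist o v)) ∂P := by
  classical
  have i1 : ∀ (n : ℕ) (v : V), Integrable (fun ω => (M o ω - M' o ω) ^ 2
      * ((θ ^ 2) ^ n * etaP θ (fun i => M (geo G o v i) ω) n)) P := by
    intro n v
    refine integrable_of_bdd ((((hM o).sub (hM' o)).pow_const 2).mul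
      ((measurable_etaP hM θ _ n).const_mul _)) (C := 4 * (θ ^ 2) ^ n) fun ω => ?_
    have a0 := etaP_nonneg (a := fun i => M (geo G o v i) ω) h0 h1 (fun i => hb _ ω) n
    have a1 := etaP_le_one (a := fun i => M (geo G o v i) ω) h0 h1 (fun i => hb _ ω) n
    have h2 : (M o ω - M' o ω) ^ 2 ≤ 4 := by
      have h3 := abs_le.1 (hb o ω)
      have h4 := abs_le.1 (hb' o ω)
      nlinarith only [h3, h4]
    rw [abs_of_nonneg (by (clear * - a0; positivity))]
    exact mul_le_mul h2 (mul_le_of_le_one_right (by (clear * -; positivity)) a1) (by (clear * - a0; positivity)) (by norm_num)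
  refine ⟨(range R).biUnion fun n => sph hG.connected o n, ?_⟩
  have e1 : ∀ ω, (M o ω - M' o ω) ^ 2 * Vr hG θ (fun x => M x ω) o R
      = ∑ n ∈ range R, ∑ v ∈ sph hG.connected o n, (M o ω - M' o ω) ^ 2
      * ((θ ^ 2) ^ n * etaP θ (fun i => M (geo G o v i) ω) n) := by
    intro ω
    unfold Vr
    rw [Finset.mul_sum]
    refine Finset.sum_congr rfl fun n _ => ?_
    rw [Finset.mul_sum, Finset.mul_sum]
  simp only [e1]
  rw [integral_finsetSum _ fun n _ => integrable_finsetSum _ fun v _ => i1 n v]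
  rw [Finset.sum_biUnion]
  · refine Finset.sum_congr rfl fun n _ => ?_
    rw [integral_finsetSum _ fun v _ => i1 n v]
    refine Finset.sum_congr rfl fun v hv => ?_
    rw [mem_sph] at hv
    rw [hv, pow_mul]
  · intro n _ n' _ hnn
    rw [Function.onFun, Finset.disjoint_left]
    intro v hv hv'
    rw [mem_sph] at hv hv'
    exact hnn (hv.symm.trans hv')

/-- the `V`-terms of the first group -/
theorem integral_Vr_le (hG : G.IsTree) (hb : 0 < b) (hreg : G.IsRegularOfDegree (b + 1))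
    (h0 : 0 < θ) (h1 : θ < 1) (hκ : b * θ ^ 2 ≤ 1)
    (hρ0 : 0 ≤ ρ) (hρ1 : ρ ≤ 1) {R : ℝ} (hR0 : 0 < R) (hR : R ≤ 1 - b * θ ^ 2 * (1 - ρ))
    (hT : TField G θ ρ P M) (hM' : ∀ v, Measurable (M' v)) (hbM' : ∀ v ω, |M' v ω| ≤ 1)
    (hinv : PInv G P M M') (o : V) (n m : ℕ) {t : ℝ}
    (ht1 : 1 ≤ t) (ht : 4 / R ≤ t) (htm : (m : ℝ) + 1 ≤ t) :
    ∫ ω, (M o ω - M' o ω) ^ 2 * Vr hG θ (fun x => M x ω) o n ∂P ≤
      (b + 2) * (t * ∫ ω, (M o ω - M' o ω) ^ 2 ∂P + 4 * EE b R t m) := by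
  obtain ⟨A, hA⟩ := integral_sq_mul_Vr_eq (P := P) hG hT.meas hM' hT.bdd hbM' h0.le h1 o n
  rw [hA]
  have h2 := single_V_lin hG hb hreg h0 h1 hκ hρ0 hρ1 hR0 hR hM' hbM' hT
    (hinv.symm hT.meas hM') o A m ht1 ht htm
  have e : ∀ ω, (M' o ω - M o ω) ^ 2 = (M o ω - M' o ω) ^ 2 := fun ω => by ring
  simp only [e] at h2
  exact h2

/-- the second group of terms -/
theorem group2_le (hG : G.IsTree) (hb : 0 < b) (hreg : G.IsRegularOfDegree (b + 1))
    (h0 : 0 < θ') (h1 : θ' < 1) (hκ : b * θ' ^ 2 ≤ 1)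
    (hρ0 : 0 ≤ ρ') (hρ1 : ρ' ≤ 1) {R : ℝ} (hR0 : 0 < R) (hR : R ≤ 1 - b * θ' ^ 2 * (1 - ρ'))
    (hM : ∀ v, Measurable (M v)) (hbM : ∀ v ω, |M v ω| ≤ 1)
    (hT : TField G θ' ρ' P M') (hinv : PInv G P M M') (o : V) (A : Finset V) (m : ℕ) {t : ℝ}
    (ht1 : 1 ≤ t) (ht : 4 / R ≤ t) (htm : (m : ℝ) + 1 ≤ t) :
    ∑ v ∈ A, ∫ ω, covT G θ' (fun x => M' x ω) o v ^ 2 * (M v ω - M' v ω) ^ 2 ∂P ≤
      (b + 2) * (t * ∫ ω, (M o ω - M' o ω) ^ 2 ∂P + 4 * EE b R t m) := by
  refine le_trans (Finset.sum_le_sum fun v _ => ?_)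
    (single_V_lin hG hb hreg h0 h1 hκ hρ0 hρ1 hR0 hR hM hbM hT hinv o A m ht1 ht htm)
  rw [swap_covT h0.le h1 hM hT.meas hT.bdd hinv hG hreg o v]
  have hE := measurable_etaP (M := M') hT.meas θ' (geo G o v) (G.dist o v)
  refine integral_mono_of_nonneg (Filter.Eventually.of_forall fun ω => by
    simp only [Pi.zero_apply]; (clear * -; positivity)) ?_ (Filter.Eventually.of_forall fun ω => ?_)
  · refine integrable_of_bdd ((((hM o).sub (hT.meas o)).pow_const 2).mul
      (hE.const_mul _)) (C := 4 * 1) fun ω => ?_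
    have a0 := etaP_nonneg (a := fun i => M' (geo G o v i) ω) h0.le h1 (fun i => hT.bdd _ ω)
      (G.dist o v)
    have a1 := etaP_le_one (a := fun i => M' (geo G o v i) ω) h0.le h1 (fun i => hT.bdd _ ω)
      (G.dist o v)
    have h2 : (M o ω - M' o ω) ^ 2 ≤ 4 := by
      have h3 := abs_le.1 (hbM o ω)
      have h4 := abs_le.1 (hT.bdd o ω)
      nlinarith only [h3, h4]
    have h5 : θ' ^ (2 * G.dist o v) ≤ 1 := pow_le_one₀ h0.le h1.le
    rw [abs_of_nonneg (by (clear * - h0 a0; (clear * - h0 a0; positivity)))]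
    exact mul_le_mul h2 (mul_le_one₀ h5 a0 a1) (by (clear * - h0 a0; positivity)) (by norm_num)
  · simp only
    rw [mul_comm]
    refine mul_le_mul_of_nonneg_left ?_ (sq_nonneg _)
    have a0 := etaP_nonneg (a := fun i => M' (geo G o v i) ω) h0.le h1 (fun i => hT.bdd _ ω)
      (G.dist o v)
    have a1 := etaP_le_one (a := fun i => M' (geo G o v i) ω) h0.le h1 (fun i => hT.bdd _ ω)
      (G.dist o v)
    have c0 := covP_nonneg (a := fun i => M' (geo G o v i) ω) h0.le h1 (fun i => hT.bdd _ ω)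
      (G.dist o v)
    have c1 := covP_le (a := fun i => M' (geo G o v i) ω) h0.le h1 (fun i => hT.bdd _ ω)
      (G.dist o v)
    unfold covT
    calc covP θ' (fun i => M' (geo G o v i) ω) (G.dist o v) ^ 2
        ≤ (θ' ^ (G.dist o v) * etaP θ' (fun i => M' (geo G o v i) ω) (G.dist o v)) ^ 2 :=
          pow_le_pow_left₀ c0 c1 2
      _ = θ' ^ (2 * G.dist o v) * (etaP θ' (fun i => M' (geo G o v i) ω) (G.dist o v) ^ 2) := by
          rw [mul_pow, ← pow_mul, mul_comm 2]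
      _ ≤ θ' ^ (2 * G.dist o v) * etaP θ' (fun i => M' (geo G o v i) ω) (G.dist o v) := by
          refine mul_le_mul_of_nonneg_left ?_ (by positivity)
          rw [sq]
          exact mul_le_of_le_one_left a0 a1

/-- a finite sum is bounded by the sums over the spheres up to `N` and a tail -/
theorem sum_le_spheres_split (hG : G.IsTree) (o : V) (A : Finset V) {g : V → ℝ}
    (hg : ∀ v, 0 ≤ g v) (N : ℕ) :
    ∃ R : ℕ, ∑ v ∈ A, g v ≤ ∑ n ∈ range (N + 1), ∑ v ∈ sph hG.connected o n, g v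
      + ∑ n ∈ Ico (N + 1) R, ∑ v ∈ sph hG.connected o n, g v := by
  obtain ⟨N0, hN0⟩ := sum_le_spheres hG o A hg
  have hs : ∀ n, 0 ≤ ∑ v ∈ sph hG.connected o n, g v := fun n => sum_nonneg fun v _ => hg v
  have h1 : ∑ v ∈ A, g v ≤ ∑ n ∈ range (N0 + 1), ∑ v ∈ sph hG.connected o n, g v := by
    rw [sum_range_succ']
    have h2 : g o ≤ ∑ v ∈ sph hG.connected o 0, g v :=
      single_le_sum (f := g) (fun v _ => hg v) (by rw [mem_sph]; simp)
    linarith
  refine ⟨N0 + 1, h1.trans ?_⟩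
  rcases le_total (N0 + 1) (N + 1) with h | h
  · have h3 : ∑ n ∈ range (N0 + 1), ∑ v ∈ sph hG.connected o n, g v
        ≤ ∑ n ∈ range (N + 1), ∑ v ∈ sph hG.connected o n, g v :=
      sum_le_sum_of_subset_of_nonneg (range_subset_range.2 h) fun n _ _ => hs n
    have h4 : 0 ≤ ∑ n ∈ Ico (N + 1) (N0 + 1), ∑ v ∈ sph hG.connected o n, g v :=
      sum_nonneg fun n _ => hs n
    linarith only [h3, h4]
  · rw [sum_range_add_sum_Ico _ h]

end groups

end Vale.Agent.P161
end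
end

section

section

/-!
# Module (I): the absorbed inequality for a pair of fields
-/

open MeasureTheory Finset

namespace Vale.Agent.P161

variable {V : Type*} {G : SimpleGraph V} [G.LocallyFinite]

/-- the constant of module (I) -/
noncomputable def KI (b : ℕ) (c : ℝ) : ℝ :=
  (b + 1) * (128 / (1 - c ^ 2) ^ 3 * (3 * (4 / (1 - c) ^ 4) ^ 2) * (18 + 8 * Real.exp (2 * b)) +
    16 * (128 / (1 - c ^ 2) ^ 2)) + 384 * (b + 2)

/-- error part: products of the two sums with the factor `n + 1` -/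
theorem err_sum {F : ℕ → ℕ → ℝ} {s : ℝ} (hs0 : 0 ≤ s) (hs1 : s < 1)
    (h1 : ∀ i j, F i j ≤ s ^ i) (h2 : ∀ i j, F i j ≤ s ^ j) (N : ℕ) :
    ∑ n ∈ range N, ((n : ℝ) + 1) * ∑ i ∈ range (n + 1), F i (n - i) ≤ 16 / (1 - s) ^ 4 := by
  set r := Real.sqrt s with hr
  have hr0 : 0 ≤ r := Real.sqrt_nonneg s
  have hr1 : r < 1 := (Real.sqrt_lt' zero_lt_one).2 (by simpa only [one_pow] using hs1)
  have hrs : r ^ 2 = s := Real.sq_sqrt hs0
  have h3 : ∀ i j, F i j ≤ r ^ i * r ^ j := by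
    intro i j
    rcases le_total i j with h | h
    · calc F i j ≤ s ^ j := h2 i j
        _ = r ^ j * r ^ j := by rw [← hrs, ← pow_mul, ← pow_add]; ring_nf
        _ ≤ r ^ i * r ^ j := mul_le_mul_of_nonneg_right
            (pow_le_pow_of_le_one hr0 hr1.le h) (pow_nonneg hr0 _)
    · calc F i j ≤ s ^ i := h1 i j
        _ = r ^ i * r ^ i := by rw [← hrs, ← pow_mul, ← pow_add]; ring_nf
        _ ≤ r ^ i * r ^ j := mul_le_mul_of_nonneg_left
            (pow_le_pow_of_le_one hr0 hr1.le h) (pow_nonneg hr0 _)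
  set g : ℕ → ℕ → ℝ := fun i j => (((i : ℝ) + 1) * r ^ i) * (((j : ℝ) + 1) * r ^ j) with hg
  have hg0 : ∀ i j, 0 ≤ g i j := fun i j => by (clear * -; positivity)
  have h4 : ∑ n ∈ range N, ((n : ℝ) + 1) * ∑ i ∈ range (n + 1), F i (n - i) ≤
      ∑ n ∈ range N, ∑ i ∈ range (n + 1), g i (n - i) := by
    apply sum_le_sum
    intro n _
    rw [mul_sum]
    apply sum_le_sum
    intro i hi
    rw [mem_range, Nat.lt_succ_iff] at hi
    have h5 : ((n - i : ℕ) : ℝ) = (n : ℝ) - i := by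
      rw [Nat.cast_sub hi]
    have h6 : (i : ℝ) ≤ n := by exact_mod_cast hi
    have h7 : (0 : ℝ) ≤ i := Nat.cast_nonneg i
    have h8 : (n : ℝ) + 1 ≤ ((i : ℝ) + 1) * (((n - i : ℕ) : ℝ) + 1) := by
      rw [h5]
      (clear * - h5; nlinarith)
    calc ((n : ℝ) + 1) * F i (n - i) ≤ ((n : ℝ) + 1) * (r ^ i * r ^ (n - i)) :=
          mul_le_mul_of_nonneg_left (h3 _ _) (by (clear * -; positivity))
      _ ≤ (((i : ℝ) + 1) * (((n - i : ℕ) : ℝ) + 1)) * (r ^ i * r ^ (n - i)) :=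
          mul_le_mul_of_nonneg_right h8 (by (clear * -; positivity))
      _ = g i (n - i) := by rw [hg]; ring
  refine h4.trans ((sum_diag_le hg0 N).trans ?_)
  have h9 : ∑ i ∈ range N, ∑ j ∈ range N, g i j =
      (∑ i ∈ range N, ((i : ℝ) + 1) * r ^ i) * ∑ j ∈ range N, ((j : ℝ) + 1) * r ^ j := by
    rw [sum_mul_sum]
  have h10 := sum_succ_mul_pow_le hr0 hr1 N
  have h11 : 0 ≤ ∑ i ∈ range N, ((i : ℝ) + 1) * r ^ i := sum_nonneg fun i _ => by (clear * -; positivity)
  have h12 : 0 < 1 - r := by linarith only [hr1]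
  have h13 : (1 - s) / 2 ≤ 1 - r := by
    have := sqrt_rate (R := 1 - s) (by linarith only [hs0])
    rwa [show 1 - (1 - s) = s by ring] at this
  have h14 : 0 < 1 - s := by linarith only [hs1]
  rw [h9]
  calc (∑ i ∈ range N, ((i : ℝ) + 1) * r ^ i) * ∑ j ∈ range N, ((j : ℝ) + 1) * r ^ j
      ≤ 1 / (1 - r) ^ 2 * (1 / (1 - r) ^ 2) := mul_le_mul h10 h10 h11 (by (clear * - hr1; positivity))
    _ ≤ 1 / ((1 - s) / 2) ^ 2 * (1 / ((1 - s) / 2) ^ 2) := by
        have h15 : 1 / (1 - r) ^ 2 ≤ 1 / ((1 - s) / 2) ^ 2 :=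
          div_le_div_of_nonneg_left zero_le_one (by positivity)
            (pow_le_pow_left₀ (by positivity) h13 2)
        exact mul_le_mul h15 h15 (by positivity) (by positivity)
    _ = 16 / (1 - s) ^ 4 := by field_simp; norm_num

section main

variable {θ ρ θ' ρ' : ℝ} {Ω : Type*} [MeasurableSpace Ω] {P : Measure Ω}
  [IsProbabilityMeasure P] {M M' : V → Ω → ℝ} {b : ℕ}

/-- the error functional around an edge -/
theorem err_edge (hG : G.IsTree) (hb : 1 ≤ b) (hreg : G.IsRegularOfDegree (b + 1))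
    (h0 : 0 ≤ θ) (h1 : θ < 1) (hκ : b * θ ^ 2 ≤ 1) (hρ1 : ρ ≤ 1)
    (h0' : 0 ≤ θ') (h1' : θ' < 1) (hκ' : b * θ' ^ 2 ≤ 1) (hρ1' : ρ' ≤ 1)
    {R : ℝ} (hR : R ≤ 1 - b * θ ^ 2 * (1 - ρ)) (hR' : R ≤ 1 - b * θ' ^ 2 * (1 - ρ'))
    (hT : TField G θ ρ P M) (hT' : TField G θ' ρ' P M') {u w : V} (huw : G.Adj u w) (i j : ℕ) :
    (θ ^ 2) ^ i * (θ' ^ 2) ^ j * ∫ ω, 1 * LL G (fun u z => Xe θ M u z ω) i w u *
        LL G (fun u z => Xe θ' M' u z ω) j u w ∂P ≤ (1 - R) ^ i ∧
    (θ ^ 2) ^ i * (θ' ^ 2) ^ j * ∫ ω, 1 * LL G (fun u z => Xe θ M u z ω) i w u *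
        LL G (fun u z => Xe θ' M' u z ω) j u w ∂P ≤ (1 - R) ^ j := by
  have hX := edgeFun_Xe h0 h1 hT.meas hT.bdd
  have hX' := edgeFun_Xe h0' h1' hT'.meas hT'.bdd
  have l1 : ∀ ω, LL G (fun u z => Xe θ M u z ω) i w u ≤ (b : ℝ) ^ i := fun ω =>
    LL_le hreg (fun u z => hX.nonneg u z ω) (fun u z => hX.le u z ω) i w u huw.symm
  have l2 : ∀ ω, LL G (fun u z => Xe θ' M' u z ω) j u w ≤ (b : ℝ) ^ j := fun ω =>
    LL_le hreg (fun u z => hX'.nonneg u z ω) (fun u z => hX'.le u z ω) j u w huw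
  have n1 : ∀ ω, 0 ≤ LL G (fun u z => Xe θ M u z ω) i w u := fun ω =>
    LL_nonneg (fun u z => hX.nonneg u z ω) i w u
  have n2 : ∀ ω, 0 ≤ LL G (fun u z => Xe θ' M' u z ω) j u w := fun ω =>
    LL_nonneg (fun u z => hX'.nonneg u z ω) j u w
  have i1 : Integrable (fun ω => LL G (fun u z => Xe θ M u z ω) i w u) P :=
    integrable_of_bdd (measurable_LL hX i w u) (C := (b : ℝ) ^ i) fun ω => by
      rw [abs_of_nonneg (n1 ω)]; exact l1 ω
  have i2 : Integrable (fun ω => LL G (fun u z => Xe θ' M' u z ω) j u w) P :=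
    integrable_of_bdd (measurable_LL hX' j u w) (C := (b : ℝ) ^ j) fun ω => by
      rw [abs_of_nonneg (n2 ω)]; exact l2 ω
  have d1 := hT.integral_LL_le hG hb hreg h0 h1 hρ1 i huw.symm
  have d2 := hT'.integral_LL_le hG hb hreg h0' h1' hρ1' j huw
  have q1 : (θ' ^ 2) ^ j * (b : ℝ) ^ j ≤ 1 := by
    rw [← mul_pow]
    exact pow_le_one₀ (by (clear * - hb; positivity)) (by linarith only [hκ'])
  have q2 : (θ ^ 2) ^ i * (b : ℝ) ^ i ≤ 1 := by
    rw [← mul_pow]
    exact pow_le_one₀ (by (clear * - hb; positivity)) (by linarith only [hκ])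
  have s0 : 0 ≤ θ ^ 2 * (b * (1 - ρ)) := mul_nonneg (sq_nonneg _) (mul_nonneg (by positivity) (by linarith only [hρ1]))
  have s0' : 0 ≤ θ' ^ 2 * (b * (1 - ρ')) := mul_nonneg (sq_nonneg _) (mul_nonneg (by positivity) (by linarith only [hρ1']))
  constructor
  · have h2 : ∫ ω, 1 * LL G (fun u z => Xe θ M u z ω) i w u *
        LL G (fun u z => Xe θ' M' u z ω) j u w ∂P ≤
        (b : ℝ) ^ j * ∫ ω, LL G (fun u z => Xe θ M u z ω) i w u ∂P := by
      rw [← integral_const_mul]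
      apply integral_mono_of_nonneg
      · exact Filter.Eventually.of_forall fun ω => mul_nonneg (by rw [one_mul]; exact n1 ω) (n2 ω)
      · exact i1.const_mul _
      · refine Filter.Eventually.of_forall fun ω => ?_
        simp only [one_mul]
        rw [mul_comm]
        exact mul_le_mul_of_nonneg_right (l2 ω) (n1 ω)
    calc _ ≤ (θ ^ 2) ^ i * (θ' ^ 2) ^ j *
          ((b : ℝ) ^ j * ((b : ℝ) * (1 - ρ)) ^ i) := by
          apply mul_le_mul_of_nonneg_left _ (by (clear * -; positivity))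
          exact h2.trans (mul_le_mul_of_nonneg_left d1 (by positivity))
      _ = ((θ' ^ 2) ^ j * (b : ℝ) ^ j) * (θ ^ 2 * (b * (1 - ρ))) ^ i := by
          rw [mul_pow (θ ^ 2)]; ring
      _ ≤ 1 * (1 - R) ^ i := by
          apply mul_le_mul q1 _ (pow_nonneg s0 _) zero_le_one
          exact pow_le_pow_left₀ s0 (by linarith only [hR]) i
      _ = _ := one_mul _
  · have h2 : ∫ ω, 1 * LL G (fun u z => Xe θ M u z ω) i w u *
        LL G (fun u z => Xe θ' M' u z ω) j u w ∂P ≤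
        (b : ℝ) ^ i * ∫ ω, LL G (fun u z => Xe θ' M' u z ω) j u w ∂P := by
      rw [← integral_const_mul]
      apply integral_mono_of_nonneg
      · exact Filter.Eventually.of_forall fun ω => mul_nonneg (by rw [one_mul]; exact n1 ω) (n2 ω)
      · exact i2.const_mul _
      · refine Filter.Eventually.of_forall fun ω => ?_
        simp only [one_mul]
        exact mul_le_mul_of_nonneg_right (l1 ω) (n2 ω)
    calc _ ≤ (θ ^ 2) ^ i * (θ' ^ 2) ^ j *
          ((b : ℝ) ^ i * ((b : ℝ) * (1 - ρ')) ^ j) := by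
          apply mul_le_mul_of_nonneg_left _ (by (clear * -; positivity))
          exact h2.trans (mul_le_mul_of_nonneg_left d2 (by positivity))
      _ = ((θ ^ 2) ^ i * (b : ℝ) ^ i) * (θ' ^ 2 * (b * (1 - ρ'))) ^ j := by
          rw [mul_pow (θ' ^ 2)]; ring
      _ ≤ 1 * (1 - R) ^ j := by
          apply mul_le_mul q2 _ (pow_nonneg s0' _) zero_le_one
          exact pow_le_pow_left₀ s0' (by linarith only [hR']) j
      _ = _ := one_mul _

/-- second moment of the sum with the root factor removed -/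
theorem TField.integral_TT_sq_le (hG : G.IsTree) (hb : 0 < b)
    (hreg : G.IsRegularOfDegree (b + 1)) (h0 : 0 ≤ θ) (h1 : θ < 1) (hκ : b * θ ^ 2 ≤ 1)
    (hρ0 : 0 ≤ ρ) (hρ1 : ρ ≤ 1) {R : ℝ} (hR0 : 0 < R) (hR : R ≤ 1 - b * θ ^ 2 * (1 - ρ))
    (hT : TField G θ ρ P M) {v w : V} (hvw : G.Adj v w) (N : ℕ) :
    Integrable (fun ω => TT G (θ ^ 2) (fun u z => Xe θ M u z ω) (N + 1) v w ^ 2) P ∧
    ∫ ω, TT G (θ ^ 2) (fun u z => Xe θ M u z ω) (N + 1) v w ^ 2 ∂P ≤
      8 * Real.exp (2 * b) / R ^ 2 := by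
  have hb' : (b : ℝ) ≠ 0 := by positivity
  have hb1 : (1 : ℝ) ≤ b := by exact_mod_cast hb
  have hκ0 : (0 : ℝ) ≤ b * θ ^ 2 := by (clear * - hb; positivity)
  have hX := edgeFun_Xe h0 h1 hT.meas hT.bdd
  have hS1 := hT.oneStep hG hreg h0 h1 hκ0 hκ
  have hS2 := hT.prodBound hG hreg h0 h1 hκ0 hκ
  set S := treeSum hreg hκ0 hκ hX with hS
  set r := 1 - b * θ ^ 2 * (1 - ρ) with hr
  have hr0 : 0 < r := lt_of_lt_of_le hR0 hR
  have hr1 : r ≤ 1 := by
    have : 0 ≤ b * θ ^ 2 * (1 - ρ) := mul_nonneg hκ0 (by linarith only [hρ1])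
    linarith only [this]
  have key := S.integral_exp_Vf_le (P := P) hb hρ0 hρ1 hS1 hS2 0 N (y := (v, w)) hvw
  rw [← hr] at key
  have e1 : (b : ℝ) * θ ^ 2 / b = θ ^ 2 := by (clear * - hb'; field_simp)
  have e2 : ∀ ω, S.Vf N (v, w) ω = TT G (θ ^ 2) (fun u z => Xe θ M u z ω) (N + 1) v w := by
    intro ω
    rw [hS, treeSum_Vf, e1]
  have hs : (b : ℝ) ^ (0 + 1) * (r / 2) = b * (r / 2) := by rw [zero_add, pow_one]
  rw [hs] at key
  have hbr : 0 < (b : ℝ) * (r / 2) := by (clear * - hb hr0; (clear * - hb hr0; positivity))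
  have hint := S.integrable_exp_Vf (P := P) hb N (y := (v, w)) hvw (b * (r / 2))
  have hpt : ∀ ω, S.Vf N (v, w) ω ^ 2 ≤
      2 / (b * (r / 2)) ^ 2 * Real.exp (b * (r / 2) * S.Vf N (v, w) ω) := by
    intro ω
    have h3 := Real.pow_div_factorial_le_exp (b * (r / 2) * S.Vf N (v, w) ω)
      (mul_nonneg hbr.le (S.Vf_nonneg N (v, w) ω)) 2
    rw [mul_pow, Nat.factorial_two, Nat.cast_two, div_le_iff₀ (by norm_num)] at h3
    rw [div_mul_eq_mul_div, le_div_iff₀ (by (clear * - hb hr0; positivity))]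
    linarith only [h3]
  have hm : Measurable fun ω => S.Vf N (v, w) ω ^ 2 := (S.Vf_meas N (v, w)).pow_const 2
  have hI : Integrable (fun ω => S.Vf N (v, w) ω ^ 2) P := by
    refine (hint.const_mul (2 / (b * (r / 2)) ^ 2)).mono' hm.aestronglyMeasurable
      (Filter.Eventually.of_forall fun ω => ?_)
    rw [Real.norm_eq_abs, abs_of_nonneg (sq_nonneg _)]
    exact hpt ω
  simp only [e2] at hI
  refine ⟨hI, ?_⟩
  simp only [← e2] at hI ⊢
  calc ∫ ω, S.Vf N (v, w) ω ^ 2 ∂P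
      ≤ ∫ ω, 2 / (b * (r / 2)) ^ 2 * Real.exp (b * (r / 2) * S.Vf N (v, w) ω) ∂P :=
        integral_mono hI (hint.const_mul _) hpt
    _ = 2 / (b * (r / 2)) ^ 2 * ∫ ω, Real.exp (b * (r / 2) * S.Vf N (v, w) ω) ∂P :=
        integral_const_mul _ _
    _ ≤ (8 / R ^ 2) * Real.exp (2 * b) := by
        refine mul_le_mul ?_ ?_ (integral_nonneg fun ω => (Real.exp_pos _).le) (by (clear * - hR0; positivity))
        · rw [div_le_div_iff₀ (by (clear * - hb hr0; positivity)) (by positivity)]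
          have : R ≤ b * r := hR.trans (le_mul_of_one_le_left hr0.le hb1)
          have h5 : R ^ 2 ≤ (b * r) ^ 2 := pow_le_pow_left₀ hR0.le this 2
          have h6 : (b * (r / 2)) ^ 2 = (b * r) ^ 2 / 4 := by ring
          rw [h6]
          linarith only [h5]
        · refine key.trans (Real.exp_le_exp.2 ?_)
          rw [zero_add, pow_one, mul_comm (2 : ℝ)]
          apply mul_le_mul_of_nonneg_left _ (by positivity)
          have h7 : Real.log 2 ≤ 1 := by
            have := Real.log_two_lt_d9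
            linarith only [this]
          push_cast
          linarith only [hr1, h7]
    _ = _ := by ring

theorem edge_pt {B δ W W' t : ℝ} (hB0 : 0 ≤ B) (hB8 : B ≤ 8) (hδ : 0 ≤ δ) (gW : 0 ≤ W)
    (gW' : 0 ≤ W') :
    (B + δ) * (W * W') ≤ (t ^ 2 * B + 8 * ((if t ≤ W then W ^ 2 else 0) +
      (if t ≤ W' then W' ^ 2 else 0))) + δ * (1 / 2 * (W ^ 2 + W' ^ 2)) := by
  have kδ : δ * (W * W') ≤ δ * (1 / 2 * (W ^ 2 + W' ^ 2)) := by
    apply mul_le_mul_of_nonneg_left _ hδ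
    linarith only [sq_nonneg (W - W')]
  rw [add_mul]
  refine add_le_add ?_ kδ
  have q1 : 0 ≤ W ^ 2 := sq_nonneg _
  have q2 : 0 ≤ W' ^ 2 := sq_nonneg _
  have k4 : 0 ≤ t ^ 2 * B := by (clear * - hB0; positivity)
  split_ifs with ha hb' hb'
  · have k2 : W * W' ≤ W ^ 2 + W' ^ 2 := by (by_contra nlg; linarith only [nlg, mul_pos (sub_pos.2 (not_le.1 nlg)) (sub_pos.2 (not_le.1 nlg)), mul_nonneg (sq_nonneg (W' : ℝ)) (le_of_lt (sub_pos.2 (not_le.1 nlg))), mul_nonneg (sq_nonneg (W' : ℝ)) (sq_nonneg (W' : ℝ)), mul_nonneg (sq_nonneg (W : ℝ)) (le_of_lt (sub_pos.2 (not_le.1 nlg))), mul_nonneg (sq_nonneg (W : ℝ)) (sq_nonneg (W' : ℝ)), mul_nonneg (sq_nonneg (W : ℝ)) (sq_nonneg (W : ℝ))])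
    have k3 : B * (W * W') ≤ 8 * (W ^ 2 + W' ^ 2) :=
      mul_le_mul hB8 k2 (mul_nonneg gW gW') (by norm_num)
    linarith only [k4, k3]
  · push Not at hb'
    have k2 : W * W' ≤ W ^ 2 := by
      rw [sq]
      exact mul_le_mul_of_nonneg_left (hb'.le.trans ha) gW
    have k3 : B * (W * W') ≤ 8 * W ^ 2 :=
      mul_le_mul hB8 k2 (mul_nonneg gW gW') (by norm_num)
    linarith only [k4, k3]
  · push Not at ha
    have k2 : W * W' ≤ W' ^ 2 := by
      rw [sq]
      exact mul_le_mul_of_nonneg_right (ha.le.trans hb') gW'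
    have k3 : B * (W * W') ≤ 8 * W' ^ 2 :=
      mul_le_mul hB8 k2 (mul_nonneg gW gW') (by norm_num)
    linarith only [k4, k3]
  · push Not at ha hb'
    have k2 : W * W' ≤ t ^ 2 := by
      rw [sq]
      exact mul_le_mul ha.le hb'.le gW' (gW.trans ha.le)
    have k3 : B * (W * W') ≤ B * t ^ 2 := mul_le_mul_of_nonneg_left k2 hB0
    linarith only [k3]

theorem edge_int {L B W W' : Ω → ℝ} {K δ t F E S : ℝ} (hL0 : ∀ ω, 0 ≤ L ω)
    (hL : ∀ ω, L ω ≤ K * ((B ω + δ) * (W ω * W' ω))) (hK : 0 ≤ K) (hδ : 0 ≤ δ)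
    (hB0 : ∀ ω, 0 ≤ B ω) (hB8 : ∀ ω, B ω ≤ 8) (hW0 : ∀ ω, 0 ≤ W ω) (hW0' : ∀ ω, 0 ≤ W' ω)
    (hBi : Integrable B P) (hBF : ∫ ω, B ω ∂P ≤ 2 * F)
    (hWi : Integrable (fun ω => if t ≤ W ω then W ω ^ 2 else 0) P)
    (hWE : ∫ ω, (if t ≤ W ω then W ω ^ 2 else 0) ∂P ≤ E)
    (hWi' : Integrable (fun ω => if t ≤ W' ω then W' ω ^ 2 else 0) P)
    (hWE' : ∫ ω, (if t ≤ W' ω then W' ω ^ 2 else 0) ∂P ≤ E)
    (hSi : Integrable (fun ω => W ω ^ 2) P) (hS : ∫ ω, W ω ^ 2 ∂P ≤ S)
    (hSi' : Integrable (fun ω => W' ω ^ 2) P) (hS' : ∫ ω, W' ω ^ 2 ∂P ≤ S) :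
    ∫ ω, L ω ∂P ≤ K * (2 * (t ^ 2 * F) + δ * S + 16 * E) := by
  have hi2 : Integrable (fun ω => (if t ≤ W ω then W ω ^ 2 else 0) +
      (if t ≤ W' ω then W' ω ^ 2 else 0)) P := hWi.add hWi'
  have hi3 : Integrable (fun ω => W ω ^ 2 + W' ω ^ 2) P := hSi.add hSi'
  have hi4 : Integrable (fun ω => t ^ 2 * B ω + 8 * ((if t ≤ W ω then W ω ^ 2 else 0) +
      (if t ≤ W' ω then W' ω ^ 2 else 0))) P := (hBi.const_mul _).add (hi2.const_mul _)
  have hi5 : Integrable (fun ω => δ * (1 / 2 * (W ω ^ 2 + W' ω ^ 2))) P :=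
    (hi3.const_mul _).const_mul _
  have h1 : ∫ ω, L ω ∂P ≤ ∫ ω, K * ((t ^ 2 * B ω + 8 * ((if t ≤ W ω then W ω ^ 2 else 0) +
      (if t ≤ W' ω then W' ω ^ 2 else 0))) + δ * (1 / 2 * (W ω ^ 2 + W' ω ^ 2))) ∂P := by
    apply integral_mono_of_nonneg (Filter.Eventually.of_forall hL0) ((hi4.add hi5).const_mul K)
    refine Filter.Eventually.of_forall fun ω => (hL ω).trans ?_
    exact mul_le_mul_of_nonneg_left (edge_pt (hB0 ω) (hB8 ω) hδ (hW0 ω) (hW0' ω)) hK
  refine h1.trans ?_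
  rw [integral_const_mul]
  apply mul_le_mul_of_nonneg_left _ hK
  rw [integral_add hi4 hi5, integral_add (hBi.const_mul _) (hi2.const_mul _),
    integral_const_mul, integral_const_mul, integral_const_mul, integral_const_mul,
    integral_add hWi hWi', integral_add hSi hSi']
  have j1 : t ^ 2 * ∫ ω, B ω ∂P ≤ t ^ 2 * (2 * F) := mul_le_mul_of_nonneg_left hBF (sq_nonneg t)
  have j6 : δ * (1 / 2 * (∫ ω, W ω ^ 2 ∂P + ∫ ω, W' ω ^ 2 ∂P)) ≤ δ * S :=
    mul_le_mul_of_nonneg_left (by linarith only [hS', hS]) hδ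
  linarith only [hWE, hWE', j1, j6]

omit [G.LocallyFinite] in
theorem Dl_le {c : ℝ} (hc : c < 1) (h0 : 0 ≤ θ) (hθ : θ ≤ c) (h0' : 0 ≤ θ') (hθ' : θ' ≤ c)
    {m m' : V → ℝ} (hm : ∀ v, |m v| ≤ 1) (hm' : ∀ v, |m' v| ≤ 1) (u w : V) :
    Dl θ θ' m m' u w ≤ 3 * (4 / (1 - c) ^ 4) ^ 2 *
      (((m u - m' u) ^ 2 + (m w - m' w) ^ 2) + (θ - θ') ^ 2) := by
  set C0 := 4 / (1 - c) ^ 4 with hC0
  have h2 := abs_tau_sub_le' h0 h0' hθ hθ' hc (hm u) (hm w) (hm' u) (hm' w)
  rw [← hC0] at h2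
  unfold Dl
  rw [← sq_abs]
  calc |tau θ (m u) (m w) - tau θ' (m' u) (m' w)| ^ 2
      ≤ (C0 * (|m u - m' u| + |m w - m' w| + |θ - θ'|)) ^ 2 :=
        pow_le_pow_left₀ (abs_nonneg _) h2 2
    _ = C0 ^ 2 * (|m u - m' u| + |m w - m' w| + |θ - θ'|) ^ 2 := by ring
    _ ≤ C0 ^ 2 * (3 * (|m u - m' u| ^ 2 + |m w - m' w| ^ 2 + |θ - θ'| ^ 2)) := by
        apply mul_le_mul_of_nonneg_left _ (sq_nonneg _)
        nlinarith only [sq_nonneg (|m u - m' u| - |θ - θ'|), sq_nonneg (|m w - m' w| - |θ - θ'|)]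
    _ = _ := by rw [sq_abs, sq_abs, sq_abs]; ring

theorem sub_sq_le_four {x y : ℝ} (hx : |x| ≤ 1) (hy : |y| ≤ 1) : (x - y) ^ 2 ≤ 4 := by
  have h2 := abs_sub x y
  have h3 : |x - y| ≤ 2 := by linarith only [hx, hy, h2]
  rw [← sq_abs]
  nlinarith only [hx, hy, h2, abs_nonneg (x - y)]

/-- the main functional around an edge -/
theorem main_edge (hG : G.IsTree) (hb : 0 < b) (hreg : G.IsRegularOfDegree (b + 1)) {c : ℝ}
    (hc : c < 1) (h0 : 0 < θ) (hθ : θ ≤ c) (hκ : b * θ ^ 2 ≤ 1) (hρ0 : 0 ≤ ρ) (hρ1 : ρ ≤ 1)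
    (h0' : 0 < θ') (hθ' : θ' ≤ c) (hκ' : b * θ' ^ 2 ≤ 1) (hρ0' : 0 ≤ ρ') (hρ1' : ρ' ≤ 1)
    {R : ℝ} (hR0 : 0 < R) (hR : R ≤ 1 - b * θ ^ 2 * (1 - ρ)) (hR' : R ≤ 1 - b * θ' ^ 2 * (1 - ρ'))
    (hT : TField G θ ρ P M) (hT' : TField G θ' ρ' P M') (hinv : PInv G P M M')
    {u w : V} (huw : G.Adj u w) (N m : ℕ) {t : ℝ}
    (ht : 4 / R ≤ t) (htm : (m : ℝ) + 1 ≤ t) :
    ∫ ω, Dl θ θ' (fun v => M v ω) (fun v => M' v ω) u w *
        TT G (θ ^ 2) (fun u z => Xe θ M u z ω) N w u *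
        TT G (θ' ^ 2) (fun u z => Xe θ' M' u z ω) N u w ∂P ≤
      3 * (4 / (1 - c) ^ 4) ^ 2 * (2 * (t ^ 2 * ∫ ω, (M u ω - M' u ω) ^ 2 ∂P) +
        (θ - θ') ^ 2 * (8 * Real.exp (2 * b) / R ^ 2) + 16 * EE b R t m) := by
  have h1 : θ < 1 := lt_of_le_of_lt hθ hc
  have h1' : θ' < 1 := lt_of_le_of_lt hθ' hc
  have hX := edgeFun_Xe h0.le h1 hT.meas hT.bdd
  have hX' := edgeFun_Xe h0'.le h1' hT'.meas hT'.bdd
  have hI1 := integrable_sub_sq (P := P) hT.meas hT'.meas hT.bdd hT'.bdd u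
  have hI1w := integrable_sub_sq (P := P) hT.meas hT'.meas hT.bdd hT'.bdd w
  have hFw : ∫ ω, (M w ω - M' w ω) ^ 2 ∂P = ∫ ω, (M u ω - M' u ω) ^ 2 ∂P :=
    PInv.vertex hT.meas hT'.meas hinv hG hreg w u (K := fun z => (z.1 - z.2) ^ 2)
      ((measurable_fst.sub measurable_snd).pow_const 2)
  obtain ⟨hI4, hS4⟩ := hT.integral_TT_sq_le hG hb hreg h0.le h1 hκ hρ0 hρ1 hR0 hR huw.symm N
  obtain ⟨hI5, hS5⟩ := hT'.integral_TT_sq_le hG hb hreg h0'.le h1' hκ' hρ0' hρ1' hR0 hR' huw N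
  refine edge_int (B := fun ω => (M u ω - M' u ω) ^ 2 + (M w ω - M' w ω) ^ 2)
    (W := fun ω => TT G (θ ^ 2) (fun u z => Xe θ M u z ω) (N + 1) w u)
    (W' := fun ω => TT G (θ' ^ 2) (fun u z => Xe θ' M' u z ω) (N + 1) u w)
    ?_ ?_ (by positivity) (sq_nonneg _) (fun ω => by (clear * -; positivity)) ?_
    (fun ω => TT_nonneg (sq_nonneg _) (fun u z => hX.nonneg u z ω) (N + 1) w u)
    (fun ω => TT_nonneg (sq_nonneg _) (fun u z => hX'.nonneg u z ω) (N + 1) u w)
    (hI1.add hI1w) ?_ (hT.integrable_tail hreg h0.le h1 huw.symm N t)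
    (hT.integral_tail hG hb hreg h0.le h1 hκ hρ0 hρ1 hR0 hR huw.symm N m ht htm)
    (hT'.integrable_tail hreg h0'.le h1' huw N t)
    (hT'.integral_tail hG hb hreg h0'.le h1' hκ' hρ0' hρ1' hR0 hR' huw N m ht htm)
    hI4 hS4 hI5 hS5
  · intro ω
    exact mul_nonneg (mul_nonneg (sq_nonneg _)
            (TT_nonneg (sq_nonneg _) (fun u z => hX.nonneg u z ω) N w u))
            (TT_nonneg (sq_nonneg _) (fun u z => hX'.nonneg u z ω) N u w)
  · intro ω
    have g1 := TT_mono (G := G) (sq_nonneg θ) (fun u z => hX.nonneg u z ω) (Nat.le_succ N) w u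
    have g0 := TT_nonneg (G := G) (sq_nonneg θ) (fun u z => hX.nonneg u z ω) N w u
    have g1' := TT_mono (G := G) (sq_nonneg θ') (fun u z => hX'.nonneg u z ω) (Nat.le_succ N) u w
    have g0' := TT_nonneg (G := G) (sq_nonneg θ') (fun u z => hX'.nonneg u z ω) N u w
    have hDl := Dl_le hc h0.le hθ h0'.le hθ' (m := fun v => M v ω) (m' := fun v => M' v ω)
      (fun v => hT.bdd v ω) (fun v => hT'.bdd v ω) u w
    rw [← mul_assoc, ← mul_assoc]
    exact mul_le_mul (mul_le_mul hDl g1 g0 (by (clear * - hc; positivity))) g1' g0'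
      (mul_nonneg (by (clear * - hc; positivity)) (g0.trans g1))
  · intro ω
    have a1 := sub_sq_le_four (hT.bdd u ω) (hT'.bdd u ω)
    have a2 := sub_sq_le_four (hT.bdd w ω) (hT'.bdd w ω)
    linarith only [a1, a2]
  · rw [integral_add hI1 hI1w, hFw]
    linarith only []

/-- the speed functional of a pair at a vertex -/
noncomputable def gI (G : SimpleGraph V) (θ θ' : ℝ) (m m' : V → ℝ) (o x : V) : ℝ :=
  8 * (covT G θ m o x - covT G θ' m' o x) ^ 2 +
    32 * (covT G θ' m' o x ^ 2 * (m x - m' x) ^ 2)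

theorem integrable_PF {X X' D : V → V → Ω → ℝ} {CD : ℝ} (hX : EdgeFun X 1)
    (hX' : EdgeFun X' 1) (hD : EdgeFun D CD) (r i : ℕ) (p : ℕ → V) :
    Integrable (fun ω => PF (fun u z => X u z ω) (fun u z => X' u z ω) (fun u z => D u z ω) r i p)
      P :=
  integrable_of_bdd (measurable_PF hX hX' hD r i p) (C := CD) fun ω => by
    rw [abs_of_nonneg (PF_nonneg hX hX' hD r i p ω)]
    exact PF_le hX hX' hD r i p ω

theorem abs_covT_le_one (h0 : 0 ≤ θ) (h1 : θ < 1) {m : V → ℝ} (hm : ∀ v, |m v| ≤ 1) (o v : V) :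
    |covT G θ m o v| ≤ 1 := by
  unfold covT
  have hb : ∀ i, |m (geo G o v i)| ≤ 1 := fun i => hm _
  rw [abs_of_nonneg (covP_nonneg (a := fun i => m (geo G o v i)) h0 h1 hb _)]
  refine (covP_le (a := fun i => m (geo G o v i)) h0 h1 hb _).trans ?_
  exact mul_le_one₀ (pow_le_one₀ h0 h1.le) (etaP_nonneg h0 h1 hb _) (etaP_le_one h0 h1 hb _)

/-- the speed at a vertex is bounded by the path sums -/
theorem integral_gI_le (hG : G.IsTree) {d : ℕ} (hreg : G.IsRegularOfDegree d) {c : ℝ}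
    (hc : c < 1) (h0 : 0 < θ) (hθ : θ ≤ c) (h0' : 0 < θ') (hθ' : θ' ≤ c)
    (hT : TField G θ ρ P M) (hT' : TField G θ' ρ' P M') (hinv : PInv G P M M') (o v : V) :
    ∫ ω, gI G θ θ' (fun x => M x ω) (fun x => M' x ω) o v ∂P ≤
      128 / (1 - c ^ 2) ^ 3 * ∑ i ∈ range (G.dist o v),
        θ ^ (2 * (i + 1)) * θ' ^ (2 * (G.dist o v - (i + 1))) *
        ∫ ω, PF (fun u z => Xe θ M u z ω) (fun u z => Xe θ' M' u z ω)
          (fun u z => Dl θ θ' (fun x => M x ω) (fun x => M' x ω) u z) (G.dist o v) i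
          (geo G o v) ∂P +
      128 / (1 - c ^ 2) ^ 2 * (θ - θ') ^ 2 * G.dist o v * ∑ i ∈ range (G.dist o v),
        θ ^ (2 * i) * θ' ^ (2 * (G.dist o v - (i + 1))) *
        ∫ ω, PF (fun u z => Xe θ M u z ω) (fun u z => Xe θ' M' u z ω)
          (fun _ _ => 1) (G.dist o v) i (geo G o v) ∂P +
      96 * ∫ ω, (M o ω - M' o ω) ^ 2 *
        (θ' ^ (2 * G.dist o v) * etaP θ' (fun i => M' (geo G o v i) ω) (G.dist o v)) ∂P := by
  have h1 : θ < 1 := lt_of_le_of_lt hθ hc
  have h1' : θ' < 1 := lt_of_le_of_lt hθ' hc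
  have hX := edgeFun_Xe h0.le h1 hT.meas hT.bdd
  have hX' := edgeFun_Xe h0'.le h1' hT'.meas hT'.bdd
  have hD1 : EdgeFun (fun (_ _ : V) (_ : Ω) => (1 : ℝ)) 1 :=
    ⟨fun _ _ => measurable_const, fun _ _ _ => zero_le_one, fun _ _ _ => le_rfl⟩
  have hDl : EdgeFun (fun u z ω => Dl θ θ' (fun x => M x ω) (fun x => M' x ω) u z) 4 := by
    refine ⟨fun u z => ((measurable_tau (hT.meas u) (hT.meas z) θ).sub
      (measurable_tau (hT'.meas u) (hT'.meas z) θ')).pow_const 2, fun u z ω => sq_nonneg _,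
      fun u z ω => ?_⟩
    have a1 := abs_tau_le h0.le h1 (hT.bdd u ω) (hT.bdd z ω)
    have a2 := abs_tau_le h0'.le h1' (hT'.bdd u ω) (hT'.bdd z ω)
    have a3 := abs_sub (tau θ (M u ω) (M z ω)) (tau θ' (M' u ω) (M' z ω))
    unfold Dl
    rw [← sq_abs]
    nlinarith only [a1, a2, a3, abs_nonneg (tau θ (M u ω) (M z ω) - tau θ' (M' u ω) (M' z ω))]
  set n := G.dist o v with hn
  set p := geo G o v with hp
  have m1 : Measurable fun ω => covT G θ (fun x => M x ω) o v := measurable_covT hT.meas θ o v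
  have m2 : Measurable fun ω => covT G θ' (fun x => M' x ω) o v := measurable_covT hT'.meas θ' o v
  have b1 : ∀ ω, |covT G θ (fun x => M x ω) o v| ≤ 1 := fun ω =>
    abs_covT_le_one h0.le h1 (fun x => hT.bdd x ω) o v
  have b2 : ∀ ω, |covT G θ' (fun x => M' x ω) o v| ≤ 1 := fun ω =>
    abs_covT_le_one h0'.le h1' (fun x => hT'.bdd x ω) o v
  have hIc : Integrable (fun ω => (covT G θ (fun x => M x ω) o v -
      covT G θ' (fun x => M' x ω) o v) ^ 2) P :=
    integrable_of_bdd ((m1.sub m2).pow_const 2) (C := 4) fun ω => by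
      rw [abs_of_nonneg (sq_nonneg _)]
      have := abs_sub (covT G θ (fun x => M x ω) o v) (covT G θ' (fun x => M' x ω) o v)
      rw [← sq_abs]
      nlinarith only [this, b1 ω, b2 ω, abs_nonneg (covT G θ (fun x => M x ω) o v -         covT G θ' (fun x => M' x ω) o v)]
  have hId : ∀ y, Integrable (fun ω => covT G θ' (fun x => M' x ω) o v ^ 2 *
      (M y ω - M' y ω) ^ 2) P := fun y =>
    integrable_of_bdd ((m2.pow_const 2).mul (((hT.meas y).sub (hT'.meas y)).pow_const 2))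
      (C := 4) fun ω => by
      rw [abs_of_nonneg (mul_nonneg (sq_nonneg _) (sq_nonneg _))]
      have h2 : covT G θ' (fun x => M' x ω) o v ^ 2 ≤ 1 := by
        rw [← sq_abs]; exact pow_le_one₀ (abs_nonneg _) (b2 ω)
      have h3 : (M y ω - M' y ω) ^ 2 ≤ 4 := by
        have := abs_sub (M y ω) (M' y ω)
        rw [← sq_abs]
        nlinarith only [this, hT.bdd y ω, hT'.bdd y ω, abs_nonneg (M y ω - M' y ω)]
      nlinarith only [h3, h2]
  have hIe : Integrable (fun ω => (M o ω - M' o ω) ^ 2 *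
        (θ' ^ (2 * n) * etaP θ' (fun i => M' (p i) ω) n)) P :=
    integrable_of_bdd ((((hT.meas o).sub (hT'.meas o)).pow_const 2).mul
      ((measurable_etaP hT'.meas θ' p n).const_mul _)) (C := 4) fun ω => by
      have e0 := etaP_nonneg (θ := θ') (a := fun i => M' (p i) ω) h0'.le h1' (fun i => hT'.bdd _ ω) n
      have e1 := etaP_le_one (θ := θ') (a := fun i => M' (p i) ω) h0'.le h1' (fun i => hT'.bdd _ ω) n
      have e2 : 0 ≤ θ' ^ (2 * n) := by positivity
      have e3 : θ' ^ (2 * n) ≤ 1 := pow_le_one₀ h0'.le h1'.le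
      rw [abs_of_nonneg (mul_nonneg (sq_nonneg _) (mul_nonneg e2 e0))]
      have h3 : (M o ω - M' o ω) ^ 2 ≤ 4 := by
        have := abs_sub (M o ω) (M' o ω)
        rw [← sq_abs]
        nlinarith only [this, hT.bdd o ω, hT'.bdd o ω, abs_nonneg (M o ω - M' o ω)]
      calc (M o ω - M' o ω) ^ 2 * (θ' ^ (2 * n) * etaP θ' (fun i => M' (p i) ω) n)
          ≤ 4 * (1 * 1) := mul_le_mul h3 (mul_le_mul e3 e1 e0 zero_le_one)
            (mul_nonneg e2 e0) (by norm_num)
        _ = 4 := by norm_num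
  -- the covariance difference
  have hIA : ∀ i, Integrable (fun ω => PF (fun u z => Xe θ M u z ω) (fun u z => Xe θ' M' u z ω)
          (fun u z => Dl θ θ' (fun x => M x ω) (fun x => M' x ω) u z) n i p) P := fun i =>
    integrable_PF hX hX' hDl n i p
  have hIB : ∀ i, Integrable (fun ω => PF (fun u z => Xe θ M u z ω) (fun u z => Xe θ' M' u z ω)
          (fun _ _ => 1) n i p) P := fun i =>
    integrable_PF hX hX' hD1 n i p
  have hA : Integrable (fun ω => ∑ i ∈ range n, θ ^ (2 * (i + 1)) * θ' ^ (2 * (n - (i + 1))) *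
        PF (fun u z => Xe θ M u z ω) (fun u z => Xe θ' M' u z ω)
          (fun u z => Dl θ θ' (fun x => M x ω) (fun x => M' x ω) u z) n i p) P :=
    integrable_finsetSum _ fun i _ => (hIA i).const_mul _
  have hB : Integrable (fun ω => ∑ i ∈ range n, θ ^ (2 * i) * θ' ^ (2 * (n - (i + 1))) *
        PF (fun u z => Xe θ M u z ω) (fun u z => Xe θ' M' u z ω)
          (fun _ _ => 1) n i p) P :=
    integrable_finsetSum _ fun i _ => (hIB i).const_mul _
  have k1 : ∫ ω, (covT G θ (fun x => M x ω) o v - covT G θ' (fun x => M' x ω) o v) ^ 2 ∂P ≤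
      ∫ ω, (16 / (1 - c ^ 2) ^ 3 * (∑ i ∈ range n, θ ^ (2 * (i + 1)) *
        θ' ^ (2 * (n - (i + 1))) *
        PF (fun u z => Xe θ M u z ω) (fun u z => Xe θ' M' u z ω)
          (fun u z => Dl θ θ' (fun x => M x ω) (fun x => M' x ω) u z) n i p) +
      16 / (1 - c ^ 2) ^ 2 * (θ - θ') ^ 2 * n * (∑ i ∈ range n, θ ^ (2 * i) *
        θ' ^ (2 * (n - (i + 1))) *
        PF (fun u z => Xe θ M u z ω) (fun u z => Xe θ' M' u z ω)
          (fun _ _ => 1) n i p) +
      8 * ((M o ω - M' o ω) ^ 2 * (θ' ^ (2 * n) * etaP θ' (fun i => M' (p i) ω) n))) ∂P := by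
    apply integral_mono hIc
      (((hA.const_mul _).add (hB.const_mul _)).add (hIe.const_mul _))
    intro ω
    have h2 := covP_sub_sq_le (c := c) h0 hθ h0' hθ' hc (m := fun x => M x ω)
      (m' := fun x => M' x ω) (fun x => hT.bdd x ω) (fun x => hT'.bdd x ω) n p
    have e1 : p 0 = o := geo_zero hG o v
    rw [e1] at h2
    exact h2
  have k2 : ∫ ω, (16 / (1 - c ^ 2) ^ 3 * (∑ i ∈ range n, θ ^ (2 * (i + 1)) *
        θ' ^ (2 * (n - (i + 1))) *
        PF (fun u z => Xe θ M u z ω) (fun u z => Xe θ' M' u z ω)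
          (fun u z => Dl θ θ' (fun x => M x ω) (fun x => M' x ω) u z) n i p) +
      16 / (1 - c ^ 2) ^ 2 * (θ - θ') ^ 2 * n * (∑ i ∈ range n, θ ^ (2 * i) *
        θ' ^ (2 * (n - (i + 1))) *
        PF (fun u z => Xe θ M u z ω) (fun u z => Xe θ' M' u z ω)
          (fun _ _ => 1) n i p) +
      8 * ((M o ω - M' o ω) ^ 2 * (θ' ^ (2 * n) * etaP θ' (fun i => M' (p i) ω) n))) ∂P =
      16 / (1 - c ^ 2) ^ 3 * (∑ i ∈ range n, θ ^ (2 * (i + 1)) *
        θ' ^ (2 * (n - (i + 1))) *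
        ∫ ω, PF (fun u z => Xe θ M u z ω) (fun u z => Xe θ' M' u z ω)
          (fun u z => Dl θ θ' (fun x => M x ω) (fun x => M' x ω) u z) n i p ∂P) +
      16 / (1 - c ^ 2) ^ 2 * (θ - θ') ^ 2 * n * (∑ i ∈ range n, θ ^ (2 * i) *
        θ' ^ (2 * (n - (i + 1))) *
        ∫ ω, PF (fun u z => Xe θ M u z ω) (fun u z => Xe θ' M' u z ω)
          (fun _ _ => 1) n i p ∂P) +
      8 * ∫ ω, (M o ω - M' o ω) ^ 2 * (θ' ^ (2 * n) * etaP θ' (fun i => M' (p i) ω) n) ∂P := by
    have hAB : Integrable (fun ω => 16 / (1 - c ^ 2) ^ 3 * (∑ i ∈ range n, θ ^ (2 * (i + 1)) *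
        θ' ^ (2 * (n - (i + 1))) *
        PF (fun u z => Xe θ M u z ω) (fun u z => Xe θ' M' u z ω)
          (fun u z => Dl θ θ' (fun x => M x ω) (fun x => M' x ω) u z) n i p) +
      16 / (1 - c ^ 2) ^ 2 * (θ - θ') ^ 2 * n * (∑ i ∈ range n, θ ^ (2 * i) *
        θ' ^ (2 * (n - (i + 1))) *
        PF (fun u z => Xe θ M u z ω) (fun u z => Xe θ' M' u z ω)
          (fun _ _ => 1) n i p)) P := (hA.const_mul _).add (hB.const_mul _)
    rw [integral_add hAB (hIe.const_mul _), integral_add (hA.const_mul _) (hB.const_mul _),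
      integral_const_mul, integral_const_mul, integral_const_mul,
      integral_finsetSum _ fun i _ => (hIA i).const_mul _,
      integral_finsetSum _ fun i _ => (hIB i).const_mul _]
    simp only [integral_const_mul]
  -- the covariance part
  have k3 : ∫ ω, covT G θ' (fun x => M' x ω) o v ^ 2 * (M v ω - M' v ω) ^ 2 ∂P ≤
      ∫ ω, (M o ω - M' o ω) ^ 2 * (θ' ^ (2 * n) * etaP θ' (fun i => M' (p i) ω) n) ∂P := by
    rw [swap_covT h0'.le h1' hT.meas hT'.meas hT'.bdd hinv hG hreg o v]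
    apply integral_mono (hId o) hIe
    intro ω
    simp only
    rw [mul_comm]
    apply mul_le_mul_of_nonneg_left _ (sq_nonneg _)
    have hb : ∀ i, |M' (p i) ω| ≤ 1 := fun i => hT'.bdd _ ω
    have c0 := covP_nonneg (θ := θ') (a := fun i => M' (p i) ω) h0'.le h1' hb n
    have c1 := covP_le (θ := θ') (a := fun i => M' (p i) ω) h0'.le h1' hb n
    have e0 := etaP_nonneg (θ := θ') (a := fun i => M' (p i) ω) h0'.le h1' hb n
    have e1 := etaP_le_one (θ := θ') (a := fun i => M' (p i) ω) h0'.le h1' hb n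
    calc covT G θ' (fun x => M' x ω) o v ^ 2
        ≤ (θ' ^ n * etaP θ' (fun i => M' (p i) ω) n) ^ 2 := pow_le_pow_left₀ c0 c1 2
      _ = θ' ^ (2 * n) * (etaP θ' (fun i => M' (p i) ω) n * etaP θ' (fun i => M' (p i) ω) n) := by
          rw [mul_pow, ← pow_mul, mul_comm n 2]; ring
      _ ≤ _ := mul_le_mul_of_nonneg_left (mul_le_of_le_one_left e0 e1) (by positivity)
  have k4 : ∫ ω, gI G θ θ' (fun x => M x ω) (fun x => M' x ω) o v ∂P =
      8 * ∫ ω, (covT G θ (fun x => M x ω) o v - covT G θ' (fun x => M' x ω) o v) ^ 2 ∂P +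
      32 * ∫ ω, covT G θ' (fun x => M' x ω) o v ^ 2 * (M v ω - M' v ω) ^ 2 ∂P := by
    unfold gI
    rw [integral_add (hIc.const_mul _) ((hId v).const_mul _), integral_const_mul,
      integral_const_mul]
  rw [k4]
  rw [k2] at k1
  have r1 : 128 / (1 - c ^ 2) ^ 3 = 8 * (16 / (1 - c ^ 2) ^ 3) := by ring
  have r2 : 128 / (1 - c ^ 2) ^ 2 = 8 * (16 / (1 - c ^ 2) ^ 2) := by ring
  rw [r1, r2]
  linarith only [k1, k3]

end main

end Vale.Agent.P161
end
end

section

section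

/-!
# Module (I): the final inequality
-/

open MeasureTheory Finset

namespace Vale.Agent.P161

variable {V : Type*} {G : SimpleGraph V} [G.LocallyFinite]

variable {θ ρ θ' ρ' : ℝ} {Ω : Type*} [MeasurableSpace Ω] {P : Measure Ω}
  [IsProbabilityMeasure P] {M M' : V → Ω → ℝ} {b : ℕ}

theorem edgeFun_one : EdgeFun (fun (_ _ : V) (_ : Ω) => (1 : ℝ)) 1 :=
  ⟨fun _ _ => measurable_const, fun _ _ _ => zero_le_one, fun _ _ _ => le_rfl⟩

theorem edgeFun_Dl (h0 : 0 ≤ θ) (h1 : θ < 1) (h0' : 0 ≤ θ') (h1' : θ' < 1)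
    (hM : ∀ v, Measurable (M v)) (hM' : ∀ v, Measurable (M' v))
    (hb : ∀ v ω, |M v ω| ≤ 1) (hb' : ∀ v ω, |M' v ω| ≤ 1) :
    EdgeFun (fun u z ω => Dl θ θ' (fun x => M x ω) (fun x => M' x ω) u z) 4 := by
  refine ⟨fun u z => ((measurable_tau (hM u) (hM z) θ).sub
    (measurable_tau (hM' u) (hM' z) θ')).pow_const 2, fun u z ω => sq_nonneg _,
    fun u z ω => ?_⟩
  exact sub_sq_le_four (abs_tau_le h0 h1 (hb u ω) (hb z ω))
    (abs_tau_le h0' h1' (hb' u ω) (hb' z ω))

/-- the first path functional -/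
noncomputable def Q1 (P : Measure Ω) (θ θ' : ℝ) (M M' : V → Ω → ℝ) (n i : ℕ) (p : ℕ → V) : ℝ :=
  ∫ ω, PF (fun u z => Xe θ M u z ω) (fun u z => Xe θ' M' u z ω)
          (fun u z => Dl θ θ' (fun x => M x ω) (fun x => M' x ω) u z) n i p ∂P

/-- the second path functional -/
noncomputable def Q2 (P : Measure Ω) (θ θ' : ℝ) (M M' : V → Ω → ℝ) (n i : ℕ) (p : ℕ → V) : ℝ :=
  ∫ ω, PF (fun u z => Xe θ M u z ω) (fun u z => Xe θ' M' u z ω) (fun _ _ => 1) n i p ∂P

/-- first part at a vertex -/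
noncomputable def G1 (G : SimpleGraph V) (P : Measure Ω) (c θ θ' : ℝ) (M M' : V → Ω → ℝ)
    (o v : V) : ℝ :=
  128 / (1 - c ^ 2) ^ 3 * ∑ i ∈ range (G.dist o v),
        θ ^ (2 * (i + 1)) * θ' ^ (2 * (G.dist o v - (i + 1))) *
        Q1 P θ θ' M M' (G.dist o v) i (geo G o v)

/-- second part at a vertex -/
noncomputable def G2 (G : SimpleGraph V) (P : Measure Ω) (c θ θ' : ℝ) (M M' : V → Ω → ℝ)
    (o v : V) : ℝ :=
  128 / (1 - c ^ 2) ^ 2 * (θ - θ') ^ 2 * G.dist o v *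
        ∑ i ∈ range (G.dist o v),
        θ ^ (2 * i) * θ' ^ (2 * (G.dist o v - (i + 1))) *
        Q2 P θ θ' M M' (G.dist o v) i (geo G o v)

theorem Q1_nonneg (h0 : 0 ≤ θ) (h1 : θ < 1) (h0' : 0 ≤ θ') (h1' : θ' < 1)
    (hT : TField G θ ρ P M) (hT' : TField G θ' ρ' P M') (n i : ℕ) (p : ℕ → V) :
    0 ≤ Q1 P θ θ' M M' n i p :=
  integral_nonneg fun ω => PF_nonneg (edgeFun_Xe h0 h1 hT.meas hT.bdd)
    (edgeFun_Xe h0' h1' hT'.meas hT'.bdd)
    (edgeFun_Dl h0 h1 h0' h1' hT.meas hT'.meas hT.bdd hT'.bdd) n i p ω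

theorem Q2_nonneg (h0 : 0 ≤ θ) (h1 : θ < 1) (h0' : 0 ≤ θ') (h1' : θ' < 1)
    (hT : TField G θ ρ P M) (hT' : TField G θ' ρ' P M') (n i : ℕ) (p : ℕ → V) :
    0 ≤ Q2 P θ θ' M M' n i p :=
  integral_nonneg fun ω => PF_nonneg (edgeFun_Xe h0 h1 hT.meas hT.bdd)
    (edgeFun_Xe h0' h1' hT'.meas hT'.bdd) edgeFun_one n i p ω

/-- the first part summed over a ball -/
theorem part_one (hG : G.IsTree) (hb : 0 < b) (hreg : G.IsRegularOfDegree (b + 1)) {c : ℝ}
    (hc : c < 1) (h0 : 0 < θ) (hθ : θ ≤ c) (hκ : b * θ ^ 2 ≤ 1) (hρ0 : 0 ≤ ρ) (hρ1 : ρ ≤ 1)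
    (h0' : 0 < θ') (hθ' : θ' ≤ c) (hκ' : b * θ' ^ 2 ≤ 1) (hρ0' : 0 ≤ ρ') (hρ1' : ρ' ≤ 1)
    {R : ℝ} (hR0 : 0 < R) (hR : R ≤ 1 - b * θ ^ 2 * (1 - ρ)) (hR' : R ≤ 1 - b * θ' ^ 2 * (1 - ρ'))
    (hT : TField G θ ρ P M) (hT' : TField G θ' ρ' P M') (hinv : PInv G P M M')
    {o w : V} (how : G.Adj o w) (N m : ℕ) {t : ℝ}
    (ht : 4 / R ≤ t) (htm : (m : ℝ) + 1 ≤ t) :
    ∑ n ∈ range N, ∑ v ∈ sph hG.connected o (n + 1), G1 G P c θ θ' M M' o v ≤
      128 / (1 - c ^ 2) ^ 3 * ((b + 1) * (3 * (4 / (1 - c) ^ 4) ^ 2 *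
        (2 * (t ^ 2 * ∫ ω, (M o ω - M' o ω) ^ 2 ∂P) +
        (θ - θ') ^ 2 * (8 * Real.exp (2 * b) / R ^ 2) + 16 * EE b R t m))) := by
  have h1 : θ < 1 := lt_of_le_of_lt hθ hc
  have h1' : θ' < 1 := lt_of_le_of_lt hθ' hc
  have hc0 : 0 < c := h0.trans_le hθ
  have hγ : 0 < 1 - c ^ 2 := gam_pos hc0.le hc
  have hφm : Measurable fun z : ℝ × ℝ × ℝ × ℝ =>
      (tau θ z.1 z.2.1 - tau θ' z.2.2.1 z.2.2.2) ^ 2 := by
    have n1 : Measurable fun z : ℝ × ℝ × ℝ × ℝ => z.2.1 := measurable_fst.comp measurable_snd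
    have n2 : Measurable fun z : ℝ × ℝ × ℝ × ℝ => z.2.2.1 :=
      measurable_fst.comp (measurable_snd.comp measurable_snd)
    have n3 : Measurable fun z : ℝ × ℝ × ℝ × ℝ => z.2.2.2 :=
      measurable_snd.comp (measurable_snd.comp measurable_snd)
    exact ((measurable_tau measurable_fst n1 θ).sub (measurable_tau n2 n3 θ')).pow_const 2
  have key := ball_sum (P := P) hG hreg (edgeFun_Xe h0.le h1 hT.meas hT.bdd)
    (edgeFun_Xe h0'.le h1' hT'.meas hT'.bdd)
    (edgeFun_Dl h0.le h1 h0'.le h1' hT.meas hT'.meas hT.bdd hT'.bdd)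
    (fun r i hi p q hp hq => integral_PF_inv hT.meas hT'.meas hinv hG hreg θ θ' hφm hi hp hq)
    how o (sq_nonneg θ) (sq_nonneg θ') N
  have k2 := main_edge (P := P) hG hb hreg hc h0 hθ hκ hρ0 hρ1 h0' hθ' hκ' hρ0' hρ1' hR0 hR hR'
    hT hT' hinv how N m ht htm
  have k3 : ∀ n, ∀ v ∈ sph hG.connected o (n + 1), G1 G P c θ θ' M M' o v ≤
      128 / (1 - c ^ 2) ^ 3 *
      ∑ i ∈ range (n + 1), (θ ^ 2) ^ i * (θ' ^ 2) ^ (n - i) *
        Q1 P θ θ' M M' (n + 1) i (geo G o v) := by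
    intro n v hv
    rw [mem_sph] at hv
    unfold G1
    rw [hv]
    apply mul_le_mul_of_nonneg_left _ (by (clear * - hγ; positivity))
    apply sum_le_sum
    intro i _
    apply mul_le_mul_of_nonneg_right _ (Q1_nonneg h0.le h1 h0'.le h1' hT hT' _ _ _)
    have e1 : θ ^ (2 * (i + 1)) = θ ^ 2 * (θ ^ 2) ^ i := by
      rw [← pow_mul, ← pow_add]; ring_nf
    have e2 : θ' ^ (2 * (n + 1 - (i + 1))) = (θ' ^ 2) ^ (n - i) := by
      rw [← pow_mul]; congr 2; omega
    rw [e1, e2]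
    apply mul_le_mul_of_nonneg_right _ (by positivity)
    exact mul_le_of_le_one_left (by positivity) (pow_le_one₀ h0.le h1.le)
  calc ∑ n ∈ range N, ∑ v ∈ sph hG.connected o (n + 1), G1 G P c θ θ' M M' o v
      ≤ ∑ n ∈ range N, ∑ v ∈ sph hG.connected o (n + 1), 128 / (1 - c ^ 2) ^ 3 *
      ∑ i ∈ range (n + 1), (θ ^ 2) ^ i * (θ' ^ 2) ^ (n - i) *
        Q1 P θ θ' M M' (n + 1) i (geo G o v) :=
        sum_le_sum fun n _ => sum_le_sum (k3 n)
    _ = 128 / (1 - c ^ 2) ^ 3 * ∑ n ∈ range N, ∑ v ∈ sph hG.connected o (n + 1),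
      ∑ i ∈ range (n + 1), (θ ^ 2) ^ i * (θ' ^ 2) ^ (n - i) *
        Q1 P θ θ' M M' (n + 1) i (geo G o v) := by
        simp only [← mul_sum]
    _ ≤ _ := by
        apply mul_le_mul_of_nonneg_left _ (by (clear * - hγ; positivity))
        refine key.trans ?_
        exact mul_le_mul_of_nonneg_left k2 (by (clear * - hb; positivity))

/-- the second part summed over a ball -/
theorem part_two (hG : G.IsTree) (hb : 0 < b) (hreg : G.IsRegularOfDegree (b + 1)) {c : ℝ}
    (hc : c < 1) (h0 : 0 < θ) (hθ : θ ≤ c) (hκ : b * θ ^ 2 ≤ 1) (hρ1 : ρ ≤ 1)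
    (h0' : 0 < θ') (hθ' : θ' ≤ c) (hκ' : b * θ' ^ 2 ≤ 1) (hρ1' : ρ' ≤ 1)
    {R : ℝ} (hR0 : 0 < R) (hR : R ≤ 1 - b * θ ^ 2 * (1 - ρ)) (hR' : R ≤ 1 - b * θ' ^ 2 * (1 - ρ'))
    (hT : TField G θ ρ P M) (hT' : TField G θ' ρ' P M') (hinv : PInv G P M M')
    {o w : V} (how : G.Adj o w) (N : ℕ) :
    ∑ n ∈ range N, ∑ v ∈ sph hG.connected o (n + 1), G2 G P c θ θ' M M' o v ≤
      128 / (1 - c ^ 2) ^ 2 * (θ - θ') ^ 2 * ((b + 1) * (16 / R ^ 4)) := by
  have h1 : θ < 1 := lt_of_le_of_lt hθ hc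
  have h1' : θ' < 1 := lt_of_le_of_lt hθ' hc
  have hc0 : 0 < c := h0.trans_le hθ
  have hγ : 0 < 1 - c ^ 2 := gam_pos hc0.le hc
  set F2 : ℕ → ℕ → ℝ := fun i j => (θ ^ 2) ^ i * (θ' ^ 2) ^ j *
    ∫ ω, 1 * LL G (fun u z => Xe θ M u z ω) i w o *
      LL G (fun u z => Xe θ' M' u z ω) j o w ∂P with hF2
  have hs1 : R ≤ 1 := by
    have : 0 ≤ b * θ ^ 2 * (1 - ρ) := mul_nonneg (by positivity) (by linarith only [hρ1])
    linarith only [this, hR]
  have hF2a := fun i j => (err_edge hG hb hreg h0.le h1 hκ hρ1 h0'.le h1' hκ' hρ1' hR hR'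
    hT hT' how i j)
  have k4 := err_sum (F := F2) (s := 1 - R) (by linarith only [hs1]) (by linarith only [hR0])
    (fun i j => (hF2a i j).1) (fun i j => (hF2a i j).2) N
  rw [show 1 - (1 - R) = R by ring] at k4
  have k5 : ∀ n ∈ range N, ∑ v ∈ sph hG.connected o (n + 1), G2 G P c θ θ' M M' o v ≤
      128 / (1 - c ^ 2) ^ 2 * (θ - θ') ^ 2 * ((b + 1) *
        (((n : ℝ) + 1) * ∑ i ∈ range (n + 1), F2 i (n - i))) := by
    intro n _
    have k6 : ∀ v ∈ sph hG.connected o (n + 1), G2 G P c θ θ' M M' o v =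
        128 / (1 - c ^ 2) ^ 2 * (θ - θ') ^ 2 * ((n : ℝ) + 1) *
        ∑ i ∈ range (n + 1), (θ ^ 2) ^ i * (θ' ^ 2) ^ (n - i) *
          Q2 P θ θ' M M' (n + 1) i (geo G o v) := by
      intro v hv
      rw [mem_sph] at hv
      unfold G2
      rw [hv, Nat.cast_add, Nat.cast_one]
      congr 1
      apply sum_congr rfl
      intro i _
      have e1 : θ ^ (2 * i) = (θ ^ 2) ^ i := by rw [← pow_mul]
      have e2 : θ' ^ (2 * (n + 1 - (i + 1))) = (θ' ^ 2) ^ (n - i) := by
        rw [← pow_mul]; congr 2; (clear * -; omega)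
      rw [e1, e2]
    rw [sum_congr rfl k6, ← mul_sum, sum_comm]
    have k7 : ∑ i ∈ range (n + 1), ∑ v ∈ sph hG.connected o (n + 1),
        (θ ^ 2) ^ i * (θ' ^ 2) ^ (n - i) * Q2 P θ θ' M M' (n + 1) i (geo G o v) ≤
        (b + 1) * ∑ i ∈ range (n + 1), F2 i (n - i) := by
      rw [mul_sum]
      apply sum_le_sum
      intro i hi
      rw [mem_range] at hi
      rw [← mul_sum]
      have k8 := sphere_term (P := P) hG hreg (edgeFun_Xe h0.le h1 hT.meas hT.bdd)
        (edgeFun_Xe h0'.le h1' hT'.meas hT'.bdd) edgeFun_one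
        (fun r i hi p q hp hq => integral_PF_inv hT.meas hT'.meas hinv hG hreg θ θ'
          (φ := fun _ => 1) measurable_const hi hp hq) how o (n := n) (i := i) (by omega)
      have k9 := mul_le_mul_of_nonneg_left k8
        (show 0 ≤ (θ ^ 2) ^ i * (θ' ^ 2) ^ (n - i) by positivity)
      refine k9.trans (le_of_eq ?_)
      rw [hF2]
      ring
    have k10 := mul_le_mul_of_nonneg_left k7
      (show 0 ≤ 128 / (1 - c ^ 2) ^ 2 * (θ - θ') ^ 2 * ((n : ℝ) + 1) by (clear * - hγ; (clear * - hγ; positivity)))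
    refine k10.trans (le_of_eq ?_)
    ring
  refine (sum_le_sum k5).trans ?_
  rw [← mul_sum, ← mul_sum]
  apply mul_le_mul_of_nonneg_left _ (by (clear * - hγ; positivity))
  exact mul_le_mul_of_nonneg_left k4 (by (clear * - hb; positivity))

/-- final bookkeeping of the constants -/
theorem final_numeric {b : ℕ} {a1 a2 e y E x x2 K F t : ℝ} (ha1 : 0 ≤ a1) (ha2 : 0 ≤ a2)
    (he : 0 ≤ e) (hy : 0 ≤ y) (hE : 0 ≤ E) (hx : 0 ≤ x) (hx2 : x2 ≤ x) (hF : t * F ≤ y)
    (hK : K = (b + 1) * (a1 * (18 + 8 * e) + 16 * a2) + 384 * (b + 2)) :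
    (b + 1) * a1 * (2 * y + 8 * e * x2 + 16 * E) + 16 * (b + 1) * a2 * x +
      96 * ((b + 2) * (t * F + 4 * E)) ≤ K * (y + E + x) := by
  have hb0 : (0 : ℝ) ≤ b := Nat.cast_nonneg b
  have w1 : 0 ≤ (b + 1 : ℝ) * a1 := by (clear * - ha1; positivity)
  have w2 : 0 ≤ (b + 1 : ℝ) * a2 := by positivity
  have w3 : 0 ≤ (b + 1 : ℝ) * a1 * e := by positivity
  have w4 : 0 ≤ (b + 2 : ℝ) := by positivity
  have s1 : (b + 1) * a1 * (2 * y + 8 * e * x2 + 16 * E) ≤
      (b + 1) * a1 * (2 * y + 8 * e * x + 16 * E) := by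
    apply mul_le_mul_of_nonneg_left _ w1
    have := mul_le_mul_of_nonneg_left hx2 (show 0 ≤ 8 * e by positivity)
    linarith only [this]
  have s2 : 96 * ((b + 2 : ℝ) * (t * F + 4 * E)) ≤ 96 * ((b + 2) * (y + 4 * E)) := by
    have := mul_le_mul_of_nonneg_left (add_le_add_left hF (4 * E)) w4
    linarith only [this]
  have v1 := mul_nonneg w1 hy
  have v3 := mul_nonneg w1 hx
  have v4 := mul_nonneg w1 hE
  have v5 := mul_nonneg w2 hy
  have v8 := mul_nonneg w2 hE
  have v9 := mul_nonneg w4 hy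
  have v11 := mul_nonneg w4 hx
  have v12 := mul_nonneg w4 hE
  have u1 := mul_nonneg w3 hy
  have u2 := mul_nonneg w3 hE
  have key : K * (y + E + x) - ((b + 1) * a1 * (2 * y + 8 * e * x + 16 * E) +
      16 * (b + 1) * a2 * x + 96 * ((b + 2) * (y + 4 * E))) =
      16 * ((b + 1) * a1 * y) + 2 * ((b + 1) * a1 * E) + 18 * ((b + 1) * a1 * x) +
      8 * ((b + 1) * a1 * e * y) + 8 * ((b + 1) * a1 * e * E) +
      16 * ((b + 1) * a2 * y) + 16 * ((b + 1) * a2 * E) +
      288 * ((b + 2) * y) + 384 * ((b + 2) * x) := by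
    rw [hK]; ring
  linarith only [key, u2, u1, v11, v9, v8, v5, v4, v3, v1, s2, s1]

/-- **Module (I).** For a fixed pair of fields and every finite set `A`. -/
theorem mainI (hG : G.IsTree) (hb : 0 < b) (hreg : G.IsRegularOfDegree (b + 1)) {c : ℝ}
    (hc : c < 1) (h0 : 0 < θ) (hθ : θ ≤ c) (hκ : b * θ ^ 2 ≤ 1) (hρ0 : 0 ≤ ρ) (hρ1 : ρ ≤ 1)
    (h0' : 0 < θ') (hθ' : θ' ≤ c) (hκ' : b * θ' ^ 2 ≤ 1) (hρ0' : 0 ≤ ρ') (hρ1' : ρ' ≤ 1)
    {R : ℝ} (hR0 : 0 < R) (hR : R ≤ 1 - b * θ ^ 2 * (1 - ρ)) (hR' : R ≤ 1 - b * θ' ^ 2 * (1 - ρ'))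
    (hT : TField G θ ρ P M) (hT' : TField G θ' ρ' P M') (hinv : PInv G P M M')
    (o : V) (A : Finset V) (m : ℕ) {t : ℝ}
    (ht1 : 1 ≤ t) (ht : 4 / R ≤ t) (htm : (m : ℝ) + 1 ≤ t) :
    ∑ v ∈ A, ∫ ω, gI G θ θ' (fun x => M x ω) (fun x => M' x ω) o v ∂P ≤
      KI b c * (t ^ 2 * ∫ ω, (M o ω - M' o ω) ^ 2 ∂P + EE b R t m +
        (θ - θ') ^ 2 / R ^ 4) := by
  have h1 : θ < 1 := lt_of_le_of_lt hθ hc
  have h1' : θ' < 1 := lt_of_le_of_lt hθ' hc
  have hc0 : 0 < c := h0.trans_le hθ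
  have hγ : 0 < 1 - c ^ 2 := gam_pos hc0.le hc
  have hc1 : 0 < 1 - c := by linarith only [hc]
  have hs1 : R ≤ 1 := by
    have : 0 ≤ b * θ ^ 2 * (1 - ρ) := mul_nonneg (by positivity) (by linarith only [hρ1])
    linarith only [hR, this]
  obtain ⟨w, how, -⟩ := exists_other (d := b + 1) (by omega) hreg o o
  have hG1n : ∀ v, 0 ≤ G1 G P c θ θ' M M' o v := fun v => mul_nonneg (by (clear * - hγ; positivity))
    (sum_nonneg fun i _ => mul_nonneg (by (clear * - h0 h0'; positivity))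
      (Q1_nonneg h0.le h1 h0'.le h1' hT hT' _ _ _))
  have hG2n : ∀ v, 0 ≤ G2 G P c θ θ' M M' o v := fun v => mul_nonneg (by (clear * - hγ; positivity))
    (sum_nonneg fun i _ => mul_nonneg (by positivity)
      (Q2_nonneg h0.le h1 h0'.le h1' hT hT' _ _ _))
  have s2 := single_V (P := P) (M := M) hG hb hreg h0' h1' hκ' hρ0' hρ1' hR0 hR'
    hT.meas hT.bdd hT' hinv o A m ht1 ht htm
  have s3 : ∑ v ∈ A, ∫ ω, gI G θ θ' (fun x => M x ω) (fun x => M' x ω) o v ∂P ≤
      ∑ v ∈ A, ((G1 G P c θ θ' M M' o v + G2 G P c θ θ' M M' o v) +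
      96 * ∫ ω, (M o ω - M' o ω) ^ 2 *
      (θ' ^ (2 * G.dist o v) * etaP θ' (fun i => M' (geo G o v i) ω) (G.dist o v)) ∂P) :=
    sum_le_sum fun v _ => integral_gI_le hG hreg hc h0 hθ h0' hθ' hT hT' hinv o v
  rw [sum_add_distrib, ← mul_sum] at s3
  obtain ⟨N, hN⟩ := sum_le_spheres hG o A
    (g := fun v => G1 G P c θ θ' M M' o v + G2 G P c θ θ' M M' o v)
    (fun v => add_nonneg (hG1n v) (hG2n v))
  have e0 : G1 G P c θ θ' M M' o o + G2 G P c θ θ' M M' o o = 0 := by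
    simp only [G1, G2, SimpleGraph.dist_self, range_zero, sum_empty, mul_zero, add_zero]
  rw [e0, zero_add] at hN
  have hN2 : ∑ n ∈ range N, ∑ v ∈ sph hG.connected o (n + 1),
      (G1 G P c θ θ' M M' o v + G2 G P c θ θ' M M' o v) =
      ∑ n ∈ range N, ∑ v ∈ sph hG.connected o (n + 1), G1 G P c θ θ' M M' o v +
      ∑ n ∈ range N, ∑ v ∈ sph hG.connected o (n + 1), G2 G P c θ θ' M M' o v := by
    simp only [sum_add_distrib]
  rw [hN2] at hN
  have p1 := part_one (P := P) hG hb hreg hc h0 hθ hκ hρ0 hρ1 h0' hθ' hκ' hρ0' hρ1' hR0 hR hR'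
    hT hT' hinv how N m ht htm
  have p2 := part_two (P := P) hG hb hreg hc h0 hθ hκ hρ1 h0' hθ' hκ' hρ1' hR0 hR hR'
    hT hT' hinv how N
  have tot := s3.trans (add_le_add (hN.trans (add_le_add p1 p2))
    (mul_le_mul_of_nonneg_left s2 (by norm_num)))
  refine tot.trans ?_
  clear tot p1 p2 hN2 hN s3 s2 e0
  set F := ∫ ω, (M o ω - M' o ω) ^ 2 ∂P with hF
  have hF0 : 0 ≤ F := integral_nonneg fun ω => sq_nonneg _
  have hR1 : (θ - θ') ^ 2 / R ^ 2 ≤ (θ - θ') ^ 2 / R ^ 4 :=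
    div_le_div_of_nonneg_left (sq_nonneg _) (by positivity)
      (pow_le_pow_of_le_one hR0.le hs1 (by norm_num))
  have hFt : t * F ≤ t ^ 2 * F := by
    apply mul_le_mul_of_nonneg_right _ hF0
    nlinarith only [ht1]
  have h := final_numeric (b := b) (a1 := 128 / (1 - c ^ 2) ^ 3 * (3 * (4 / (1 - c) ^ 4) ^ 2))
    (a2 := 128 / (1 - c ^ 2) ^ 2) (e := Real.exp (2 * b)) (y := t ^ 2 * F)
    (E := EE b R t m) (x := (θ - θ') ^ 2 / R ^ 4) (x2 := (θ - θ') ^ 2 / R ^ 2)
    (K := KI b c) (F := F) (t := t)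
    (by (clear * - hγ hc; (clear * - hγ hc; positivity))) (by (clear * - hγ; positivity)) (Real.exp_pos _).le (mul_nonneg (sq_nonneg _) hF0)
    (EE_nonneg b R t m) (by (clear * - hR0; positivity)) hR1 hFt (by rw [KI])
  refine le_trans (le_of_eq ?_) h
  ring

end Vale.Agent.P161
end
end

section

section

open MeasureTheory Filter Topology ProbabilityTheory

namespace Vale.Agent.P161

variable {V : Type*} {G : SimpleGraph V}

theorem local_approx [G.LocallyFinite] (hG : G.IsTree) (o : V) {F : (V → unitInterval) → ℝ}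
    (hF : Measurable F) (hb : ∀ ω, |F ω| ≤ 1) {δ : ℝ} (hδ : 0 < δ) :
    ∃ (B : Finset V) (φ : (B → unitInterval) → ℝ), Measurable φ ∧ (∀ x, |φ x| ≤ 1) ∧
      ∫ ω, φ (B.restrict ω) ∂(lab V) = ∫ ω, F ω ∂(lab V) ∧
      ∫ ω, |F ω - φ (B.restrict ω)| ∂(lab V) ≤ δ := by
  classical
  let B : ℕ → Finset V := fun n => (finite_closedBall hG.connected o n).toFinset
  have hBmem : ∀ n v, v ∈ B n ↔ G.dist o v ≤ n := by
    intro n v
    simp only [B, Set.Finite.mem_toFinset]
    exact Iff.rfl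
  have hBmono : ∀ {m n}, m ≤ n → B m ⊆ B n := by
    intro m n hmn v hv
    rw [hBmem] at hv ⊢
    omega
  let ℱ : Filtration ℕ (MeasurableSpace.pi : MeasurableSpace (V → unitInterval)) :=
    { seq := fun n => MeasurableSpace.comap ((B n).restrict) MeasurableSpace.pi
      mono' := by
        intro m n hmn
        have e : ((B m).restrict : (V → unitInterval) → _) =
            Finset.restrict₂ (hBmono hmn) ∘ (B n).restrict := rfl
        show MeasurableSpace.comap _ _ ≤ MeasurableSpace.comap _ _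
        rw [e, ← MeasurableSpace.comap_comp]
        exact MeasurableSpace.comap_mono (Finset.measurable_restrict₂ (hBmono hmn)).comap_le
      le' := fun n => (Finset.measurable_restrict (B n)).comap_le }
  have hint : Integrable F (lab V) :=
    Integrable.of_bound hF.aestronglyMeasurable 1 (Eventually.of_forall fun ω => hb ω)
  have hsup : (MeasurableSpace.pi : MeasurableSpace (V → unitInterval)) ≤ ⨆ n, ℱ n := by
    unfold MeasurableSpace.pi
    refine iSup_le fun v => ?_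
    refine le_trans ?_ (le_iSup (fun n => (ℱ n : MeasurableSpace (V → unitInterval))) (G.dist o v))
    have hv : v ∈ B (G.dist o v) := by rw [hBmem]
    have e : (fun b : V → unitInterval => b v) =
        (fun x : (B (G.dist o v)) → unitInterval => x ⟨v, hv⟩) ∘ (B (G.dist o v)).restrict := rfl
    show MeasurableSpace.comap _ _ ≤ MeasurableSpace.comap _ _
    rw [e, ← MeasurableSpace.comap_comp]
    exact MeasurableSpace.comap_mono (measurable_pi_apply _).comap_le
  have hFsm : StronglyMeasurable[⨆ n, ℱ n] F := by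
    have h1 : StronglyMeasurable[MeasurableSpace.pi] F := hF.stronglyMeasurable
    exact h1.mono hsup
  have hconv := hint.tendsto_eLpNorm_condExp (ℱ := ℱ) hFsm
  have hev : ∀ᶠ n in atTop, eLpNorm ((lab V)[F | ℱ n] - F) 1 (lab V) < ENNReal.ofReal δ := by
    exact (tendsto_order.1 hconv).2 _ (by simpa only [gt_iff_lt, ENNReal.ofReal_pos] using hδ)
  obtain ⟨n, hn⟩ := hev.exists
  -- factorisation of the conditional expectation
  have hsm : StronglyMeasurable[MeasurableSpace.comap ((B n).restrict) MeasurableSpace.pi]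
      ((lab V)[F | ℱ n]) := stronglyMeasurable_condExp
  obtain ⟨ψ, hψ, hψe⟩ := hsm.exists_eq_measurable_comp
  have hbd : ∀ᵐ ω ∂(lab V), |((lab V)[F | ℱ n]) ω| ≤ 1 := by
    have := ae_bdd_condExp_of_ae_bdd (m := ℱ n) (μ := lab V) (R := 1) (f := F)
      (Eventually.of_forall fun ω => by simpa only [NNReal.coe_one] using hb ω)
    simpa only [NNReal.coe_one] using this
  let φ : ((B n) → unitInterval) → ℝ := fun x => max (-1) (min 1 (ψ x))
  have hφe : ∀ᵐ ω ∂(lab V), φ ((B n).restrict ω) = ((lab V)[F | ℱ n]) ω := by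
    filter_upwards [hbd] with ω hω
    have h1 : ((lab V)[F | ℱ n]) ω = ψ ((B n).restrict ω) := congrFun hψe ω
    rw [h1] at hω ⊢
    rw [abs_le] at hω
    show max (-1) (min 1 (ψ _)) = ψ _
    rw [min_eq_right hω.2, max_eq_right hω.1]
  refine ⟨B n, φ, ?_, ?_, ?_, ?_⟩
  · exact measurable_const.max (measurable_const.min hψ.measurable)
  · intro x
    rw [abs_le]
    refine ⟨le_max_left _ _, ?_⟩
    exact max_le (by norm_num) (min_le_left _ _)
  · rw [integral_congr_ae hφe]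
    exact integral_condExp (ℱ.le n)
  · have h2 : ∫ ω, |F ω - φ ((B n).restrict ω)| ∂(lab V) =
        ∫ ω, |((lab V)[F | ℱ n] - F) ω| ∂(lab V) := by
      refine integral_congr_ae ?_
      filter_upwards [hφe] with ω hω
      rw [hω, Pi.sub_apply, abs_sub_comm]
    rw [h2]
    have hint2 : Integrable ((lab V)[F | ℱ n] - F) (lab V) := integrable_condExp.sub hint
    have h3 : ENNReal.ofReal (∫ ω, |((lab V)[F | ℱ n] - F) ω| ∂(lab V)) =
        eLpNorm ((lab V)[F | ℱ n] - F) 1 (lab V) := by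
      rw [eLpNorm_one_eq_lintegral_enorm, ← ofReal_integral_norm_eq_lintegral_enorm hint2]
      rfl
    have h4 : ENNReal.ofReal (∫ ω, |((lab V)[F | ℱ n] - F) ω| ∂(lab V)) ≤ ENNReal.ofReal δ := by
      rw [h3]; exact hn.le
    exact (ENNReal.ofReal_le_ofReal_iff hδ.le).1 h4

end Vale.Agent.P161
end
end

section

section

open MeasureTheory Filter Topology ProbabilityTheory

namespace Vale.Agent.P161

variable {V : Type*} {G : SimpleGraph V}

theorem not_factor_of_supercritical [G.LocallyFinite] (hG : G.IsTree) {d : ℕ} (hd : 2 ≤ d)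
    (hreg : G.IsRegularOfDegree d) {θ : ℝ} (h0 : 0 ≤ θ) (h1 : θ < 1)
    (hs : 1 < ((d : ℝ) - 1) * θ ^ 2) {μ : Measure (V → ℤˣ)} (hμ : IsFreeIsing G θ μ) :
    ¬ IsFactorOfIID G μ := by
  rintro ⟨Φ, hΦ, hequiv, hmap⟩
  have hprob := hμ.isProb
  obtain ⟨o⟩ := hG.connected.nonempty
  obtain ⟨c⟩ := exists_edgeCol hG (by omega) hreg
  have hθ : 0 < θ := by
    rcases h0.lt_or_eq with h | h
    · exact h
    · rw [← h] at hs
      norm_num at hs
  have hd1 : (0 : ℝ) < (d : ℝ) - 1 := by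
    by_contra h
    push Not at h
    have : ((d : ℝ) - 1) * θ ^ 2 ≤ 0 := mul_nonpos_of_nonpos_of_nonneg h (sq_nonneg _)
    linarith only [hs, this]
  set s : ℝ := 1 / Real.sqrt ((d : ℝ) - 1) with hsdef
  have hsq : 0 < Real.sqrt ((d : ℝ) - 1) := Real.sqrt_pos.2 hd1
  have hs0 : 0 < s := by (clear * - hd1; positivity)
  have hs2 : ((d : ℝ) - 1) * s ^ 2 = 1 := by
    rw [hsdef, div_pow, one_pow, Real.sq_sqrt hd1.le]
    (clear * - hd1; field_simp)
  have hsθ : s < θ := by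
    have : s ^ 2 < θ ^ 2 := by
      have h2 : ((d : ℝ) - 1) * s ^ 2 < ((d : ℝ) - 1) * θ ^ 2 := by rw [hs2]; exact hs
      exact lt_of_mul_lt_mul_left h2 hd1.le
    exact lt_of_pow_lt_pow_left₀ 2 hθ.le this
  have hs1 : s ≤ 1 := (hsθ.trans h1).le
  -- the field
  let f : V → (V → unitInterval) → ℝ := fun v ω => sp (Φ ω) v
  have hfm : ∀ v, Measurable (f v) := fun v => (measurable_sp v).comp hΦ
  have hf : Fld c 1 f := by
    refine ⟨hfm, fun v ω => ?_, fun g _ v => ?_⟩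
    · rcases sp_eq_one_or (Φ ω) v with h | h <;> simp [f, h]
    · filter_upwards [hequiv g] with ω hω
      show sp (Φ (shft g ω)) (g v) = sp (Φ ω) v
      have h2 : Φ (shft g ω) = fun v => Φ ω (g.symm v) := hω
      rw [h2]
      simp [sp]
  have hmean : ∫ ω, f o ω ∂(lab V) = 0 := by
    rw [← integral_sp_eq_zero hμ o, ← hmap, integral_map hΦ.aemeasurable
      (measurable_sp o).aestronglyMeasurable]
  have hcov : ∀ v, ∫ ω, f o ω * f v ω ∂(lab V) = θ ^ G.dist o v := by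
    intro v
    have hm2 : Measurable fun σ : V → ℤˣ => sp σ o * sp σ v :=
      (measurable_sp o).mul (measurable_sp v)
    rw [← integral_sp_sp hG h0 h1 hμ o v, ← hmap, integral_map hΦ.aemeasurable
      hm2.aestronglyMeasurable]
  -- lower bound
  obtain ⟨φ, hφo, hφle, hφe⟩ := exists_eigen hG hd hreg hθ h1 hs o
  set lam : ℝ := ((d : ℝ) - 1) * θ + 1 / θ with hlam
  have hlow : ∀ n : ℕ, lam ^ n * φ o ≤ ∫ ω, f o ω * (adjF (G := G))^[n] f o ω ∂(lab V) := by
    intro n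
    rw [hf.corr_iter hreg hf o o n]
    simp only [hcov]
    rw [← nb_iter_eigen hφe n o]
    exact nb_iter_mono hφle n o
  -- upper bound
  have hup : ∀ n : ℕ, ∫ ω, f o ω * (adjF (G := G))^[n] f o ω ∂(lab V) ≤ (2 / s) ^ n := by
    intro n
    refine le_of_forall_pos_le_add fun ε hε => ?_
    have hd0 : (0 : ℝ) < 2 * (d : ℝ) ^ n := by
      have : (0 : ℝ) < d := by exact_mod_cast (by omega : 0 < d)
      (clear * - hd; positivity)
    obtain ⟨B, φ', hφ'm, hφ'1, hφ'i, hφ'e⟩ := local_approx hG o (hfm o) (hf.bdd o)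
      (δ := ε / (2 * (d : ℝ) ^ n)) (by positivity)
    obtain ⟨h, hh, hho, K, hK, hKc⟩ := local_field hG c o B hφ'm hφ'1 (hφ'i.trans hmean) hs0 hs1
    refine (compare_fields hG hreg hf hh o n).trans ?_
    refine add_le_add ?_ ?_
    · have hN := hh.norm_iter_le hG hd hreg o hs0 hs2 hK hKc n
      have h1' : ∫ ω, h o ω * h o ω ∂(lab V) ≤ 1 := by
        have : ∫ ω, h o ω * h o ω ∂(lab V) ≤ ∫ ω, (1 : ℝ) ∂(lab V) := by
          refine integral_mono (hh.integrable_mul hh o o) (integrable_const _) fun ω => ?_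
          show h o ω * h o ω ≤ 1
          calc h o ω * h o ω ≤ |h o ω * h o ω| := le_abs_self _
            _ = |h o ω| * |h o ω| := abs_mul _ _
            _ ≤ 1 * 1 := mul_le_mul (hh.bdd o ω) (hh.bdd o ω) (abs_nonneg _) (by norm_num)
            _ = 1 := by norm_num
        simpa only [ge_iff_le, integral_const, probReal_univ, smul_eq_mul, mul_one] using this
      have h0' : 0 ≤ ∫ ω, h o ω * h o ω ∂(lab V) := integral_nonneg fun ω => mul_self_nonneg _
      have hCS := sq_integral_mul_le (P := lab V) (F := h o) (H := (adjF (G := G))^[n] h o)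
        (hh.integrable_mul hh o o) ((hh.iter hreg n).integrable_mul (hh.iter hreg n) o o)
        (hh.integrable_mul (hh.iter hreg n) o o)
      have h4 : (0 : ℝ) ≤ (4 / s ^ 2) ^ n := by (clear * - hd1; positivity)
      have h5 : (∫ ω, h o ω * (adjF (G := G))^[n] h o ω ∂(lab V)) ^ 2 ≤ ((2 / s) ^ n) ^ 2 := by
        calc _ ≤ _ := hCS
          _ ≤ 1 * ((4 / s ^ 2) ^ n * 1) := by
              refine mul_le_mul h1' (hN.trans ?_) (integral_nonneg fun ω => mul_self_nonneg _)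
                (by norm_num)
              exact mul_le_mul_of_nonneg_left h1' h4
          _ = ((2 / s) ^ n) ^ 2 := by
              have e4 : (4 / s ^ 2 : ℝ) = (2 / s) ^ 2 := by ring
              rw [one_mul, mul_one, ← pow_mul, mul_comm n 2, pow_mul, e4]
      exact abs_le_of_sq_le_sq' h5 (by (clear * - hd1; positivity)) |>.2
    · have h6 : ∫ ω, |f o ω - h o ω| ∂(lab V) ≤ ε / (2 * (d : ℝ) ^ n) := by
        simp only [hho]
        exact hφ'e
      calc 2 * (d : ℝ) ^ n * ∫ ω, |f o ω - h o ω| ∂(lab V) ≤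
            2 * (d : ℝ) ^ n * (ε / (2 * (d : ℝ) ^ n)) := mul_le_mul_of_nonneg_left h6 hd0.le
        _ = ε := by (clear * - hd hε; field_simp)
  -- conclusion
  have hgt : 1 < lam * s / 2 := by
    have h7 : lam * s / 2 - 1 = (θ / s - 1) ^ 2 * s / (2 * θ) := by
      have h8 : (d : ℝ) - 1 = 1 / s ^ 2 := by
        field_simp
        linarith only [hs2]
      rw [hlam, h8]
      field_simp
      ring
    have h9 : 0 < (θ / s - 1) ^ 2 * s / (2 * θ) := by
      have : 0 < θ / s - 1 := by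
        rw [sub_pos, lt_div_iff₀ hs0]
        linarith only [hsθ]
      (clear * - this hd1 hθ; positivity)
    linarith only [h7, h9]
  have hall : ∀ n : ℕ, (lam * s / 2) ^ n * φ o ≤ 1 := by
    intro n
    have h10 := (hlow n).trans (hup n)
    have h11 : (lam * s / 2) ^ n * φ o = (lam ^ n * φ o) * (s / 2) ^ n := by
      rw [show lam * s / 2 = lam * (s / 2) by ring, mul_pow]
      ring
    rw [h11]
    calc (lam ^ n * φ o) * (s / 2) ^ n ≤ (2 / s) ^ n * (s / 2) ^ n :=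
          mul_le_mul_of_nonneg_right h10 (by (clear * - hd1; positivity))
      _ = 1 := by
          rw [← mul_pow]
          have : 2 / s * (s / 2) = 1 := by (clear * - hs0; field_simp)
          rw [this, one_pow]
  obtain ⟨n, hn⟩ := pow_unbounded_of_one_lt (1 / φ o) hgt
  have h12 := hall n
  rw [div_lt_iff₀ hφo] at hn
  linarith only [hn, h12]

end Vale.Agent.P161
end
end

section

section

open MeasureTheory Filter Topology ProbabilityTheory
open scoped BoundedContinuousFunction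

namespace Vale.Agent.P161

section LimAbs

variable {Ω : Type*} [MeasurableSpace Ω] {P : Measure Ω}

/-- every subsequence has a further subsequence converging almost everywhere -/
def AESub {E : Type*} [TopologicalSpace E] (P : Measure Ω) (X : ℕ → Ω → E) (Y : Ω → E) : Prop :=
  ∀ ns : ℕ → ℕ, Tendsto ns atTop atTop → ∃ ms : ℕ → ℕ,
    ∀ᵐ ω ∂P, Tendsto (fun k => X (ns (ms k)) ω) atTop (𝓝 (Y ω))

/-- coordinatewise convergence in mean along a countable family -/
theorem aesub_of_coord [IsFiniteMeasure P] {ι : Type*} [Countable ι] {X : ℕ → Ω → ι → ℝ}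
    {Y : Ω → ι → ℝ} (hX : ∀ n i, Measurable fun ω => X n ω i) (hY : ∀ i, Measurable fun ω => Y ω i)
    (h : ∀ i, Tendsto (fun n => ∫ ω, min 1 |X n ω i - Y ω i| ∂P) atTop (𝓝 0)) :
    AESub P X Y := by
  classical
  intro ns hns
  have : Encodable ι := Encodable.ofCountable ι
  let w : ι → ℝ := fun i => (1 / 2) ^ (Encodable.encode i)
  have hw : Summable w := by
    refine (summable_geometric_of_lt_one (by norm_num) (by (clear * -; norm_num) : (1 / 2 : ℝ) < 1)).comp_injective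
      Encodable.encode_injective
  have hw0 : ∀ i, 0 < w i := fun i => by positivity
  let f : ℕ → ι → Ω → ℝ := fun k i ω => w i * min 1 |X (ns k) ω i - Y ω i|
  have hf0 : ∀ k i ω, 0 ≤ f k i ω := fun k i ω => by
    refine mul_nonneg (hw0 i).le (le_min zero_le_one (abs_nonneg _))
  have hfw : ∀ k i ω, f k i ω ≤ w i := fun k i ω => by
    calc w i * min 1 |X (ns k) ω i - Y ω i| ≤ w i * 1 :=
          mul_le_mul_of_nonneg_left (min_le_left _ _) (hw0 i).le
      _ = w i := mul_one _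
  have hfs : ∀ k ω, Summable fun i => f k i ω := fun k ω =>
    Summable.of_nonneg_of_le (fun i => hf0 k i ω) (fun i => hfw k i ω) hw
  have hfm : ∀ k i, Measurable (f k i) := fun k i =>
    measurable_const.mul (measurable_const.min ((hX _ i).sub (hY i)).abs)
  let Z : ℕ → Ω → ℝ := fun k ω => ∑' i, f k i ω
  have hZm : ∀ k, Measurable (Z k) := fun k => Measurable.tsum (fun i => hfm k i)
  have hZ0 : ∀ k ω, 0 ≤ Z k ω := fun k ω => tsum_nonneg fun i => hf0 k i ω
  have hZint : ∀ k, ∫ ω, Z k ω ∂P = ∑' i, ∫ ω, f k i ω ∂P := by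
    intro k
    refine integral_tsum_of_summable_integral_norm (fun i => ?_) ?_ |>.symm
    · refine Integrable.of_bound (hfm k i).aestronglyMeasurable (w i)
        (Eventually.of_forall fun ω => ?_)
      rw [Real.norm_eq_abs, abs_of_nonneg (hf0 k i ω)]
      exact hfw k i ω
    · refine Summable.of_nonneg_of_le (fun i => integral_nonneg fun ω => norm_nonneg _)
        (fun i => ?_) (hw.mul_right (P.real Set.univ))
      calc ∫ ω, ‖f k i ω‖ ∂P ≤ ∫ _ω, w i ∂P := by
            refine integral_mono_of_nonneg (Eventually.of_forall fun ω => norm_nonneg _)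
              (integrable_const _) (Eventually.of_forall fun ω => ?_)
            simp only
            rw [Real.norm_eq_abs, abs_of_nonneg (hf0 k i ω)]
            exact hfw k i ω
        _ = w i * P.real Set.univ := by
            rw [integral_const, smul_eq_mul, mul_comm]
  have hZlim : Tendsto (fun k => ∫ ω, Z k ω ∂P) atTop (𝓝 0) := by
    simp only [hZint]
    have h0 : (0 : ℝ) = ∑' _ : ι, (0 : ℝ) := by simp only [tsum_zero]
    rw [h0]
    refine tendsto_tsum_of_dominated_convergence (bound := fun i => w i * P.real Set.univ)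
      (hw.mul_right _) (fun i => ?_) (Eventually.of_forall fun k i => ?_)
    · have h1 := ((h i).comp hns).const_mul (w i)
      rw [mul_zero] at h1
      refine h1.congr fun k => ?_
      simp only [Function.comp, f]
      rw [integral_const_mul]
    · rw [Real.norm_eq_abs, abs_of_nonneg (integral_nonneg fun ω => hf0 k i ω)]
      calc ∫ ω, f k i ω ∂P ≤ ∫ _ω, w i ∂P := by
            refine integral_mono_of_nonneg (Eventually.of_forall fun ω => hf0 k i ω)
              (integrable_const _) (Eventually.of_forall fun ω => hfw k i ω)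
        _ = w i * P.real Set.univ := by
            rw [integral_const, smul_eq_mul, mul_comm]
  have hZbd : ∀ k ω, ‖Z k ω‖ ≤ ∑' i, w i := fun k ω => by
    rw [Real.norm_eq_abs, abs_of_nonneg (hZ0 k ω)]
    exact (hfs k ω).tsum_le_tsum (fun i => hfw k i ω) hw
  have hZI : ∀ k, Integrable (Z k) P := fun k =>
    Integrable.of_bound (hZm k).aestronglyMeasurable _ (Eventually.of_forall fun ω => hZbd k ω)
  have hmeas : TendstoInMeasure P Z atTop (fun _ => (0 : ℝ)) := by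
    refine tendstoInMeasure_of_tendsto_eLpNorm (p := 1) one_ne_zero
      (fun k => (hZm k).aestronglyMeasurable) aestronglyMeasurable_const ?_
    have h2 : ∀ k, eLpNorm (Z k - fun _ => (0 : ℝ)) 1 P = ENNReal.ofReal (∫ ω, Z k ω ∂P) := by
      intro k
      have e1 : (Z k - fun _ => (0 : ℝ)) = Z k := by funext ω; simp
      rw [e1, eLpNorm_one_eq_lintegral_enorm, ← ofReal_integral_norm_eq_lintegral_enorm (hZI k)]
      congr 1
      refine integral_congr_ae (Eventually.of_forall fun ω => ?_)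
      simp only
      rw [Real.norm_eq_abs, abs_of_nonneg (hZ0 k ω)]
    simp only [h2]
    have h3 := ENNReal.tendsto_ofReal hZlim
    rwa [ENNReal.ofReal_zero] at h3
  obtain ⟨ms, -, hms⟩ := hmeas.exists_seq_tendsto_ae
  refine ⟨ms, ?_⟩
  filter_upwards [hms] with ω hω
  rw [tendsto_pi_nhds]
  intro i
  have h4 : Tendsto (fun k => min 1 |X (ns (ms k)) ω i - Y ω i|) atTop (𝓝 0) := by
    have h5 : Tendsto (fun k => (w i)⁻¹ * Z (ms k) ω) atTop (𝓝 0) := by
      have := hω.const_mul (w i)⁻¹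
      rwa [mul_zero] at this
    refine squeeze_zero (fun k => le_min zero_le_one (abs_nonneg _)) (fun k => ?_) h5
    have h6 : f (ms k) i ω ≤ Z (ms k) ω := (hfs (ms k) ω).le_tsum i fun j _ => hf0 _ j ω
    have h7 : w i * min 1 |X (ns (ms k)) ω i - Y ω i| ≤ Z (ms k) ω := h6
    rw [inv_mul_eq_div, le_div_iff₀ (hw0 i)]
    linarith only [h6]
  rw [tendsto_iff_norm_sub_tendsto_zero]
  have h8 : ∀ᶠ k in atTop, min 1 |X (ns (ms k)) ω i - Y ω i| < 1 :=
    h4.eventually_lt_const (by norm_num)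
  refine h4.congr' ?_
  filter_upwards [h8] with k hk
  rw [Real.norm_eq_abs]
  rcases min_choice 1 |X (ns (ms k)) ω i - Y ω i| with h9 | h9
  · rw [h9] at hk
    exact absurd hk (lt_irrefl _)
  · exact h9

/-- convergence in quadratic mean of every coordinate -/
theorem aesub_of_sq [IsProbabilityMeasure P] {ι : Type*} [Countable ι] {X : ℕ → Ω → ι → ℝ}
    {Y : Ω → ι → ℝ} (hX : ∀ n i, Measurable fun ω => X n ω i) (hY : ∀ i, Measurable fun ω => Y ω i)
    (hint : ∀ n i, Integrable (fun ω => (X n ω i - Y ω i) ^ 2) P)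
    (h : ∀ i, Tendsto (fun n => ∫ ω, (X n ω i - Y ω i) ^ 2 ∂P) atTop (𝓝 0)) :
    AESub P X Y := by
  refine aesub_of_coord hX hY fun i => ?_
  have h1 : Tendsto (fun n => Real.sqrt (∫ ω, (X n ω i - Y ω i) ^ 2 ∂P)) atTop (𝓝 0) := by
    have := (Real.continuous_sqrt.tendsto 0).comp (h i)
    rwa [Real.sqrt_zero] at this
  refine squeeze_zero (fun n => integral_nonneg fun ω => le_min zero_le_one (abs_nonneg _))
    (fun n => ?_) h1
  have hm : Measurable fun ω => min 1 |X n ω i - Y ω i| :=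
    measurable_const.min ((hX n i).sub (hY i)).abs
  have hI : Integrable (fun ω => min 1 |X n ω i - Y ω i|) P := by
    refine Integrable.of_bound hm.aestronglyMeasurable 1 (Eventually.of_forall fun ω => ?_)
    rw [Real.norm_eq_abs, abs_of_nonneg (le_min zero_le_one (abs_nonneg _))]
    exact min_le_left _ _
  refine Real.le_sqrt_of_sq_le ?_
  have hI2 : Integrable (fun ω => (min 1 |X n ω i - Y ω i|) ^ 2) P := by
    refine Integrable.of_bound (hm.pow_const 2).aestronglyMeasurable 1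
      (Eventually.of_forall fun ω => ?_)
    rw [Real.norm_eq_abs, abs_of_nonneg (sq_nonneg _)]
    exact pow_le_one₀ (le_min zero_le_one (abs_nonneg _)) (min_le_left _ _)
  have hcs : (∫ ω, min 1 |X n ω i - Y ω i| ∂P) ^ 2 ≤ ∫ ω, (min 1 |X n ω i - Y ω i|) ^ 2 ∂P := by
    have hv : 0 ≤ ∫ ω, (min 1 |X n ω i - Y ω i| - ∫ ω', min 1 |X n ω' i - Y ω' i| ∂P) ^ 2 ∂P :=
      integral_nonneg fun ω => sq_nonneg _
    set a := ∫ ω', min 1 |X n ω' i - Y ω' i| ∂P with ha
    have e : ∫ ω, (min 1 |X n ω i - Y ω i| - a) ^ 2 ∂P =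
        ∫ ω, (min 1 |X n ω i - Y ω i|) ^ 2 ∂P - a ^ 2 := by
      have e1 : ∀ ω, (min 1 |X n ω i - Y ω i| - a) ^ 2 =
          (min 1 |X n ω i - Y ω i|) ^ 2 - (2 * a * min 1 |X n ω i - Y ω i| - a ^ 2) := fun ω => by
        ring
      simp only [e1]
      have hJ : Integrable (fun ω => 2 * a * min 1 |X n ω i - Y ω i| - a ^ 2) P :=
        (hI.const_mul _).sub (integrable_const _)
      rw [integral_sub hI2 hJ, integral_sub (hI.const_mul _) (integrable_const _),
        integral_const_mul, ← ha]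
      simp only [integral_const, probReal_univ, smul_eq_mul, one_mul, sub_right_inj]
      ring
    rw [e] at hv
    linarith only [hv]
  refine hcs.trans (integral_mono hI2 (hint n i) fun ω => ?_)
  have h5 : (min 1 |X n ω i - Y ω i|) ^ 2 ≤ |X n ω i - Y ω i| ^ 2 :=
    pow_le_pow_left₀ (le_min zero_le_one (abs_nonneg _)) (min_le_right _ _) 2
  rwa [sq_abs] at h5

/-- expectations of bounded continuous functionals converge -/
theorem AESub.tendsto_integral [IsFiniteMeasure P] {E : Type*} [TopologicalSpace E]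
    {X : ℕ → Ω → E} {Y : Ω → E} (h : AESub P X Y) {φ : E → ℝ} (hφ : Continuous φ) {C : ℝ}
    (hC : ∀ᵐ ω ∂P, ∀ n, |φ (X n ω)| ≤ C) (hm : ∀ n, AEStronglyMeasurable (fun ω => φ (X n ω)) P) :
    Tendsto (fun n => ∫ ω, φ (X n ω) ∂P) atTop (𝓝 (∫ ω, φ (Y ω) ∂P)) := by
  refine tendsto_of_subseq_tendsto fun ns hns => ?_
  obtain ⟨ms, hms⟩ := h ns hns
  refine ⟨ms, tendsto_integral_of_dominated_convergence (fun _ => C) (fun k => hm _)
    (integrable_const _) (fun k => ?_) ?_⟩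
  · filter_upwards [hC] with ω hω
    exact hω _
  · filter_upwards [hms] with ω hω
    exact (hφ.tendsto _).comp hω

end LimAbs

end Vale.Agent.P161
end
end

section

section

/-!
# Step (II): assembly
-/

open MeasureTheory Finset

namespace Vale.Agent.P161

variable {V : Type*} {G : SimpleGraph V} [G.LocallyFinite]

/-- weighted size of a sphere -/
theorem pow_mul_card_sph_le (hG : G.IsTree) {b : ℕ} (hb : 1 ≤ b)
    (hreg : G.IsRegularOfDegree (b + 1)) {q : ℝ} (hq : 0 ≤ q) (o : V) {n : ℕ} (hn : 1 ≤ n) :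
    q ^ n * ((sph hG.connected o n).card : ℝ) ≤ 2 * (b * q) ^ n := by
  obtain ⟨m, rfl⟩ : ∃ m, n = m + 1 := ⟨n - 1, by (clear * - hn; omega)⟩
  have h1 := card_sph_le hG (d := b + 1) (fun v => hreg v) o m
  have h2 : ((sph hG.connected o (m + 1)).card : ℝ) ≤ ((b : ℝ) + 1) * (b : ℝ) ^ m := by
    have h3 : (b + 1 - 1) = b := by omega
    rw [h3] at h1
    exact_mod_cast h1
  have hb1 : (1 : ℝ) ≤ b := by exact_mod_cast hb
  calc q ^ (m + 1) * ((sph hG.connected o (m + 1)).card : ℝ)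
      ≤ q ^ (m + 1) * (((b : ℝ) + 1) * (b : ℝ) ^ m) :=
        mul_le_mul_of_nonneg_left h2 (by (clear * - hq; positivity))
    _ ≤ q ^ (m + 1) * ((2 * b) * (b : ℝ) ^ m) := by
        refine mul_le_mul_of_nonneg_left ?_ (by positivity)
        exact mul_le_mul_of_nonneg_right (by linarith only [hb1]) (by positivity)
    _ = 2 * (b * q) ^ (m + 1) := by ring

section Fields

variable {Ω : Type*} [MeasurableSpace Ω] {P : Measure Ω} [IsProbabilityMeasure P]
  {θ θ' ρ ρ' : ℝ} {M M' : V → Ω → ℝ}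

/-- the decorrelation part, summed up to distance `N` -/
theorem sum_eta_le (hG : G.IsTree) {b : ℕ} (hb : 2 ≤ b) (hreg : G.IsRegularOfDegree (b + 1))
    (hT : TField G θ ρ P M) (hT' : TField G θ' ρ' P M') (hinv : PInv G P M M')
    (hθ0 : 0 ≤ θ) (hθ : θ ^ 2 ≤ 1 / 2) (hθ0' : 0 ≤ θ') (hθ' : θ' ^ 2 ≤ 1 / 2)
    (hbθ' : b * θ' ^ 2 ≤ 1) {B A δ : ℝ} {j : ℕ} (hB : 0 ≤ B)
    (hmom : ∀ v, ∫ ω, M v ω ^ (2 * j) ∂P ≤ B) (hmom' : ∀ v, ∫ ω, M' v ω ^ (2 * j) ∂P ≤ B)
    (hA : 0 ≤ A) (hA2 : ∀ a v, ∫ ω, (xiF θ (tau θ (M a ω) (M v ω))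
      - xiF θ' (tau θ' (M' a ω) (M' v ω))) ^ 2 ∂P ≤ A ^ 2)
    {a0 b0 : V} (hab : G.Adj a0 b0)
    (hδ : |∫ ω, xiF θ (tau θ (M a0 ω) (M b0 ω)) ∂P
      - ∫ ω, xiF θ' (tau θ' (M' a0 ω) (M' b0 ω)) ∂P| ≤ δ) (o : V) (N K : ℕ) {ϱ : ℝ}
    (hϱ : ϱ = 1 / Real.sqrt b) :
    ∑ n ∈ range (N + 1), (θ' ^ 2) ^ n * ∑ v ∈ sph hG.connected o n,
      ∫ ω, (etaP θ (fun i => M (geo G o v i) ω) n
        - etaP θ' (fun i => M' (geo G o v i) ω) n) ^ 2 ∂P
      ≤ (N : ℝ) ^ 2 * (8 / (1 - ϱ) * (K * A ^ 2 + A * ϱ ^ K + N * (A * δ))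
        + 8 * 4096 ^ (2 * j) * B) := by
  have hδ0 : 0 ≤ δ := (abs_nonneg _).trans hδ
  have hb2 : (2 : ℝ) ≤ b := by exact_mod_cast hb
  have hs1 : 1 < Real.sqrt b := by
    rw [Real.lt_sqrt (by norm_num)]
    linarith only [hb2]
  have hϱ0 : 0 < ϱ := by
    rw [hϱ]
    positivity
  have hϱ1 : ϱ < 1 := by
    rw [hϱ, div_lt_one (by linarith only [hs1])]
    exact hs1
  have h1ϱ : 0 < 1 - ϱ := by linarith only [hϱ1]
  have hϱK : 0 ≤ ϱ ^ K := by (clear * - hϱ0; positivity)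
  have hcard : ((b + 1 - 1 : ℕ) : ℝ) = b := by
    have : b + 1 - 1 = b := by omega
    rw [this]
  have hN0 : (0 : ℝ) ≤ N := Nat.cast_nonneg _
  have hK0 : (0 : ℝ) ≤ K := Nat.cast_nonneg _
  -- the common bound for one sphere, without the size
  set Z : ℝ := 2 * (K * A ^ 2 + 2 * A * (ϱ ^ K / (1 - ϱ)) + N * (2 * A * δ))
    + 4 * 4096 ^ (2 * j) * B with hZ
  have hZ0 : 0 ≤ Z := by (clear * - hA hϱ0 hϱ1 hδ0 hB; positivity)
  have hterm : ∀ n ∈ range (N + 1), (θ' ^ 2) ^ n * ∑ v ∈ sph hG.connected o n,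
      ∫ ω, (etaP θ (fun i => M (geo G o v i) ω) n
        - etaP θ' (fun i => M' (geo G o v i) ω) n) ^ 2 ∂P ≤ 2 * (n * Z) := by
    intro n hn
    rw [mem_range] at hn
    have hnN : (n : ℝ) ≤ N := by exact_mod_cast (by omega : n ≤ N)
    have h1 := sphere_eta_le (P := P) hG hreg (by omega) hT hT' hinv hθ0 hθ hθ0' hθ' hmom hmom'
      hA hA2 hab hδ o n K
    rw [hcard, ← hϱ] at h1
    have h2 : (n : ℝ) * (2 * (K * A ^ 2 + 2 * A * (ϱ ^ K / (1 - ϱ)) + n * (2 * A * δ)))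
        + n * (4 * 4096 ^ (2 * j) * B) ≤ n * Z := by
      rw [hZ, mul_add]
      have h3 : (n : ℝ) * (2 * A * δ) ≤ N * (2 * A * δ) :=
        mul_le_mul_of_nonneg_right hnN (by (clear * - hA hδ0; positivity))
      have h4 : (n : ℝ) * (2 * (K * A ^ 2 + 2 * A * (ϱ ^ K / (1 - ϱ)) + n * (2 * A * δ)))
          ≤ n * (2 * (K * A ^ 2 + 2 * A * (ϱ ^ K / (1 - ϱ)) + N * (2 * A * δ))) :=
        mul_le_mul_of_nonneg_left (by linarith only [h3]) (Nat.cast_nonneg _)
      linarith only [h4]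
    rcases Nat.eq_zero_or_pos n with h0 | h0
    · subst h0
      simp only [pow_zero, one_mul]
      refine h1.trans ?_
      simp
    · have h3 := pow_mul_card_sph_le hG (by omega) hreg (sq_nonneg θ') o h0
      have h4 : (b * θ' ^ 2) ^ n ≤ 1 := pow_le_one₀ (by (clear * - hb; positivity)) hbθ'
      calc (θ' ^ 2) ^ n * ∑ v ∈ sph hG.connected o n,
            ∫ ω, (etaP θ (fun i => M (geo G o v i) ω) n
              - etaP θ' (fun i => M' (geo G o v i) ω) n) ^ 2 ∂P
          ≤ (θ' ^ 2) ^ n * ((sph hG.connected o n).card * (n * Z)) := by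
            refine mul_le_mul_of_nonneg_left (h1.trans ?_) (by (clear * -; positivity))
            exact mul_le_mul_of_nonneg_left h2 (Nat.cast_nonneg _)
        _ = ((θ' ^ 2) ^ n * (sph hG.connected o n).card) * (n * Z) := by ring
        _ ≤ (2 * 1) * (n * Z) := by
            refine mul_le_mul_of_nonneg_right (h3.trans ?_) (by (clear * - h0 hA hϱ0 hϱ1 hδ0 hB; positivity))
            exact mul_le_mul_of_nonneg_left h4 (by norm_num)
        _ = 2 * (n * Z) := by ring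
  refine (Finset.sum_le_sum hterm).trans ?_
  have hsum : ∑ n ∈ range (N + 1), 2 * ((n : ℝ) * Z) ≤ 2 * ((N : ℝ) ^ 2 * Z) := by
    rw [← Finset.mul_sum]
    refine mul_le_mul_of_nonneg_left ?_ (by norm_num)
    rw [Finset.sum_range_succ']
    simp only [Nat.cast_zero, zero_mul, add_zero]
    calc ∑ n ∈ range N, ((n + 1 : ℕ) : ℝ) * Z ≤ ∑ _n ∈ range N, (N : ℝ) * Z := by
          refine Finset.sum_le_sum fun n hn => ?_
          rw [mem_range] at hn
          have : ((n + 1 : ℕ) : ℝ) ≤ N := by exact_mod_cast hn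
          exact mul_le_mul_of_nonneg_right this hZ0
      _ = (N : ℝ) ^ 2 * Z := by
          rw [Finset.sum_const, card_range, nsmul_eq_mul]
          ring
  refine hsum.trans ?_
  have hfin : 2 * Z ≤ 8 / (1 - ϱ) * (K * A ^ 2 + A * ϱ ^ K + N * (A * δ))
      + 8 * 4096 ^ (2 * j) * B := by
    have g1 : 4 ≤ 8 / (1 - ϱ) := by
      rw [le_div_iff₀ h1ϱ]
      linarith only [hϱ0]
    have g2 : 8 ≤ 8 / (1 - ϱ) := by
      rw [le_div_iff₀ h1ϱ]
      linarith only [hϱ0]
    have g3 : 4 * (K * A ^ 2) ≤ 8 / (1 - ϱ) * (K * A ^ 2) :=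
      mul_le_mul_of_nonneg_right g1 (by (clear * -; positivity))
    have g4 : 8 * (N * (A * δ)) ≤ 8 / (1 - ϱ) * (N * (A * δ)) :=
      mul_le_mul_of_nonneg_right g2 (by (clear * - hA hδ0; positivity))
    have g5 : 2 * Z = 4 * (K * A ^ 2) + 8 / (1 - ϱ) * (A * ϱ ^ K) + 8 * (N * (A * δ))
        + 8 * 4096 ^ (2 * j) * B := by
      rw [hZ]
      ring
    rw [g5, mul_add, mul_add]
    linarith only [g4, g3]
  calc 2 * ((N : ℝ) ^ 2 * Z) = (N : ℝ) ^ 2 * (2 * Z) := by ring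
    _ ≤ _ := mul_le_mul_of_nonneg_left hfin (by (clear * -; positivity))

/-- the terms beyond distance `N` -/
theorem tail_cov_le (hG : G.IsTree) {b : ℕ} (hb : 2 ≤ b) (hreg : G.IsRegularOfDegree (b + 1))
    (hT : TField G θ ρ P M) (hT' : TField G θ' ρ' P M') (hθ0 : 0 ≤ θ) (hθ1 : θ < 1)
    (hθ0' : 0 ≤ θ') (hθ1' : θ' < 1) (hρ1 : ρ ≤ 1) (hρ1' : ρ' ≤ 1) {R0 : ℝ} (hR0 : 0 < R0)
    (hR1 : R0 ≤ 1) (hR : R0 ≤ 1 - b * θ ^ 2 * (1 - ρ)) (hR' : R0 ≤ 1 - b * θ' ^ 2 * (1 - ρ'))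
    (o : V) (N R : ℕ) :
    ∑ n ∈ Ico (N + 1) R, ∑ v ∈ sph hG.connected o n,
      ∫ ω, (covT G θ (fun x => M x ω) o v - covT G θ' (fun x => M' x ω) o v) ^ 2 ∂P
      ≤ 4 * ((1 - R0) ^ N / R0) := by
  have hcov : ∀ {θ ρ : ℝ} {M : V → Ω → ℝ}, TField G θ ρ P M → 0 ≤ θ → θ < 1 → ρ ≤ 1 →
      ∀ o v, Integrable (fun ω => covT G θ (fun x => M x ω) o v ^ 2) P := by
    intro θ ρ M hT h0 h1 hρ o v
    refine integrable_of_bdd ((measurable_covT hT.meas θ o v).pow_const 2) (C := 1) fun ω => ?_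
    have c0 := covP_nonneg (a := fun i => M (geo G o v i) ω) h0 h1 (fun i => hT.bdd _ ω)
      (G.dist o v)
    have c1 := covP_le (a := fun i => M (geo G o v i) ω) h0 h1 (fun i => hT.bdd _ ω) (G.dist o v)
    have e0 := etaP_nonneg (a := fun i => M (geo G o v i) ω) h0 h1 (fun i => hT.bdd _ ω)
      (G.dist o v)
    have e1 := etaP_le_one (a := fun i => M (geo G o v i) ω) h0 h1 (fun i => hT.bdd _ ω)
      (G.dist o v)
    have e2 : θ ^ G.dist o v ≤ 1 := pow_le_one₀ h0 h1.le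
    have e3 : 0 ≤ θ ^ G.dist o v := pow_nonneg h0 _
    unfold covT
    rw [abs_of_nonneg (sq_nonneg _)]
    exact pow_le_one₀ c0 (c1.trans (mul_le_one₀ e2 e0 e1))
  have hterm : ∀ n ∈ Ico (N + 1) R, ∑ v ∈ sph hG.connected o n,
      ∫ ω, (covT G θ (fun x => M x ω) o v - covT G θ' (fun x => M' x ω) o v) ^ 2 ∂P
      ≤ 4 * (1 - R0) ^ n := by
    intro n hn
    rw [mem_Ico] at hn
    have hq : 0 ≤ θ ^ 2 * (1 - ρ) := mul_nonneg (sq_nonneg _) (by linarith only [hρ1])
    have hq' : 0 ≤ θ' ^ 2 * (1 - ρ') := mul_nonneg (sq_nonneg _) (by linarith only [hρ1'])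
    have hper : ∀ v ∈ sph hG.connected o n,
        ∫ ω, (covT G θ (fun x => M x ω) o v - covT G θ' (fun x => M' x ω) o v) ^ 2 ∂P
          ≤ (θ ^ 2 * (1 - ρ)) ^ n + (θ' ^ 2 * (1 - ρ')) ^ n := by
      intro v hv
      rw [mem_sph] at hv
      have i1 := hcov hT hθ0 hθ1 hρ1 o v
      have i2 := hcov hT' hθ0' hθ1' hρ1' o v
      have h1 := hT.integral_covT_sq_le hG (by omega) hreg hθ0 hθ1 hρ1 o v
      have h2 := hT'.integral_covT_sq_le hG (by omega) hreg hθ0' hθ1' hρ1' o v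
      rw [hv] at h1 h2
      have h3 : ∫ ω, (covT G θ (fun x => M x ω) o v - covT G θ' (fun x => M' x ω) o v) ^ 2 ∂P
          ≤ ∫ ω, (covT G θ (fun x => M x ω) o v ^ 2 + covT G θ' (fun x => M' x ω) o v ^ 2) ∂P := by
        refine integral_mono_of_nonneg (Filter.Eventually.of_forall fun _ => sq_nonneg _)
          (i1.add i2) (Filter.Eventually.of_forall fun ω => ?_)
        have c0 := covP_nonneg (a := fun i => M (geo G o v i) ω) hθ0 hθ1
          (fun i => hT.bdd _ ω) (G.dist o v)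
        have c1 := covP_nonneg (a := fun i => M' (geo G o v i) ω) hθ0' hθ1'
          (fun i => hT'.bdd _ ω) (G.dist o v)
        have c2 := mul_nonneg c0 c1
        simp only [covT]
        linarith only [c2]
      rw [integral_add i1 i2] at h3
      linarith only [h1, h2, h3]
    refine (Finset.sum_le_sum hper).trans ?_
    rw [Finset.sum_const, nsmul_eq_mul, mul_add]
    have h4 := pow_mul_card_sph_le hG (by omega) hreg hq o (n := n) (by omega)
    have h5 := pow_mul_card_sph_le hG (by omega) hreg hq' o (n := n) (by (clear * - hn; omega))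
    have h6 : ((b : ℝ) * (θ ^ 2 * (1 - ρ))) ^ n ≤ (1 - R0) ^ n :=
      pow_le_pow_left₀ (by (clear * - hb hρ1; positivity)) (by rw [← mul_assoc]; linarith only [hR]) n
    have h7 : ((b : ℝ) * (θ' ^ 2 * (1 - ρ'))) ^ n ≤ (1 - R0) ^ n :=
      pow_le_pow_left₀ (by (clear * - hb hρ1'; positivity)) (by rw [← mul_assoc]; linarith only [hR']) n
    rw [mul_comm _ ((θ ^ 2 * (1 - ρ)) ^ n), mul_comm _ ((θ' ^ 2 * (1 - ρ')) ^ n)]
    linarith only [h4, h5, h6, h7]
  refine (Finset.sum_le_sum hterm).trans ?_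
  rw [← Finset.mul_sum]
  refine mul_le_mul_of_nonneg_left ?_ (by norm_num)
  have h1 := geom_sum_Ico_le_of_lt_one (x := 1 - R0) (m := N + 1) (n := R) (by linarith only [hR1])
    (by linarith only [hR0])
  rw [sub_sub_cancel] at h1
  refine h1.trans (div_le_div_of_nonneg_right ?_ hR0.le)
  exact pow_le_pow_of_le_one (by linarith only [hR1]) (by linarith only [hR0]) (Nat.le_succ N)

end Fields

end Vale.Agent.P161
end
end

section

section

/-! Equivariance, martingale property and covariances in infinite volume. -/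

open MeasureTheory Filter Topology

namespace Vale.Agent.P161

/-- nonnegative functions with geometrically decaying integrals tend to zero almost surely -/
theorem ae_tendsto_zero_of_integral_le' {Ω : Type*} [MeasurableSpace Ω] {P : Measure Ω}
    {f : ℕ → Ω → ℝ} (hm : ∀ k, Measurable (f k)) (h0 : ∀ k ω, 0 ≤ f k ω)
    (hi : ∀ k, Integrable (f k) P) {K r : ℝ} (hr0 : 0 ≤ r) (hr1 : r < 1)
    (hK : ∀ k, ∫ ω, f k ω ∂P ≤ K * r ^ k) :
    ∀ᵐ ω ∂P, Tendsto (fun k => f k ω) atTop (𝓝 0) := by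
  have hs : ∑' k, ENNReal.ofReal (K * r ^ k) ≠ ⊤ := by
    have : Summable fun k : ℕ => K * r ^ k := (summable_geometric_of_lt_one hr0 hr1).mul_left K
    exact this.tsum_ofReal_ne_top
  have h1 : ∫⁻ ω, ∑' k, ENNReal.ofReal (f k ω) ∂P ≠ ⊤ := by
    rw [lintegral_tsum fun k => (hm k).ennreal_ofReal.aemeasurable]
    refine ne_top_of_le_ne_top hs (ENNReal.tsum_le_tsum fun k => ?_)
    rw [← ofReal_integral_eq_lintegral_ofReal (hi k) (Eventually.of_forall (h0 k))]
    exact ENNReal.ofReal_le_ofReal (hK k)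
  have hm' : Measurable fun ω => ∑' k, ENNReal.ofReal (f k ω) :=
    Measurable.tsum fun k => (hm k).ennreal_ofReal
  filter_upwards [ae_lt_top hm' h1] with ω hω
  have h2 := ENNReal.tendsto_atTop_zero_of_tsum_ne_top hω.ne
  have h3 := (ENNReal.tendsto_toReal (a := 0) (by simp)).comp h2
  simp only [ENNReal.toReal_zero] at h3
  refine h3.congr fun k => ?_
  simp [ENNReal.toReal_ofReal (h0 k ω)]

section Aut

variable {V : Type*} {G : SimpleGraph V} {μ : Measure (V → ℤˣ)}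

theorem ksrt_aut' {ι ι' : Type*} [Encodable ι] [Encodable ι'] {k : ι → ℝ} {k' : ι' → ℝ}
    (g : ι ≃ ι') {B : Finset ι} {B' : Finset ι'}
    (hk : ∀ i ∈ B, ∀ j ∈ B, k i = k j → i = j) (hkk : ∀ i ∈ B, k' (g i) = k i)
    (hB : ∀ x, g x ∈ B' ↔ x ∈ B) :
    ksrt k' B' = (ksrt k B).map g := by
  rw [ksrt_eq_iff]
  refine ⟨⟨(nodup_ksrt k B).map g.injective, fun x => ?_⟩, ?_⟩
  · rw [List.mem_map]
    constructor
    · rintro ⟨a, ha, rfl⟩
      rw [hB]
      simpa using ha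
    · intro hx
      refine ⟨g.symm x, ?_, by simp⟩
      rw [mem_ksrt, ← hB]
      simpa using hx
  · rw [List.pairwise_map]
    have h1 := pairwise_ksrt k B
    have h2 : (ksrt k B).Pairwise (· ≠ ·) := nodup_ksrt k B
    refine (h1.and h2).imp_of_mem ?_
    rintro a b ha hb ⟨hab, hne⟩
    rw [mem_ksrt] at ha hb
    rw [kord_iff] at hab ⊢
    left
    rw [hkk a ha, hkk b hb]
    rcases hab with h | h
    · exact h
    · exact absurd (hk a ha b hb h.1) hne

theorem stt_aut [Encodable V] (g : G ≃g G) {T : V × ℕ → unitInterval}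
    (hT : Function.Injective T) {S S' : Finset (V × ℕ)}
    (hS : ∀ x : V × ℕ, (g x.1, x.2) ∈ S' ↔ x ∈ S) (t : ℝ) :
    stt (fun q => T (g.symm q.1, q.2)) S' t = (stt T S t).map fun p => (g p.1, p.2) := by
  have h1 := ksrt_aut' (k := fun i => -arr T i)
    (k' := fun i => -arr (fun q => T (g.symm q.1, q.2)) i) (arrEquiv g.symm)
    (B := alive T S t) (B' := alive (fun q => T (g.symm q.1, q.2)) S' t) ?_ ?_ ?_
  · exact h1
  · intro i hi j hj hij
    rw [mem_alive] at hi hj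
    exact arr_inj hT hi.2.1 hj.2.1 (by simpa using hij)
  · intro i _
    simp only [arr, arrEquiv, RelIso.symm_symm, Equiv.coe_fn_mk, RelIso.symm_apply_apply, Prod.mk.eta, neg_add_rev]
  · intro x
    have h2 : arrEquiv g.symm x = (g x.1, x.2) := rfl
    rw [h2, mem_alive, mem_alive, hS]
    simp only [RelIso.symm_apply_apply, Prod.mk.eta, one_div, arr]

theorem runE_aut (g : G ≃g G) (hinv : μ.map (fun σ v => σ (g.symm v)) = μ) (e : V × ℕ → ℝ)
    (U : V × ℕ → unitInterval) (l : List (V × ℕ)) :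
    runE μ (fun q => e (g.symm q.1, q.2)) (fun q => U (g.symm q.1, q.2))
      (l.map fun p => (g p.1, p.2)) = (runE μ e U l).map fun p => (g p.1, p.2) := by
  induction l with
  | nil => rfl
  | cons i l ih =>
    simp only [List.map_cons, runE_cons]
    rw [ih, mean_map_aut g hinv]
    simp only [RelIso.symm_apply_apply, Prod.mk.eta]

theorem fvM_aut [Encodable V] (g : G ≃g G) (hinv : μ.map (fun σ v => σ (g.symm v)) = μ)
    {B B' : Finset V} (hB : ∀ x, g x ∈ B' ↔ x ∈ B) (t : ℝ) (v : V) {ω : Om V}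
    (hω : Function.Injective ω.1) : fvM μ B' t (g v) (shift g ω) = fvM μ B t v ω := by
  unfold fvM shift
  simp only
  rw [stt_aut g hω (S := vol B t) (S' := vol B' t) (fun x => by
    unfold vol
    rw [Finset.mem_product, Finset.mem_product, hB])]
  have h1 := runE_aut g hinv (str ω.1) ω.2 (stt ω.1 (vol B t) t)
  have h2 : (fun q : V × ℕ => str ω.1 (g.symm q.1, q.2)) =
      str (fun q => ω.1 (g.symm q.1, q.2)) := rfl
  rw [h2] at h1
  rw [h1, mean_map_aut g hinv]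

variable [Encodable V] [G.LocallyFinite]

theorem Minf_aut {hG : G.IsTree} (g : G ≃g G) (hinv : μ.map (fun σ v => σ (g.symm v)) = μ)
    (t : ℝ) (v : V) {ω : Om V} (hω : Function.Injective ω.1) :
    Minf hG μ t v (shift g ω) = Minf hG μ t (g.symm v) ω := by
  unfold Minf
  congr 1
  funext n
  have h := fvM_aut g hinv (B := bal hG (g.symm v) n) (B' := bal hG v n) (fun x => by
    rw [mem_bal, mem_bal]
    have h1 := dist_aut hG.connected g x (g.symm v)
    rw [RelIso.apply_symm_apply] at h1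
    rw [h1]) t (g.symm v) hω
  rw [RelIso.apply_symm_apply] at h
  exact h

theorem ae_injective_fst [Countable V] : ∀ᵐ ω ∂(PP V), Function.Injective ω.1 :=
  (Measure.quasiMeasurePreserving_fst (μ := noise V) (ν := noise V)).ae
    (ae_injective_labels (ι := V × ℕ))

theorem ae_Minf_aut {hG : G.IsTree} (g : G ≃g G)
    (hinv : μ.map (fun σ v => σ (g.symm v)) = μ) :
    ∀ᵐ ω ∂(PP V), ∀ t v, Minf hG μ t v (shift g ω) = Minf hG μ t (g.symm v) ω := by
  have : Countable V := Encodable.countable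
  filter_upwards [ae_injective_fst (V := V)] with ω hω t v
  exact Minf_aut g hinv t v hω

end Aut

section Conv

variable {V : Type*} {G : SimpleGraph V} {μ : Measure (V → ℤˣ)} [Encodable V] [G.LocallyFinite]
  [IsProbabilityMeasure μ] {lam : ℝ} {C : ℝ → ℝ}

/-- almost sure convergence along the balls around any vertex -/
theorem Rate.ae_tendsto_bal (hr : Rate G μ lam C) (hG : G.IsTree) (o v : V) (t : ℝ) :
    ∀ᵐ ω ∂(PP V), Tendsto (fun n => fvM μ (bal hG o n) t v ω) atTop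
      (𝓝 (Minf hG μ t v ω)) := by
  have hlam := hr.one_lt
  have h1 := ae_tendsto_zero_of_integral_le' (P := PP V)
    (f := fun n ω => (fvM μ (bal hG o n) t v ω - Minf hG μ t v ω) ^ 2)
    (fun n => ((measurable_fvM _ t v).sub (measurable_Minf t v)).pow_const 2)
    (fun n ω => sq_nonneg _)
    (fun n => by
      refine Integrable.of_bound (((measurable_fvM _ t v).sub
        (measurable_Minf t v)).pow_const 2).aestronglyMeasurable 4
        (Eventually.of_forall fun ω => ?_)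
      rw [Real.norm_eq_abs, abs_of_nonneg (sq_nonneg _)]
      exact sq_sub_le_four (abs_fvM_le _ t v ω) (abs_Minf_le t v ω))
    (K := C t * lam ^ G.dist v o) (r := 1 / lam) (by positivity)
    (by rw [div_lt_one (by (clear * - hlam; linarith))]; exact hlam)
    (fun n => by
      refine (hr.fvM_sub_Minf (hG := hG) (o := o) (R := n) (le_refl _) v t).trans (le_of_eq ?_)
      rw [div_pow, one_pow]
      ring)
  filter_upwards [h1] with ω hω
  have h2 : Tendsto (fun n => |fvM μ (bal hG o n) t v ω - Minf hG μ t v ω|) atTop (𝓝 0) := by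
    have h3 := hω.sqrt
    simp only [Real.sqrt_sq_eq_abs, Real.sqrt_zero] at h3
    exact h3
  rw [tendsto_iff_norm_sub_tendsto_zero]
  simpa only [Real.norm_eq_abs] using h2

/-- all means at once -/
theorem Rate.ae_tendsto_all (hr : Rate G μ lam C) (hG : G.IsTree) (t : ℝ) :
    ∀ᵐ ω ∂(PP V), ∀ o v : V, Tendsto (fun n => fvM μ (bal hG o n) t v ω) atTop
      (𝓝 (Minf hG μ t v ω)) := by
  have : Countable V := Encodable.countable
  rw [ae_all_iff]
  intro o
  rw [ae_all_iff]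
  intro v
  exact hr.ae_tendsto_bal hG o v t

end Conv

end Vale.Agent.P161
end
end

section

section

/-! Martingale property, accumulation of information and correlations in infinite volume. -/

open MeasureTheory Filter Topology

namespace Vale.Agent.P161

section Append

variable {V : Type*} [Encodable V]

theorem stt_append (T : V × ℕ → unitInterval) (S : Finset (V × ℕ)) {s t : ℝ} (hst : s ≤ t) :
    ∃ l, stt T S t = l ++ stt T S s := by
  classical
  refine ⟨ksrt (fun i => -arr T i) (alive T S t \ alive T S s), ?_⟩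
  rw [stt, ksrt_eq_iff]
  refine ⟨⟨?_, fun x => ?_⟩, ?_⟩
  · rw [List.nodup_append]
    refine ⟨nodup_ksrt _ _, nodup_stt _ _ _, fun a ha b hb hab => ?_⟩
    subst hab
    rw [mem_ksrt, Finset.mem_sdiff] at ha
    rw [stt, mem_ksrt] at hb
    exact ha.2 hb
  · rw [List.mem_append, mem_ksrt, Finset.mem_sdiff, stt, mem_ksrt, mem_alive, mem_alive]
    constructor
    · rintro (h | h)
      · exact h.1
      · exact ⟨h.1, h.2.1, by linarith [h.2.2]⟩
    · intro h
      by_cases h2 : arr T x < s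
      · exact Or.inr ⟨h.1, h.2.1, h2⟩
      · exact Or.inl ⟨h, fun h3 => h2 h3.2.2⟩
  · rw [List.pairwise_append]
    refine ⟨pairwise_ksrt _ _, pairwise_ksrt _ _, fun a ha b hb => ?_⟩
    rw [mem_ksrt, Finset.mem_sdiff, mem_alive, mem_alive] at ha
    rw [stt, mem_ksrt, mem_alive] at hb
    rw [kord_iff]
    left
    have h1 : s ≤ arr T a := by
      by_contra h2
      exact ha.2 ⟨ha.1.1, ha.1.2.1, not_le.1 h2⟩
    linarith only [hb, h1]

theorem vol_mono (B : Finset V) {s t : ℝ} (hst : s ≤ t) : vol B s ⊆ vol B t := by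
  unfold vol
  refine Finset.product_subset_product (le_refl _) ?_
  intro x hx
  rw [Finset.mem_range] at hx ⊢
  exact lt_of_lt_of_le hx (Nat.ceil_le_ceil hst)

theorem stt_vol_append (T : V × ℕ → unitInterval) (B : Finset V) {s t : ℝ} (hst : s ≤ t) :
    ∃ l, stt T (vol B t) t = l ++ stt T (vol B s) s := by
  obtain ⟨l, hl⟩ := stt_append T (vol B t) hst
  refine ⟨l, ?_⟩
  rw [hl, stt_eq_vol (B := B) (S := vol B t) (t := s) (fun i hi => by
    unfold vol at hi
    exact (Finset.mem_product.1 hi).1) (vol_mono B hst)]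

end Append

section Mart

variable {V : Type*} {G : SimpleGraph V} {μ : Measure (V → ℤˣ)} [Encodable V]
  [IsProbabilityMeasure μ]

theorem integrable_of_abs_le {Ω : Type*} [MeasurableSpace Ω] {P : Measure Ω}
    [IsFiniteMeasure P] {f : Ω → ℝ} (hf : Measurable f) {C : ℝ} (hC : ∀ ω, |f ω| ≤ C) :
    Integrable f P := Integrable.of_bound hf.aestronglyMeasurable C (Eventually.of_forall hC)

theorem sq_le_one_of_abs {a : ℝ} (ha : |a| ≤ 1) : |a ^ 2| ≤ 1 := by
  rw [abs_pow]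
  exact pow_le_one₀ (abs_nonneg _) ha

theorem integral_fvM_mart (B : Finset V) {s t : ℝ} (hst : s ≤ t) (v : V) :
    ∫ ω, (fvM μ B t v ω - fvM μ B s v ω) ^ 2 ∂(PP V) =
      ∫ ω, fvM μ B t v ω ^ 2 ∂(PP V) - ∫ ω, fvM μ B s v ω ^ 2 ∂(PP V) := by
  have i1 : ∀ r, Integrable (fun ω => fvM μ B r v ω ^ 2) (PP V) := fun r =>
    integrable_of_abs_le ((measurable_fvM B r v).pow_const 2) (C := 1)
      (fun ω => sq_le_one_of_abs (abs_fvM_le B r v ω))
  have i2 : Integrable (fun ω => fvM μ B t v ω * fvM μ B s v ω) (PP V) :=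
    integrable_of_abs_le ((measurable_fvM B t v).mul (measurable_fvM B s v)) (C := 1 * 1)
      (fun ω => by
        rw [abs_mul]
        exact mul_le_mul (abs_fvM_le B t v ω) (abs_fvM_le B s v ω) (abs_nonneg _)
          (by norm_num))
  have h1 : ∫ ω, fvM μ B t v ω * fvM μ B s v ω ∂(PP V) =
      ∫ ω, fvM μ B s v ω ^ 2 ∂(PP V) := by
    rw [integral_PP (F := fun ω => fvM μ B t v ω * fvM μ B s v ω)
      ((measurable_fvM B t v).mul (measurable_fvM B s v)) (C := 1 * 1)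
      (fun ω => by
        rw [abs_mul]
        exact mul_le_mul (abs_fvM_le B t v ω) (abs_fvM_le B s v ω) (abs_nonneg _)
          (by norm_num)),
      integral_PP (F := fun ω => fvM μ B s v ω ^ 2) ((measurable_fvM B s v).pow_const 2) (C := 1)
      (fun ω => sq_le_one_of_abs (abs_fvM_le B s v ω))]
    congr 1
    funext T
    obtain ⟨l, hl⟩ := stt_vol_append T B hst
    unfold fvM
    simp only
    have hnd := nodup_stt T (vol B t) t
    rw [hl] at hnd ⊢
    have h2 := integral_post_appendE_mul (μ := μ) (strOK_str T) l (stt T (vol B s) s) hnd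
      (fun U => mean μ (runE μ (str T) U (stt T (vol B s) s)) v)
      (measurable_mean_runE' (strOK_str T) _ v)
      (fun U U' hUU => by rw [runE_congr_noise hUU])
      (fun U => abs_mean_le (good_runE (strOK_str T) U _) v) (localOn_sp v)
    refine h2.trans ?_
    congr 1
    funext U
    rw [sq]
    rfl
  have e1 : ∀ ω, (fvM μ B t v ω - fvM μ B s v ω) ^ 2 =
      fvM μ B t v ω ^ 2 + fvM μ B s v ω ^ 2 - 2 * (fvM μ B t v ω * fvM μ B s v ω) := by
    intro ω; ring
  simp only [e1]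
  have e2 := integral_sub ((i1 t).add (i1 s)) (i2.const_mul 2)
  simp only [Pi.add_apply] at e2
  rw [e2, integral_add (i1 t) (i1 s), integral_const_mul, h1]
  ring

variable [G.LocallyFinite] {lam : ℝ} {C : ℝ → ℝ}

/-- passage to the limit for a continuous function of two means -/
theorem Rate.tendsto_integral_two (hr : Rate G μ lam C) (hG : G.IsTree) (o : V) (s t : ℝ)
    (v w : V) {F : ℝ × ℝ → ℝ} (hF : Continuous F) {K : ℝ}
    (hK : ∀ x y : ℝ, |x| ≤ 1 → |y| ≤ 1 → |F (x, y)| ≤ K) :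
    Tendsto (fun n => ∫ ω, F (fvM μ (bal hG o n) s v ω, fvM μ (bal hG o n) t w ω) ∂(PP V)) atTop
      (𝓝 (∫ ω, F (Minf hG μ s v ω, Minf hG μ t w ω) ∂(PP V))) := by
  refine tendsto_integral_of_dominated_convergence (fun _ => K) (fun n => ?_)
    (integrable_const _) (fun n => Eventually.of_forall fun ω => ?_) ?_
  · exact (hF.measurable.comp ((measurable_fvM _ s v).prodMk
      (measurable_fvM _ t w))).aestronglyMeasurable
  · exact hK _ _ (abs_fvM_le _ _ _ _) (abs_fvM_le _ _ _ _)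
  · filter_upwards [hr.ae_tendsto_all hG s, hr.ae_tendsto_all hG t] with ω h1 h2
    exact (hF.tendsto _).comp ((h1 o v).prodMk_nhds (h2 o w))

theorem Rate.integral_Minf_mart (hr : Rate G μ lam C) (hG : G.IsTree) {s t : ℝ} (hst : s ≤ t)
    (v : V) : ∫ ω, (Minf hG μ t v ω - Minf hG μ s v ω) ^ 2 ∂(PP V) =
      ∫ ω, Minf hG μ t v ω ^ 2 ∂(PP V) - ∫ ω, Minf hG μ s v ω ^ 2 ∂(PP V) := by
  have h1 := hr.tendsto_integral_two hG v t s v v (F := fun p => (p.1 - p.2) ^ 2)
    (by fun_prop) (K := 4) (fun x y hx hy => by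
      simp only
      rw [abs_of_nonneg (sq_nonneg _)]
      exact sq_sub_le_four hx hy)
  have h2 := hr.tendsto_integral_two hG v t s v v (F := fun p => p.1 ^ 2)
    (by fun_prop) (K := 1) (fun x y hx hy => sq_le_one_of_abs hx)
  have h3 := hr.tendsto_integral_two hG v t s v v (F := fun p => p.2 ^ 2)
    (by fun_prop) (K := 1) (fun x y hx hy => sq_le_one_of_abs hy)
  refine tendsto_nhds_unique h1 ((h2.sub h3).congr fun n => ?_)
  rw [← integral_fvM_mart _ hst]

end Mart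

section Beta

/-- number of strong observations made at a site in the first `n` phases -/
noncomputable def cnt (x : ℕ → unitInterval) (n : ℕ) : ℝ :=
  ∑ j ∈ Finset.range n, (if (1 / 4 : ℝ) ≤ x j ∧ (x j : ℝ) < 1 / 2 then 1 else 0)

theorem cnt_nonneg (x : ℕ → unitInterval) (n : ℕ) : 0 ≤ cnt x n := by
  unfold cnt
  refine Finset.sum_nonneg fun j _ => ?_
  split_ifs <;> norm_num

theorem measurable_cnt (n : ℕ) : Measurable fun x : ℕ → unitInterval => cnt x n := by
  unfold cnt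
  refine Finset.measurable_fun_sum _ fun j _ => ?_
  have h : Measurable fun x : ℕ → unitInterval => (x j : ℝ) :=
    measurable_subtype_coe.comp (measurable_pi_apply j)
  refine Measurable.ite ?_ measurable_const measurable_const
  exact (measurableSet_le measurable_const h).inter (measurableSet_lt h measurable_const)

/-- bound of the mean posterior variance after `n` phases -/
noncomputable def bet (n : ℕ) : ℝ :=
  ∫ x, Real.sqrt (577 / (cnt x n + 1)) ∂(Measure.infinitePi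
    fun _ : ℕ => (volume : Measure unitInterval))

theorem ae_exists_ge (m : ℕ) : ∀ᵐ x ∂(Measure.infinitePi
    fun _ : ℕ => (volume : Measure unitInterval)), ∃ j ≥ m, (1 / 4 : ℝ) ≤ x j ∧
      (x j : ℝ) < 1 / 2 := by
  obtain ⟨I, hIm, hIme, hvol⟩ : ∃ I : Set unitInterval,
      (∀ u : unitInterval, u ∈ I ↔ (1 / 4 : ℝ) ≤ u ∧ (u : ℝ) < 1 / 2) ∧ MeasurableSet I ∧
      volume Iᶜ = ENNReal.ofReal (3 / 4) := by
    refine ⟨Set.Ico ⟨1 / 4, by norm_num, by norm_num⟩ ⟨1 / 2, by norm_num, by norm_num⟩,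
      fun u => Iff.rfl, measurableSet_Ico, ?_⟩
    rw [prob_compl_eq_one_sub measurableSet_Ico, unitInterval.volume_Ico]
    have : (1 : ENNReal) = ENNReal.ofReal 1 := by simp
    rw [this, ← ENNReal.ofReal_sub _ (by (clear * -; norm_num))]
    norm_num
  rw [ae_iff]
  have hle : ∀ k : ℕ, (Measure.infinitePi fun _ : ℕ => (volume : Measure unitInterval))
      {x | ¬ ∃ j ≥ m, (1 / 4 : ℝ) ≤ x j ∧ (x j : ℝ) < 1 / 2} ≤ ENNReal.ofReal ((3 / 4) ^ k) := by
    intro k
    have h1 : {x : ℕ → unitInterval | ¬ ∃ j ≥ m, (1 / 4 : ℝ) ≤ x j ∧ (x j : ℝ) < 1 / 2} ⊆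
        Set.pi ((Finset.Ico m (m + k) : Finset ℕ) : Set ℕ) fun _ => Iᶜ := by
      intro x hx
      simp only [Set.mem_pi, Finset.mem_coe, Finset.mem_Ico, Set.mem_compl_iff]
      intro j hj hxj
      exact hx ⟨j, hj.1, (hIm _).1 hxj⟩
    refine (measure_mono h1).trans (le_of_eq ?_)
    rw [Measure.infinitePi_pi _ fun i _ => hIme.compl]
    simp only [Finset.prod_const, Nat.card_Ico, hvol]
    rw [← ENNReal.ofReal_pow (by norm_num)]
    congr 2
    omega
  refine le_antisymm ?_ zero_le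
  have h2 : Tendsto (fun k : ℕ => ENNReal.ofReal ((3 / 4 : ℝ) ^ k)) atTop (𝓝 0) := by
    have h3 := ENNReal.tendsto_ofReal (tendsto_pow_atTop_nhds_zero_of_lt_one
      (r := (3 / 4 : ℝ)) (by norm_num) (by norm_num))
    simpa only [ENNReal.ofReal_zero] using h3
  exact ge_of_tendsto h2 (Eventually.of_forall hle)

theorem ae_cnt_tendsto : ∀ᵐ x ∂(Measure.infinitePi
    fun _ : ℕ => (volume : Measure unitInterval)), Tendsto (fun n => cnt x n) atTop atTop := by
  have h : ∀ᵐ x ∂(Measure.infinitePi fun _ : ℕ => (volume : Measure unitInterval)),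
      ∀ m : ℕ, ∃ j ≥ m, (1 / 4 : ℝ) ≤ x j ∧ (x j : ℝ) < 1 / 2 :=
    ae_all_iff.2 ae_exists_ge
  filter_upwards [h] with x hx
  unfold cnt
  rw [← not_summable_iff_tendsto_nat_atTop_of_nonneg (fun j => by split_ifs <;> norm_num)]
  intro hs
  have h1 := hs.tendsto_atTop_zero
  have h2 := h1.eventually_lt_const (show (0 : ℝ) < 1 by norm_num)
  obtain ⟨m, hm⟩ := eventually_atTop.1 h2
  obtain ⟨j, hj, hxj⟩ := hx m
  have h3 := hm j hj
  rw [if_pos hxj] at h3
  exact lt_irrefl _ h3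

theorem tendsto_bet : Tendsto bet atTop (𝓝 0) := by
  have h0 : (0 : ℝ) = ∫ _x : ℕ → unitInterval, (0 : ℝ) ∂(Measure.infinitePi
      fun _ : ℕ => (volume : Measure unitInterval)) := by simp
  rw [h0]
  refine tendsto_integral_of_dominated_convergence (fun _ => Real.sqrt 577) (fun n => ?_)
    (integrable_const _) (fun n => Eventually.of_forall fun x => ?_) ?_
  · exact ((measurable_const.div ((measurable_cnt n).add_const 1)).sqrt).aestronglyMeasurable
  · rw [Real.norm_eq_abs, abs_of_nonneg (Real.sqrt_nonneg _)]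
    apply Real.sqrt_le_sqrt
    rw [div_le_iff₀ (by linarith only [cnt_nonneg x n])]
    linarith only [cnt_nonneg x n]
  · filter_upwards [ae_cnt_tendsto] with x hx
    have h1 : Tendsto (fun n => 577 / (cnt x n + 1)) atTop (𝓝 0) :=
      (tendsto_atTop_add_const_right _ 1 hx).const_div_atTop 577
    have h2 := h1.sqrt
    simpa only [Nat.ofNat_nonneg, Real.sqrt_div, Real.sqrt_zero] using h2

end Beta

section Var

variable {V : Type*} {G : SimpleGraph V} {μ : Measure (V → ℤˣ)} [Encodable V]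
  [IsProbabilityMeasure μ]

theorem map_row (v : V) : (noise V).map (fun (T : V × ℕ → unitInterval) (j : ℕ) => T (v, j)) =
    Measure.infinitePi fun _ : ℕ => (volume : Measure unitInterval) :=
  Measure.map_infinitePi_infinitePi_of_inj
    (P := fun _ : V × ℕ => (volume : Measure unitInterval)) (f := fun j : ℕ => (v, j))
    (fun j j' h => (Prod.ext_iff.1 h).2)

theorem cnt_le_length (T : V × ℕ → unitInterval) {B : Finset V} {v : V} (hv : v ∈ B) (n : ℕ) :
    cnt (fun j => T (v, j)) n ≤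
      ((open Classical in (stt T (vol B n) n).filter
        (fun i => i.1 = v ∧ (1 / 4 : ℝ) ≤ str T i)).length : ℝ) := by
  classical
  set L := (stt T (vol B n) n).filter (fun i => decide (i.1 = v ∧ (1 / 4 : ℝ) ≤ str T i)) with hL
  have hnd : L.Nodup := (nodup_stt _ _ _).filter _
  have h1 : cnt (fun j => T (v, j)) n =
      (((Finset.range n).filter fun j => (1 / 4 : ℝ) ≤ T (v, j) ∧ (T (v, j) : ℝ) < 1 / 2).card :
        ℝ) := by
    unfold cnt
    rw [Finset.sum_ite, Finset.sum_const_zero, add_zero, Finset.sum_const, nsmul_eq_mul, mul_one]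
  rw [h1]
  have h2 : ((Finset.range n).filter
      fun j => (1 / 4 : ℝ) ≤ T (v, j) ∧ (T (v, j) : ℝ) < 1 / 2).card ≤ L.toFinset.card := by
    refine Finset.card_le_card_of_injOn (fun j => (v, j)) ?_ (fun j _ j' _ h =>
      (Prod.ext_iff.1 h).2)
    intro j hj
    simp only [Finset.coe_filter, Finset.mem_range, Set.mem_ofPred_eq] at hj
    rw [List.coe_toFinset, Set.mem_ofPred_eq, hL, List.mem_filter, mem_stt]
    refine ⟨⟨?_, hj.2.2, ?_⟩, ?_⟩
    · unfold vol
      rw [Finset.mem_product, Finset.mem_range]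
      simp only [Nat.ceil_natCast]
      exact ⟨hv, hj.1⟩
    · unfold arr
      have h3 : (j : ℝ) + 1 ≤ n := by exact_mod_cast hj.1
      simp only
      linarith only [hj, h3]
    · simp only [decide_eq_true_eq, true_and]
      have h4 : Real.sqrt (1 / 4) ≤ Real.sqrt (T (v, j) : ℝ) := Real.sqrt_le_sqrt hj.2.1
      have h5 : Real.sqrt (1 / 4) = 1 / 2 := by
        rw [show (1 / 4 : ℝ) = (1 / 2) ^ 2 by norm_num, Real.sqrt_sq (by norm_num)]
      unfold str
      linarith only [h4]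
  rw [List.toFinset_card_of_nodup hnd] at h2
  exact_mod_cast h2

/-- accumulation of information in finite volume, uniformly in the model and the volume -/
theorem integral_fvM_var_le {B : Finset V} {v : V} (hv : v ∈ B) (n : ℕ) :
    ∫ ω, (1 - fvM μ B n v ω ^ 2) ∂(PP V) ≤ bet n := by
  have hb : ∀ ω, |1 - fvM μ B n v ω ^ 2| ≤ 1 := fun ω => by
    have h1 := sq_le_one_of_abs (abs_fvM_le (μ := μ) B n v ω)
    rw [abs_of_nonneg (sq_nonneg _)] at h1
    rw [abs_of_nonneg (by linarith)]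
    linarith only [sq_nonneg (fvM μ B n v ω)]
  rw [integral_PP (F := fun ω => 1 - fvM μ B n v ω ^ 2)
    (measurable_const.sub ((measurable_fvM B n v).pow_const 2)) hb]
  unfold bet
  have hrow : Measurable fun (T : V × ℕ → unitInterval) (j : ℕ) => T (v, j) :=
    measurable_pi_iff.2 fun j => measurable_pi_apply _
  have hsq : Measurable fun x : ℕ → unitInterval => Real.sqrt (577 / (cnt x n + 1)) :=
    (measurable_const.div ((measurable_cnt n).add_const 1)).sqrt
  rw [← map_row v, integral_map hrow.aemeasurable hsq.aestronglyMeasurable]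
  have hm : Measurable fun T : V × ℕ → unitInterval =>
      Real.sqrt (577 / (cnt (fun j => T (v, j)) n + 1)) := hsq.comp hrow
  refine integral_mono_of_nonneg (Eventually.of_forall fun T => integral_nonneg fun U => ?_)
    (integrable_of_abs_le hm (C := Real.sqrt 577) fun T => ?_) (Eventually.of_forall fun T => ?_)
  · have h1 := sq_le_one_of_abs (abs_fvM_le (μ := μ) B n v (T, U))
    rw [abs_of_nonneg (sq_nonneg _)] at h1
    simp only [Pi.zero_apply]
    linarith only [h1]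
  · rw [abs_of_nonneg (Real.sqrt_nonneg _)]
    apply Real.sqrt_le_sqrt
    have := cnt_nonneg (fun j => T (v, j)) n
    rw [div_le_iff₀ (by linarith)]
    linarith
  · simp only
    have h1 := integral_var_leE (μ := μ) (strOK_str T) (c := 1 / 4) (by norm_num)
      (stt T (vol B n) n) (nodup_stt _ _ _) v
    have h2 := cnt_le_length T hv n
    have h3 := cnt_nonneg (fun j => T (v, j)) n
    have h4 : ∫ U, (1 - fvM μ B n v (T, U) ^ 2) ∂(noise V) =
      ∫ U, (1 - mean μ (runE μ (str T) U (stt T (vol B n) n)) v ^ 2) ∂(noise V) := rfl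
    rw [h4]
    have h5 : 0 ≤ ∫ U, (1 - mean μ (runE μ (str T) U (stt T (vol B n) n)) v ^ 2) ∂(noise V) := by
      refine integral_nonneg fun U => ?_
      have h1 := sq_le_one_of_abs (abs_fvM_le (μ := μ) B n v (T, U))
      rw [abs_of_nonneg (sq_nonneg _)] at h1
      simp only [Pi.zero_apply]
      unfold fvM at h1
      linarith only [h1]
    set A := ∫ U, (1 - mean μ (runE μ (str T) U (stt T (vol B n) n)) v ^ 2) ∂(noise V)
    set c := cnt (fun j => T (v, j)) n
    have h6 : c * ((1 / 4) ^ 2 / 9) * A ^ 2 ≤ 1 - A := by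
      refine le_trans ?_ h1
      (clear * - h2; gcongr)
    have h7 : A ≤ 1 := by
      have : 0 ≤ c * ((1 / 4) ^ 2 / 9) * A ^ 2 := by (clear * - h3; positivity)
      linarith only [h6, this]
    have h8 : A ^ 2 ≤ 577 / (c + 1) := by
      rw [le_div_iff₀ (by linarith only [h3])]
      nlinarith only [h5, h6, h7]
    exact Real.le_sqrt_of_sq_le h8

theorem measurable_prod_fvM (B : Finset V) (t : ℝ) (S : Finset V) :
    Measurable fun ω => ∏ v ∈ S, fvM μ B t v ω :=
  Finset.measurable_fun_prod S fun v _ => measurable_fvM B t v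

/-- the correlations in finite volume -/
theorem abs_integral_prod_fvM_sub_le {B S : Finset V} (hS : S ⊆ B) (n : ℕ) :
    |∫ ω, ∏ v ∈ S, fvM μ B n v ω ∂(PP V) - ∫ σ, spS S σ ∂μ| ≤ S.card * bet n := by
  classical
  have hloc : LocalOn Set.univ (spS S) := by
    refine ⟨S, Set.subset_univ _, ?_⟩
    intro σ τ h
    unfold spS
    refine Finset.prod_congr rfl fun v hv => ?_
    unfold sp
    rw [h v (by simpa using hv)]
  have hbs : ∀ σ : V → ℤˣ, |spS S σ| ≤ 1 := fun σ => by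
    unfold spS
    rw [Finset.abs_prod]
    exact Finset.prod_le_one (fun v _ => abs_nonneg _) fun v _ => (abs_sp σ v).le
  set Q : Om V → ℝ := fun ω =>
    post μ (runE μ (str ω.1) ω.2 (stt ω.1 (vol B n) n)) (spS S) with hQ
  have hQm : Measurable Q :=
    measurable_stt_comp measurable_fst measurable_const (vol B n)
      (F := fun l ω => post μ (runE μ (str ω.1) ω.2 l) (spS S))
      fun l => measurable_post_runE (measurable_str measurable_fst) (fun p => strOK_str p.1)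
        measurable_snd l hloc
  have hQb : ∀ ω, |Q ω| ≤ 1 := fun ω => abs_post_le (good_fv B n ω) hloc hbs
  have hQi : ∫ ω, Q ω ∂(PP V) = ∫ σ, spS S σ ∂μ := by
    rw [integral_PP hQm hQb]
    have : ∀ T : V × ℕ → unitInterval, ∫ U, Q (T, U) ∂(noise V) = ∫ σ, spS S σ ∂μ := fun T =>
      integral_post_runE (strOK_str T) _ (nodup_stt _ _ _) hloc
    simp only [this]
    simp
  have hPb : ∀ ω, |∏ v ∈ S, fvM μ B n v ω| ≤ 1 := fun ω => by
    rw [Finset.abs_prod]
    exact Finset.prod_le_one (fun v _ => abs_nonneg _) fun v _ => abs_fvM_le B n v ω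
  have i1 : Integrable (fun ω => ∏ v ∈ S, fvM μ B n v ω) (PP V) :=
    integrable_of_abs_le (measurable_prod_fvM B n S) hPb
  have i2 : Integrable Q (PP V) := integrable_of_abs_le hQm hQb
  have i3 : ∀ v, Integrable (fun ω => 1 - fvM μ B n v ω ^ 2) (PP V) := fun v =>
    (integrable_const _).sub (integrable_of_abs_le ((measurable_fvM B n v).pow_const 2) (C := 1)
      (fun ω => sq_le_one_of_abs (abs_fvM_le B n v ω)))
  rw [← hQi, ← integral_sub i1 i2]
  refine (abs_integral_le_integral_abs).trans ?_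
  have h1 : ∫ ω, |∏ v ∈ S, fvM μ B n v ω - Q ω| ∂(PP V) ≤
      ∫ ω, ∑ v ∈ S, (1 - fvM μ B n v ω ^ 2) ∂(PP V) := by
    refine integral_mono (i1.sub i2).abs (integrable_finsetSum S fun v _ => i3 v) fun ω => ?_
    have h2 := abs_post_prod_sub (μ := μ) (good_fv (μ := μ) B n ω) S
    rw [abs_sub_comm]
    exact h2
  refine h1.trans ?_
  rw [integral_finsetSum S fun v _ => i3 v, ← nsmul_eq_mul]
  exact Finset.sum_le_card_nsmul S _ _ fun v hv => integral_fvM_var_le (hS hv) n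

variable [G.LocallyFinite] {lam : ℝ} {C : ℝ → ℝ}

/-- accumulation of information in infinite volume -/
theorem Rate.integral_Minf_var_le (hr : Rate G μ lam C) (hG : G.IsTree) (n : ℕ) (v : V) :
    ∫ ω, (1 - Minf hG μ n v ω ^ 2) ∂(PP V) ≤ bet n := by
  have h1 := hr.tendsto_integral_two hG v n n v v (F := fun p => 1 - p.1 ^ 2)
    (by fun_prop) (K := 2) (fun x y hx hy => by
      simp only
      refine (abs_sub _ _).trans ?_
      have := sq_le_one_of_abs hx
      simp only [abs_one]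
      linarith only [this])
  refine le_of_tendsto h1 ?_
  filter_upwards with m
  exact integral_fvM_var_le (mem_bal.2 (by simp only [SimpleGraph.dist_self, zero_le])) n

/-- the correlations in infinite volume -/
theorem Rate.abs_integral_prod_Minf_sub_le (hr : Rate G μ lam C) (hG : G.IsTree) (S : Finset V)
    (n : ℕ) :
    |∫ ω, ∏ v ∈ S, Minf hG μ n v ω ∂(PP V) - ∫ σ, spS S σ ∂μ| ≤ S.card * bet n := by
  classical
  rcases S.eq_empty_or_nonempty with rfl | ⟨o, ho⟩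
  · simp only [Finset.prod_empty, integral_const, probReal_univ, smul_eq_mul, mul_one, spS, sub_self, abs_zero, Finset.card_empty, CharP.cast_eq_zero, zero_mul, Std.le_refl]
  have h1 : Tendsto (fun m => ∫ ω, ∏ v ∈ S, fvM μ (bal hG o m) n v ω ∂(PP V)) atTop
      (𝓝 (∫ ω, ∏ v ∈ S, Minf hG μ n v ω ∂(PP V))) := by
    refine tendsto_integral_of_dominated_convergence (fun _ => 1) (fun m => ?_)
      (integrable_const _) (fun m => Eventually.of_forall fun ω => ?_) ?_
    · exact (measurable_prod_fvM _ _ S).aestronglyMeasurable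
    · rw [Real.norm_eq_abs, Finset.abs_prod]
      exact Finset.prod_le_one (fun v _ => abs_nonneg _) fun v _ => abs_fvM_le _ n v ω
    · filter_upwards [hr.ae_tendsto_all hG n] with ω hω
      exact tendsto_finsetProd S fun v hv => hω o v
  have h2 := (h1.sub_const (∫ σ, spS S σ ∂μ)).abs
  refine le_of_tendsto h2 ?_
  filter_upwards [eventually_ge_atTop (S.sup fun v => G.dist v o)] with m hm
  refine abs_integral_prod_fvM_sub_le (fun v hv => ?_) n
  rw [mem_bal]
  exact (Finset.le_sup (f := fun v => G.dist v o) hv).trans hm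

end Var

end Vale.Agent.P161
end
end

section

section

/-! Critical point: from the convergence of the subcritical fields to the factor of IID. -/

open MeasureTheory Filter Topology Set

namespace Vale.Agent.P161

variable {V : Type*} {G : SimpleGraph V}

/-- a sequence of subcritical models approaching the critical one -/
structure Seqn (G : SimpleGraph V) (d : ℕ) (θc : ℝ) (θ : ℕ → ℝ)
    (ν : ℕ → Measure (V → ℤˣ)) : Prop where
  lo : ∀ n, θc / 2 ≤ θ n
  lt : ∀ n, θ n < θc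
  lim : Tendsto θ atTop (𝓝 θc)
  ising : ∀ n, IsFreeIsing G (θ n) (ν n)

section Seqn

variable {d : ℕ} {θc : ℝ} {θ : ℕ → ℝ} {ν : ℕ → Measure (V → ℤˣ)}

theorem Seqn.comp (h : Seqn G d θc θ ν) {φ : ℕ → ℕ} (hφ : StrictMono φ) :
    Seqn G d θc (fun n => θ (φ n)) (fun n => ν (φ n)) :=
  ⟨fun n => h.lo _, fun n => h.lt _, h.lim.comp hφ.tendsto_atTop, fun n => h.ising _⟩

theorem Seqn.nonneg (h : Seqn G d θc θ ν) (hc : 0 < θc) (n : ℕ) : 0 ≤ θ n := by
  have := h.lo n
  linarith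

theorem theta_lt_one {d : ℕ} (hd : 3 ≤ d) {θc : ℝ} (hcrit : ((d : ℝ) - 1) * θc ^ 2 = 1) :
    θc < 1 := by
  have hd' : (3 : ℝ) ≤ d := by exact_mod_cast hd
  by_contra h
  push Not at h
  have h2 : 1 ≤ θc ^ 2 := one_le_pow₀ h
  linarith [mul_nonneg (sub_nonneg.2 h2) (sub_nonneg.2 hd'), mul_eq_zero_of_left (sub_eq_zero.2 hcrit) (↑d - (3)), mul_nonneg (sq_nonneg (θc : ℝ)) (sub_nonneg.2 hd'), hd']

theorem Seqn.sub (h : Seqn G d θc θ ν) (hd : 3 ≤ d) (hc : 0 < θc)
    (hcrit : ((d : ℝ) - 1) * θc ^ 2 = 1) (n : ℕ) : ((d : ℝ) - 1) * θ n ^ 2 < 1 := by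
  have hd' : (3 : ℝ) ≤ d := by exact_mod_cast hd
  have h1 := h.lt n
  have h0 := h.nonneg hc n
  have h2 : θ n ^ 2 < θc ^ 2 := by nlinarith only [h1, h0]
  (by_contra nlg; linarith only [nlg, mul_nonneg (sub_nonneg.2 (not_lt.1 nlg)) (le_of_lt (sub_pos.2 h2)), mul_eq_zero_of_left (sub_eq_zero.2 hcrit) (0 - (0 - θ n ^ 2)), mul_nonneg (sq_nonneg (θ n : ℝ)) (sub_nonneg.2 (not_lt.1 nlg)), h2])

theorem Seqn.lt_one (h : Seqn G d θc θ ν) (hd : 3 ≤ d)
    (hcrit : ((d : ℝ) - 1) * θc ^ 2 = 1) (n : ℕ) : θ n < 1 :=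
  (h.lt n).trans (theta_lt_one hd hcrit)

theorem Seqn.edgeSplit [G.LocallyFinite] (hG : G.IsTree) (h : Seqn G d θc θ ν) (hd : 3 ≤ d)
    (hc : 0 < θc) (hcrit : ((d : ℝ) - 1) * θc ^ 2 = 1) (n : ℕ) : EdgeSplit G (θ n) (ν n) :=
  (h.ising n).edgeSplit hG (h.nonneg hc n) (h.lt_one hd hcrit n)

theorem Seqn.rate [Encodable V] [G.LocallyFinite] (hG : G.IsTree)
    (hreg : G.IsRegularOfDegree d) (h : Seqn G d θc θ ν) (hd : 3 ≤ d)
    (hc : 0 < θc) (hcrit : ((d : ℝ) - 1) * θc ^ 2 = 1) (n : ℕ) :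
    ∃ lam : ℝ, ∃ C : ℝ → ℝ, Rate G (ν n) lam C := by
  have := (h.ising n).isProb
  obtain ⟨lam, C, hr⟩ := exists_rate hG (by omega) hreg (h.nonneg hc n)
    (h.sub hd hc hcrit n) (h.lt_one hd hcrit n)
  exact ⟨lam, C, hr (ν n) (h.edgeSplit hG hd hc hcrit n)⟩

/-- existence of such a sequence -/
theorem exists_seqn [G.LocallyFinite] (hG : G.IsTree) (hd : 3 ≤ d) (hc : 0 < θc)
    (hcrit : ((d : ℝ) - 1) * θc ^ 2 = 1) :
    ∃ (θ : ℕ → ℝ) (ν : ℕ → Measure (V → ℤˣ)), Seqn G d θc θ ν := by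
  have h1 := theta_lt_one hd hcrit
  have hpos : ∀ n : ℕ, (0 : ℝ) < 1 / ((n : ℝ) + 1) := fun n => Nat.one_div_pos_of_nat
  have hle : ∀ n : ℕ, 1 / ((n : ℝ) + 1) ≤ 1 := fun n => by
    rw [div_le_one (by positivity)]
    linarith only []
  let θ : ℕ → ℝ := fun n => θc * (1 - 1 / ((n : ℝ) + 1) / 2)
  have hlo : ∀ n, θc / 2 ≤ θ n := fun n => by
    simp only [θ]
    linarith only [mul_nonneg (le_of_lt (sub_pos.2 hc)) (sub_nonneg.2 (hle n))]
  have hlt : ∀ n, θ n < θc := fun n => by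
    simp only [θ]
    nlinarith only [hc, hpos n]
  have hex : ∀ n, ∃ μ : Measure (V → ℤˣ), IsFreeIsing G (θ n) μ := fun n =>
    exists_isFreeIsing hG (by have := hlo n; linarith only [hc, this]) (by have := hlt n; linarith only [h1, this])
  choose ν hν using hex
  refine ⟨θ, ν, hlo, hlt, ?_, hν⟩
  have h2 : Tendsto (fun n : ℕ => θc * (1 - 1 / ((n : ℝ) + 1) / 2)) atTop
      (𝓝 (θc * (1 - 0 / 2))) :=
    ((tendsto_one_div_add_atTop_nhds_zero_nat.div_const 2).const_sub 1).const_mul θc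
  have e : θc * (1 - 0 / 2) = θc := by ring
  rw [e] at h2
  exact h2

/-- the factor from the convergence of the fields at all integer times -/
theorem factor_of_seq [Encodable V] [G.LocallyFinite] (hG : G.IsTree)
    (hreg : G.IsRegularOfDegree d) (h : Seqn G d θc θ ν) (hd : 3 ≤ d) (hc : 0 < θc)
    (hcrit : ((d : ℝ) - 1) * θc ^ 2 = 1) {μ : Measure (V → ℤˣ)} (hμ : IsFreeIsing G θc μ)
    (hconv : ∀ (t : ℕ) (v : V), Tendsto (fun p : ℕ × ℕ =>
      ∫ ω, (Minf hG (ν p.1) t v ω - Minf hG (ν p.2) t v ω) ^ 2 ∂(PP V))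
        (atTop ×ˢ atTop) (𝓝 0)) : IsFactorOfIID G μ := by
  have := hμ.isProb
  have hprob : ∀ n, IsProbabilityMeasure (ν n) := fun n => (h.ising n).isProb
  refine isFactorOfIID_of_family (μ := μ) (fun n t v => Minf hG (ν n) (t : ℝ) v)
    (fun n t v => measurable_Minf _ _) (fun n t v ω => abs_Minf_le _ _ _) ?_ ?_
    (β := bet) tendsto_bet ?_ ?_ (c := fun n S => ∫ σ, spS S σ ∂(ν n)) ?_ ?_
  · intro g n t v
    filter_upwards [ae_Minf_aut (hG := hG) g
      ((h.ising n).map_aut hG (h.nonneg hc n) (h.lt_one hd hcrit n) g)] with ω hω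
    exact hω t v
  · intro t v δ hδ
    have h1 := (hconv t v).eventually_lt_const hδ
    rw [prod_atTop_atTop_eq, eventually_atTop] at h1
    obtain ⟨⟨N1, N2⟩, hN⟩ := h1
    refine ⟨max N1 N2, fun n hn m hm => ?_⟩
    exact (hN (n, m) ⟨(le_max_left _ _).trans hn, (le_max_right _ _).trans hm⟩).le
  · intro n v s t hst
    obtain ⟨lam, C, hr⟩ := h.rate hG hreg hd hc hcrit n
    have hst' : (s : ℝ) ≤ t := by exact_mod_cast hst
    rw [hr.integral_Minf_mart hG hst' v]
    have h1 := hr.integral_Minf_var_le hG s v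
    have i1 : Integrable (fun ω => Minf hG (ν n) (s : ℝ) v ω ^ 2) (PP V) :=
      integrable_of_abs_le ((measurable_Minf _ _).pow_const 2)
        (fun ω => sq_le_one_of_abs (abs_Minf_le _ _ _))
    have i2 : Integrable (fun ω => Minf hG (ν n) (t : ℝ) v ω ^ 2) (PP V) :=
      integrable_of_abs_le ((measurable_Minf _ _).pow_const 2)
        (fun ω => sq_le_one_of_abs (abs_Minf_le _ _ _))
    have h2 : ∫ ω, (1 - Minf hG (ν n) (s : ℝ) v ω ^ 2) ∂(PP V) =
        1 - ∫ ω, Minf hG (ν n) (s : ℝ) v ω ^ 2 ∂(PP V) := by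
      rw [integral_sub (integrable_const _) i1]
      simp only [integral_const, probReal_univ, smul_eq_mul, mul_one]
    have h3 : ∫ ω, Minf hG (ν n) (t : ℝ) v ω ^ 2 ∂(PP V) ≤ 1 := by
      have h4 : ∫ ω, Minf hG (ν n) (t : ℝ) v ω ^ 2 ∂(PP V) ≤ ∫ _ω, (1 : ℝ) ∂(PP V) :=
        integral_mono i2 (integrable_const _)
          (fun ω => (abs_le.1 (sq_le_one_of_abs (abs_Minf_le _ _ _))).2)
      simpa only [ge_iff_le, integral_const, probReal_univ, smul_eq_mul, mul_one] using h4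
    rw [h2] at h1
    linarith only [h1, h3]
  · intro n t v
    obtain ⟨lam, C, hr⟩ := h.rate hG hreg hd hc hcrit n
    exact hr.integral_Minf_var_le hG t v
  · intro S n t
    obtain ⟨lam, C, hr⟩ := h.rate hG hreg hd hc hcrit n
    exact hr.abs_integral_prod_Minf_sub_le hG S t
  · intro S
    exact tendsto_integral_spS hG (fun n => h.nonneg hc n) (fun n => h.lt_one hd hcrit n)
      hc.le (theta_lt_one hd hcrit) h.lim h.ising hμ S

end Seqn

end Vale.Agent.P161
end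
end

section

section

/-! Evolution inequalities in infinite volume. -/

open MeasureTheory Filter Topology

namespace Vale.Agent.P161

variable {V : Type*} {G : SimpleGraph V} {μ μ' : Measure (V → ℤˣ)}

/-! ### covariances -/

theorem cov_comm (μ : Measure (V → ℤˣ)) (H : List (V × ℝ)) (x v : V) :
    cov μ H x v = cov μ H v x := by
  unfold cov
  have : (fun σ : V → ℤˣ => sp σ x * sp σ v) = fun σ => sp σ v * sp σ x := by
    funext σ
    ring
  rw [this, mul_comm (mean μ H x)]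

theorem abs_le_of_tendsto {a : ℕ → ℝ} {b K : ℝ} (ha : ∀ n, |a n| ≤ K)
    (h : Tendsto a atTop (𝓝 b)) : |b| ≤ K :=
  le_of_tendsto h.abs (Eventually.of_forall ha)

theorem tendsto_rho {θ : ℝ} (h0 : 0 ≤ θ) (h1 : θ < 1) {a : ℕ → ℝ} {b : ℝ}
    (ha : ∀ n, |a n| ≤ 1) (h : Tendsto a atTop (𝓝 b)) :
    Tendsto (fun n => rho θ (a n)) atTop (𝓝 (rho θ b)) := by
  have hb := abs_le_of_tendsto ha h
  unfold rho
  refine Tendsto.div ?_ ?_ (one_sub_sq_pos h0 h1 hb).ne'
  · exact (tendsto_const_nhds.sub (h.pow 2)).const_mul θ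
  · exact tendsto_const_nhds.sub ((h.pow 2).const_mul _)

theorem tendsto_covP {θ : ℝ} (h0 : 0 ≤ θ) (h1 : θ < 1) {a : ℕ → ℕ → ℝ} {b : ℕ → ℝ}
    (ha : ∀ n i, |a n i| ≤ 1) (h : ∀ i, Tendsto (fun n => a n i) atTop (𝓝 (b i))) (k : ℕ) :
    Tendsto (fun n => covP θ (a n) k) atTop (𝓝 (covP θ b k)) := by
  unfold covP
  refine (tendsto_const_nhds.sub ((h 0).pow 2)).mul (tendsto_finsetProd _ fun i _ => ?_)
  refine tendsto_rho h0 h1 (fun n => abs_tau_le h0 h1 (ha n i) (ha n (i + 1))) ?_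
  exact ((continuous_tau h0 h1).tendsto (b i, b (i + 1))).comp ((h i).prodMk_nhds (h (i + 1)))

theorem tendsto_covT {θ : ℝ} (h0 : 0 ≤ θ) (h1 : θ < 1) {m : ℕ → V → ℝ} {m' : V → ℝ}
    (ha : ∀ n v, |m n v| ≤ 1) (h : ∀ v, Tendsto (fun n => m n v) atTop (𝓝 (m' v))) (o x : V) :
    Tendsto (fun n => covT G θ (m n) o x) atTop (𝓝 (covT G θ m' o x)) := by
  exact tendsto_covP h0 h1 (a := fun n i => m n (geo G o x i))
    (b := fun i => m' (geo G o x i)) (fun n i => ha n (geo G o x i))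
    (fun i => h (geo G o x i)) (G.dist o x)

section Conv

variable [Encodable V] [G.LocallyFinite] [IsProbabilityMeasure μ] {lam : ℝ} {C : ℝ → ℝ}

theorem fvC_eq_covT (hG : G.IsTree) {θ : ℝ} (h0 : 0 ≤ θ) (h1 : θ < 1) (hμ : EdgeSplit G θ μ)
    (B : Finset V) (t : ℝ) (o x : V) (ω : Om V) :
    fvC μ B t o x ω = covT G θ (fun y => fvM μ B t y ω) o x :=
  cov_eq_covT (μ := μ) hG h0 h1 hμ (good_fv B t ω) o x

theorem Rate.ae_tendsto_covT (hr : Rate G μ lam C) (hG : G.IsTree) {θ : ℝ} (h0 : 0 ≤ θ)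
    (h1 : θ < 1) (hμ : EdgeSplit G θ μ) (t : ℝ) :
    ∀ᵐ ω ∂(PP V), ∀ o x v : V, Tendsto (fun n => fvC μ (bal hG o n) t x v ω) atTop
      (𝓝 (covT G θ (fun y => Minf hG μ t y ω) x v)) := by
  filter_upwards [hr.ae_tendsto_all hG t] with ω hω o x v
  simp only [fvC_eq_covT hG h0 h1 hμ]
  exact tendsto_covT h0 h1 (fun n v => abs_fvM_le _ t v ω) (fun v => hω o v) x v

end Conv

/-! ### general limit lemmas -/

theorem tendsto_sum_bal [Encodable V] [G.LocallyFinite] (hG : G.IsTree) {d : ℕ} (hd : 2 ≤ d)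
    (hreg : G.IsRegularOfDegree d) {κ A : ℝ} (hκ0 : 0 ≤ κ) (hκ : ((d : ℝ) - 1) * κ < 1)
    (hA : 0 ≤ A) (o : V) {a : ℕ → V → Om V → ℝ} {a' : V → Om V → ℝ}
    (ham : ∀ n x, Measurable (a n x)) (hb : ∀ n x ω, |a n x ω| ≤ A * κ ^ G.dist o x)
    (hlim : ∀ x, ∀ᵐ ω ∂(PP V), Tendsto (fun n => a n x ω) atTop (𝓝 (a' x ω))) :
    Tendsto (fun n => ∑ x ∈ bal hG o n, ∫ ω, a n x ω ∂(PP V)) atTop
      (𝓝 (∑' x, ∫ ω, a' x ω ∂(PP V))) := by
  classical
  have h1 : ∀ n, ∑ x ∈ bal hG o n, ∫ ω, a n x ω ∂(PP V) =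
      ∑' x, (if x ∈ bal hG o n then ∫ ω, a n x ω ∂(PP V) else 0) := by
    intro n
    rw [tsum_eq_sum (s := bal hG o n) (fun x hx => by rw [if_neg hx])]
    exact Finset.sum_congr rfl fun x hx => by rw [if_pos hx]
  simp only [h1]
  have hint : ∀ n x, |∫ ω, a n x ω ∂(PP V)| ≤ A * κ ^ G.dist o x := by
    intro n x
    have := norm_integral_le_of_norm_le_const (μ := PP V) (f := a n x)
      (C := A * κ ^ G.dist o x) (Eventually.of_forall fun ω => hb n x ω)
    simpa only [ge_iff_le, Real.norm_eq_abs, probReal_univ, mul_one] using this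
  refine tendsto_tsum_of_dominated_convergence (bound := fun x => A * κ ^ G.dist o x)
    ((summable_pow_dist hG (fun v => hreg v) (by omega) hκ0 hκ o).mul_left A) (fun x => ?_)
    (Eventually.of_forall fun n x => ?_)
  · have h2 : Tendsto (fun n => ∫ ω, a n x ω ∂(PP V)) atTop (𝓝 (∫ ω, a' x ω ∂(PP V))) :=
      tendsto_integral_of_dominated_convergence (fun _ => A * κ ^ G.dist o x)
        (fun n => (ham n x).aestronglyMeasurable) (integrable_const _)
        (fun n => Eventually.of_forall fun ω => hb n x ω) (hlim x)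
    refine h2.congr' ?_
    filter_upwards [eventually_ge_atTop (G.dist x o)] with n hn
    rw [if_pos (mem_bal.2 hn)]
  · rw [Real.norm_eq_abs]
    split_ifs
    · exact hint n x
    · rw [abs_zero]
      (clear * - hA hκ0; positivity)

theorem sum_bal_le [Encodable V] [G.LocallyFinite] (hG : G.IsTree) {d : ℕ} (hd : 2 ≤ d)
    (hreg : G.IsRegularOfDegree d) {κ A : ℝ} (hκ0 : 0 ≤ κ) (hκ : ((d : ℝ) - 1) * κ < 1)
    (hA : 0 ≤ A) (o : V) (B : Finset V) {b : V → ℝ} (hb : ∀ x, |b x| ≤ A * κ ^ G.dist o x) :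
    |∑ x ∈ B, b x| ≤ A * (2 * d / (1 - ((d : ℝ) - 1) * κ)) := by
  refine (Finset.abs_sum_le_sum_abs _ _).trans ((Finset.sum_le_sum fun x _ => hb x).trans ?_)
  rw [← Finset.mul_sum]
  exact mul_le_mul_of_nonneg_left (sum_pow_dist_le hG hd hreg hκ0 hκ o B) hA

/-- passage to the limit in an integral inequality -/
theorem evo_limit {t' t : ℝ} (ht : t' ≤ t) {φ : ℕ → ℝ → ℝ} {φ' : ℝ → ℝ} {s : ℕ → ℝ → ℝ}
    {s' : ℝ → ℝ} {K c : ℝ}
    (h : ∀ n, φ n t ≤ φ n t' +
      ∫ r in t'..t, (if Int.fract r < 1 / 2 then c * (Int.fract r * s n r) else 0))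
    (hφ : Tendsto (fun n => φ n t) atTop (𝓝 (φ' t)))
    (hφ' : Tendsto (fun n => φ n t') atTop (𝓝 (φ' t')))
    (hsm : ∀ n, Measurable (s n)) (hsb : ∀ n r, |s n r| ≤ K)
    (hs : ∀ r, r ≤ t → Tendsto (fun n => s n r) atTop (𝓝 (s' r))) :
    φ' t ≤ φ' t' +
      ∫ r in t'..t, (if Int.fract r < 1 / 2 then c * (Int.fract r * s' r) else 0) := by
  have hK0 : 0 ≤ K := (abs_nonneg _).trans (hsb 0 0)
  have h1 : Tendsto (fun n => ∫ r in t'..t,
      (if Int.fract r < 1 / 2 then c * (Int.fract r * s n r) else 0)) atTop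
      (𝓝 (∫ r in t'..t, (if Int.fract r < 1 / 2 then c * (Int.fract r * s' r) else 0))) := by
    refine intervalIntegral.tendsto_integral_filter_of_dominated_convergence
      (fun _ => |c| * (1 * K)) (Eventually.of_forall fun n => ?_)
      (Eventually.of_forall fun n => Eventually.of_forall fun r _ => ?_) ?_
      (Eventually.of_forall fun r hr => ?_)
    · exact (Measurable.ite (measurableSet_lt measurable_fract measurable_const)
        ((measurable_fract.mul (hsm n)).const_mul c) measurable_const).aestronglyMeasurable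
    · rw [Real.norm_eq_abs]
      split_ifs with hf
      · rw [abs_mul, abs_mul]
        refine mul_le_mul_of_nonneg_left ?_ (abs_nonneg _)
        refine mul_le_mul ?_ (hsb n r) (abs_nonneg _) (by norm_num)
        rw [abs_of_nonneg (Int.fract_nonneg r)]
        exact (Int.fract_lt_one r).le
      · rw [abs_zero]
        (clear * - hK0; positivity)
    · exact intervalIntegrable_const
    · rw [Set.uIoc_of_le ht] at hr
      by_cases hf : Int.fract r < 1 / 2
      · simp only [if_pos hf]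
        exact ((hs r hr.2).const_mul _).const_mul _
      · simp only [if_neg hf]
        exact tendsto_const_nhds
  exact le_of_tendsto_of_tendsto' hφ (hφ'.add h1) h

end Vale.Agent.P161
end
end

section

section

/-! Evolution inequalities in infinite volume: the pair, the single system; joint invariance. -/

open MeasureTheory Filter Topology

namespace Vale.Agent.P161

variable {V : Type*} {G : SimpleGraph V} {μ μ' : Measure (V → ℤˣ)}

theorem avT_vol [Encodable V]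
    {F : (V × ℕ → unitInterval) → (V × ℕ → unitInterval) → List (V × ℕ) → ℝ} {C : ℝ}
    (hm : ∀ l, Measurable fun p : (V × ℕ → unitInterval) × (V × ℕ → unitInterval) =>
      F p.1 p.2 l) (hb : ∀ T U l, |F T U l| ≤ C) (B : Finset V) {r t : ℝ} (hrt : r ≤ t) :
    avT (vol B t) (fun T l => ∫ U, F T U l ∂(noise V)) r =
      ∫ ω, F ω.1 ω.2 (stt ω.1 (vol B r) r) ∂(PP V) := by
  rw [integral_PP (F := fun ω => F ω.1 ω.2 (stt ω.1 (vol B r) r))
    (measurable_stt_comp measurable_fst measurable_const (vol B r)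
      (F := fun l ω => F ω.1 ω.2 l) hm) (fun ω => hb _ _ _)]
  unfold avT
  congr 1
  funext T
  rw [stt_eq_vol (B := B) (t := r) (S := vol B t) (fun i hi => by
    unfold vol at hi
    exact (Finset.mem_product.1 hi).1) (vol_mono B hrt)]

/-! ### the single system -/

/-- squared covariances, averaged over the noise -/
noncomputable def qsp (μ : Measure (V → ℤˣ)) (o x : V) (T : V × ℕ → unitInterval)
    (l : List (V × ℕ)) : ℝ := ∫ U, cov μ (runE μ (str T) U l) o x ^ 2 ∂(noise V)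

theorem measurable_cov_sq_str [IsProbabilityMeasure μ] (o x : V) (l : List (V × ℕ)) :
    Measurable fun p : (V × ℕ → unitInterval) × (V × ℕ → unitInterval) =>
      cov μ (runE μ (str p.1) p.2 l) o x ^ 2 :=
  (measurable_cov_runE (μ := μ) (measurable_str measurable_fst)
      (fun p => strOK_str p.1) measurable_snd l o x).pow_const 2

theorem cov_sq_le_four [IsProbabilityMeasure μ] {H : List (V × ℝ)} (hH : Good H) (o x : V) :
    |cov μ H o x ^ 2| ≤ 4 := by
  have h := abs_le.1 (abs_cov_le_two (μ := μ) hH o x)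
  rw [abs_of_nonneg (sq_nonneg _)]
  nlinarith

theorem labF_qsp [IsProbabilityMeasure μ] (o x : V) : LabF (qsp μ o x) 4 :=
  labF_of_int (F := fun T U l => cov μ (runE μ (str T) U l) o x ^ 2)
    (measurable_cov_sq_str o x)
    (fun T T' U l h => by rw [runE_str_congr (μ := μ) (fun j hj => hj) h U])
    (fun T U l => cov_sq_le_four (good_runE (strOK_str T) U l) o x)

/-- second moment of the mean, averaged over the noise -/
noncomputable def msp (μ : Measure (V → ℤˣ)) (o : V) (T : V × ℕ → unitInterval)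
    (l : List (V × ℕ)) : ℝ := ∫ U, mean μ (runE μ (str T) U l) o ^ 2 ∂(noise V)

theorem labF_msp [IsProbabilityMeasure μ] (o : V) : LabF (msp μ o) 1 :=
  labF_of_int (F := fun T U l => mean μ (runE μ (str T) U l) o ^ 2)
    (fun l => (measurable_mean_runE (μ := μ) (measurable_str measurable_fst)
      (fun p => strOK_str p.1) measurable_snd l o).pow_const 2)
    (fun T T' U l h => by rw [runE_str_congr (μ := μ) (fun j hj => hj) h U])
    (fun T U l => sq_le_one_of_abs (abs_mean_le (good_runE (strOK_str T) U l) o))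

theorem msp_step [IsProbabilityMeasure μ] (o : V) (T : V × ℕ → unitInterval) {i : V × ℕ}
    {l : List (V × ℕ)} (hnd : (i :: l).Nodup) :
    msp μ o T (i :: l) ≤ msp μ o T l + (T i : ℝ) * qsp μ o i.1 T l := by
  unfold msp qsp
  have he := strOK_str T
  rw [sq_stepE he l (List.nodup_cons.1 hnd).1 o]
  gcongr
  rw [← integral_const_mul]
  have hm : Measurable fun U : V × ℕ → unitInterval => cov μ (runE μ (str T) U l) o i.1 ^ 2 :=
    (measurable_cov_runE' he l o i.1).pow_const 2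
  refine integral_mono_of_nonneg (Eventually.of_forall fun _ => sq_nonneg _)
    ((integrable_of_abs_le hm (C := 4)
      fun U => cov_sq_le_four (good_runE he U l) o i.1).const_mul _)
    (Eventually.of_forall fun U => ?_)
  simp only
  have g1 := abs_incr_le (he.nonneg i) (he.le i)
    (abs_mean_le (μ := μ) (good_runE (μ := μ) he U l) i.1) (U i).2.1 (U i).2.2
  have h2 := pow_le_pow_left₀ (abs_nonneg _) g1 2
  rw [sq_abs] at h2
  have h3 : (2 * str T i) ^ 2 = T i := by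
    rw [mul_pow, str_sq]
    ring
  rw [h3] at h2
  rw [mul_pow, cov_comm μ _ i.1 o, mul_comm]
  exact mul_le_mul_of_nonneg_right h2 (sq_nonneg _)

variable [Encodable V] [G.LocallyFinite]

/-- growth of the second moment in infinite volume -/
theorem Rate.sq_evolution [IsProbabilityMeasure μ] {lam : ℝ} {C : ℝ → ℝ}
    (hr : Rate G μ lam C) (hG : G.IsTree) {d : ℕ} (hd : 2 ≤ d) (hreg : G.IsRegularOfDegree d)
    {θ : ℝ} (h0 : 0 ≤ θ) (h1 : θ < 1) (hθ : ((d : ℝ) - 1) * θ ^ 2 < 1) (hμ : EdgeSplit G θ μ)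
    (o : V) {t' t : ℝ} (ht : t' ≤ t) :
    ∫ ω, Minf hG μ t o ω ^ 2 ∂(PP V) ≤ ∫ ω, Minf hG μ t' o ω ^ 2 ∂(PP V) +
      ∫ r in t'..t, (if Int.fract r < 1 / 2 then 2 * (Int.fract r *
        ∑' x, ∫ ω, covT G θ (fun y => Minf hG μ r y ω) o x ^ 2 ∂(PP V)) else 0) := by
  have hstep : ∀ n : ℕ, avT (vol (bal hG o n) t) (msp μ o) t ≤
      avT (vol (bal hG o n) t) (msp μ o) t' + ∫ r in t'..t, (if Int.fract r < 1 / 2 then
        2 * (Int.fract r * ∑ x ∈ bal hG o n, avT (vol (bal hG o n) t) (qsp μ o x) r) else 0) :=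
    fun n => label_time (vol (bal hG o n) t) (Φ := msp μ o) (g := fun x => qsp μ o x)
      (w := fun r => r) (C := 4) (Cw := 1) ((labF_msp o).mono (by norm_num))
      (fun x => labF_qsp o x) (fun x T l => integral_nonneg fun _ => sq_nonneg _)
      measurable_id (fun r hr _ => hr) (fun r _ hr => by linarith only [hr])
      (fun T i l _ hnd _ => msp_step o T hnd) (bal hG o n)
      (fun i hi => by unfold vol at hi; exact (Finset.mem_product.1 hi).1) ht
  have hκ0 : 0 ≤ θ ^ 2 := sq_nonneg θ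
  have hcb : ∀ (n : ℕ) (r : ℝ) (x : V) (ω : Om V),
      |fvC μ (bal hG o n) r o x ω ^ 2| ≤ 1 * (θ ^ 2) ^ G.dist o x := by
    intro n r x ω
    have k2 := abs_cov_le (μ := μ) hG h0 h1 hμ (good_fv (μ := μ) (bal hG o n) r ω) o x
    have h := pow_le_pow_left₀ (abs_nonneg _) k2 2
    rw [sq_abs] at h
    rw [abs_of_nonneg (sq_nonneg _), one_mul]
    calc _ ≤ _ := h
      _ = _ := by ring
  have hqb : ∀ (T : V × ℕ → unitInterval) (l : List (V × ℕ)) (x : V),
      |qsp μ o x T l| ≤ 1 * (θ ^ 2) ^ G.dist o x := by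
    intro T l x
    have := norm_integral_le_of_norm_le_const (μ := noise V)
      (f := fun U : V × ℕ → unitInterval => cov μ (runE μ (str T) U l) o x ^ 2)
      (C := 1 * (θ ^ 2) ^ G.dist o x) (Eventually.of_forall fun U => by
        have k2 := abs_cov_le (μ := μ) hG h0 h1 hμ (good_runE (μ := μ) (strOK_str T) U l) o x
        have h := pow_le_pow_left₀ (abs_nonneg _) k2 2
        rw [sq_abs] at h
        rw [Real.norm_eq_abs, abs_of_nonneg (sq_nonneg _), one_mul]
        calc _ ≤ _ := h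
          _ = _ := by ring)
    simpa only [qsp, one_mul, ge_iff_le, Real.norm_eq_abs, probReal_univ, mul_one] using this
  have hφ : ∀ r, r ≤ t → Tendsto (fun n => avT (vol (bal hG o n) t) (msp μ o) r) atTop
      (𝓝 (∫ ω, Minf hG μ r o ω ^ 2 ∂(PP V))) := by
    intro r hrt
    have h2 := hr.tendsto_integral_two hG o r r o o (F := fun p => p.1 ^ 2)
      (by fun_prop) (K := 1) (fun x y hx hy => sq_le_one_of_abs hx)
    refine h2.congr fun n => ?_
    have h3 := avT_vol (F := fun T U l => mean μ (runE μ (str T) U l) o ^ 2) (C := 1)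
      (fun l => (measurable_mean_runE (μ := μ) (measurable_str measurable_fst)
      (fun p => strOK_str p.1) measurable_snd l o).pow_const 2)
      (fun T U l => sq_le_one_of_abs (abs_mean_le (good_runE (strOK_str T) U l) o))
      (bal hG o n) hrt
    exact h3.symm
  refine evo_limit ht (φ := fun n r => avT (vol (bal hG o n) t) (msp μ o) r)
    (φ' := fun r => ∫ ω, Minf hG μ r o ω ^ 2 ∂(PP V))
    (s := fun n r => ∑ x ∈ bal hG o n, avT (vol (bal hG o n) t) (qsp μ o x) r)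
    (K := 1 * (2 * d / (1 - ((d : ℝ) - 1) * θ ^ 2))) hstep (hφ t le_rfl) (hφ t' ht)
    (fun n => Finset.measurable_fun_sum _ fun x _ => measurable_avT _ (labF_qsp o x))
    (fun n r => ?_) (fun r hrt => ?_)
  · refine sum_bal_le hG hd hreg hκ0 hθ (by norm_num) o (bal hG o n)
      (b := fun x => avT (vol (bal hG o n) t) (qsp μ o x) r) fun x => ?_
    have := norm_integral_le_of_norm_le_const (μ := noise V)
      (f := fun T : V × ℕ → unitInterval => qsp μ o x T (stt T (vol (bal hG o n) t) r))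
      (C := 1 * (θ ^ 2) ^ G.dist o x) (Eventually.of_forall fun T => hqb _ _ x)
    simpa only [avT, one_mul, ge_iff_le, Real.norm_eq_abs, probReal_univ, mul_one] using this
  · have h4 := tendsto_sum_bal hG hd hreg hκ0 hθ (A := 1) (by norm_num) o
      (a := fun n x ω => fvC μ (bal hG o n) r o x ω ^ 2)
      (a' := fun x ω => covT G θ (fun y => Minf hG μ r y ω) o x ^ 2)
      (fun n x => (measurable_fvC _ r o x).pow_const 2) (fun n x ω => hcb n r x ω)
      (fun x => by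
        filter_upwards [hr.ae_tendsto_covT hG h0 h1 hμ r] with ω hω
        exact (hω o o x).pow 2)
    refine h4.congr fun n => Finset.sum_congr rfl fun x _ => ?_
    exact (avT_vol (F := fun T U l => cov μ (runE μ (str T) U l) o x ^ 2) (C := 4)
      (measurable_cov_sq_str o x)
      (fun T U l => cov_sq_le_four (good_runE (strOK_str T) U l) o x) (bal hG o n) hrt).symm

/-! ### the pair -/

omit [Encodable V] [G.LocallyFinite] in
/-- the speed of the pair as a function of the two fields of means -/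
noncomputable def gsp (G : SimpleGraph V) (θ θ' : ℝ) (m m' : V → ℝ) (o x : V) : ℝ :=
  8 * (covT G θ m o x - covT G θ' m' o x) ^ 2 +
    32 * (covT G θ' m' o x ^ 2 * (m x - m' x) ^ 2)

omit [Encodable V] in
theorem spd_eq_gsp [IsProbabilityMeasure μ] [IsProbabilityMeasure μ'] (hG : G.IsTree) {θ θ' : ℝ}
    (h0 : 0 ≤ θ) (h1 : θ < 1) (hμ : EdgeSplit G θ μ) (h0' : 0 ≤ θ') (h1' : θ' < 1)
    (hμ' : EdgeSplit G θ' μ') {e : V × ℕ → ℝ} (he : StrOK e) (l l' : List (V × ℕ)) (o x : V)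
    (U : V × ℕ → unitInterval) :
    spd μ μ' e l l' x o U =
      gsp G θ θ' (mean μ (runE μ e U l)) (mean μ' (runE μ' e U l')) o x := by
  unfold spd gsp
  rw [cov_comm μ, cov_comm μ', cov_eq_covT hG h0 h1 hμ (good_runE he U l),
    cov_eq_covT hG h0' h1' hμ' (good_runE he U l')]

theorem sq_sub_le_of_abs {a b c : ℝ} (ha : a ^ 2 ≤ c) (hb : b ^ 2 ≤ c) : (a - b) ^ 2 ≤ 4 * c := by
  linarith only [sq_nonneg (a + b), hb, ha]

omit [Encodable V] in
theorem spd_le_pow [IsProbabilityMeasure μ] [IsProbabilityMeasure μ'] (hG : G.IsTree) {θ θ' : ℝ}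
    (h0 : 0 ≤ θ) (h1 : θ < 1) (hμ : EdgeSplit G θ μ) (h0' : 0 ≤ θ') (h1' : θ' < 1)
    (hμ' : EdgeSplit G θ' μ') {e : V × ℕ → ℝ} (he : StrOK e) (l l' : List (V × ℕ)) (o x : V)
    (U : V × ℕ → unitInterval) :
    spd μ μ' e l l' x o U ≤ 160 * (max (θ ^ 2) (θ' ^ 2)) ^ G.dist o x := by
  have k1 := abs_cov_le (μ := μ) hG h0 h1 hμ (good_runE (μ := μ) he U l) o x
  have k2 := abs_cov_le (μ := μ') hG h0' h1' hμ' (good_runE (μ := μ') he U l') o x
  have e1 : cov μ (runE μ e U l) o x ^ 2 ≤ (max (θ ^ 2) (θ' ^ 2)) ^ G.dist o x := by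
    have h := pow_le_pow_left₀ (abs_nonneg _) k1 2
    rw [sq_abs] at h
    calc _ ≤ (θ ^ 2) ^ G.dist o x := by
          refine h.trans (le_of_eq ?_)
          ring
      _ ≤ _ := by
          gcongr
          exact le_max_left _ _
  have e2 : cov μ' (runE μ' e U l') o x ^ 2 ≤ (max (θ ^ 2) (θ' ^ 2)) ^ G.dist o x := by
    have h := pow_le_pow_left₀ (abs_nonneg _) k2 2
    rw [sq_abs] at h
    calc _ ≤ (θ' ^ 2) ^ G.dist o x := by
          refine h.trans (le_of_eq ?_)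
          ring
      _ ≤ _ := by
          gcongr
          exact le_max_right _ _
  have e3 : (mean μ (runE μ e U l) x - mean μ' (runE μ' e U l') x) ^ 2 ≤ 4 :=
    sq_sub_le_four (abs_mean_le (good_runE he U l) x) (abs_mean_le (good_runE he U l') x)
  unfold spd
  rw [cov_comm μ, cov_comm μ']
  have e4 := sq_sub_le_of_abs e1 e2
  have e5 := mul_le_mul e2 e3 (sq_nonneg _) (by (clear * -; positivity))
  linarith only [e4, e5]

theorem measurable_spd_str [IsProbabilityMeasure μ] [IsProbabilityMeasure μ'] (o x : V)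
    (l : List (V × ℕ)) :
    Measurable fun p : (V × ℕ → unitInterval) × (V × ℕ → unitInterval) =>
      1 / 4 * spd μ μ' (str p.1) l l x o p.2 :=
  (measurable_spd (μ := μ) (μ' := μ') (measurable_str measurable_fst)
    (fun p => strOK_str p.1) measurable_snd l l x o).const_mul _

/-- the speed, averaged over the noise -/
noncomputable def psp (μ μ' : Measure (V → ℤˣ)) (o x : V) (T : V × ℕ → unitInterval)
    (l : List (V × ℕ)) : ℝ := ∫ U, 1 / 4 * spd μ μ' (str T) l l x o U ∂(noise V)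

omit [Encodable V] in
theorem abs_quarter_spd_le [IsProbabilityMeasure μ] [IsProbabilityMeasure μ']
    (T U : V × ℕ → unitInterval) (l : List (V × ℕ)) (o x : V) :
    |1 / 4 * spd μ μ' (str T) l l x o U| ≤ 160 := by
  rw [abs_of_nonneg (mul_nonneg (by norm_num) (spd_nonneg _ _ _ _ _ _))]
  linarith [spd_le (μ := μ) (μ' := μ') (strOK_str T) l l x o U]

theorem labF_psp [IsProbabilityMeasure μ] [IsProbabilityMeasure μ'] (o x : V) :
    LabF (psp μ μ' o x) 160 :=
  labF_of_int (F := fun T U l => 1 / 4 * spd μ μ' (str T) l l x o U)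
    (measurable_spd_str o x)
    (fun T T' U l h => by
      unfold spd
      rw [runE_str_congr (μ := μ) (fun j hj => hj) h U,
        runE_str_congr (μ := μ') (fun j hj => hj) h U])
    (fun T U l => abs_quarter_spd_le T U l o x)

theorem psp_step [IsProbabilityMeasure μ] [IsProbabilityMeasure μ'] (o : V)
    (T : V × ℕ → unitInterval) {i : V × ℕ} {l : List (V × ℕ)} (hnd : (i :: l).Nodup) :
    phiE μ μ' (str T) (i :: l) (i :: l) o ≤
      phiE μ μ' (str T) l l o + (T i : ℝ) * psp μ μ' o i.1 T l := by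
  refine (phiE_both_le (strOK_str T) l l l (fun _ h => h) (fun _ h => h)
    (List.nodup_cons.1 hnd).1 o).trans (le_of_eq ?_)
  unfold psp
  rw [integral_const_mul, str_sq]
  ring

theorem measurable_gsp {m m' : V → Om V → ℝ} (hm : ∀ v, Measurable (m v))
    (hm' : ∀ v, Measurable (m' v)) (θ θ' : ℝ) (o x : V) :
    Measurable fun ω => gsp G θ θ' (fun y => m y ω) (fun y => m' y ω) o x := by
  have a1 := measurable_covT (G := G) hm θ o x
  have a2 := measurable_covT (G := G) hm' θ' o x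
  unfold gsp
  exact (((a1.sub a2).pow_const 2).const_mul 8).add
    (((a2.pow_const 2).mul (((hm x).sub (hm' x)).pow_const 2)).const_mul 32)

theorem psp_vol [IsProbabilityMeasure μ] [IsProbabilityMeasure μ'] (hG : G.IsTree) {θ θ' : ℝ}
    (h0 : 0 ≤ θ) (h1 : θ < 1) (hμ : EdgeSplit G θ μ) (h0' : 0 ≤ θ') (h1' : θ' < 1)
    (hμ' : EdgeSplit G θ' μ') (o x : V) (B : Finset V) {r t : ℝ} (hrt : r ≤ t) :
    avT (vol B t) (psp μ μ' o x) r =
      ∫ ω, 1 / 4 * gsp G θ θ' (fun y => fvM μ B r y ω) (fun y => fvM μ' B r y ω) o x ∂(PP V) := by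
  have h := avT_vol (F := fun T U l => 1 / 4 * spd μ μ' (str T) l l x o U) (C := 160)
    (measurable_spd_str o x) (fun T U l => abs_quarter_spd_le T U l o x) B hrt
  refine h.trans ?_
  congr 1
  funext ω
  rw [spd_eq_gsp hG h0 h1 hμ h0' h1' hμ' (strOK_str ω.1)]
  rfl

theorem abs_psp_vol_le [IsProbabilityMeasure μ] [IsProbabilityMeasure μ'] (hG : G.IsTree)
    {θ θ' : ℝ} (h0 : 0 ≤ θ) (h1 : θ < 1) (hμ : EdgeSplit G θ μ) (h0' : 0 ≤ θ') (h1' : θ' < 1)
    (hμ' : EdgeSplit G θ' μ') (o x : V) (S : Finset (V × ℕ)) (r : ℝ) :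
    |avT S (psp μ μ' o x) r| ≤ 40 * (max (θ ^ 2) (θ' ^ 2)) ^ G.dist o x := by
  have hp : ∀ T l, |psp μ μ' o x T l| ≤ 40 * (max (θ ^ 2) (θ' ^ 2)) ^ G.dist o x := by
    intro T l
    have := norm_integral_le_of_norm_le_const (μ := noise V)
      (f := fun U : V × ℕ → unitInterval => 1 / 4 * spd μ μ' (str T) l l x o U)
      (C := 40 * (max (θ ^ 2) (θ' ^ 2)) ^ G.dist o x) (Eventually.of_forall fun U => by
        rw [Real.norm_eq_abs, abs_of_nonneg (mul_nonneg (by norm_num) (spd_nonneg _ _ _ _ _ _))]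
        linarith [spd_le_pow hG h0 h1 hμ h0' h1' hμ' (strOK_str T) l l o x U])
    simpa only [psp, one_div, ge_iff_le, Real.norm_eq_abs, probReal_univ, mul_one] using this
  have := norm_integral_le_of_norm_le_const (μ := noise V)
    (f := fun T : V × ℕ → unitInterval => psp μ μ' o x T (stt T S r))
    (C := 40 * (max (θ ^ 2) (θ' ^ 2)) ^ G.dist o x) (Eventually.of_forall fun T => hp _ _)
  simpa only [avT, ge_iff_le, Real.norm_eq_abs, probReal_univ, mul_one] using this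

theorem fv_gsp_le [IsProbabilityMeasure μ] [IsProbabilityMeasure μ'] (hG : G.IsTree) {θ θ' : ℝ}
    (h0 : 0 ≤ θ) (h1 : θ < 1) (hμ : EdgeSplit G θ μ) (h0' : 0 ≤ θ') (h1' : θ' < 1)
    (hμ' : EdgeSplit G θ' μ') (o x : V) (B : Finset V) (r : ℝ) (ω : Om V) :
    |1 / 4 * gsp G θ θ' (fun y => fvM μ B r y ω) (fun y => fvM μ' B r y ω) o x| ≤
      40 * (max (θ ^ 2) (θ' ^ 2)) ^ G.dist o x := by
  have e := spd_eq_gsp hG h0 h1 hμ h0' h1' hμ' (strOK_str ω.1) (stt ω.1 (vol B r) r)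
    (stt ω.1 (vol B r) r) o x ω.2
  have e' := spd_le_pow hG h0 h1 hμ h0' h1' hμ' (strOK_str ω.1) (stt ω.1 (vol B r) r)
    (stt ω.1 (vol B r) r) o x ω.2
  have e'' := spd_nonneg (μ := μ) (μ' := μ') (str ω.1) (stt ω.1 (vol B r) r)
    (stt ω.1 (vol B r) r) x o ω.2
  rw [e] at e' e''
  have h2 : gsp G θ θ' (fun y => fvM μ B r y ω) (fun y => fvM μ' B r y ω) o x =
    gsp G θ θ' (mean μ (runE μ (str ω.1) ω.2 (stt ω.1 (vol B r) r)))
      (mean μ' (runE μ' (str ω.1) ω.2 (stt ω.1 (vol B r) r))) o x := rfl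
  rw [h2, abs_of_nonneg (mul_nonneg (by norm_num) e'')]
  linarith only [e']

/-- total speed of the pair at time `r` in infinite volume -/
noncomputable def spdT (hG : G.IsTree) (θ θ' : ℝ) (μ μ' : Measure (V → ℤˣ)) (o : V) (r : ℝ) : ℝ :=
  ∑' x, ∫ ω, gsp G θ θ' (fun y => Minf hG μ r y ω) (fun y => Minf hG μ' r y ω) o x ∂(PP V)

section Pair

variable [IsProbabilityMeasure μ] [IsProbabilityMeasure μ'] {lam lam' : ℝ} {C C' : ℝ → ℝ}

theorem Rate.tendsto_speed (hr : Rate G μ lam C) (hr' : Rate G μ' lam' C') (hG : G.IsTree)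
    {d : ℕ} (hd : 2 ≤ d) (hreg : G.IsRegularOfDegree d)
    {θ θ' : ℝ} (h0 : 0 ≤ θ) (h1 : θ < 1) (hθ : ((d : ℝ) - 1) * θ ^ 2 < 1) (hμ : EdgeSplit G θ μ)
    (h0' : 0 ≤ θ') (h1' : θ' < 1) (hθ' : ((d : ℝ) - 1) * θ' ^ 2 < 1)
    (hμ' : EdgeSplit G θ' μ') (o : V) (r : ℝ) :
    Tendsto (fun n => ∑ x ∈ bal hG o n, ∫ ω, 1 / 4 * gsp G θ θ'
        (fun y => fvM μ (bal hG o n) r y ω) (fun y => fvM μ' (bal hG o n) r y ω) o x ∂(PP V))
      atTop (𝓝 (1 / 4 * spdT hG θ θ' μ μ' o r)) := by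
  have hκ0 : 0 ≤ max (θ ^ 2) (θ' ^ 2) := (sq_nonneg θ).trans (le_max_left _ _)
  have hκ : ((d : ℝ) - 1) * max (θ ^ 2) (θ' ^ 2) < 1 := by
    rcases max_choice (θ ^ 2) (θ' ^ 2) with h | h <;> rw [h] <;> assumption
  have h4 := tendsto_sum_bal hG hd hreg hκ0 hκ (A := 40) (by norm_num) o
      (a := fun n x ω => 1 / 4 * gsp G θ θ' (fun y => fvM μ (bal hG o n) r y ω)
        (fun y => fvM μ' (bal hG o n) r y ω) o x)
      (a' := fun x ω => 1 / 4 * gsp G θ θ' (fun y => Minf hG μ r y ω)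
        (fun y => Minf hG μ' r y ω) o x)
      (fun n x => (measurable_gsp (fun v => measurable_fvM _ r v)
        (fun v => measurable_fvM _ r v) θ θ' o x).const_mul _)
      (fun n x ω => fv_gsp_le hG h0 h1 hμ h0' h1' hμ' o x _ r ω)
      (fun x => by
        filter_upwards [hr.ae_tendsto_all hG r, hr'.ae_tendsto_all hG r] with ω hω hω'
        have c1 := tendsto_covT (G := G) h0 h1 (m := fun n y => fvM μ (bal hG o n) r y ω)
          (m' := fun y => Minf hG μ r y ω) (fun n v => abs_fvM_le _ r v ω)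
          (fun v => hω o v) o x
        have c2 := tendsto_covT (G := G) h0' h1' (m := fun n y => fvM μ' (bal hG o n) r y ω)
          (m' := fun y => Minf hG μ' r y ω) (fun n v => abs_fvM_le _ r v ω)
          (fun v => hω' o v) o x
        unfold gsp
        exact ((((c1.sub c2).pow 2).const_mul 8).add
          (((c2.pow 2).mul (((hω o x).sub (hω' o x)).pow 2)).const_mul 32)).const_mul _)
  have e : ∑' x, ∫ ω, 1 / 4 * gsp G θ θ' (fun y => Minf hG μ r y ω)
        (fun y => Minf hG μ' r y ω) o x ∂(PP V) = 1 / 4 * spdT hG θ θ' μ μ' o r := by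
    unfold spdT
    rw [← tsum_mul_left]
    exact tsum_congr fun x => integral_const_mul _ _
  rw [← e]
  exact h4

/-- EVOLUTION OF THE PAIR in infinite volume -/
theorem Rate.pair_evolution (hr : Rate G μ lam C) (hr' : Rate G μ' lam' C') (hG : G.IsTree)
    {d : ℕ} (hd : 2 ≤ d) (hreg : G.IsRegularOfDegree d)
    {θ θ' : ℝ} (h0 : 0 ≤ θ) (h1 : θ < 1) (hθ : ((d : ℝ) - 1) * θ ^ 2 < 1) (hμ : EdgeSplit G θ μ)
    (h0' : 0 ≤ θ') (h1' : θ' < 1) (hθ' : ((d : ℝ) - 1) * θ' ^ 2 < 1)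
    (hμ' : EdgeSplit G θ' μ') (o : V) {t' t : ℝ} (ht : t' ≤ t) :
    ∫ ω, (Minf hG μ t o ω - Minf hG μ' t o ω) ^ 2 ∂(PP V) ≤
      ∫ ω, (Minf hG μ t' o ω - Minf hG μ' t' o ω) ^ 2 ∂(PP V) +
      ∫ r in t'..t, (if Int.fract r < 1 / 2 then
        2 * (Int.fract r * (1 / 4 * spdT hG θ θ' μ μ' o r)) else 0) := by
  have hκ0 : 0 ≤ max (θ ^ 2) (θ' ^ 2) := (sq_nonneg θ).trans (le_max_left _ _)
  have hκ : ((d : ℝ) - 1) * max (θ ^ 2) (θ' ^ 2) < 1 := by
    rcases max_choice (θ ^ 2) (θ' ^ 2) with h | h <;> rw [h] <;> assumption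
  have hstep : ∀ n : ℕ, avT (vol (bal hG o n) t) (fun T l => phiE μ μ' (str T) l l o) t ≤
      avT (vol (bal hG o n) t) (fun T l => phiE μ μ' (str T) l l o) t' +
      ∫ r in t'..t, (if Int.fract r < 1 / 2 then
        2 * (Int.fract r * ∑ x ∈ bal hG o n, avT (vol (bal hG o n) t) (psp μ μ' o x) r)
          else 0) :=
    fun n => label_time (vol (bal hG o n) t) (Φ := fun T l => phiE μ μ' (str T) l l o)
      (g := fun x => psp μ μ' o x)
      (w := fun r => r) (C := 160) (Cw := 1)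
      ((labF_phiE (fun l => l) (fun l => l) (fun _ _ h => h) (fun _ _ h => h) o).mono
        (by norm_num))
      (fun x => labF_psp o x) (fun x T l => integral_nonneg fun _ =>
        mul_nonneg (by norm_num) (spd_nonneg _ _ _ _ _ _))
      measurable_id (fun r hr _ => hr) (fun r _ hr => by linarith only [hr])
      (fun T i l _ hnd _ => psp_step o T hnd) (bal hG o n)
      (fun i hi => by unfold vol at hi; exact (Finset.mem_product.1 hi).1) ht
  have hφ : ∀ r, r ≤ t → Tendsto (fun n => avT (vol (bal hG o n) t)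
      (fun T l => phiE μ μ' (str T) l l o) r) atTop
      (𝓝 (∫ ω, (Minf hG μ r o ω - Minf hG μ' r o ω) ^ 2 ∂(PP V))) := by
    intro r hrt
    have h2 : Tendsto (fun n => ∫ ω, (fvM μ (bal hG o n) r o ω -
        fvM μ' (bal hG o n) r o ω) ^ 2 ∂(PP V)) atTop
        (𝓝 (∫ ω, (Minf hG μ r o ω - Minf hG μ' r o ω) ^ 2 ∂(PP V))) := by
      refine tendsto_integral_of_dominated_convergence (fun _ => 4) (fun n => ?_)
        (integrable_const _) (fun n => Eventually.of_forall fun ω => ?_) ?_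
      · exact (((measurable_fvM _ r o).sub (measurable_fvM _ r o)).pow_const
          2).aestronglyMeasurable
      · rw [Real.norm_eq_abs, abs_of_nonneg (sq_nonneg _)]
        exact sq_sub_le_four (abs_fvM_le _ r o ω) (abs_fvM_le _ r o ω)
      · filter_upwards [hr.ae_tendsto_all hG r, hr'.ae_tendsto_all hG r] with ω hω hω'
        exact ((hω o o).sub (hω' o o)).pow 2
    refine h2.congr fun n => ?_
    have h3 := avT_vol (F := fun T U l =>
      (mean μ (runE μ (str T) U l) o - mean μ' (runE μ' (str T) U l) o) ^ 2) (C := 4)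
      (fun l => ((measurable_mean_runE (μ := μ) (measurable_str measurable_fst)
        (fun p => strOK_str p.1) measurable_snd l o).sub
        (measurable_mean_runE (μ := μ') (measurable_str measurable_fst)
        (fun p => strOK_str p.1) measurable_snd l o)).pow_const 2)
      (fun T U l => by
        rw [abs_of_nonneg (sq_nonneg _)]
        exact sq_sub_le_four (abs_mean_le (good_runE (strOK_str T) U _) o)
          (abs_mean_le (good_runE (strOK_str T) U _) o))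
      (bal hG o n) hrt
    exact h3.symm
  refine evo_limit ht
    (φ := fun n r => avT (vol (bal hG o n) t) (fun T l => phiE μ μ' (str T) l l o) r)
    (φ' := fun r => ∫ ω, (Minf hG μ r o ω - Minf hG μ' r o ω) ^ 2 ∂(PP V))
    (s := fun n r => ∑ x ∈ bal hG o n, avT (vol (bal hG o n) t) (psp μ μ' o x) r)
    (s' := fun r => 1 / 4 * spdT hG θ θ' μ μ' o r)
    (K := 40 * (2 * d / (1 - ((d : ℝ) - 1) * max (θ ^ 2) (θ' ^ 2)))) hstep (hφ t le_rfl)
    (hφ t' ht)
    (fun n => Finset.measurable_fun_sum _ fun x _ => measurable_avT _ (labF_psp o x))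
    (fun n r => ?_) (fun r hrt => ?_)
  · exact sum_bal_le hG hd hreg hκ0 hκ (by norm_num) o (bal hG o n)
      (b := fun x => avT (vol (bal hG o n) t) (psp μ μ' o x) r) fun x =>
      abs_psp_vol_le hG h0 h1 hμ h0' h1' hμ' o x _ r
  · refine (hr.tendsto_speed hr' hG hd hreg h0 h1 hθ hμ h0' h1' hθ' hμ' o r).congr fun n => ?_
    exact Finset.sum_congr rfl fun x _ =>
      (psp_vol hG h0 h1 hμ h0' h1' hμ' o x (bal hG o n) hrt).symm

theorem spdT_nonneg (hG : G.IsTree) (θ θ' : ℝ) (o : V) (r : ℝ) :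
    0 ≤ spdT hG θ θ' μ μ' o r := by
  unfold spdT
  refine tsum_nonneg fun x => integral_nonneg fun ω => ?_
  unfold gsp
  positivity

/-- measurability of the speed in time -/
theorem Rate.measurable_spdT (hr : Rate G μ lam C) (hr' : Rate G μ' lam' C') (hG : G.IsTree)
    {d : ℕ} (hd : 2 ≤ d) (hreg : G.IsRegularOfDegree d)
    {θ θ' : ℝ} (h0 : 0 ≤ θ) (h1 : θ < 1) (hθ : ((d : ℝ) - 1) * θ ^ 2 < 1) (hμ : EdgeSplit G θ μ)
    (h0' : 0 ≤ θ') (h1' : θ' < 1) (hθ' : ((d : ℝ) - 1) * θ' ^ 2 < 1)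
    (hμ' : EdgeSplit G θ' μ') (o : V) : Measurable (spdT hG θ θ' μ μ' o) := by
  have h : Measurable fun r => 1 / 4 * spdT hG θ θ' μ μ' o r := by
    refine measurable_of_tendsto_metrizable (f := fun (n : ℕ) (r : ℝ) => ∑ x ∈ bal hG o n,
      avT (vol (bal hG o n) n) (psp μ μ' o x) r)
      (fun n => Finset.measurable_fun_sum _ fun x _ => measurable_avT _ (labF_psp o x)) ?_
    rw [tendsto_pi_nhds]
    intro r
    refine (hr.tendsto_speed hr' hG hd hreg h0 h1 hθ hμ h0' h1' hθ' hμ' o r).congr' ?_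
    filter_upwards [eventually_ge_atTop ⌈r⌉₊] with n hn
    have hrn : r ≤ n := (Nat.le_ceil r).trans (by exact_mod_cast hn)
    exact Finset.sum_congr rfl fun x _ =>
      (psp_vol hG h0 h1 hμ h0' h1' hμ' o x (bal hG o n) hrn).symm
  have h2 := h.const_mul 4
  have e : (fun r => 4 * (1 / 4 * spdT hG θ θ' μ μ' o r)) = spdT hG θ θ' μ μ' o := by
    funext r
    ring
  rwa [e] at h2

/-- monotonicity in time of the distance of the pair -/
theorem Rate.pair_mono (hr : Rate G μ lam C) (hr' : Rate G μ' lam' C') (hG : G.IsTree)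
    (o : V) {t' t : ℝ} (ht : t' ≤ t) :
    ∫ ω, (Minf hG μ t' o ω - Minf hG μ' t' o ω) ^ 2 ∂(PP V) ≤
      ∫ ω, (Minf hG μ t o ω - Minf hG μ' t o ω) ^ 2 ∂(PP V) := by
  have hφ : ∀ r, r ≤ t → Tendsto (fun n => avT (vol (bal hG o n) t)
      (fun T l => phiE μ μ' (str T) l l o) r) atTop
      (𝓝 (∫ ω, (Minf hG μ r o ω - Minf hG μ' r o ω) ^ 2 ∂(PP V))) := by
    intro r hrt
    have h2 : Tendsto (fun n => ∫ ω, (fvM μ (bal hG o n) r o ω -
        fvM μ' (bal hG o n) r o ω) ^ 2 ∂(PP V)) atTop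
        (𝓝 (∫ ω, (Minf hG μ r o ω - Minf hG μ' r o ω) ^ 2 ∂(PP V))) := by
      refine tendsto_integral_of_dominated_convergence (fun _ => 4) (fun n => ?_)
        (integrable_const _) (fun n => Eventually.of_forall fun ω => ?_) ?_
      · exact (((measurable_fvM _ r o).sub (measurable_fvM _ r o)).pow_const
          2).aestronglyMeasurable
      · rw [Real.norm_eq_abs, abs_of_nonneg (sq_nonneg _)]
        exact sq_sub_le_four (abs_fvM_le _ r o ω) (abs_fvM_le _ r o ω)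
      · filter_upwards [hr.ae_tendsto_all hG r, hr'.ae_tendsto_all hG r] with ω hω hω'
        exact ((hω o o).sub (hω' o o)).pow 2
    refine h2.congr fun n => ?_
    have h3 := avT_vol (F := fun T U l =>
      (mean μ (runE μ (str T) U l) o - mean μ' (runE μ' (str T) U l) o) ^ 2) (C := 4)
      (fun l => ((measurable_mean_runE (μ := μ) (measurable_str measurable_fst)
        (fun p => strOK_str p.1) measurable_snd l o).sub
        (measurable_mean_runE (μ := μ') (measurable_str measurable_fst)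
        (fun p => strOK_str p.1) measurable_snd l o)).pow_const 2)
      (fun T U l => by
        rw [abs_of_nonneg (sq_nonneg _)]
        exact sq_sub_le_four (abs_mean_le (good_runE (strOK_str T) U _) o)
          (abs_mean_le (good_runE (strOK_str T) U _) o))
      (bal hG o n) hrt
    exact h3.symm
  refine le_of_tendsto_of_tendsto' (hφ t' ht) (hφ t le_rfl) fun n => ?_
  exact avT_monotone _ (labF_phiE (fun l => l) (fun l => l) (fun _ _ h => h) (fun _ _ h => h) o)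
    (fun T i l hnd => phiE_le_both (strOK_str T) l l l (fun _ h => h) (fun _ h => h)
      (List.nodup_cons.1 hnd).1 o) ht

/-- joint invariance -/
theorem pInv_Minf (hG : G.IsTree) (t : ℝ)
    (hinv : ∀ g : G ≃g G, μ.map (fun σ v => σ (g.symm v)) = μ)
    (hinv' : ∀ g : G ≃g G, μ'.map (fun σ v => σ (g.symm v)) = μ') :
    PInv G (PP V) (Minf hG μ t) (Minf hG μ' t) := by
  intro g
  have hm : Measurable fun ω => ((fun v => Minf hG μ t v ω, fun v => Minf hG μ' t v ω) :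
      (V → ℝ) × (V → ℝ)) :=
    (measurable_pi_lambda _ fun v => measurable_Minf t v).prodMk
      (measurable_pi_lambda _ fun v => measurable_Minf t v)
  have h1 : (fun ω => ((fun v => Minf hG μ t (g v) ω, fun v => Minf hG μ' t (g v) ω) :
      (V → ℝ) × (V → ℝ))) =ᵐ[PP V] fun ω =>
      ((fun v => Minf hG μ t v (shift g.symm ω), fun v => Minf hG μ' t v (shift g.symm ω)) :
      (V → ℝ) × (V → ℝ)) := by
    filter_upwards [ae_Minf_aut (hG := hG) g.symm (hinv g.symm),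
      ae_Minf_aut (hG := hG) g.symm (hinv' g.symm)] with ω h2 h3
    refine Prod.ext ?_ ?_
    · funext v
      exact (h2 t v).symm
    · funext v
      exact (h3 t v).symm
  rw [Measure.map_congr h1]
  have h4 := Measure.map_map (μ := PP V) hm (measurable_shift g.symm)
  rw [map_shift g.symm] at h4
  exact h4.symm

end Pair

/-- before time zero nothing is observed -/
theorem stt_of_nonpos (T : V × ℕ → unitInterval) (S : Finset (V × ℕ)) {t : ℝ} (ht : t ≤ 0) :
    stt T S t = [] := by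
  rw [List.eq_nil_iff_forall_not_mem]
  intro i hi
  rw [mem_stt] at hi
  have h1 : 0 ≤ arr T i := by
    unfold arr
    have := (T i).2.1
    (clear * - this; positivity)
  linarith only [hi.2.2, h1, ht]

theorem Minf_of_nonpos (hG : G.IsTree) {t : ℝ} (ht : t ≤ 0) (v : V) (ω : Om V) :
    Minf hG μ t v ω = (∫ σ, sp σ v ∂μ) / ∫ _σ, (1 : ℝ) ∂μ := by
  unfold Minf fvM
  simp only [stt_of_nonpos _ _ ht, runE_nil]
  have e : mean μ [] v = (∫ σ, sp σ v ∂μ) / ∫ _σ, (1 : ℝ) ∂μ := by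
    simp only [mean, post, lik, List.map_nil, List.prod_nil, mul_one, integral_const, smul_eq_mul]
  rw [e]
  exact limsup_const _

theorem Minf_zero_of_centered (hG : G.IsTree) {v : V} (hv : ∫ σ, sp σ v ∂μ = 0) {t : ℝ}
    (ht : t ≤ 0) (ω : Om V) : Minf hG μ t v ω = 0 := by
  rw [Minf_of_nonpos hG ht, hv, zero_div]

end Vale.Agent.P161
end
end

section

section

/-! Critical point: convergence of the fields from the pair estimates (I) and (II). -/

open MeasureTheory Filter Topology Set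

namespace Vale.Agent.P161

variable {V : Type*} {G : SimpleGraph V}

/-- a uniform lower bound for the decay rate of one model -/
def RateBd [Encodable V] [G.LocallyFinite] (hG : G.IsTree) (d : ℕ) (c θ : ℝ)
    (μ : Measure (V → ℤˣ)) : Prop :=
  ∀ r : ℝ, 0 < r → ∃ ρ : ℝ, 0 ≤ ρ ∧ ρ ≤ 1 ∧ TField G θ ρ (PP V) (Minf hG μ r) ∧
    c * min r 1 ≤ 1 - ((d : ℝ) - 1) * θ ^ 2 * (1 - ρ)

section Bounds

variable [Encodable V] [G.LocallyFinite] {hG : G.IsTree} {d : ℕ} {c θ θ' : ℝ}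
  {μ μ' : Measure (V → ℤˣ)}

theorem cmin_pos {c r : ℝ} (hc : 0 < c) (hr : 0 < r) : 0 < c * min r 1 :=
  mul_pos hc (lt_min hr one_pos)

theorem RateBd.sum_covT_le (h : RateBd hG d c θ μ) (hd : 2 ≤ d)
    (hreg : G.IsRegularOfDegree d) (hc : 0 < c) (h0 : 0 ≤ θ) (h1 : θ < 1) {r : ℝ} (hr : 0 < r)
    (o : V) (A : Finset V) :
    ∑ v ∈ A, ∫ ω, covT G θ (fun x => Minf hG μ r x ω) o v ^ 2 ∂(PP V) ≤
      2 * d / (c * min r 1) := by
  obtain ⟨ρ, -, hρ, hT, hR⟩ := h r hr
  have hcm := cmin_pos hc hr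
  refine (hT.sum_covT_sq_le hG hd hreg h0 h1 hρ (hcm.trans_le hR) o A).trans ?_
  exact div_le_div_of_nonneg_left (by positivity) hcm hR

theorem RateBd.tsum_covT_le (h : RateBd hG d c θ μ) (hd : 2 ≤ d)
    (hreg : G.IsRegularOfDegree d) (hc : 0 < c) (h0 : 0 ≤ θ) (h1 : θ < 1) {r : ℝ} (hr : 0 < r)
    (o : V) :
    ∑' v, ∫ ω, covT G θ (fun x => Minf hG μ r x ω) o v ^ 2 ∂(PP V) ≤
      2 * d / (c * min r 1) :=
  Real.tsum_le_of_sum_le (fun v => integral_nonneg fun ω => sq_nonneg _)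
    (fun A => h.sum_covT_le hd hreg hc h0 h1 hr o A)

theorem spdT_le_of_rateBd [IsProbabilityMeasure μ] [IsProbabilityMeasure μ']
    (h : RateBd hG d c θ μ) (h' : RateBd hG d c θ' μ') (hd : 2 ≤ d)
    (hreg : G.IsRegularOfDegree d) (hc : 0 < c) (h0 : 0 ≤ θ) (h1 : θ < 1) (h0' : 0 ≤ θ')
    (h1' : θ' < 1) {r : ℝ} (hr : 0 < r) (o : V) :
    spdT hG θ θ' μ μ' o r ≤ 160 * (2 * d / (c * min r 1)) := by
  unfold spdT
  have hm := fun v => measurable_Minf (hG := hG) (μ := μ) r v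
  have hm' := fun v => measurable_Minf (hG := hG) (μ := μ') r v
  have hbc : ∀ (θ : ℝ) (μ : Measure (V → ℤˣ)) [IsProbabilityMeasure μ], 0 ≤ θ → θ < 1 →
      ∀ v ω, |covT G θ (fun x => Minf hG μ r x ω) o v| ≤ 1 := by
    intro θ μ _ h0 h1 v ω
    have h2 := covP_nonneg (θ := θ) (a := fun i => Minf hG μ r (geo G o v i) ω) h0 h1
      (fun i => abs_Minf_le _ _ _) (G.dist o v)
    have h3 := covP_le (θ := θ) (a := fun i => Minf hG μ r (geo G o v i) ω) h0 h1
      (fun i => abs_Minf_le _ _ _) (G.dist o v)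
    have h4 := etaP_le_one (θ := θ) (a := fun i => Minf hG μ r (geo G o v i) ω) h0 h1
      (fun i => abs_Minf_le _ _ _) (G.dist o v)
    have h5 := etaP_nonneg (θ := θ) (a := fun i => Minf hG μ r (geo G o v i) ω) h0 h1
      (fun i => abs_Minf_le _ _ _) (G.dist o v)
    unfold covT
    rw [abs_of_nonneg h2]
    refine h3.trans ?_
    exact mul_le_one₀ (pow_le_one₀ h0 h1.le) h5 h4
  have i1 : ∀ v, Integrable (fun ω => covT G θ (fun x => Minf hG μ r x ω) o v ^ 2) (PP V) := by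
    intro v
    refine integrable_of_abs_le ((measurable_covT hm θ o v).pow_const 2) (C := 1) fun ω => ?_
    rw [abs_pow]
    exact pow_le_one₀ (abs_nonneg _) (hbc θ μ h0 h1 v ω)
  have i2 : ∀ v, Integrable (fun ω => covT G θ' (fun x => Minf hG μ' r x ω) o v ^ 2) (PP V) := by
    intro v
    refine integrable_of_abs_le ((measurable_covT hm' θ' o v).pow_const 2) (C := 1) fun ω => ?_
    rw [abs_pow]
    exact pow_le_one₀ (abs_nonneg _) (hbc θ' μ' h0' h1' v ω)
  refine Real.tsum_le_of_sum_le (fun v => integral_nonneg fun ω => ?_) fun A => ?_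
  · unfold gsp
    (clear * - hG; positivity)
  have key : ∀ v ∈ A, ∫ ω, gsp G θ θ' (fun y => Minf hG μ r y ω)
      (fun y => Minf hG μ' r y ω) o v ∂(PP V) ≤
      16 * ∫ ω, covT G θ (fun x => Minf hG μ r x ω) o v ^ 2 ∂(PP V)
      + 144 * ∫ ω, covT G θ' (fun x => Minf hG μ' r x ω) o v ^ 2 ∂(PP V) := by
    intro v _
    rw [← integral_const_mul, ← integral_const_mul,
      ← integral_add ((i1 v).const_mul 16) ((i2 v).const_mul 144)]
    refine integral_mono_of_nonneg (Eventually.of_forall fun ω => by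
      simp only [Pi.zero_apply]; unfold gsp; (clear * - hG; positivity))
      (((i1 v).const_mul 16).add ((i2 v).const_mul 144)) (Eventually.of_forall fun ω => ?_)
    simp only
    unfold gsp
    set a := covT G θ (fun x => Minf hG μ r x ω) o v
    set b := covT G θ' (fun x => Minf hG μ' r x ω) o v
    have h2 := abs_le.1 (abs_Minf_le (hG := hG) (μ := μ) r v ω)
    have h3 := abs_le.1 (abs_Minf_le (hG := hG) (μ := μ') r v ω)
    have h4 : (Minf hG μ r v ω - Minf hG μ' r v ω) ^ 2 ≤ 4 := by nlinarith only [h2, h3]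
    have h5 : b ^ 2 * (Minf hG μ r v ω - Minf hG μ' r v ω) ^ 2 ≤ b ^ 2 * 4 :=
      mul_le_mul_of_nonneg_left h4 (sq_nonneg b)
    linarith only [sq_nonneg (a + b), h5]
  refine (Finset.sum_le_sum key).trans ?_
  rw [Finset.sum_add_distrib, ← Finset.mul_sum, ← Finset.mul_sum]
  have h2 := h.sum_covT_le hd hreg hc h0 h1 hr o A
  have h3 := h'.sum_covT_le hd hreg hc h0' h1' hr o A
  linarith

theorem wgt_le_min {r : ℝ} (hr : 0 < r) : wgt r ≤ min r 1 / 2 := by
  have h1 := wgt_le_self hr.le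
  have h2 := wgt_le r
  rcases le_total r 1 with h | h
  · rw [min_eq_left h]; exact h1
  · rw [min_eq_right h]; exact h2

theorem wgt_spdT_le [IsProbabilityMeasure μ] [IsProbabilityMeasure μ']
    (h : RateBd hG d c θ μ) (h' : RateBd hG d c θ' μ') (hd : 2 ≤ d)
    (hreg : G.IsRegularOfDegree d) (hc : 0 < c) (h0 : 0 ≤ θ) (h1 : θ < 1) (h0' : 0 ≤ θ')
    (h1' : θ' < 1) {r : ℝ} (hr : 0 < r) (o : V) :
    wgt r * spdT hG θ θ' μ μ' o r ≤ 160 * d / c := by
  have h2 := spdT_le_of_rateBd h h' hd hreg hc h0 h1 h0' h1' hr o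
  have hm : 0 < min r 1 := lt_min hr one_pos
  calc wgt r * spdT hG θ θ' μ μ' o r ≤ (min r 1 / 2) * (160 * (2 * d / (c * min r 1))) :=
        mul_le_mul (wgt_le_min hr) h2 (spdT_nonneg hG θ θ' o r) (by positivity)
    _ = 160 * d / c := by
        (clear * - hr hc hd; field_simp)

/-- equicontinuity in time -/
theorem Minf_growth [IsProbabilityMeasure μ] {lam : ℝ} {C : ℝ → ℝ} (hr : Rate G μ lam C)
    (h : RateBd hG d c θ μ) (hd : 2 ≤ d) (hreg : G.IsRegularOfDegree d) (hc : 0 < c)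
    (h0 : 0 ≤ θ) (h1 : θ < 1) (hθ : ((d : ℝ) - 1) * θ ^ 2 < 1) (hμ : EdgeSplit G θ μ)
    {a : ℝ} (ha : 0 < a) (v : V) {s t : ℝ} (has : a ≤ s) (hst : s ≤ t) :
    ∫ ω, (Minf hG μ t v ω - Minf hG μ s v ω) ^ 2 ∂(PP V) ≤ 2 * d / (c * min a 1) * (t - s) := by
  rw [hr.integral_Minf_mart hG hst v]
  have h2 := hr.sq_evolution hG hd hreg h0 h1 hθ hμ v hst
  set K : ℝ := 2 * d / (c * min a 1) with hK
  have hcm := cmin_pos hc ha
  have hK0 : 0 ≤ K := by (clear * - hd hc ha; positivity)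
  have h3 : ∫ r in s..t, (if Int.fract r < 1 / 2 then 2 * (Int.fract r *
        ∑' x, ∫ ω, covT G θ (fun y => Minf hG μ r y ω) v x ^ 2 ∂(PP V)) else 0) ≤
      K * (t - s) := by
    have h4 := intervalIntegral.norm_integral_le_of_norm_le_const (a := s) (b := t) (C := K)
      (f := fun r => (if Int.fract r < 1 / 2 then 2 * (Int.fract r *
        ∑' x, ∫ ω, covT G θ (fun y => Minf hG μ r y ω) v x ^ 2 ∂(PP V)) else 0)) (by
        intro r hr'
        rw [uIoc_of_le hst] at hr'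
        have hrpos : 0 < r := ha.trans_le (has.trans hr'.1.le)
        have h5 := h.tsum_covT_le hd hreg hc h0 h1 hrpos v
        have h6 : 0 ≤ ∑' x, ∫ ω, covT G θ (fun y => Minf hG μ r y ω) v x ^ 2 ∂(PP V) :=
          tsum_nonneg fun x => integral_nonneg fun ω => sq_nonneg _
        have h7 : 2 * d / (c * min r 1) ≤ K := by
          rw [hK]
          refine div_le_div_of_nonneg_left (by positivity) hcm ?_
          have : min a 1 ≤ min r 1 := min_le_min_right 1 (has.trans hr'.1.le)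
          (clear * - this hc; gcongr)
        have h8 := Int.fract_nonneg r
        split_ifs with h9
        · rw [Real.norm_eq_abs, abs_of_nonneg (by (clear * - hG; positivity))]
          calc 2 * (Int.fract r *
                ∑' x, ∫ ω, covT G θ (fun y => Minf hG μ r y ω) v x ^ 2 ∂(PP V))
              ≤ 2 * (1 / 2 * K) := by
                have := h5.trans h7
                (clear * - hG h9 this; gcongr)
            _ = K := by ring
        · simpa only [norm_zero, ge_iff_le] using hK0)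
    rw [abs_of_nonneg (by linarith only [hst] : 0 ≤ t - s)] at h4
    exact (le_abs_self _).trans h4
  (clear * - hG h2 h3; linarith)

end Bounds

/-- mean square distance at `o` of the models `μ` and `μ'` at time `t` -/
noncomputable def Fd [Encodable V] [G.LocallyFinite] (hG : G.IsTree) (μ μ' : Measure (V → ℤˣ))
    (o : V) (t : ℝ) : ℝ := ∫ ω, (Minf hG μ t o ω - Minf hG μ' t o ω) ^ 2 ∂(PP V)

theorem Fd_nonneg [Encodable V] [G.LocallyFinite] (hG : G.IsTree) (μ μ' : Measure (V → ℤˣ))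
    (o : V) (t : ℝ) : 0 ≤ Fd hG μ μ' o t := integral_nonneg fun _ => sq_nonneg _

theorem Fd_le_four [Encodable V] [G.LocallyFinite] (hG : G.IsTree) {μ μ' : Measure (V → ℤˣ)}
    [IsProbabilityMeasure μ] [IsProbabilityMeasure μ'] (o : V) (t : ℝ) :
    Fd hG μ μ' o t ≤ 4 := by
  have h1 : Fd hG μ μ' o t ≤ ∫ _ω, (4 : ℝ) ∂(PP V) := by
    refine integral_mono_of_nonneg (Eventually.of_forall fun ω => sq_nonneg _)
      (integrable_const _) (Eventually.of_forall fun ω => ?_)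
    have h2 := abs_le.1 (abs_Minf_le (hG := hG) (μ := μ) t o ω)
    have h3 := abs_le.1 (abs_Minf_le (hG := hG) (μ := μ') t o ω)
    simp only
    nlinarith
  simpa only [ge_iff_le, integral_const, probReal_univ, smul_eq_mul, one_mul] using h1

/-- a single spin is centered -/
theorem IsFreeIsing.integral_sp_zero [G.LocallyFinite] (hG : G.IsTree) {θ : ℝ} (h0 : 0 ≤ θ)
    (h1 : θ < 1) {μ : Measure (V → ℤˣ)} (hμ : IsFreeIsing G θ μ) (v : V) :
    ∫ σ, sp σ v ∂μ = 0 := by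
  classical
  have hconn : (G.induce (({v} : Finset V) : Set V)).Connected := by
    have : Subsingleton ((({v} : Finset V) : Set V)) := by
      rw [Finset.coe_singleton]
      infer_instance
    have : Nonempty ((({v} : Finset V) : Set V)) := ⟨⟨v, by simp⟩⟩
    exact ⟨SimpleGraph.Preconnected.of_subsingleton⟩
  have hv : v ∈ ({v} : Finset V) := by simp
  have h2 := hμ.integral_restrict h0 h1 hconn (fun η => ((η ⟨v, hv⟩ : ℤ) : ℝ))
  have h3 : ∀ σ : V → ℤˣ, sp σ v = (fun η : ({v} : Finset V) → ℤˣ => ((η ⟨v, hv⟩ : ℤ) : ℝ))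
      (({v} : Finset V).restrict σ) := fun σ => rfl
  simp only [h3]
  rw [h2]
  -- the sum is antisymmetric under the flip
  have h4 : ∀ η : ({v} : Finset V) → ℤˣ, wt G θ {v} (ext1 {v} η) = 1 / 2 := by
    intro η
    unfold wt
    rw [Finset.prod_eq_one, mul_one]
    intro e he
    exfalso
    rw [Finset.mem_filter] at he
    obtain ⟨he1, he2⟩ := he
    revert he1 he2
    refine Sym2.ind (fun a b => ?_) e
    intro he1 he2
    rw [Finset.mk_mem_sym2_iff] at he1
    simp only [Finset.mem_singleton] at he1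
    rw [he1.1, he1.2] at he2
    simp at he2
  simp only [h4]
  rw [← Finset.mul_sum]
  have h5 : ∑ η : ({v} : Finset V) → ℤˣ, ((η ⟨v, hv⟩ : ℤ) : ℝ) =
      ∑ η : ({v} : Finset V) → ℤˣ, -((η ⟨v, hv⟩ : ℤ) : ℝ) := by
    refine Fintype.sum_equiv (Equiv.neg _) _ _ fun η => ?_
    simp only [Equiv.neg_apply, Pi.neg_apply, Units.val_neg, Int.cast_neg, neg_neg]
  have h6 : ∑ η : ({v} : Finset V) → ℤˣ, ((η ⟨v, hv⟩ : ℤ) : ℝ) = 0 := by
    rw [Finset.sum_neg_distrib] at h5
    linarith only [h5]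
  rw [h6, mul_zero]

section Conv

variable [Encodable V] [G.LocallyFinite] {hG : G.IsTree} {d : ℕ} {c θc : ℝ}
  {θ : ℕ → ℝ} {ν : ℕ → Measure (V → ℤˣ)}

/-- convergence of the fields at all times from the two pair estimates -/
theorem conv_of_est (hreg : G.IsRegularOfDegree d) (hS : Seqn G d θc θ ν) (hd : 3 ≤ d)
    (hθc : 0 < θc) (hcrit : ((d : ℝ) - 1) * θc ^ 2 = 1) (hc : 0 < c)
    (hRB : ∀ n, RateBd hG d c (θ n) (ν n)) (o : V) {K : ℝ} (hK : 0 ≤ K) {k0 : ℕ}
    (hI : ∀ n m r, 0 < r → ∀ (t : ℝ) (k : ℕ), 4 / (c * min r 1) ≤ t → 1 ≤ t →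
      (k : ℝ) + 1 ≤ t → spdT hG (θ n) (θ m) (ν n) (ν m) o r ≤
        K * (t ^ 2 * Fd hG (ν n) (ν m) o r + t ^ 2 * Real.exp (-((((d - 1 : ℕ) : ℝ)) ^ (k + 1) *
        ((c * min r 1) * (t - k - 1) / 2 - Real.log 2)))
          + (θ n - θ m) ^ 2 / (c * min r 1) ^ k0))
    {δ : ℝ} (hδ : 0 < δ)
    (hII : ∀ P : ℕ, ∃ C' : ℝ, ∀ r ∈ Ioc (0 : ℝ) (1 / 2), ∀ η : ℝ, 0 < η →
      ∀ᶠ p : ℕ × ℕ in atTop ×ˢ atTop,
        wgt r * spdT hG (θ p.1) (θ p.2) (ν p.1) (ν p.2) o r ≤
          C' * r ^ (δ - 1) * Fd hG (ν p.1) (ν p.2) o r + C' * r ^ P + η) :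
    ∀ t : ℝ, 0 ≤ t → Tendsto (fun p : ℕ × ℕ => Fd hG (ν p.1) (ν p.2) o t)
      (atTop ×ˢ atTop) (𝓝 0) := by
  intro t ht
  have hprob : ∀ n, IsProbabilityMeasure (ν n) := fun n => (hS.ising n).isProb
  have h0 := fun n => hS.nonneg hθc n
  have h1 := fun n => hS.lt_one hd hcrit n
  have hsub := fun n => hS.sub hd hθc hcrit n
  have hES := fun n => hS.edgeSplit hG hd hθc hcrit n
  have hrate := fun n => hS.rate hG hreg hd hθc hcrit n
  choose lam C hr using hrate
  refine crit_close (l := atTop ×ˢ atTop) (F := fun p t => Fd hG (ν p.1) (ν p.2) o t)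
    (S := fun p r => spdT hG (θ p.1) (θ p.2) (ν p.1) (ν p.2) o r)
    (e := fun p r => if 0 < r then (θ p.1 - θ p.2) ^ 2 / (c * min r 1) ^ k0 else 0)
    (M := 4) (C := 160 * d / c) (J := max t 1) (K := K) (c := c) (δ := δ) (t0 := 1 / 2)
    (b := d - 1) (by omega) (le_max_right _ _)
    (fun p t => Fd_nonneg hG _ _ o t) (fun p t => Fd_le_four hG o t)
    (fun p s t hst => (hr p.1).pair_mono (hr p.2) hG o hst) ?_ ?_
    (fun p r => spdT_nonneg hG _ _ o r) ?_ ?_ (by norm_num)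
    (le_trans (by norm_num) (le_max_right _ _)) hδ hK hc hII ?_ ?_ ?_ t
    ⟨ht, le_max_left _ _⟩
  · intro p
    unfold Fd
    have e1 : ∀ ω, (Minf hG (ν p.1) 0 o ω - Minf hG (ν p.2) 0 o ω) ^ 2 = 0 := by
      intro ω
      rw [Minf_zero_of_centered hG ((hS.ising p.1).integral_sp_zero hG (h0 _) (h1 _) o) le_rfl,
        Minf_zero_of_centered hG ((hS.ising p.2).integral_sp_zero hG (h0 _) (h1 _) o) le_rfl]
      ring
    simp only [e1]
    simp
  · intro p
    exact (hr p.1).measurable_spdT (hr p.2) hG (by omega) hreg (h0 _) (h1 _) (hsub _) (hES _)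
      (h0 _) (h1 _) (hsub _) (hES _) o
  · intro p r hr'
    exact wgt_spdT_le (hRB p.1) (hRB p.2) (by omega) hreg hc (h0 _) (h1 _) (h0 _) (h1 _)
      hr'.1 o
  · intro p s t _ hst _
    have h2 := (hr p.1).pair_evolution (hr p.2) hG (by omega) hreg (h0 _) (h1 _) (hsub _)
      (hES _) (h0 _) (h1 _) (hsub _) (hES _) o hst
    refine h2.trans (le_of_eq ?_)
    unfold Fd
    congr 1
    congr 1
    funext r
    rw [← ite_mul_eq_wgt]
    split_ifs
    · ring
    · rfl
  · intro p r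
    split_ifs with h
    · have := cmin_pos hc h
      (clear * - hc h; positivity)
    · exact le_rfl
  · intro r hr'
    simp only [if_pos hr'.1]
    have h2 : Tendsto (fun p : ℕ × ℕ => (θ p.1 - θ p.2) ^ 2 / (c * min r 1) ^ k0)
        (atTop ×ˢ atTop) (𝓝 ((θc - θc) ^ 2 / (c * min r 1) ^ k0)) := by
      have h3 : Tendsto (fun p : ℕ × ℕ => θ p.1) (atTop ×ˢ atTop) (𝓝 θc) :=
        hS.lim.comp tendsto_fst
      have h4 : Tendsto (fun p : ℕ × ℕ => θ p.2) (atTop ×ˢ atTop) (𝓝 θc) :=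
        hS.lim.comp tendsto_snd
      exact ((h3.sub h4).pow 2).div_const _
    simpa only [sub_self, ne_eq, OfNat.ofNat_ne_zero, not_false_eq_true, zero_pow, zero_div] using h2
  · intro r hr'
    refine Eventually.of_forall fun p t' k h2 h3 h4 => ?_
    simp only [if_pos hr'.1]
    exact hI p.1 p.2 r hr'.1 t' k h2 h3 h4

end Conv

end Vale.Agent.P161
end
end

section

section

/-! The law of the run averaged over the labels, messages, and the finite volume versions of the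
facts in `TField`. -/

open MeasureTheory

namespace Vale.Agent.P161

/-! ### mixing of product measures -/

theorem measurePreserving_mixc {ι Ω : Type*} [MeasurableSpace Ω] (lam : Measure Ω)
    [IsProbabilityMeasure lam] (A : Set ι) :
    MeasurePreserving (fun p : (ι → Ω) × (ι → Ω) => mixc A p.1 p.2)
      ((Measure.infinitePi fun _ : ι => lam).prod (Measure.infinitePi fun _ : ι => lam))
      (Measure.infinitePi fun _ : ι => lam) := by
  classical
  have hm : Measurable (fun p : (ι → Ω) × (ι → Ω) => mixc A p.1 p.2) := by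
    rw [measurable_pi_iff]
    intro i
    by_cases h : i ∈ A
    · simp only [mixc_of_mem h]
      exact (measurable_pi_apply i).comp measurable_fst
    · simp only [mixc_of_notMem h]
      exact (measurable_pi_apply i).comp measurable_snd
  refine ⟨hm, Measure.eq_infinitePi _ fun s t ht => ?_⟩
  rw [Measure.map_apply hm (.pi s.countable_toSet fun _ _ => ht _)]
  have hpre : (fun p : (ι → Ω) × (ι → Ω) => mixc A p.1 p.2) ⁻¹' (s : Set ι).pi t =
      (((s.filter (· ∈ A) : Finset ι) : Set ι).pi t) ×ˢ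
      (((s.filter (¬ · ∈ A) : Finset ι) : Set ι).pi t) := by
    ext ⟨w, w'⟩
    simp only [Set.mem_preimage, Set.mem_pi, Set.mem_prod, Finset.mem_coe, Finset.mem_filter]
    constructor
    · intro h
      refine ⟨fun i hi => ?_, fun i hi => ?_⟩
      · have := h i hi.1
        rwa [mixc_of_mem hi.2] at this
      · have := h i hi.1
        rwa [mixc_of_notMem hi.2] at this
    · rintro ⟨h1, h2⟩ i hi
      by_cases hiA : i ∈ A
      · rw [mixc_of_mem hiA]
        exact h1 i ⟨hi, hiA⟩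
      · rw [mixc_of_notMem hiA]
        exact h2 i ⟨hi, hiA⟩
  rw [hpre, Measure.prod_prod, Measure.infinitePi_pi _ (fun j _ => ht j),
    Measure.infinitePi_pi _ (fun j _ => ht j), Finset.prod_filter_mul_prod_filter_not]

variable {V : Type*} {G : SimpleGraph V} {μ : Measure (V → ℤˣ)}

open Classical in
/-- the reference values at time `t` -/
noncomputable def wref (t : ℝ) (ω : Om V) : V × ℕ → ℝ := fun i =>
  if (ω.1 i : ℝ) < 1 / 2 ∧ arr ω.1 i < t then str ω.1 i * (2 * (ω.2 i : ℝ) - 1) else 0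

theorem wref_congr {t : ℝ} {ω ω' : Om V} {i : V × ℕ} (h1 : ω.1 i = ω'.1 i)
    (h2 : ω.2 i = ω'.2 i) : wref t ω i = wref t ω' i := by
  unfold wref arr str
  rw [h1, h2]

theorem measurable_wref (t : ℝ) : Measurable (wref t : Om V → V × ℕ → ℝ) := by
  rw [measurable_pi_iff]
  intro i
  unfold wref
  have m1 : Measurable fun ω : Om V => (ω.1 i : ℝ) :=
    measurable_subtype_coe.comp ((measurable_pi_apply i).comp measurable_fst)
  have m2 : Measurable fun ω : Om V => (ω.2 i : ℝ) :=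
    measurable_subtype_coe.comp ((measurable_pi_apply i).comp measurable_snd)
  refine Measurable.ite ?_ ?_ measurable_const
  · exact (measurableSet_lt m1 measurable_const).inter
      (measurableSet_lt (measurable_arr measurable_fst i) measurable_const)
  · exact (measurable_str measurable_fst i).mul ((m2.const_mul 2).sub_const 1)

theorem gd_wref (t : ℝ) (ω : Om V) : Gd (wref t ω) := by
  intro i
  unfold wref
  split_ifs
  · exact abs_ref_le (strOK_str ω.1) i (ω.2 i)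
  · norm_num

/-- law of the reference values -/
noncomputable def Qt (V : Type*) (t : ℝ) : Measure (V × ℕ → ℝ) := (PP V).map (wref t)

theorem integral_Qt (t : ℝ) {F : (V × ℕ → ℝ) → ℝ} (hF : Measurable F) :
    ∫ w, F w ∂(Qt V t) = ∫ ω, F (wref t ω) ∂(PP V) := by
  unfold Qt
  rw [integral_map (measurable_wref t).aemeasurable hF.aestronglyMeasurable]

theorem measurable_mixc {ι α : Type*} [MeasurableSpace α] (A : Set ι) :
    Measurable (fun p : (ι → α) × (ι → α) => mixc A p.1 p.2) := by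
  rw [measurable_pi_iff]
  intro i
  by_cases h : i ∈ A
  · simp only [mixc_of_mem h]
    exact (measurable_pi_apply i).comp measurable_fst
  · simp only [mixc_of_notMem h]
    exact (measurable_pi_apply i).comp measurable_snd

theorem refLaw_Qt [Countable V] (t : ℝ) : RefLaw (Qt V t) := by
  have hprob : IsProbabilityMeasure (Qt V t) :=
    Measure.isProbabilityMeasure_map (measurable_wref t).aemeasurable
  have hmu : Measurable (unpack2 : (V × ℕ → unitInterval) → Om V) := measurable_unpack2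
  have hQ : Qt V t = (noise V).map (fun W => wref t (unpack2 W)) := by
    unfold Qt
    rw [← map_unpack2, Measure.map_map (measurable_wref t) hmu]
    rfl
  have hm : Measurable fun W : V × ℕ → unitInterval => wref t (unpack2 W) :=
    (measurable_wref t).comp hmu
  refine ⟨hprob, fun A => ⟨measurable_mixc A, ?_⟩, ⟨measurable_neg, ?_⟩, ?_⟩
  · set A' : Set (V × ℕ) := {q | (q.1, q.2 / 2) ∈ A} with hA'
    have hmix : ∀ W W' : V × ℕ → unitInterval,
        wref t (unpack2 (mixc A' W W')) = mixc A (wref t (unpack2 W)) (wref t (unpack2 W')) := by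
      intro W W'
      funext i
      have e1 : (i.1, 2 * i.2 / 2) = i := by
        refine Prod.ext rfl ?_
        simp only [ne_eq, OfNat.ofNat_ne_zero, not_false_eq_true, mul_div_cancel_left₀]
      have e2 : (i.1, (2 * i.2 + 1) / 2) = i := by
        refine Prod.ext rfl ?_
        simp only
        omega
      by_cases hi : i ∈ A
      · rw [mixc_of_mem hi]
        have h1 : (i.1, 2 * i.2) ∈ A' := by
          simp only [hA', Set.mem_ofPred_eq]
          rw [e1]
          exact hi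
        have h2 : (i.1, 2 * i.2 + 1) ∈ A' := by
          simp only [hA', Set.mem_ofPred_eq]
          rw [e2]
          exact hi
        exact wref_congr (mixc_of_mem h1) (mixc_of_mem h2)
      · rw [mixc_of_notMem hi]
        have h1 : (i.1, 2 * i.2) ∉ A' := by
          simp only [hA', Set.mem_ofPred_eq]
          rw [e1]
          exact hi
        have h2 : (i.1, 2 * i.2 + 1) ∉ A' := by
          simp only [hA', Set.mem_ofPred_eq]
          rw [e2]
          exact hi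
        exact wref_congr (mixc_of_notMem h1) (mixc_of_notMem h2)
    rw [hQ, Measure.map_prod_map _ _ hm hm, Measure.map_map (measurable_mixc A)
      (hm.prodMap hm)]
    have e3 : ((fun p : (V × ℕ → ℝ) × (V × ℕ → ℝ) => mixc A p.1 p.2) ∘
        Prod.map (fun W : V × ℕ → unitInterval => wref t (unpack2 W))
          (fun W : V × ℕ → unitInterval => wref t (unpack2 W))) =
        (fun W => wref t (unpack2 W)) ∘
          (fun p : (V × ℕ → unitInterval) × (V × ℕ → unitInterval) => mixc A' p.1 p.2) := by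
      funext p
      simp only [Function.comp, Prod.map]
      rw [hmix]
    rw [e3, ← Measure.map_map hm (measurable_mixc A'),
      (measurePreserving_mixc (volume : Measure unitInterval) A').map_eq]
  · -- flip
    have h1 : MeasurePreserving (fun (U : V × ℕ → unitInterval) (i : V × ℕ) =>
        unitInterval.symm (U i)) (noise V) (noise V) := by
      refine ⟨measurable_pi_iff.2 fun i =>
        unitInterval.measurable_symm.comp (measurable_pi_apply i), ?_⟩
      have := Measure.infinitePi_map_pi (μ := fun _ : V × ℕ => (volume : Measure unitInterval))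
        (f := fun _ => unitInterval.symm) (fun _ => unitInterval.measurable_symm)
      rw [this]
      congr 1
      funext i
      exact unitInterval.measurePreserving_symm.map_eq
    have h2 : MeasurePreserving (fun ω : Om V => ((ω.1, fun i => unitInterval.symm (ω.2 i)) :
        Om V)) (PP V) (PP V) := (MeasurePreserving.id (noise V)).prod h1
    unfold Qt
    rw [Measure.map_map measurable_neg (measurable_wref t)]
    have e4 : (fun w : V × ℕ → ℝ => -w) ∘ wref t = (wref t : Om V → V × ℕ → ℝ) ∘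
        (fun ω : Om V => ((ω.1, fun i => unitInterval.symm (ω.2 i)) : Om V)) := by
      funext ω i
      simp only [Function.comp, wref, Pi.neg_apply, unitInterval.coe_symm_eq]
      split_ifs
      · ring
      · norm_num
    rw [show (Neg.neg : (V × ℕ → ℝ) → _) = fun w => -w from rfl, e4,
      ← Measure.map_map (measurable_wref t) h2.measurable, h2.map_eq]
  · unfold Qt
    have hs : MeasurableSet {w : V × ℕ → ℝ | ∀ i, |w i| ≤ 1 / 2} := by
      rw [Set.ofPred_forall]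
      exact MeasurableSet.iInter fun i => measurableSet_le
        ((measurable_pi_apply i).norm) measurable_const
    rw [ae_map_iff (measurable_wref t).aemeasurable hs]
    exact Filter.Eventually.of_forall fun ω => gd_wref t ω

section Obs

variable [Encodable V]

/-- the observation values at time `t` -/
noncomputable def wobs (μ : Measure (V → ℤˣ)) (S : Finset (V × ℕ)) (t : ℝ) (ω : Om V) :
    V × ℕ → ℝ := valsE μ (str ω.1) ω.2 (stt ω.1 S t)

theorem gd_wobs [IsProbabilityMeasure μ] (S : Finset (V × ℕ)) (t : ℝ) (ω : Om V) :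
    Gd (wobs μ S t ω) := gd_valsE (strOK_str _) _ _

theorem fvM_eq (B : Finset V) (t : ℝ) (v : V) (ω : Om V) :
    fvM μ B t v ω = pmn μ (vol B t) v (wobs μ (vol B t) t ω) :=
  mean_runE_eq (nodup_stt _ _ _) (fun i hi => (mem_stt.1 hi).1) v

theorem measurable_wobs_comp [IsProbabilityMeasure μ] (S : Finset (V × ℕ)) (t : ℝ)
    {Φ : (V × ℕ → ℝ) → ℝ} (hΦ : Measurable Φ) : Measurable fun ω => Φ (wobs μ S t ω) := by
  unfold wobs
  exact measurable_stt_comp measurable_fst measurable_const S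
    (F := fun l ω => Φ (valsE μ (str ω.1) ω.2 l))
    fun l => hΦ.comp (measurable_valsE (measurable_str measurable_fst) (fun p => strOK_str p.1)
      measurable_snd l)

/-- LAW OF THE RUN: the planted law -/
theorem law_wobs [IsProbabilityMeasure μ] (S : Finset (V × ℕ)) (t : ℝ)
    {Φ : (V × ℕ → ℝ) → ℝ} (hΦ : BF Φ) (hd : DependsOn Φ (S : Set (V × ℕ))) :
    ∫ ω, Φ (wobs μ S t ω) ∂(PP V) = ∫ w, Φ w * ZZ μ S w ∂(Qt V t) := by
  have bZ := BF_ZZ (μ := μ) S
  have bF := hΦ.mul bZ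
  obtain ⟨hΦm, C, hC⟩ := hΦ
  obtain ⟨hFm, C', hC'⟩ := bF
  rw [integral_Qt t hFm, integral_PP (measurable_wobs_comp S t hΦm) (C := C)
    (fun ω => hC _ (gd_wobs S t ω)), integral_PP (F := fun ω => Φ (wref t ω) * ZZ μ S (wref t ω))
    (hFm.comp (measurable_wref t)) (C := C') (fun ω => hC' _ (gd_wref t ω))]
  congr 1
  funext T
  unfold wobs
  simp only
  rw [law_valsE (strOK_str T) S (stt T S t) (nodup_stt _ _ _) (fun i hi => (mem_stt.1 hi).1) Φ
    ⟨hΦm, C, hC⟩]
  congr 1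
  funext U
  have h1 : ∀ i ∈ S, refvE (str T) (stt T S t) U i = wref t (T, U) i := by
    intro i hi
    unfold refvE wref
    simp only [mem_stt, hi, true_and]
  rw [hd (x := refvE (str T) (stt T S t) U) (y := wref t (T, U)) fun i hi => h1 i hi]
  congr 1
  exact WW_congr h1 _

end Obs

/-! ### messages and means -/

/-- the message is the function `tau` of the two means -/
theorem tau_pmn [IsProbabilityMeasure μ] (hG : G.IsTree) {θ : ℝ} (h0 : 0 ≤ θ) (h1 : θ < 1)
    (hμ : EdgeSplit G θ μ) {S : Finset (V × ℕ)} {u v : V} (huv : G.Adj u v) {w : V × ℕ → ℝ}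
    (hw : Gd w) : tau θ (pmn μ S u w) (pmn μ S v w) = msg G μ S v u w := by
  symm
  have hb : |msg G μ S v u w| ≤ 1 := abs_msg_le G hw v u
  apply eq_tau h0 h1 hb (abs_pmn_le hw u) (abs_pmn_le hw v)
  have hN := one_sub_sq_pos h0 h1 hb
  have zA := ZZ_pos (μ := μ) (S := onS S (side G u v)) hw
  have zB := ZZ_pos (μ := μ) (S := onS S (side G v u)) hw
  have zS := ZZ_pos (μ := μ) (S := S) hw
  have eA : msg G μ S u v w * ZZ μ (onS S (side G u v)) w = NN μ (onS S (side G u v)) u w :=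
    pmn_mul hw u
  have eB : msg G μ S v u w * ZZ μ (onS S (side G v u)) w = NN μ (onS S (side G v u)) v w :=
    pmn_mul hw v
  have e1 := ZZ_edge (S := S) hG hμ huv w
  have e2 := NN_edge (S := S) hG hμ huv w
  have e3 := NN_edge (S := S) hG hμ huv.symm w
  rw [← eA, ← eB] at e1 e2 e3
  unfold pmn alpha rho
  set t := msg G μ S v u w
  set a := msg G μ S u v w
  set ZA := ZZ μ (onS S (side G u v)) w
  set ZB := ZZ μ (onS S (side G v u)) w
  rw [e2, e3]
  rw [e1] at zS ⊢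
  have hz : ZA * ZB + θ * (a * ZA) * (t * ZB) ≠ 0 := zS.ne'
  have hN' := hN.ne'
  rw [div_mul_div_comm, div_add_div _ _ hN' (mul_ne_zero hN' hz), div_eq_div_iff hz
    (mul_ne_zero hN' (mul_ne_zero hN' hz))]
  ring

/-! ### finite volume versions of the facts in `TField` -/

section Sides

variable [G.LocallyFinite]

/-- the side of `y` of the edge from `y` to its parent seen from `v` is inside the side of `u` of
the edge `u v`, for `y` on the side of `u` -/
theorem side_par_subset (hG : G.IsTree) {u v : V} (huv : G.Adj u v) :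
    ∀ n : ℕ, ∀ y, G.dist v y = n → y ∈ side G u v → v ≠ y ∧ G.Adj y (par G v y) ∧
      side G y (par G v y) ⊆ side G u v := by
  intro n
  induction n with
  | zero =>
    intro y hy hys
    have : v = y := (hG.connected.dist_eq_zero_iff).1 hy
    subst this
    simp only [side, Set.mem_ofPred_eq, SimpleGraph.dist_self] at hys
    omega
  | succ n ih =>
    intro y hy hys
    have hvy : v ≠ y := by
      rintro rfl
      simp at hy
    have hp := par_spec hG hvy
    refine ⟨hvy, hp.1.symm, ?_⟩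
    by_cases hyu : y = u
    · subst hyu
      have hd : G.dist v y = 1 := SimpleGraph.dist_eq_one_iff_adj.2 huv.symm
      have : v = par G v y := by
        apply (hG.connected.dist_eq_zero_iff).1
        omega
      rw [← this]
    · have hys' : par G v y ∈ side G u v := next_mem_side hG huv hys hyu hp.1.symm
      obtain ⟨h1, h2, h3⟩ := ih (par G v y) (by omega) hys'
      refine Set.Subset.trans ?_ h3
      refine side_subset hG hp.1 h2 ?_
      intro h
      have h4 := par_spec hG h1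
      have h5 := hp.2
      rw [← h] at h4
      omega

end Sides

open Classical in
/-- the messages towards `v` on the side of `u`, as a function of the data -/
noncomputable def mfun (G : SimpleGraph V) (μ : Measure (V → ℤˣ)) (S : Finset (V × ℕ)) (u v : V)
    (w : V × ℕ → ℝ) (y : V) : ℝ :=
  if y ∈ side G u v then msg G μ S y (par G v y) w else 0

theorem measurable_mfun [IsProbabilityMeasure μ] (S : Finset (V × ℕ)) (u v : V) :
    Measurable (mfun G μ S u v) := by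
  rw [measurable_pi_iff]
  intro y
  unfold mfun
  by_cases h : y ∈ side G u v
  · simp only [if_pos h]
    exact (BF_msg G S y _).1
  · simp only [if_neg h]
    exact measurable_const

theorem abs_mfun_le [IsProbabilityMeasure μ] {S : Finset (V × ℕ)} {u v : V} {w : V × ℕ → ℝ}
    (hw : Gd w) (y : V) : |mfun G μ S u v w y| ≤ 1 := by
  unfold mfun
  split_ifs
  · exact abs_msg_le G hw y _
  · norm_num

theorem mfun_dep [G.LocallyFinite] (hG : G.IsTree) (S : Finset (V × ℕ)) {u v : V} (huv : G.Adj u v) :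
    ∀ w w' : V × ℕ → ℝ, (∀ i ∈ itm (side G u v), w i = w' i) →
      mfun G μ S u v w = mfun G μ S u v w' := by
  intro w w' h
  funext y
  unfold mfun
  split_ifs with hy
  · have h3 := (side_par_subset hG huv _ y rfl hy).2.2
    exact msg_dep G S y _ fun i hi => h i (h3 hi)
  · rfl

theorem mfun_neg (hF : FlipInv μ) (S : Finset (V × ℕ)) (u v : V) (w : V × ℕ → ℝ) :
    mfun G μ S u v (-w) = fun y => -mfun G μ S u v w y := by
  funext y
  unfold mfun
  split_ifs
  · exact msg_neg hF _ _ _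
  · simp

section FV

variable [Encodable V] [G.LocallyFinite] {θ : ℝ}

omit [G.LocallyFinite] in
theorem BF_comp_mfun [IsProbabilityMeasure μ] {A : Set V} {f : (V → ℝ) → ℝ} (hf : FinDep A f)
    (S : Finset (V × ℕ)) (u v : V) : BF fun w => f (mfun G μ S u v w) := by
  have := Encodable.countable (α := V)
  obtain ⟨C, hC⟩ := hf.exists_bound
  exact ⟨hf.measurable.comp (measurable_mfun S u v), C, fun w hw => hC _ fun y => abs_mfun_le hw y⟩

theorem msgT_fv [IsProbabilityMeasure μ] (hG : G.IsTree) (h0 : 0 ≤ θ) (h1 : θ < 1)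
    (hμ : EdgeSplit G θ μ) (B : Finset V) (t : ℝ) (ω : Om V) {u v : V} (huv : G.Adj u v) {y : V}
    (hy : y ∈ side G u v) : msgT G θ v (fun x => fvM μ B t x ω) y =
      mfun G μ (vol B t) u v (wobs μ (vol B t) t ω) y := by
  obtain ⟨h2, h3, -⟩ := side_par_subset hG huv _ y rfl hy
  unfold mfun
  rw [if_pos hy]
  change tau θ (fvM μ B t (par G v y) ω) (fvM μ B t y ω) = _
  rw [fvM_eq, fvM_eq]
  exact tau_pmn hG h0 h1 hμ h3.symm (gd_wobs _ _ _)

theorem comp_msgT_fv [IsProbabilityMeasure μ] (hG : G.IsTree) (h0 : 0 ≤ θ) (h1 : θ < 1)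
    (hμ : EdgeSplit G θ μ) (B : Finset V) (t : ℝ) (ω : Om V) {u v : V} (huv : G.Adj u v)
    {f : (V → ℝ) → ℝ} (hf : FinDep (side G u v) f) :
    f (msgT G θ v (fun x => fvM μ B t x ω)) =
      f (mfun G μ (vol B t) u v (wobs μ (vol B t) t ω)) := by
  obtain ⟨-, D, hD, hdep⟩ := hf
  exact hdep fun y hy => msgT_fv hG h0 h1 hμ B t ω huv (hD hy)

omit [Encodable V] [G.LocallyFinite] in
theorem dep_univ_S {F : (V × ℕ → ℝ) → ℝ} (S : Finset (V × ℕ))
    (h : ∀ w w' : V × ℕ → ℝ, (∀ i ∈ S, w i = w' i) → F w = F w') :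
    DependsOn F (S : Set (V × ℕ)) := fun w w' hw => h w w' hw

omit [Encodable V] [G.LocallyFinite] in
theorem msg_congr (S : Finset (V × ℕ)) (x y : V) {w w' : V × ℕ → ℝ} (h : ∀ i ∈ S, w i = w' i) :
    msg G μ S x y w = msg G μ S x y w' := by
  have h2 : ∀ i ∈ onS S (side G x y), w i = w' i := fun i hi => h i (mem_onS.1 hi).1
  unfold msg pmn NN ZZ
  rw [WW_congr h2, WW_congr h2]

omit [Encodable V] [G.LocallyFinite] in
theorem mfun_congr (S : Finset (V × ℕ)) (u v : V) {w w' : V × ℕ → ℝ}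
    (h : ∀ i ∈ S, w i = w' i) : mfun G μ S u v w = mfun G μ S u v w' := by
  funext y
  unfold mfun
  split_ifs
  · exact msg_congr S y _ h
  · rfl

/-- expectation under the run of a function of the messages -/
theorem integral_msgT_fv [IsProbabilityMeasure μ] (hG : G.IsTree) (h0 : 0 ≤ θ) (h1 : θ < 1)
    (hμ : EdgeSplit G θ μ) (B : Finset V) (t : ℝ) {u v : V} (huv : G.Adj u v)
    {f : (V → ℝ) → ℝ} (hf : FinDep (side G u v) f) :
    ∫ ω, f (msgT G θ v (fun x => fvM μ B t x ω)) ∂(PP V) =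
      ∫ w, f (mfun G μ (vol B t) u v w) * ZZ μ (vol B t) w ∂(Qt V t) := by
  rw [← law_wobs (vol B t) t (BF_comp_mfun (μ := μ) (G := G) hf (vol B t) u v)
    (dep_univ_S _ fun w w' h => by rw [mfun_congr _ _ _ h])]
  congr 1
  funext ω
  exact comp_msgT_fv hG h0 h1 hμ B t ω huv hf

/-- S2 in finite volume -/
theorem fv_indep [IsProbabilityMeasure μ] (hG : G.IsTree) (h0 : 0 ≤ θ) (h1 : θ < 1)
    (hμ : EdgeSplit G θ μ) (hF : FlipInv μ) (B : Finset V) (t : ℝ) {u v : V} (huv : G.Adj u v)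
    {f g : (V → ℝ) → ℝ} (hf : FinDep (side G u v) f) (hg : FinDep (side G v u) g)
    (hev : EvenF g) :
    ∫ ω, f (msgT G θ v (fun x => fvM μ B t x ω)) * g (msgT G θ u (fun x => fvM μ B t x ω))
        ∂(PP V) =
      (∫ ω, f (msgT G θ v (fun x => fvM μ B t x ω)) ∂(PP V)) *
        ∫ ω, g (msgT G θ u (fun x => fvM μ B t x ω)) ∂(PP V) := by
  have := Encodable.countable (α := V)
  have hQ := refLaw_Qt (V := V) t
  rw [integral_msgT_fv hG h0 h1 hμ B t huv hf, integral_msgT_fv hG h0 h1 hμ B t huv.symm hg]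
  have bf := BF_comp_mfun (μ := μ) (G := G) hf (vol B t) u v
  have bg := BF_comp_mfun (μ := μ) (G := G) hg (vol B t) v u
  have e1 := planted_indep hG hμ hF hQ (vol B t) huv.symm bg bf
    (fun w w' h => by rw [mfun_dep hG (vol B t) huv.symm w w' h])
    (fun w w' h => by rw [mfun_dep hG (vol B t) huv w w' h])
    (fun w => by rw [mfun_neg hF]; exact hev _)
  rw [mul_comm (∫ w, f (mfun G μ (vol B t) u v w) * ZZ μ (vol B t) w ∂(Qt V t)), ← e1,
    ← law_wobs (vol B t) t (bg.mul bf)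
    (dep_univ_S _ fun w w' h => by
      rw [mfun_congr _ v u h, mfun_congr _ u v h])]
  congr 1
  funext ω
  rw [comp_msgT_fv hG h0 h1 hμ B t ω huv hf, comp_msgT_fv hG h0 h1 hμ B t ω huv.symm hg, mul_comm]

/-- second moment of the message from `z` to `v` in finite volume -/
noncomputable def qfv (θ : ℝ) (μ : Measure (V → ℤˣ)) (B : Finset V) (t : ℝ) (v z : V) : ℝ :=
  ∫ ω, tau θ (fvM μ B t v ω) (fvM μ B t z ω) ^ 2 ∂(PP V)

theorem qfv_eq [IsProbabilityMeasure μ] (hG : G.IsTree) (h0 : 0 ≤ θ) (h1 : θ < 1)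
    (hμ : EdgeSplit G θ μ) (B : Finset V) (t : ℝ) {v z : V} (hvz : G.Adj v z) :
    qfv θ μ B t v z = ∫ w, msg G μ (vol B t) z v w ^ 2 * ZZ μ (vol B t) w ∂(Qt V t) := by
  unfold qfv
  rw [← law_wobs (vol B t) t ((BF_msg (μ := μ) G (vol B t) z v).pow 2)
    (dep_univ_S _ fun w w' h => by rw [msg_congr _ _ _ h])]
  congr 1
  funext ω
  rw [fvM_eq, fvM_eq, tau_pmn hG h0 h1 hμ hvz (gd_wobs _ _ _)]

/-- S1 in finite volume -/
theorem fv_step [IsProbabilityMeasure μ] (hG : G.IsTree) (h0 : 0 ≤ θ) (h1 : θ < 1)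
    (hμ : EdgeSplit G θ μ) (hF : FlipInv μ) (B : Finset V) (t : ℝ) {u v w z : V}
    (huv : G.Adj u v) (hvw : G.Adj v w) (hvz : G.Adj v z) (huw : u ≠ w) (hzu : z ≠ u)
    (hzw : z ≠ w) {g : (V → ℝ) → ℝ} (hg : FinDep (side G w v) g)
    (hg0 : ∀ x : V → ℝ, (∀ y, |x y| ≤ 1) → 0 ≤ g x) :
    ∫ ω, xf θ (tau θ (fvM μ B t u ω) (fvM μ B t v ω)) *
        g (msgT G θ v (fun x => fvM μ B t x ω)) ∂(PP V) ≤
      (1 - (1 - θ ^ 2) * (θ ^ 2 * (1 - θ ^ 2) ^ 2 * qfv θ μ B t v z)) *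
        ∫ ω, g (msgT G θ v (fun x => fvM μ B t x ω)) ∂(PP V) := by
  have := Encodable.countable (α := V)
  have hQ := refLaw_Qt (V := V) t
  have hθ : θ ^ 2 < 1 := by nlinarith only [h1, h0]
  set S := vol B t with hS
  have bg := BF_comp_mfun (μ := μ) (G := G) hg S w v
  have bm := BF_msg (μ := μ) G S v u
  -- pointwise form
  have e1 : ∀ ω, xf θ (tau θ (fvM μ B t u ω) (fvM μ B t v ω)) *
      g (msgT G θ v (fun x => fvM μ B t x ω)) =
      xf θ (msg G μ S v u (wobs μ S t ω)) * g (mfun G μ S w v (wobs μ S t ω)) := by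
    intro ω
    rw [comp_msgT_fv hG h0 h1 hμ B t ω hvw.symm hg, fvM_eq, fvM_eq,
      tau_pmn hG h0 h1 hμ huv (gd_wobs _ _ _)]
  simp only [e1]
  have hmx : Measurable fun w' : V × ℕ → ℝ => xf θ (msg G μ S v u w') := measurable_xf bm.1 θ
  have hgm := bg.1
  have bxg : BF fun w' => xf θ (msg G μ S v u w') * g (mfun G μ S w v w') := by
    have bx : BF fun w' : V × ℕ → ℝ => xf θ (msg G μ S v u w') := by
      refine ⟨hmx, 1, fun w' hw' => ?_⟩
      have hb := abs_msg_le (μ := μ) (S := S) G hw' v u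
      rw [abs_of_nonneg (xf_nonneg hθ hb)]
      exact xf_le_one hθ hb
    exact bx.mul bg
  rw [law_wobs S t bxg (dep_univ_S _ fun w' w'' h => by
    rw [msg_congr _ _ _ h, mfun_congr _ _ _ h]), integral_msgT_fv hG h0 h1 hμ B t hvw.symm hg,
    qfv_eq hG h0 h1 hμ B t hvz]
  have key := planted_step hG h0 h1 hμ hF hQ S hvw huv.symm hvz huw.symm hzw hzu bg
    (fun a b h => by rw [mfun_dep hG S hvw.symm a b h])
    (fun w' hw' => hg0 _ fun y => abs_mfun_le hw' y)
  have bZ := BF_ZZ (μ := μ) S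
  have h2 : ∫ w', xf θ (msg G μ S v u w') * g (mfun G μ S w v w') * ZZ μ S w' ∂(Qt V t) ≤
      ∫ w', (g (mfun G μ S w v w') * ZZ μ S w' -
        (1 - θ ^ 2) * (g (mfun G μ S w v w') * msg G μ S v u w' ^ 2 * ZZ μ S w')) ∂(Qt V t) := by
    apply integral_mono_ae ((bxg.mul bZ).integrable hQ)
      (((bg.mul bZ).sub ((BF.const (1 - θ ^ 2)).mul ((bg.mul (bm.pow 2)).mul bZ))).integrable hQ)
    filter_upwards [hQ.bdd] with w' hw'
    have hb := abs_msg_le (μ := μ) (S := S) G hw' v u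
    have h3 := xf_le hθ hb
    have h4 := hg0 (mfun G μ S w v w') fun y => abs_mfun_le hw' y
    have h5 := (ZZ_pos (μ := μ) (S := S) hw').le
    have h6 := mul_le_mul_of_nonneg_right h3 (mul_nonneg h4 h5)
    calc xf θ (msg G μ S v u w') * g (mfun G μ S w v w') * ZZ μ S w'
        = xf θ (msg G μ S v u w') * (g (mfun G μ S w v w') * ZZ μ S w') := by ring
      _ ≤ (1 - (1 - θ ^ 2) * msg G μ S v u w' ^ 2) * (g (mfun G μ S w v w') * ZZ μ S w') := h6
      _ = _ := by ring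
  refine h2.trans ?_
  rw [int_sub hQ (bg.mul bZ) ((BF.const (1 - θ ^ 2)).mul ((bg.mul (bm.pow 2)).mul bZ)),
    integral_const_mul]
  have h7 := mul_le_mul_of_nonneg_left key (by linarith only [hθ] : 0 ≤ 1 - θ ^ 2)
  linarith only [h7]

/-- lower bound of the second moment of a message in finite volume -/
theorem fv_lower [IsProbabilityMeasure μ] (hG : G.IsTree) (h0 : 0 ≤ θ) (h1 : θ < 1)
    (hμ : EdgeSplit G θ μ) (hF : FlipInv μ) (B : Finset V) {t : ℝ} (ht : 0 < t) {x p : V}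
    (hxp : G.Adj x p) (hx : x ∈ B) (Ch : Finset V) (hCh : ∀ z ∈ Ch, G.Adj x z ∧ z ≠ p) {s : ℝ}
    (hs : s = ∫ w, w (x, 0) ^ 2 ∂(Qt V t) + θ ^ 2 * ∑ z ∈ Ch, qfv θ μ B t x z) :
    s / (1 + s) ≤ qfv θ μ B t p x := by
  have := Encodable.countable (α := V)
  have hQ := refLaw_Qt (V := V) t
  rw [qfv_eq hG h0 h1 hμ B t hxp.symm]
  have hi : (x, 0) ∈ vol B t := by
    unfold vol
    rw [Finset.mem_product, Finset.mem_range]
    exact ⟨hx, Nat.ceil_pos.2 ht⟩
  refine planted_lower hG hμ hF hQ (vol B t) hxp hi Ch hCh rfl ?_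
  rw [hs]
  congr 2
  refine Finset.sum_congr rfl fun z hz => ?_
  rw [qfv_eq hG h0 h1 hμ B t (hCh z hz).1]

end FV

end Vale.Agent.P161
end
end

section

section

/-! Flip invariance of the free Ising measure, the information of one site, and the lower bound
of the information of a message in infinite volume. -/

open MeasureTheory Filter Topology

namespace Vale.Agent.P161

section FlipI

variable {V : Type*} {G : SimpleGraph V}

theorem wt_neg {θ : ℝ} (D : Finset V) (η : V → ℤˣ) : wt G θ D (-η) = wt G θ D η := by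
  classical
  unfold wt
  congr 1
  refine Finset.prod_congr rfl fun e _ => ?_
  refine Sym2.ind (fun a b => ?_) e
  simp only [Sym2.map_mk, Sym2.mul_mk, Pi.neg_apply, neg_mul_neg]

/-- the free Ising measure is invariant under the flip of all spins -/
theorem IsFreeIsing.flipInv [G.LocallyFinite] (hG : G.IsTree) {θ : ℝ} (h0 : 0 ≤ θ) (h1 : θ < 1)
    {μ : Measure (V → ℤˣ)} (hμ : IsFreeIsing G θ μ) : FlipInv μ := by
  classical
  intro f hf
  obtain ⟨D0, -, hf⟩ := hf
  have hne : Nonempty V := hG.connected.nonempty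
  obtain ⟨D, hDD, hD⟩ := exists_connected_superset hG D0
  have hfD : DependsOn f (D : Set V) := DependsOn.mono (by exact_mod_cast hDD) hf
  have hfD' : DependsOn (fun σ : V → ℤˣ => f (-σ)) (D : Set V) := by
    intro x y hxy
    exact hfD fun i hi => by
      rw [Pi.neg_apply, Pi.neg_apply, hxy i hi]
  have e1 := hμ.integral_restrict h0 h1 hD (fun η => f (ext1 D η))
  have e2 := hμ.integral_restrict h0 h1 hD (fun η => f (-(ext1 D η)))
  rw [show (∫ σ, f (-σ) ∂μ) = ∫ σ, f (-(ext1 D (D.restrict σ))) ∂μ from by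
    congr 1
    funext σ
    exact dependsOn_eq_ext1 hfD' σ, e2,
    show (∫ σ, f σ ∂μ) = ∫ σ, f (ext1 D (D.restrict σ)) ∂μ from by
    congr 1
    funext σ
    exact dependsOn_eq_ext1 hfD σ, e1]
  refine Fintype.sum_equiv (Equiv.neg (D → ℤˣ)) _ _ fun η => ?_
  have h2 : ∀ v ∈ D, ext1 D (-η) v = (-(ext1 D η)) v := by
    intro v hv
    rw [Pi.neg_apply, ext1_of_mem _ hv, ext1_of_mem _ hv, Pi.neg_apply]
  rw [Equiv.neg_apply, wt_congr h2, wt_neg, hfD fun i hi => h2 i hi]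

theorem mean_nil_eq_zero {μ : Measure (V → ℤˣ)} (hF : FlipInv μ) (v : V) : mean μ [] v = 0 := by
  unfold mean post
  have h : ∫ σ, sp σ v * lik [] σ ∂μ = 0 := by
    rw [← integral_sp hF v]
    congr 1
    funext σ
    simp [lik]
  rw [h, zero_div]

end FlipI

section Site

theorem integral_sq_unit : ∫ u : unitInterval, (2 * (u : ℝ) - 1) ^ 2 = 1 / 3 := by
  rw [integral_unitInterval (fun u => (2 * u - 1) ^ 2)]
  have h : ∀ x ∈ Set.uIcc (0 : ℝ) 1, HasDerivAt (fun x : ℝ => (2 * x - 1) ^ 3 / 6)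
      ((2 * x - 1) ^ 2) x := by
    intro x _
    have h1 : HasDerivAt (fun x : ℝ => 2 * x - 1) 2 x := by
      simpa using ((hasDerivAt_id x).const_mul 2).sub_const 1
    have h2 := (h1.pow 3).div_const 6
    refine h2.congr_deriv ?_
    norm_num
    ring
  rw [intervalIntegral.integral_eq_sub_of_hasDerivAt h
    (Continuous.intervalIntegrable (by fun_prop) _ _)]
  norm_num

theorem integral_lt_unit {m : ℝ} (hm0 : 0 ≤ m) (hm1 : m ≤ 1) :
    ∫ u : unitInterval, (if (u : ℝ) < m then (u : ℝ) / 4 else 0) = m ^ 2 / 8 := by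
  rw [integral_unitInterval (fun u => if u < m then u / 4 else 0),
    intervalIntegral.integral_of_le (by norm_num)]
  have e1 : (fun u : ℝ => if u < m then u / 4 else 0) =
      (Set.Iio m).indicator (fun u : ℝ => u / 4) := by
    funext u
    by_cases h : u < m
    · rw [if_pos h, Set.indicator_of_mem (by exact h)]
    · rw [if_neg h, Set.indicator_of_notMem (by exact h)]
  rw [e1, setIntegral_indicator measurableSet_Iio]
  have e2 : Set.Ioc (0 : ℝ) 1 ∩ Set.Iio m = Set.Ioo 0 m := by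
    ext u
    simp only [Set.mem_inter_iff, Set.mem_Ioc, Set.mem_Iio, Set.mem_Ioo]
    constructor
    · rintro ⟨⟨h1, h2⟩, h3⟩
      exact ⟨h1, h3⟩
    · rintro ⟨h1, h2⟩
      exact ⟨⟨h1, by linarith only [hm1, h2]⟩, h2⟩
  rw [e2, ← integral_Ioc_eq_integral_Ioo, ← intervalIntegral.integral_of_le hm0,
    intervalIntegral.integral_div, integral_id]
  ring

theorem integral_coord_noise {V : Type*} (i : V × ℕ) {F : unitInterval → ℝ} (hF : Measurable F) :
    ∫ T, F (T i) ∂(noise V) = ∫ u, F u := by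
  have h := measurePreserving_eval_infinitePi
    (fun _ : V × ℕ => (volume : Measure unitInterval)) i
  rw [← h.map_eq, integral_map h.measurable.aemeasurable hF.aestronglyMeasurable]

/-- the information of one site at time `t` -/
theorem integral_site_sq {V : Type*} [Countable V] (x : V) {t : ℝ} (ht : 0 ≤ t) :
    ∫ w, w (x, 0) ^ 2 ∂(Qt V t) = (min t (1 / 2)) ^ 2 / 24 := by
  classical
  rw [integral_Qt t (F := fun w => w (x, 0) ^ 2) ((measurable_pi_apply _).pow_const 2)]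
  have e1 : ∀ ω : Om V, wref t ω (x, 0) ^ 2 =
      (if (ω.1 (x, 0) : ℝ) < min t (1 / 2) then (ω.1 (x, 0) : ℝ) / 4 else 0) *
        (2 * (ω.2 (x, 0) : ℝ) - 1) ^ 2 := by
    intro ω
    unfold wref arr
    simp only [Nat.cast_zero, zero_add, lt_min_iff]
    by_cases h1 : (ω.1 (x, 0) : ℝ) < 1 / 2
    · by_cases h2 : (ω.1 (x, 0) : ℝ) < t
      · rw [if_pos ⟨h1, h2⟩, if_pos ⟨h2, h1⟩, mul_pow, str_sq]
      · rw [if_neg fun h => h2 h.2, if_neg fun h => h2 h.1]
        (clear * -; norm_num)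
    · rw [if_neg fun h => h1 h.1, if_neg fun h => h1 h.2]
      (clear * -; norm_num)
  simp only [e1]
  have mA : Measurable fun u : unitInterval =>
      if (u : ℝ) < min t (1 / 2) then (u : ℝ) / 4 else 0 :=
    Measurable.ite (measurableSet_lt measurable_subtype_coe measurable_const)
      (measurable_subtype_coe.div_const 4) measurable_const
  have mB : Measurable fun u : unitInterval => (2 * (u : ℝ) - 1) ^ 2 :=
    ((measurable_subtype_coe.const_mul 2).sub_const 1).pow_const 2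
  have h := integral_prod_mul (μ := noise V) (ν := noise V)
    (fun T : V × ℕ → unitInterval => if (T (x, 0) : ℝ) < min t (1 / 2) then (T (x, 0) : ℝ) / 4
      else 0) (fun U : V × ℕ → unitInterval => (2 * (U (x, 0) : ℝ) - 1) ^ 2)
  rw [integral_coord_noise (x, 0) mA, integral_coord_noise (x, 0) mB, integral_sq_unit,
    integral_lt_unit (le_min ht (by norm_num)) ((min_le_right _ _).trans (by norm_num))] at h
  refine h.trans ?_
  ring

end Site

section Lim

variable {V : Type*} {G : SimpleGraph V} {μ : Measure (V → ℤˣ)} [Encodable V] [G.LocallyFinite]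
  [IsProbabilityMeasure μ] {lam : ℝ} {C : ℝ → ℝ} {θ : ℝ}

theorem Rate.tendsto_msg_sq (hr : Rate G μ lam C) (hG : G.IsTree) (h0 : 0 ≤ θ) (h1 : θ < 1)
    (o : V) (t : ℝ) (v z : V) :
    Tendsto (fun n => qfv θ μ (bal hG o n) t v z) atTop
      (𝓝 (∫ ω, tau θ (Minf hG μ t v ω) (Minf hG μ t z ω) ^ 2 ∂(PP V))) :=
  hr.tendsto_integral_two hG o t t v z (F := fun p => tau θ p.1 p.2 ^ 2)
    ((continuous_tau h0 h1).pow 2) (K := 1)
    (fun _ _ hx hy => sq_le_one_of_abs (abs_tau_le h0 h1 hx hy))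

/-- lower bound of the information of a message in infinite volume -/
theorem Rate.msg_lower (hr : Rate G μ lam C) (hG : G.IsTree) (h0 : 0 ≤ θ) (h1 : θ < 1)
    (hμ : EdgeSplit G θ μ) (hF : FlipInv μ) {t : ℝ} (ht : 0 < t) {x p : V} (hxp : G.Adj x p)
    (Ch : Finset V) (hCh : ∀ z ∈ Ch, G.Adj x z ∧ z ≠ p) {s : ℝ}
    (hs : s = (min t (1 / 2)) ^ 2 / 24 + θ ^ 2 * ∑ z ∈ Ch,
      ∫ ω, tau θ (Minf hG μ t x ω) (Minf hG μ t z ω) ^ 2 ∂(PP V)) :
    s / (1 + s) ≤ ∫ ω, tau θ (Minf hG μ t p ω) (Minf hG μ t x ω) ^ 2 ∂(PP V) := by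
  have : Countable V := Encodable.countable
  have hs0 : 0 ≤ s := by
    rw [hs]
    refine add_nonneg (by positivity) (mul_nonneg (sq_nonneg _) (Finset.sum_nonneg fun z _ => ?_))
    exact integral_nonneg fun ω => sq_nonneg _
  set sn : ℕ → ℝ := fun n => (min t (1 / 2)) ^ 2 / 24 + θ ^ 2 * ∑ z ∈ Ch,
    qfv θ μ (bal hG x n) t x z with hsn
  have hlim : Tendsto sn atTop (𝓝 s) := by
    rw [hs]
    exact ((tendsto_finsetSum _ fun z _ =>
      hr.tendsto_msg_sq hG h0 h1 x t x z).const_mul _).const_add _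
  have h2 : Tendsto (fun n => sn n / (1 + sn n)) atTop (𝓝 (s / (1 + s))) :=
    hlim.div (hlim.const_add 1) (by linarith only [hs0])
  refine le_of_tendsto_of_tendsto' h2 (hr.tendsto_msg_sq hG h0 h1 x t p x) fun n => ?_
  refine fv_lower hG h0 h1 hμ hF (bal hG x n) ht hxp ?_ Ch hCh ?_
  · rw [mem_bal, SimpleGraph.dist_self]
    exact Nat.zero_le n
  · rw [integral_site_sq x ht.le]

/-- the second moment of the messages is the same for all darts -/
theorem msg_sq_eq (hG : G.IsTree) {d : ℕ} (hreg : G.IsRegularOfDegree d)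
    (hinv : ∀ g : G ≃g G, μ.map (fun σ v => σ (g.symm v)) = μ) (t : ℝ) {v z v' z' : V}
    (h : G.Adj v z) (h' : G.Adj v' z') :
    ∫ ω, tau θ (Minf hG μ t v ω) (Minf hG μ t z ω) ^ 2 ∂(PP V) =
      ∫ ω, tau θ (Minf hG μ t v' ω) (Minf hG μ t z' ω) ^ 2 ∂(PP V) := by
  have hp : ∀ a b : V, G.Adj a b → NBPath G 1 fun i => if i = 0 then a else b := by
    intro a b hab
    refine ⟨fun i hi => ?_, fun i hi => by omega⟩
    have : i = 0 := by omega
    subst this
    simpa using hab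
  have key := PInv.path (fun v => measurable_Minf t v) (fun v => measurable_Minf t v)
    (pInv_Minf (μ := μ) (μ' := μ) hG t hinv hinv) hG hreg (hp v z h) (hp v' z' h')
    (K := fun p => tau θ (p.1 0) (p.1 1) ^ 2)
    ((measurable_tau ((measurable_pi_apply 0).comp measurable_fst)
      ((measurable_pi_apply 1).comp measurable_fst) θ).pow_const 2)
    (fun a a' b b' h1 _ => by simp only [h1 0 (by omega), h1 1 le_rfl])
  simpa only [↓reduceIte, one_ne_zero] using key

/-- lower bound of the information of a message in a regular tree -/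
theorem Rate.msg_lower_reg (hr : Rate G μ lam C) (hG : G.IsTree) {d : ℕ} (hd : 1 ≤ d)
    (hreg : G.IsRegularOfDegree d) (h0 : 0 ≤ θ) (h1 : θ < 1)
    (hμ : EdgeSplit G θ μ) (hF : FlipInv μ)
    (hinv : ∀ g : G ≃g G, μ.map (fun σ v => σ (g.symm v)) = μ) {t : ℝ} (ht : 0 < t) {v z : V}
    (hvz : G.Adj v z) {q : ℝ}
    (hq : q = ∫ ω, tau θ (Minf hG μ t v ω) (Minf hG μ t z ω) ^ 2 ∂(PP V)) :
    ((min t (1 / 2)) ^ 2 / 24 + ((d : ℝ) - 1) * θ ^ 2 * q) /
      (1 + ((min t (1 / 2)) ^ 2 / 24 + ((d : ℝ) - 1) * θ ^ 2 * q)) ≤ q := by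
  classical
  have h2 := hr.msg_lower hG h0 h1 hμ hF ht hvz.symm ((G.neighborFinset z).erase v)
    (fun y hy => by
      rw [Finset.mem_erase, SimpleGraph.mem_neighborFinset] at hy
      exact ⟨hy.2, hy.1⟩) rfl
  have h3 : ∑ y ∈ (G.neighborFinset z).erase v,
      ∫ ω, tau θ (Minf hG μ t z ω) (Minf hG μ t y ω) ^ 2 ∂(PP V) = ((d : ℝ) - 1) * q := by
    have h4 : ∀ y ∈ (G.neighborFinset z).erase v,
        ∫ ω, tau θ (Minf hG μ t z ω) (Minf hG μ t y ω) ^ 2 ∂(PP V) = q := by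
      intro y hy
      rw [Finset.mem_erase, SimpleGraph.mem_neighborFinset] at hy
      rw [hq]
      exact msg_sq_eq hG hreg hinv t hy.2 hvz
    rw [Finset.sum_congr rfl h4, Finset.sum_const, Finset.card_erase_of_mem (by
      rw [SimpleGraph.mem_neighborFinset]
      exact hvz.symm), SimpleGraph.card_neighborFinset_eq_degree, hreg z, nsmul_eq_mul,
      Nat.cast_sub hd, Nat.cast_one]
  rw [h3, ← hq] at h2
  have e : θ ^ 2 * (((d : ℝ) - 1) * q) = ((d : ℝ) - 1) * θ ^ 2 * q := by ring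
  rw [e] at h2
  exact h2

end Lim

section Real

/-- consequence for the second moment of the messages near the critical point -/
theorem info_real {κ q m : ℝ} (hκ0 : 0 ≤ κ) (hκ1 : κ ≤ 1) (hq0 : 0 ≤ q) (hm0 : 0 < m)
    (hm1 : m ≤ 1 / 2) (h : (m ^ 2 / 24 + κ * q) / (1 + (m ^ 2 / 24 + κ * q)) ≤ q)
    (hd : 1 - κ ≤ 2 * m) : m / 50 ≤ q := by
  by_contra hlt
  push Not at hlt
  have hpos : 0 < 1 + (m ^ 2 / 24 + κ * q) := by positivity
  rw [div_le_iff₀ hpos] at h
  have h1 : m ^ 2 / 24 ≤ (1 - κ) * q + m ^ 2 / 24 * q + κ * (q * q) := by linarith only [h]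
  have h2 : (1 - κ) * q ≤ 2 * m * (m / 50) :=
    mul_le_mul hd hlt.le hq0 (by (clear * - hm0; positivity))
  have h3 : m ^ 2 / 24 * q ≤ m ^ 2 / 24 * (1 / 100) :=
    mul_le_mul_of_nonneg_left (by linarith only [hlt, hm1]) (by (clear * - hm0; positivity))
  have h4 : κ * (q * q) ≤ 1 * (m / 50 * (m / 50)) :=
    mul_le_mul hκ1 (mul_le_mul hlt.le hlt.le hq0 (by positivity)) (by (clear * - hq0; positivity)) (by norm_num)
  have h5 : 0 < m ^ 2 := by positivity
  linarith only [h5, h4, h3, h2, h]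

/-- the rate of decay of the covariances is at least a constant times the time -/
theorem info_rate {κ q m θ2 a : ℝ} (hκ0 : 1 / 4 ≤ κ) (hκ1 : κ ≤ 1) (hq0 : 0 ≤ q) (hm0 : 0 < m)
    (hm1 : m ≤ 1 / 2) (h : (m ^ 2 / 24 + κ * q) / (1 + (m ^ 2 / 24 + κ * q)) ≤ q)
    (ha0 : 0 ≤ a) (ha : a ≤ θ2) (hθ : θ2 ≤ 1 / 2) :
    a * m / 1600 ≤ 1 - κ * (1 - (1 - θ2) * (θ2 * (1 - θ2) ^ 2 * q)) := by
  have h1 : (1 / 8 : ℝ) ≤ (1 - θ2) * (1 - θ2) ^ 2 := by
    have h2 : (1 / 2 : ℝ) ≤ 1 - θ2 := by linarith only [hθ]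
    have h3 : ((1 / 2 : ℝ)) ^ 3 ≤ (1 - θ2) ^ 3 := pow_le_pow_left₀ (by norm_num) h2 3
    calc (1 / 8 : ℝ) = (1 / 2) ^ 3 := by norm_num
      _ ≤ (1 - θ2) ^ 3 := h3
      _ = _ := by ring
  have hρ : a * q / 8 ≤ (1 - θ2) * (θ2 * (1 - θ2) ^ 2 * q) := by
    have h4 : 0 ≤ θ2 * q := mul_nonneg (ha0.trans ha) hq0
    have h5 : a * q ≤ θ2 * q := mul_le_mul_of_nonneg_right ha hq0
    calc a * q / 8 ≤ θ2 * q / 8 := by linarith only [h5]
      _ = 1 / 8 * (θ2 * q) := by ring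
      _ ≤ (1 - θ2) * (1 - θ2) ^ 2 * (θ2 * q) := mul_le_mul_of_nonneg_right h1 h4
      _ = _ := by ring
  have hρ0 : 0 ≤ a * q / 8 := by (clear * - ha0 hq0; positivity)
  have ha1 : a ≤ 1 / 2 := ha.trans hθ
  by_cases hd : 1 - κ ≤ 2 * m
  · have h6 := info_real (by linarith only [hκ0]) hκ1 hq0 hm0 hm1 h hd
    have h7 : a * (m / 50) ≤ a * q := mul_le_mul_of_nonneg_left h6 ha0
    have h8 : 1 / 4 * (a * q / 8) ≤ κ * ((1 - θ2) * (θ2 * (1 - θ2) ^ 2 * q)) :=
      mul_le_mul hκ0 hρ hρ0 (by linarith only [hκ0])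
    linarith only [hκ1, h7, h8]
  · push Not at hd
    have h9 : 0 ≤ κ * ((1 - θ2) * (θ2 * (1 - θ2) ^ 2 * q)) :=
      mul_nonneg (by linarith only [hκ0]) (hρ0.trans hρ)
    have h10 : a * m ≤ 1 / 2 * m := mul_le_mul_of_nonneg_right ha1 hm0.le
    linarith only [hm0, hd, h9, h10]

theorem half_min_le {t : ℝ} (ht : 0 ≤ t) : min t 1 / 2 ≤ min t (1 / 2) := by
  rcases le_total t (1 / 2) with h | h
  · rw [min_eq_left h, min_eq_left (by linarith)]
    linarith only [ht]
  · rw [min_eq_right h]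
    have := min_le_right t 1
    linarith only [this]

end Real

end Vale.Agent.P161
end
end

section

section

/-!
# Passage to the infinite volume limit for the interface `TField`

If finite-volume fields `X n` converge to `M` in `L²` at every vertex, and the identities and
inequalities of `TField` hold (asymptotically) for `X n`, then `M` is a `TField`.
-/

open MeasureTheory Filter Topology

namespace Vale.Agent.P161

variable {V : Type*} {G : SimpleGraph V}

theorem continuous_msgT {θ : ℝ} (h0 : 0 ≤ θ) (h1 : θ < 1) (o : V) :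
    Continuous (msgT G θ o) := by
  refine continuous_pi fun y => ?_
  exact (continuous_tau h0 h1).comp
    ((continuous_apply (par G o y)).prodMk (continuous_apply y) :
      Continuous fun m : V → ℝ => (m (par G o y), m y))

theorem abs_msgT_le {θ : ℝ} (h0 : 0 ≤ θ) (h1 : θ < 1) (o : V) {m : V → ℝ}
    (hm : ∀ x, |m x| ≤ 1) (y : V) : |msgT G θ o m y| ≤ 1 :=
  abs_tau_le h0 h1 (hm _) (hm _)

/-- the transfer factor of a clamped message, a continuous function -/
theorem continuous_xf_clamp {θ : ℝ} (h0 : 0 ≤ θ) (h1 : θ < 1) :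
    Continuous fun x : ℝ => xf θ (max (-1) (min 1 x)) := by
  have hc : Continuous fun x : ℝ => max (-1 : ℝ) (min 1 x) :=
    continuous_const.max (continuous_const.min continuous_id)
  unfold xf
  refine Continuous.div (continuous_const.sub (hc.pow 2))
    (continuous_const.sub (continuous_const.mul (hc.pow 2))) fun x => ?_
  have hb : |max (-1 : ℝ) (min 1 x)| ≤ 1 :=
    abs_le.2 ⟨le_max_left _ _, max_le (by norm_num) (min_le_left _ _)⟩
  exact (xf_den_pos (theta_sq_lt h0 h1) hb).ne'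

theorem clamp_eq {x : ℝ} (hx : |x| ≤ 1) : max (-1) (min 1 x) = x := by
  rw [min_eq_right (abs_le.1 hx).2, max_eq_right (abs_le.1 hx).1]

section lim

variable {Ω : Type*} [MeasurableSpace Ω] {P : Measure Ω} [IsProbabilityMeasure P] [Countable V]

/-- `L²` convergence of bounded fields at every vertex gives almost sure convergence of
subsequences of the whole field -/
theorem aesub_field {X : ℕ → V → Ω → ℝ} {M : V → Ω → ℝ}
    (hX : ∀ n v, Measurable (X n v)) (hXb : ∀ n v ω, |X n v ω| ≤ 1)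
    (hM : ∀ v, Measurable (M v)) (hMb : ∀ v ω, |M v ω| ≤ 1)
    (hL : ∀ v, Tendsto (fun n => ∫ ω, (X n v ω - M v ω) ^ 2 ∂P) atTop (𝓝 0)) :
    AESub P (fun n ω v => X n v ω) (fun ω v => M v ω) := by
  refine aesub_of_sq (fun n v => hX n v) hM (fun n v => ?_) hL
  refine Integrable.of_bound (((hX n v).sub (hM v)).pow_const 2).aestronglyMeasurable 4
    (Eventually.of_forall fun ω => ?_)
  rw [Real.norm_eq_abs, abs_of_nonneg (sq_nonneg _)]
  have h1 := abs_le.1 (hXb n v ω)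
  have h2 := abs_le.1 (hMb v ω)
  nlinarith only [h1, h2]

/-- convergence of the expectations of continuous functionals of the field -/
theorem tendsto_integral_field {X : ℕ → V → Ω → ℝ} {M : V → Ω → ℝ}
    (hX : ∀ n v, Measurable (X n v)) (hXb : ∀ n v ω, |X n v ω| ≤ 1)
    (hM : ∀ v, Measurable (M v)) (hMb : ∀ v ω, |M v ω| ≤ 1)
    (hL : ∀ v, Tendsto (fun n => ∫ ω, (X n v ω - M v ω) ^ 2 ∂P) atTop (𝓝 0))
    {φ : (V → ℝ) → ℝ} (hφ : Continuous φ) :
    Tendsto (fun n => ∫ ω, φ (fun v => X n v ω) ∂P) atTop (𝓝 (∫ ω, φ (fun v => M v ω) ∂P)) := by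
  have hA := aesub_field hX hXb hM hMb hL
  have hc : IsCompact (Set.pi Set.univ fun _ : V => Set.Icc (-1 : ℝ) 1) :=
    isCompact_univ_pi fun _ => isCompact_Icc
  obtain ⟨C, hC⟩ := hc.exists_bound_of_continuousOn hφ.continuousOn
  refine hA.tendsto_integral hφ (C := C) (Eventually.of_forall fun ω n => ?_) fun n => ?_
  · have := hC (fun v => X n v ω) (by
      intro y _
      exact ⟨(abs_le.1 (hXb n y ω)).1, (abs_le.1 (hXb n y ω)).2⟩)
    rwa [Real.norm_eq_abs] at this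
  · exact (hφ.measurable.comp (measurable_pi_lambda _ fun v => hX n v)).aestronglyMeasurable

/-- **limit passage** -/
theorem TField.of_tendsto {θ ρ : ℝ} (h0 : 0 ≤ θ) (h1 : θ < 1)
    {X : ℕ → V → Ω → ℝ} {M : V → Ω → ℝ}
    (hX : ∀ n v, Measurable (X n v)) (hXb : ∀ n v ω, |X n v ω| ≤ 1)
    (hM : ∀ v, Measurable (M v)) (hMb : ∀ v ω, |M v ω| ≤ 1)
    (hL : ∀ v, Tendsto (fun n => ∫ ω, (X n v ω - M v ω) ^ 2 ∂P) atTop (𝓝 0))
    (hindep : ∀ u v, G.Adj u v → ∀ f g : (V → ℝ) → ℝ, FinDep (side G u v) f →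
      FinDep (side G v u) g → EvenF g → ∀ᶠ n in atTop,
      ∫ ω, f (msgT G θ v fun x => X n x ω) * g (msgT G θ u fun x => X n x ω) ∂P =
      (∫ ω, f (msgT G θ v fun x => X n x ω) ∂P) * ∫ ω, g (msgT G θ u fun x => X n x ω) ∂P)
    (hstep : ∀ u v w, G.Adj u v → G.Adj v w → u ≠ w → ∀ g : (V → ℝ) → ℝ,
      FinDep (side G w v) g → EvenF g → (∀ z : V → ℝ, (∀ y, |z y| ≤ 1) → 0 ≤ g z) →
      ∀ ρ' < ρ, ∀ᶠ n in atTop,
      ∫ ω, xf θ (tau θ (X n u ω) (X n v ω)) * g (msgT G θ v fun x => X n x ω) ∂P ≤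
        (1 - ρ') * ∫ ω, g (msgT G θ v fun x => X n x ω) ∂P) :
    TField G θ ρ P M where
  meas := hM
  bdd := hMb
  indep := by
    intro u v huv f g hf hg hge
    have cf : Continuous fun m : V → ℝ => f (msgT G θ v m) := hf.1.comp (continuous_msgT h0 h1 v)
    have cg : Continuous fun m : V → ℝ => g (msgT G θ u m) := hg.1.comp (continuous_msgT h0 h1 u)
    have t1 := tendsto_integral_field hX hXb hM hMb hL (cf.mul cg)
    have t2 := tendsto_integral_field hX hXb hM hMb hL cf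
    have t3 := tendsto_integral_field hX hXb hM hMb hL cg
    refine tendsto_nhds_unique_of_eventuallyEq t1 (t2.mul t3) ?_
    exact hindep u v huv f g hf hg hge
  step := by
    intro u v w huv hvw huw g hg hge hg0
    have cx : Continuous fun m : V → ℝ =>
        xf θ (max (-1) (min 1 (tau θ (m u) (m v)))) * g (msgT G θ v m) :=
      Continuous.mul ((continuous_xf_clamp h0 h1).comp ((continuous_tau h0 h1).comp
        ((continuous_apply u).prodMk (continuous_apply v) :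
          Continuous fun m : V → ℝ => (m u, m v)))) (hg.1.comp (continuous_msgT h0 h1 v))
    have cg : Continuous fun m : V → ℝ => g (msgT G θ v m) := hg.1.comp (continuous_msgT h0 h1 v)
    have t1 := tendsto_integral_field hX hXb hM hMb hL cx
    have t2 := tendsto_integral_field hX hXb hM hMb hL cg
    simp only [clamp_eq (abs_tau_le h0 h1 (hXb _ u _) (hXb _ v _)),
      clamp_eq (abs_tau_le h0 h1 (hMb u _) (hMb v _))] at t1
    have h3 : ∀ ρ' < ρ, ∫ ω, xf θ (tau θ (M u ω) (M v ω)) * g (msgT G θ v fun x => M x ω) ∂P ≤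
        (1 - ρ') * ∫ ω, g (msgT G θ v fun x => M x ω) ∂P := by
      intro ρ' hρ'
      exact le_of_tendsto_of_tendsto t1 (t2.const_mul (1 - ρ'))
        (hstep u v w huv hvw huw g hg hge hg0 ρ' hρ')
    have h4 : Tendsto (fun ρ' : ℝ => (1 - ρ') * ∫ ω, g (msgT G θ v fun x => M x ω) ∂P) (𝓝[<] ρ)
        (𝓝 ((1 - ρ) * ∫ ω, g (msgT G θ v fun x => M x ω) ∂P)) :=
      ((continuous_const.sub continuous_id).mul continuous_const).tendsto ρ |>.mono_left
        nhdsWithin_le_nhds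
    refine ge_of_tendsto h4 ?_
    filter_upwards [self_mem_nhdsWithin] with ρ' hρ'
    exact h3 ρ' hρ'

end lim

/-- `TField` for the infinite-volume posterior means from the facts about the balls -/
theorem Rate.tField {V : Type*} {G : SimpleGraph V} {μ : Measure (V → ℤˣ)} [Encodable V]
    [G.LocallyFinite] [IsProbabilityMeasure μ] {lam : ℝ} {C : ℝ → ℝ} (hr : Rate G μ lam C)
    (hG : G.IsTree) (o : V) (t : ℝ) {θ ρ : ℝ} (h0 : 0 ≤ θ) (h1 : θ < 1)
    (hindep : ∀ u v, G.Adj u v → ∀ f g : (V → ℝ) → ℝ, FinDep (side G u v) f →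
      FinDep (side G v u) g → EvenF g → ∀ᶠ n in atTop,
      ∫ ω, f (msgT G θ v fun x => fvM μ (bal hG o n) t x ω) *
        g (msgT G θ u fun x => fvM μ (bal hG o n) t x ω) ∂(PP V) =
      (∫ ω, f (msgT G θ v fun x => fvM μ (bal hG o n) t x ω) ∂(PP V)) *
        ∫ ω, g (msgT G θ u fun x => fvM μ (bal hG o n) t x ω) ∂(PP V))
    (hstep : ∀ u v w, G.Adj u v → G.Adj v w → u ≠ w → ∀ g : (V → ℝ) → ℝ,
      FinDep (side G w v) g → EvenF g → (∀ z : V → ℝ, (∀ y, |z y| ≤ 1) → 0 ≤ g z) →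
      ∀ ρ' < ρ, ∀ᶠ n in atTop,
      ∫ ω, xf θ (tau θ (fvM μ (bal hG o n) t u ω) (fvM μ (bal hG o n) t v ω)) *
          g (msgT G θ v fun x => fvM μ (bal hG o n) t x ω) ∂(PP V) ≤
        (1 - ρ') * ∫ ω, g (msgT G θ v fun x => fvM μ (bal hG o n) t x ω) ∂(PP V)) :
    TField G θ ρ (PP V) (Minf hG μ t) :=
  TField.of_tendsto h0 h1 (X := fun n => fvM μ (bal hG o n) t)
    (fun _ v => measurable_fvM _ t v) (fun _ v ω => abs_fvM_le _ t v ω)
    (fun v => measurable_Minf t v) (fun v ω => abs_Minf_le t v ω)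
    (fun v => hr.tendsto_fvM o v t) hindep hstep

end Vale.Agent.P161
end
end

section

section

/-!
# The infinite-volume field is a `TField`
-/

open MeasureTheory Filter Topology

namespace Vale.Agent.P161

variable {V : Type*} {G : SimpleGraph V} {μ : Measure (V → ℤˣ)} [Encodable V]
  [G.LocallyFinite]

/-- second moment of the message of `z` towards `v` in infinite volume -/
noncomputable def qinf (θ : ℝ) (hG : G.IsTree) (μ : Measure (V → ℤˣ)) (t : ℝ) (v z : V) : ℝ :=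
  ∫ ω, tau θ (Minf hG μ t v ω) (Minf hG μ t z ω) ^ 2 ∂(PP V)

theorem qinf_nonneg (θ : ℝ) (hG : G.IsTree) (t : ℝ) (v z : V) : 0 ≤ qinf θ hG μ t v z :=
  integral_nonneg fun _ => sq_nonneg _

theorem qinf_le_one [IsProbabilityMeasure μ] {θ : ℝ} (h0 : 0 ≤ θ) (h1 : θ < 1) (hG : G.IsTree)
    (t : ℝ) (v z : V) : qinf θ hG μ t v z ≤ 1 := by
  have hb : ∀ ω : Om V, tau θ (Minf hG μ t v ω) (Minf hG μ t z ω) ^ 2 ≤ 1 := fun ω => by
    have := abs_tau_le h0 h1 (abs_Minf_le (μ := μ) (hG := hG) t v ω)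
      (abs_Minf_le (μ := μ) (hG := hG) t z ω)
    rw [← sq_abs]
    exact pow_le_one₀ (abs_nonneg _) this
  have h2 : qinf θ hG μ t v z ≤ ∫ _ω : Om V, (1 : ℝ) ∂(PP V) := by
    unfold qinf
    refine integral_mono_of_nonneg (Eventually.of_forall fun _ => sq_nonneg _)
      (integrable_const _) (Eventually.of_forall hb)
  simpa only [ge_iff_le, integral_const, probReal_univ, smul_eq_mul, mul_one] using h2

theorem tendsto_integral_fv [IsProbabilityMeasure μ] {lam : ℝ} {C : ℝ → ℝ}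
    (hr : Rate G μ lam C) (hG : G.IsTree) (o : V) (t : ℝ) {φ : (V → ℝ) → ℝ}
    (hφ : Continuous φ) :
    Tendsto (fun n => ∫ ω, φ (fun v => fvM μ (bal hG o n) t v ω) ∂(PP V)) atTop
      (𝓝 (∫ ω, φ (fun v => Minf hG μ t v ω) ∂(PP V))) := by
  have : Countable V := Encodable.countable
  exact tendsto_integral_field (X := fun n => fvM μ (bal hG o n) t)
    (fun _ v => measurable_fvM _ t v) (fun _ v ω => abs_fvM_le _ t v ω)
    (fun v => measurable_Minf t v) (fun v ω => abs_Minf_le t v ω)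
    (fun v => hr.tendsto_fvM o v t) hφ

theorem Rate.tendsto_qfv [IsProbabilityMeasure μ] {lam : ℝ} {C : ℝ → ℝ}
    (hr : Rate G μ lam C) (hG : G.IsTree) {θ : ℝ} (h0 : 0 ≤ θ) (h1 : θ < 1) (o : V) (t : ℝ)
    (v z : V) : Tendsto (fun n => qfv θ μ (bal hG o n) t v z) atTop
      (𝓝 (qinf θ hG μ t v z)) := by
  refine tendsto_integral_fv hr hG o t (φ := fun m => tau θ (m v) (m z) ^ 2) ?_
  exact ((continuous_tau h0 h1).comp ((continuous_apply v).prodMk (continuous_apply z) :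
    Continuous fun m : V → ℝ => (m v, m z))).pow 2

/-- the second moment of the message is the same for all directed edges -/
theorem qinf_eq [IsProbabilityMeasure μ] (hG : G.IsTree) {d : ℕ}
    (hreg : G.IsRegularOfDegree d)
    (hinv : ∀ g : G ≃g G, μ.map (fun σ v => σ (g.symm v)) = μ) (θ : ℝ) (t : ℝ) {v z v' z' : V}
    (h : G.Adj v z) (h' : G.Adj v' z') : qinf θ hG μ t v z = qinf θ hG μ t v' z' := by
  have hp := pInv_Minf (μ := μ) (μ' := μ) hG t hinv hinv
  obtain ⟨φ, hφ1, hφ2⟩ := exists_aut_pair hG hreg (x := v) (x' := z) (y := v') (y' := z')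
    ((SimpleGraph.dist_eq_one_iff_adj.2 h).trans (SimpleGraph.dist_eq_one_iff_adj.2 h').symm)
  have hK : Measurable fun m : (V → ℝ) × (V → ℝ) => tau θ (m.1 v) (m.1 z) ^ 2 :=
    (measurable_tau ((measurable_pi_apply v).comp measurable_fst)
      ((measurable_pi_apply z).comp measurable_fst) θ).pow_const 2
  have := hp.integral (fun v => measurable_Minf t v) (fun v => measurable_Minf t v) φ hK
  simp only at this
  unfold qinf
  rw [← this, hφ1, hφ2]

/-- **the infinite-volume field is a `TField`** -/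
theorem tField_Minf [IsProbabilityMeasure μ] {lam : ℝ} {C : ℝ → ℝ} (hr : Rate G μ lam C)
    (hG : G.IsTree) {d : ℕ} (hd : 3 ≤ d) (hreg : G.IsRegularOfDegree d) {θ : ℝ} (h0 : 0 ≤ θ)
    (h1 : θ < 1) (hμ : EdgeSplit G θ μ) (hF : FlipInv μ) {t q : ℝ}
    (hq : ∀ v z, G.Adj v z → q ≤ qinf θ hG μ t v z) :
    TField G θ ((1 - θ ^ 2) * (θ ^ 2 * (1 - θ ^ 2) ^ 2 * q)) (PP V) (Minf hG μ t) := by
  have : Nonempty V := hG.connected.nonempty
  obtain ⟨o⟩ := this
  have hθ : θ ^ 2 < 1 := theta_sq_lt h0 h1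
  refine hr.tField hG o t h0 h1 (fun u v huv f g hf hg hge => Eventually.of_forall fun n =>
    fv_indep hG h0 h1 hμ hF _ t huv hf hg hge) ?_
  intro u v w huv hvw huw g hg hge hg0 ρ' hρ'
  -- a third neighbour
  obtain ⟨z, hvz, hzu, hzw⟩ : ∃ z, G.Adj v z ∧ z ≠ u ∧ z ≠ w := by
    classical
    by_contra hcon
    push Not at hcon
    have h2 : G.neighborFinset v ⊆ {u, w} := by
      intro z hz
      rw [SimpleGraph.mem_neighborFinset] at hz
      rw [Finset.mem_insert, Finset.mem_singleton]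
      by_cases hzu : z = u
      · exact Or.inl hzu
      · exact Or.inr (hcon z hz hzu)
    have h3 := Finset.card_le_card h2
    have h4 : (G.neighborFinset v).card = d := hreg v
    have h5 : ({u, w} : Finset V).card ≤ 2 := Finset.card_le_two
    (clear * - hd h3 h4 h5; omega)
  have hlim := hr.tendsto_qfv hG h0 h1 o t v z
  have hlim2 : Tendsto (fun n => (1 - θ ^ 2) * (θ ^ 2 * (1 - θ ^ 2) ^ 2 *
      qfv θ μ (bal hG o n) t v z)) atTop
      (𝓝 ((1 - θ ^ 2) * (θ ^ 2 * (1 - θ ^ 2) ^ 2 * qinf θ hG μ t v z))) :=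
    (hlim.const_mul _).const_mul _
  have hlt : ρ' < (1 - θ ^ 2) * (θ ^ 2 * (1 - θ ^ 2) ^ 2 * qinf θ hG μ t v z) := by
    refine hρ'.trans_le ?_
    refine mul_le_mul_of_nonneg_left ?_ (by linarith only [hθ])
    exact mul_le_mul_of_nonneg_left (hq v z hvz) (by (clear * - hθ; positivity))
  filter_upwards [hlim2.eventually (lt_mem_nhds hlt)] with n hn
  refine (fv_step hG h0 h1 hμ hF _ t huv hvw hvz huw hzu hzw hg hg0).trans ?_
  refine mul_le_mul_of_nonneg_right (by linarith only [hn]) ?_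
  exact integral_nonneg fun ω => hg0 _ fun y =>
    abs_msgT_le h0 h1 v (fun x => abs_fvM_le _ t x ω) y

end Vale.Agent.P161
end
end

section

section

/-! Critical point: the uniform lower bound for the rate below the critical point. -/

open MeasureTheory Filter Topology Set

namespace Vale.Agent.P161

variable {V : Type*} {G : SimpleGraph V}

theorem exists_adj_of_regular [G.LocallyFinite] {d : ℕ} (hd : 1 ≤ d)
    (hreg : G.IsRegularOfDegree d) (o : V) : ∃ z, G.Adj o z := by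
  have h : 0 < (G.neighborFinset o).card := by
    rw [SimpleGraph.card_neighborFinset_eq_degree, hreg o]
    omega
  obtain ⟨z, hz⟩ := Finset.card_pos.1 h
  exact ⟨z, by rwa [SimpleGraph.mem_neighborFinset] at hz⟩

theorem crit_theta_sq_le {d : ℕ} (hd : 3 ≤ d) {θc θ : ℝ} (hcrit : ((d : ℝ) - 1) * θc ^ 2 = 1)
    (h0 : 0 ≤ θ) (hlt : θ ≤ θc) : θ ^ 2 ≤ 1 / 2 := by
  have hd' : (3 : ℝ) ≤ d := by exact_mod_cast hd
  have h1 : θ ^ 2 ≤ θc ^ 2 := pow_le_pow_left₀ h0 hlt 2
  linarith [mul_nonneg (sub_nonneg.2 h1) (sub_nonneg.2 hd'), mul_eq_zero_of_left (sub_eq_zero.2 hcrit) (↑d - (3)), mul_nonneg (sq_nonneg (1 * θ : ℝ)) (sub_nonneg.2 hd')]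

/-- the uniform lower bound for the rate -/
theorem exists_rateBd [Encodable V] [G.LocallyFinite] (hG : G.IsTree) {d : ℕ} (hd : 3 ≤ d)
    (hreg : G.IsRegularOfDegree d) {θc : ℝ} (hc : 0 < θc)
    (hcrit : ((d : ℝ) - 1) * θc ^ 2 = 1) {θ : ℝ} (hlo : θc / 2 ≤ θ) (hlt : θ < θc)
    {μ : Measure (V → ℤˣ)} (hμ : IsFreeIsing G θ μ) :
    RateBd hG d (θc ^ 2 / 12800) θ μ := by
  have hd' : (3 : ℝ) ≤ d := by exact_mod_cast hd
  have h0 : 0 ≤ θ := by linarith only [hlo, hlt]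
  have h1 : θ < 1 := hlt.trans (theta_lt_one hd hcrit)
  have hsq : θ ^ 2 < θc ^ 2 := by linarith only [mul_nonneg (le_of_lt (sub_pos.2 hlt)) (sub_nonneg.2 hlo), mul_pos (sub_pos.2 hlt) (sub_pos.2 hlt)]
  have hsub : ((d : ℝ) - 1) * θ ^ 2 < 1 := by nlinarith only [hsq, hcrit]
  have := hμ.isProb
  have hES := hμ.edgeSplit hG h0 h1
  have hF := hμ.flipInv hG h0 h1
  have hinv := fun g => hμ.map_aut hG h0 h1 g
  obtain ⟨lam, C, hr0⟩ := exists_rate hG (by omega) hreg h0 hsub h1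
  have hr := hr0 μ hES
  have hne : Nonempty V := hG.connected.nonempty
  obtain ⟨o⟩ := hne
  obtain ⟨z, hoz⟩ := exists_adj_of_regular (by (clear * - hd; omega)) hreg o
  intro r hrpos
  set q := qinf θ hG μ r o z with hq
  have hq0 : 0 ≤ q := qinf_nonneg θ hG r o z
  have hq1 : q ≤ 1 := qinf_le_one h0 h1 hG r o z
  have hθ2 : θ ^ 2 ≤ 1 / 2 := crit_theta_sq_le hd hcrit h0 hlt.le
  have hθ0 : 0 ≤ θ ^ 2 := sq_nonneg _
  have hθ3 : 0 ≤ 1 - θ ^ 2 := by linarith only [hθ2]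
  refine ⟨(1 - θ ^ 2) * (θ ^ 2 * (1 - θ ^ 2) ^ 2 * q), by (clear * - hθ3 hq0; positivity), ?_, ?_, ?_⟩
  · have e1 : 0 ≤ 1 - θ ^ 2 := by linarith only [hθ2]
    have e2 : 1 - θ ^ 2 ≤ 1 := by linarith only [hθ0]
    have e3 : θ ^ 2 * (1 - θ ^ 2) ^ 2 * q ≤ 1 := by
      have e4 : θ ^ 2 * (1 - θ ^ 2) ^ 2 ≤ 1 :=
        mul_le_one₀ (by linarith only [hθ2]) (by (clear * -; positivity)) (pow_le_one₀ e1 e2)
      exact mul_le_one₀ e4 hq0 hq1
    exact mul_le_one₀ e2 (by (clear * - hq0; positivity)) e3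
  · exact tField_Minf hr hG hd hreg h0 h1 hES hF
      (fun v z' h => (qinf_eq hG hreg hinv θ r hoz h).le)
  · have hm0 : 0 < min r (1 / 2) := lt_min hrpos (by norm_num)
    have hlow := hr.msg_lower_reg hG (by omega) hreg h0 h1 hES hF hinv hrpos hoz
      (q := q) rfl
    have hκ0 : 1 / 4 ≤ ((d : ℝ) - 1) * θ ^ 2 := by
      have : (θc / 2) ^ 2 ≤ θ ^ 2 := pow_le_pow_left₀ (by linarith only [hlo, hlt]) hlo 2
      nlinarith only [hcrit, this]
    have hfin := info_rate (κ := ((d : ℝ) - 1) * θ ^ 2) (q := q) (m := min r (1 / 2))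
      (θ2 := θ ^ 2) (a := θc ^ 2 / 4) hκ0 hsub.le hq0 hm0 (min_le_right _ _) hlow
      (by (clear * - hc; positivity)) (by
        have : (θc / 2) ^ 2 ≤ θ ^ 2 := pow_le_pow_left₀ (by linarith only [hlo, hlt]) hlo 2
        linarith only [this]) hθ2
    refine le_trans ?_ hfin
    have hm := half_min_le hrpos.le
    have : 0 < θc ^ 2 := by positivity
    linarith only [mul_nonneg (sq_nonneg (1 * θc : ℝ)) (sub_nonneg.2 hm)]

end Vale.Agent.P161
end
end

section

section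

/-! Critical point: a good sequence of subcritical models, with converging laws of the messages. -/

open MeasureTheory Filter Topology Set

namespace Vale.Agent.P161

variable {V : Type*} {G : SimpleGraph V}

theorem abs_xiF_sub_theta {θ θ' : ℝ} (h0 : 0 ≤ θ) (h : θ ^ 2 ≤ 1 / 2) (h0' : 0 ≤ θ')
    (h' : θ' ^ 2 ≤ 1 / 2) (x : ℝ) : |xiF θ x - xiF θ' x| ≤ 6 * |θ - θ'| := by
  have := abs_xiF_sub_le h0 h h0' h' x x
  simpa only [ge_iff_le, sub_self, abs_zero, zero_mul, zero_add] using this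

/-- mean of the edge functional of a model -/
noncomputable def mxi [Encodable V] [G.LocallyFinite] (hG : G.IsTree) (θ : ℝ)
    (μ : Measure (V → ℤˣ)) (r : ℝ) (a b : V) : ℝ :=
  ∫ ω, xiF θ (tau θ (Minf hG μ r a ω) (Minf hG μ r b ω)) ∂(PP V)

/-- a good sequence of subcritical models -/
theorem exists_good_seqn [Encodable V] [G.LocallyFinite] (hG : G.IsTree) {d : ℕ} (hd : 3 ≤ d)
    (hreg : G.IsRegularOfDegree d) {θc : ℝ} (hc : 0 < θc)
    (hcrit : ((d : ℝ) - 1) * θc ^ 2 = 1) {a b : V} (hab : G.Adj a b) :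
    ∃ (θ : ℕ → ℝ) (ν : ℕ → Measure (V → ℤˣ)), Seqn G d θc θ ν ∧
      (∀ n, RateBd hG d (θc ^ 2 / 12800) (θ n) (ν n)) ∧
      ∀ r : ℝ, 0 < r → Tendsto (fun p : ℕ × ℕ =>
        |mxi hG (θ p.1) (ν p.1) r a b - mxi hG (θ p.2) (ν p.2) r a b|)
        (atTop ×ˢ atTop) (𝓝 0) := by
  obtain ⟨θ, ν, hS⟩ := exists_seqn (G := G) hG hd hc hcrit
  have hθc1 := theta_lt_one hd hcrit
  have h0 := fun n => hS.nonneg hc n
  have h1 := fun n => hS.lt_one hd hcrit n
  have hprob : ∀ n, IsProbabilityMeasure (ν n) := fun n => (hS.ising n).isProb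
  have hRB : ∀ n, RateBd hG d (θc ^ 2 / 12800) (θ n) (ν n) := fun n =>
    exists_rateBd hG hd hreg hc hcrit (hS.lo n) (hS.lt n) (hS.ising n)
  have hcc : 0 < θc ^ 2 / 12800 := by positivity
  obtain ⟨φ, hφ, hlaw⟩ := exists_subseq_msg (P := PP V) h0 (fun n => (hS.lt n).le) hθc1
    (fun n r v => Minf hG (ν n) r v) (fun n r v => measurable_Minf _ _)
    (fun n r v ω => abs_Minf_le _ _ _) (by
      intro r0 hr0
      refine ⟨2 * d / (θc ^ 2 / 12800 * min r0 1), fun n v s t hs hst => ?_⟩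
      obtain ⟨lam, C, hr⟩ := hS.rate hG hreg hd hc hcrit n
      exact Minf_growth hr (hRB n) (by omega) hreg hcc (h0 n) (h1 n)
        (hS.sub hd hc hcrit n) (hS.edgeSplit hG hd hc hcrit n) hr0 v hs hst) a b
  refine ⟨fun n => θ (φ n), fun n => ν (φ n), hS.comp hφ, fun n => hRB _, fun r hr => ?_⟩
  have hS' := hS.comp hφ
  have hsq : ∀ n, θ (φ n) ^ 2 ≤ 1 / 2 := fun n =>
    crit_theta_sq_le hd hcrit (h0 _) (hS.lt _).le
  have hsqc : θc ^ 2 ≤ 1 / 2 := crit_theta_sq_le hd hcrit hc.le le_rfl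
  have hcs := hlaw r hr (xiF θc) (continuous_xiF hc.le hθc1).continuousOn
  set X : ℕ → Om V → ℝ := fun n ω =>
    tau (θ (φ n)) (Minf hG (ν (φ n)) r a ω) (Minf hG (ν (φ n)) r b ω) with hX
  set u : ℕ → ℝ := fun n => ∫ ω, xiF θc (X n ω) ∂(PP V) with hu
  have hXm : ∀ n, Measurable (X n) := fun n =>
    measurable_tau (measurable_Minf _ _) (measurable_Minf _ _) _
  have hd1 : ∀ n, |mxi hG (θ (φ n)) (ν (φ n)) r a b - u n| ≤ 6 * |θ (φ n) - θc| := by
    intro n
    have i1 : Integrable (fun ω => xiF (θ (φ n)) (X n ω)) (PP V) :=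
      integrable_of_bdd ((continuous_xiF (h0 _) (h1 _)).measurable.comp (hXm n))
        (fun ω => abs_xiF_le (h0 _) (h1 _) _)
    have i2 : Integrable (fun ω => xiF θc (X n ω)) (PP V) :=
      integrable_of_bdd ((continuous_xiF hc.le hθc1).measurable.comp (hXm n))
        (fun ω => abs_xiF_le hc.le hθc1 _)
    have e1 : mxi hG (θ (φ n)) (ν (φ n)) r a b - u n =
        ∫ ω, (xiF (θ (φ n)) (X n ω) - xiF θc (X n ω)) ∂(PP V) := (integral_sub i1 i2).symm
    rw [e1]
    exact abs_integral_le_of_abs_le fun ω =>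
      abs_xiF_sub_theta (h0 _) (hsq n) hc.le hsqc (X n ω)
  have hd2 : ∀ p : ℕ × ℕ,
      |mxi hG (θ (φ p.1)) (ν (φ p.1)) r a b - mxi hG (θ (φ p.2)) (ν (φ p.2)) r a b| ≤
      6 * |θ (φ p.1) - θc| + |u p.1 - u p.2| + 6 * |θ (φ p.2) - θc| := by
    intro p
    have h3 := hd1 p.1
    have h4 := hd1 p.2
    rw [abs_sub_comm] at h4
    calc _ = |(mxi hG (θ (φ p.1)) (ν (φ p.1)) r a b - u p.1) + (u p.1 - u p.2) +
          (u p.2 - mxi hG (θ (φ p.2)) (ν (φ p.2)) r a b)| := by ring_nf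
      _ ≤ |mxi hG (θ (φ p.1)) (ν (φ p.1)) r a b - u p.1| + |u p.1 - u p.2| +
          |u p.2 - mxi hG (θ (φ p.2)) (ν (φ p.2)) r a b| :=
        (abs_add_le _ _).trans (add_le_add_left (abs_add_le _ _) _)
      _ ≤ _ := by linarith only [h3, h4]
  refine squeeze_zero (fun p => abs_nonneg _) hd2 ?_
  have ht : Tendsto (fun n => 6 * |θ (φ n) - θc|) atTop (𝓝 0) := by
    have h5 := ((hS'.lim.sub_const θc).abs).const_mul 6
    simpa only [sub_self, abs_zero, mul_zero] using h5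
  have hcau : Tendsto (fun p : ℕ × ℕ => |u p.1 - u p.2|) (atTop ×ˢ atTop) (𝓝 0) := by
    rw [Metric.tendsto_nhds]
    intro η hη
    obtain ⟨N, hN⟩ := (Metric.cauchySeq_iff.1 hcs) η hη
    rw [prod_atTop_atTop_eq, eventually_atTop]
    refine ⟨(N, N), fun p hp => ?_⟩
    have h6 := hN p.1 hp.1 p.2 hp.2
    rw [Real.dist_eq] at h6
    rw [Real.dist_eq, sub_zero, abs_abs]
    exact h6
  have h7 := ((ht.comp tendsto_fst).add hcau).add (ht.comp tendsto_snd)
  simpa only [Function.comp_apply, add_zero] using h7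

end Vale.Agent.P161
end
end

section

section

/-! Higher moments of the infinite volume means. -/

open MeasureTheory Filter Topology

namespace Vale.Agent.P161

/-! ### Convergence of the covariance functional -/

theorem tendsto_covP' {θ : ℝ} (h0 : 0 ≤ θ) (h1 : θ < 1) {a : ℕ → ℕ → ℝ} {b : ℕ → ℝ}
    (ha : ∀ n i, |a n i| ≤ 1) (hab : ∀ i, Tendsto (fun n => a n i) atTop (𝓝 (b i))) (k : ℕ) :
    Tendsto (fun n => covP θ (a n) k) atTop (𝓝 (covP θ b k)) := by
  have hb : ∀ i, |b i| ≤ 1 := fun i =>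
    le_of_tendsto ((hab i).abs) (Eventually.of_forall fun n => ha n i)
  have e : ∀ c : ℕ → ℝ, (∀ i, |c i| ≤ 1) → covP θ c k =
      (1 - c 0 ^ 2) * (θ ^ k * ∏ i ∈ Finset.range k, xfc θ (tau θ (c i) (c (i + 1)))) := by
    intro c hc
    rw [covP_eq]
    unfold etaP
    congr 2
    refine Finset.prod_congr rfl fun i _ => ?_
    rw [xfc_of_abs (abs_tau_le h0 h1 (hc i) (hc (i + 1)))]
  have h2 : (fun n => covP θ (a n) k) = fun n => (1 - a n 0 ^ 2) *
      (θ ^ k * ∏ i ∈ Finset.range k, xfc θ (tau θ (a n i) (a n (i + 1)))) := by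
    funext n
    exact e _ (ha n)
  rw [h2, e b hb]
  refine (tendsto_const_nhds.sub ((hab 0).pow 2)).mul (tendsto_const_nhds.mul ?_)
  refine tendsto_finset_prod _ fun i _ => ?_
  have h3 : Continuous fun p : ℝ × ℝ => xfc θ (tau θ p.1 p.2) :=
    (continuous_xfc h0 h1).comp (continuous_tau h0 h1)
  have h4 : Tendsto (fun n => (a n i, a n (i + 1))) atTop (𝓝 (b i, b (i + 1))) :=
    (hab i).prodMk_nhds (hab (i + 1))
  have h5 := (h3.tendsto (b i, b (i + 1))).comp h4
  exact h5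

variable {V : Type*} {G : SimpleGraph V}

theorem tendsto_covT' {θ : ℝ} (h0 : 0 ≤ θ) (h1 : θ < 1) {a : ℕ → V → ℝ} {b : V → ℝ}
    (ha : ∀ n v, |a n v| ≤ 1) (hab : ∀ v, Tendsto (fun n => a n v) atTop (𝓝 (b v))) (o v : V) :
    Tendsto (fun n => covT G θ (a n) o v) atTop (𝓝 (covT G θ b o v)) := by
  unfold covT
  exact tendsto_covP' h0 h1 (a := fun n i => a n (geo G o v i)) (b := fun i => b (geo G o v i))
    (fun n i => ha n _) (fun i => hab _) _

theorem covT_nonneg {θ : ℝ} (h0 : 0 ≤ θ) (h1 : θ < 1) {a : V → ℝ} (ha : ∀ v, |a v| ≤ 1)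
    (o v : V) : 0 ≤ covT G θ a o v := covP_nonneg h0 h1 (fun _ => ha _) _

theorem covT_le_eta {θ : ℝ} (h0 : 0 ≤ θ) (h1 : θ < 1) {a : V → ℝ} (ha : ∀ v, |a v| ≤ 1)
    (o v : V) : covT G θ a o v ≤
      θ ^ G.dist o v * etaP θ (fun i => a (geo G o v i)) (G.dist o v) :=
  covP_le h0 h1 (fun _ => ha _) _

theorem covT_le_pow {θ : ℝ} (h0 : 0 ≤ θ) (h1 : θ < 1) {a : V → ℝ} (ha : ∀ v, |a v| ≤ 1)
    (o v : V) : covT G θ a o v ≤ θ ^ G.dist o v :=
  (covT_le_eta h0 h1 ha o v).trans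
    (mul_le_of_le_one_right (by (clear * - h0; positivity)) (etaP_le_one h0 h1 (fun _ => ha _) _))

variable {μ : Measure (V → ℤˣ)} [Encodable V] [G.LocallyFinite]
  [IsProbabilityMeasure μ] {lam : ℝ} {C : ℝ → ℝ}

/-- the integrand of the mixed moment as a function of the means -/
noncomputable def mixF (G : SimpleGraph V) (θ : ℝ) (o : V) (K : ℕ) (c : ℝ) (v : V)
    (a : V → ℝ) : ℝ :=
  a o ^ (2 * K) * covT G θ a o v ^ 2 + c * covT G θ a o v ^ (2 * K + 2)

omit [Encodable V] [G.LocallyFinite] in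
theorem mixF_nonneg {θ : ℝ} (o : V) (K : ℕ) {c : ℝ} (hc : 0 ≤ c) (v : V) (a : V → ℝ) :
    0 ≤ mixF G θ o K c v a := by
  unfold mixF
  have h1 : 0 ≤ a o ^ (2 * K) := by rw [pow_mul]; positivity
  have h2 : 0 ≤ covT G θ a o v ^ (2 * K + 2) := by
    rw [show 2 * K + 2 = 2 * (K + 1) by ring, pow_mul]; (clear * -; positivity)
  positivity

omit [Encodable V] [G.LocallyFinite] in
theorem mixF_le {θ : ℝ} (h0 : 0 ≤ θ) (h1 : θ < 1) (o : V) (K : ℕ) {c : ℝ} (hc : 0 ≤ c) (v : V)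
    {a : V → ℝ} (ha : ∀ v, |a v| ≤ 1) :
    mixF G θ o K c v a ≤ (1 + c) * (θ ^ 2) ^ G.dist o v := by
  unfold mixF
  have hc0 := covT_nonneg (G := G) h0 h1 ha o v
  have hc1 := covT_le_pow (G := G) h0 h1 ha o v
  have hθ1 : θ ^ G.dist o v ≤ 1 := pow_le_one₀ h0 h1.le
  have h2 : covT G θ a o v ^ 2 ≤ (θ ^ 2) ^ G.dist o v := by
    rw [← pow_mul, mul_comm, pow_mul]
    exact pow_le_pow_left₀ hc0 hc1 2
  have h3 : covT G θ a o v ^ (2 * K + 2) ≤ covT G θ a o v ^ 2 :=
    pow_le_pow_of_le_one hc0 (hc1.trans hθ1) (by omega)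
  have h4 : a o ^ (2 * K) ≤ 1 := by
    have := pow_le_one₀ (n := 2 * K) (abs_nonneg _) (ha o)
    rwa [← abs_pow, abs_of_nonneg (by rw [pow_mul]; (clear * -; positivity))] at this
  have h5 : a o ^ (2 * K) * covT G θ a o v ^ 2 ≤ 1 * (θ ^ 2) ^ G.dist o v :=
    mul_le_mul h4 h2 (sq_nonneg _) (by norm_num)
  have h6 := mul_le_mul_of_nonneg_left (h3.trans h2) hc
  linarith only [h5, h6]

theorem measurable_mixF_fv {θ : ℝ} (o : V) (K : ℕ) (c : ℝ) (v : V) (B : Finset V) (r : ℝ) :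
    Measurable fun ω => mixF G θ o K c v (fun x => fvM μ B r x ω) := by
  unfold mixF
  have h1 := measurable_fvM (μ := μ) B r o
  have h2 := measurable_covT (G := G) (M := fun x ω => fvM μ B r x ω)
    (fun v => measurable_fvM B r v) θ o v
  exact ((h1.pow_const _).mul (h2.pow_const _)).add ((h2.pow_const _).const_mul c)

/-- the averaged mixed moment in finite volume -/
theorem avT_gmom_eq (hG : G.IsTree) {θ : ℝ} (h0 : 0 ≤ θ) (h1 : θ < 1) (hμ : EdgeSplit G θ μ)
    (o : V) (K : ℕ) {c : ℝ} (hc : 0 ≤ c) (v : V) (B : Finset V) {r t : ℝ} (hrt : r ≤ t) :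
    avT (vol B t) (gmom μ o K c v) r =
      ∫ ω, mixF G θ o K c v (fun x => fvM μ B r x ω) ∂(PP V) := by
  have hm := measurable_mixF_fv (μ := μ) (G := G) (θ := θ) o K c v B r
  rw [integral_PP hm (C := (1 + c) * (θ ^ 2) ^ G.dist o v) (fun ω => by
    rw [abs_of_nonneg (mixF_nonneg o K hc v _)]
    exact mixF_le h0 h1 o K hc v (fun x => abs_fvM_le B r x ω))]
  unfold avT gmom
  congr 1
  funext T
  have hvol : vol B r ⊆ vol B t := by
    unfold vol
    refine Finset.product_subset_product (le_refl _) fun x hx => ?_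
    rw [Finset.mem_range] at hx ⊢
    exact lt_of_lt_of_le hx (Nat.ceil_le_ceil hrt)
  rw [stt_eq_vol (B := B) (S := vol B t) (t := r) (fun i hi => by
    unfold vol at hi
    exact (Finset.mem_product.1 hi).1) hvol]
  congr 1
  funext U
  have hgood := good_runE (μ := μ) (strOK_str T) U (stt T (vol B r) r)
  unfold mixF fvM
  have e1 : cov μ (runE μ (str T) U (stt T (vol B r) r)) v o =
      covT G θ (fun x => mean μ (runE μ (str T) U (stt T (vol B r) r)) x) o v := by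
    have h2 := cov_eq_covT (μ := μ) hG h0 h1 hμ hgood o v
    have h3 : cov μ (runE μ (str T) U (stt T (vol B r) r)) v o =
        cov μ (runE μ (str T) U (stt T (vol B r) r)) o v := by
      unfold cov
      rw [mul_comm (mean μ _ v)]
      congr 2
      funext σ
      exact mul_comm _ _
    rw [h3]
    exact h2
  rw [e1]

/-- THE EVOLUTION INEQUALITY for even moments, in infinite volume -/
theorem Rate.moment_evol (hr : Rate G μ lam C) (hG : G.IsTree) {d : ℕ} (hd : 2 ≤ d)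
    (hreg : G.IsRegularOfDegree d) {θ : ℝ} (h0 : 0 ≤ θ) (h1 : θ < 1)
    (hθ : ((d : ℝ) - 1) * θ ^ 2 < 1) (hμ : EdgeSplit G θ μ) (o : V) (hsym : mean μ [] o = 0)
    (K : ℕ) {t : ℝ} (ht : 0 < t) (ht2 : t ≤ 1 / 2) :
    ∫ ω, Minf hG μ t o ω ^ (2 * K + 2) ∂(PP V) ≤ ∫ r in (0 : ℝ)..t, 2 * (r * ∑' v,
      16 ^ (K + 1) * ∫ ω, mixF G θ o K (t ^ K) v (fun x => Minf hG μ r x ω) ∂(PP V)) := by
  classical
  have htK : 0 ≤ t ^ K := by (clear * - ht; positivity)
  have hS := summable_pow_dist hG (fun v => hreg v) (by omega) (sq_nonneg θ) hθ o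
  set b : V → ℝ := fun v => 16 ^ (K + 1) * ((1 + t ^ K) * (θ ^ 2) ^ G.dist o v) with hb
  have hbS : Summable b := (hS.mul_left _).mul_left _
  have hb0 : ∀ v, 0 ≤ b v := fun v => by (clear * - ht; positivity)
  -- the finite volume quantities
  set B : ℕ → Finset V := fun n => bal hG o n with hB
  set γ : ℕ → V → ℝ → ℝ := fun n v r =>
    ∫ ω, mixF G θ o K (t ^ K) v (fun x => fvM μ (B n) r x ω) ∂(PP V) with hγ
  set γi : V → ℝ → ℝ := fun v r =>
    ∫ ω, mixF G θ o K (t ^ K) v (fun x => Minf hG μ r x ω) ∂(PP V) with hγi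
  have hγ0 : ∀ n v r, 0 ≤ γ n v r := fun n v r => integral_nonneg fun ω => mixF_nonneg o K htK v _
  have hγb : ∀ n v r, γ n v r ≤ (1 + t ^ K) * (θ ^ 2) ^ G.dist o v := fun n v r => by
    have := integral_mono_of_nonneg (μ := PP V)
      (f := fun ω => mixF G θ o K (t ^ K) v (fun x => fvM μ (B n) r x ω))
      (g := fun _ => (1 + t ^ K) * (θ ^ 2) ^ G.dist o v)
      (Eventually.of_forall fun ω => mixF_nonneg o K htK v _) (integrable_const _)
      (Eventually.of_forall fun ω => mixF_le h0 h1 o K htK v (fun x => abs_fvM_le (B n) r x ω))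
    simpa only [ge_iff_le, integral_const, probReal_univ, smul_eq_mul, one_mul] using this
  have hγlim : ∀ v r, Tendsto (fun n => γ n v r) atTop (𝓝 (γi v r)) := by
    intro v r
    refine tendsto_integral_of_dominated_convergence
      (fun _ => (1 + t ^ K) * (θ ^ 2) ^ G.dist o v)
      (fun n => (measurable_mixF_fv o K (t ^ K) v (B n) r).aestronglyMeasurable)
      (integrable_const _) (fun n => Eventually.of_forall fun ω => ?_) ?_
    · rw [Real.norm_eq_abs, abs_of_nonneg (mixF_nonneg o K htK v _)]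
      exact mixF_le h0 h1 o K htK v (fun x => abs_fvM_le (B n) r x ω)
    · filter_upwards [hr.ae_tendsto_all hG r] with ω hω
      have h2 : Tendsto (fun n => covT G θ (fun x => fvM μ (B n) r x ω) o v) atTop
          (𝓝 (covT G θ (fun x => Minf hG μ r x ω) o v)) :=
        tendsto_covT' h0 h1 (a := fun n x => fvM μ (B n) r x ω) (b := fun x => Minf hG μ r x ω)
          (fun n x => abs_fvM_le (B n) r x ω) (fun x => hω o x) o v
      exact (((hω o o).pow _).mul (h2.pow _)).add ((h2.pow _).const_mul _)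
  -- finite volume inequality
  have hfin : ∀ n, ∫ ω, fvM μ (B n) t o ω ^ (2 * K + 2) ∂(PP V) ≤
      ∫ r in (0 : ℝ)..t, 2 * (r * ∑ v ∈ B n, 16 ^ (K + 1) * γ n v r) := by
    intro n
    have h2 := momL_evol (μ := μ) (vol (B n) t) (B n) (fun i hi => by
      unfold vol at hi
      exact (Finset.mem_product.1 hi).1) o K ht ht2
    rw [avT_momL_zero _ o _ (by omega) hsym, zero_add] at h2
    have h3 : avT (vol (B n) t) (momL μ o (2 * K + 2)) t =
        ∫ ω, fvM μ (B n) t o ω ^ (2 * K + 2) ∂(PP V) := by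
      rw [integral_PP ((measurable_fvM (μ := μ) (B n) t o).pow_const _) (C := 1) (fun ω => by
        rw [abs_pow]
        exact pow_le_one₀ (abs_nonneg _) (abs_fvM_le (B n) t o ω))]
      rfl
    rw [h3] at h2
    refine h2.trans (le_of_eq ?_)
    refine intervalIntegral.integral_congr fun r hrt => ?_
    rw [Set.uIcc_of_le ht.le] at hrt
    congr 2
    refine Finset.sum_congr rfl fun v _ => ?_
    rw [avT_const_mul, avT_gmom_eq hG h0 h1 hμ o K htK v (B n) hrt.2]
  -- convergence of the left side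
  have hL : Tendsto (fun n => ∫ ω, fvM μ (B n) t o ω ^ (2 * K + 2) ∂(PP V)) atTop
      (𝓝 (∫ ω, Minf hG μ t o ω ^ (2 * K + 2) ∂(PP V))) := by
    refine tendsto_integral_of_dominated_convergence (fun _ => 1)
      (fun n => ((measurable_fvM (B n) t o).pow_const _).aestronglyMeasurable)
      (integrable_const _) (fun n => Eventually.of_forall fun ω => ?_) ?_
    · rw [Real.norm_eq_abs, abs_pow]
      exact pow_le_one₀ (abs_nonneg _) (abs_fvM_le (B n) t o ω)
    · filter_upwards [hr.ae_tendsto_all hG t] with ω hω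
      exact (hω o o).pow _
  -- convergence of the sums
  have hsumlim : ∀ r, Tendsto (fun n => ∑ v ∈ B n, 16 ^ (K + 1) * γ n v r) atTop
      (𝓝 (∑' v, 16 ^ (K + 1) * γi v r)) := by
    intro r
    have e : ∀ n, ∑ v ∈ B n, 16 ^ (K + 1) * γ n v r =
        ∑' v, (if v ∈ B n then 16 ^ (K + 1) * γ n v r else 0) := fun n => by
      rw [tsum_eq_sum (s := B n) (fun v hv => if_neg hv)]
      exact Finset.sum_congr rfl fun v hv => (if_pos hv).symm
    simp_rw [e]
    refine tendsto_tsum_of_dominated_convergence (bound := b) hbS (fun v => ?_)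
      (Eventually.of_forall fun n v => ?_)
    · have h2 : Tendsto (fun n => 16 ^ (K + 1) * γ n v r) atTop (𝓝 (16 ^ (K + 1) * γi v r)) :=
        (hγlim v r).const_mul _
      refine h2.congr' ?_
      filter_upwards [eventually_ge_atTop (G.dist v o)] with n hn
      rw [if_pos]
      rw [hB]
      exact mem_bal.2 hn
    · split_ifs
      · rw [Real.norm_of_nonneg (mul_nonneg (by positivity) (hγ0 n v r))]
        exact mul_le_mul_of_nonneg_left (hγb n v r) (by positivity)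
      · rw [norm_zero]
        exact hb0 v
  have hsumb : ∀ n r, ∑ v ∈ B n, 16 ^ (K + 1) * γ n v r ≤ ∑' v, b v := fun n r =>
    (Finset.sum_le_sum fun v _ => mul_le_mul_of_nonneg_left (hγb n v r) (by positivity)).trans
      (hbS.sum_le_tsum _ fun v _ => hb0 v)
  have hsum0 : ∀ n r, 0 ≤ ∑ v ∈ B n, 16 ^ (K + 1) * γ n v r := fun n r =>
    Finset.sum_nonneg fun v _ => mul_nonneg (by positivity) (hγ0 n v r)
  have hbT : 0 ≤ ∑' v, b v := tsum_nonneg hb0
  -- convergence of the right side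
  have hR : Tendsto (fun n => ∫ r in (0 : ℝ)..t, 2 * (r * ∑ v ∈ B n, 16 ^ (K + 1) * γ n v r))
      atTop (𝓝 (∫ r in (0 : ℝ)..t, 2 * (r * ∑' v, 16 ^ (K + 1) * γi v r))) := by
    refine intervalIntegral.tendsto_integral_filter_of_dominated_convergence
      (fun _ => 2 * (t * ∑' v, b v)) (Eventually.of_forall fun n => ?_)
      (Eventually.of_forall fun n => Eventually.of_forall fun r hrt => ?_)
      intervalIntegrable_const (Eventually.of_forall fun r _ => ?_)
    · -- measurability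
      have h2 : Measurable fun r => 2 * (r * ∑ v ∈ B n, 16 ^ (K + 1) *
          avT (vol (B n) t) (gmom μ o K (t ^ K) v) r) := by
        refine (measurable_id.mul (Finset.measurable_fun_sum _ fun v _ => ?_)).const_mul 2
        exact (measurable_avT _ (labF_gmom o K htK v)).const_mul _
      refine h2.aestronglyMeasurable.congr ?_
      refine (ae_restrict_iff' measurableSet_uIoc).2 (Eventually.of_forall fun r hrt => ?_)
      rw [Set.uIoc_of_le ht.le] at hrt
      simp only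
      congr 2
      refine Finset.sum_congr rfl fun v _ => ?_
      rw [avT_gmom_eq hG h0 h1 hμ o K htK v (B n) hrt.2]
    · rw [Set.uIoc_of_le ht.le] at hrt
      have h2 := hsum0 n r
      have h3 := hsumb n r
      have hr0 : 0 < r := hrt.1
      rw [Real.norm_of_nonneg (by (clear * - hr0 h2; positivity))]
      have h4 : r * ∑ v ∈ B n, 16 ^ (K + 1) * γ n v r ≤ t * ∑' v, b v :=
        mul_le_mul hrt.2 h3 h2 ht.le
      linarith only [h4]
    · exact ((hsumlim r).const_mul r).const_mul 2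
  exact le_of_tendsto_of_tendsto' hL hR hfin

/-- even moments grow with time -/
theorem Rate.moment_mono (hr : Rate G μ lam C) (hG : G.IsTree) (o : V) (K : ℕ) {s t : ℝ}
    (hst : s ≤ t) :
    ∫ ω, Minf hG μ s o ω ^ (2 * K + 2) ∂(PP V) ≤ ∫ ω, Minf hG μ t o ω ^ (2 * K + 2) ∂(PP V) := by
  have hlim : ∀ r, Tendsto (fun n => ∫ ω, fvM μ (bal hG o n) r o ω ^ (2 * K + 2) ∂(PP V)) atTop
      (𝓝 (∫ ω, Minf hG μ r o ω ^ (2 * K + 2) ∂(PP V))) := by
    intro r
    refine tendsto_integral_of_dominated_convergence (fun _ => 1)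
      (fun n => ((measurable_fvM _ r o).pow_const _).aestronglyMeasurable)
      (integrable_const _) (fun n => Eventually.of_forall fun ω => ?_) ?_
    · rw [Real.norm_eq_abs, abs_pow]
      exact pow_le_one₀ (abs_nonneg _) (abs_fvM_le _ r o ω)
    · filter_upwards [hr.ae_tendsto_all hG r] with ω hω
      exact (hω o o).pow _
  refine le_of_tendsto_of_tendsto' (hlim s) (hlim t) fun n => ?_
  have h := avT_momL_mono (μ := μ) (vol (bal hG o n) t) o K hst
  have e : ∀ r, r ≤ t → avT (vol (bal hG o n) t) (momL μ o (2 * K + 2)) r =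
      ∫ ω, fvM μ (bal hG o n) r o ω ^ (2 * K + 2) ∂(PP V) := by
    intro r hrt
    rw [integral_PP ((measurable_fvM (μ := μ) _ r o).pow_const _) (C := 1) (fun ω => by
      rw [abs_pow]
      exact pow_le_one₀ (abs_nonneg _) (abs_fvM_le _ r o ω))]
    unfold avT momL fvM
    congr 1
    funext T
    have hvol : vol (bal hG o n) r ⊆ vol (bal hG o n) t := by
      unfold vol
      refine Finset.product_subset_product (le_refl _) fun x hx => ?_
      rw [Finset.mem_range] at hx ⊢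
      exact lt_of_lt_of_le hx (Nat.ceil_le_ceil hrt)
    rw [stt_eq_vol (B := bal hG o n) (S := vol (bal hG o n) t) (t := r) (fun i hi => by
      unfold vol at hi
      exact (Finset.mem_product.1 hi).1) hvol]
  rw [e s hst, e t le_rfl] at h
  exact h

omit [Encodable V] [IsProbabilityMeasure μ] in
/-- decay of the even moments of the covariances -/
theorem TField.integral_covT_pow_le {Ω : Type*} [MeasurableSpace Ω] {P : Measure Ω}
    [IsProbabilityMeasure P] [Countable V] {M : V → Ω → ℝ} {θ ρ : ℝ} (hG : G.IsTree) {d : ℕ}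
    (hd : 2 ≤ d)
    (hreg : G.IsRegularOfDegree d) (h0 : 0 ≤ θ) (h1 : θ < 1) (hρ : ρ ≤ 1)
    (hT : TField G θ ρ P M) (K : ℕ) (o v : V) :
    ∫ ω, covT G θ (fun x => M x ω) o v ^ (2 * K + 2) ∂P ≤
      ((θ ^ 2) ^ (K + 1) * (1 - ρ)) ^ G.dist o v := by
  have hp := nbPath_geo hG o v
  have h2 := hT.integral_etaP_le hG hd hreg h0 h1 hρ hp
  have h3 : ∫ ω, covT G θ (fun x => M x ω) o v ^ (2 * K + 2) ∂P ≤
      ∫ ω, ((θ ^ 2) ^ (K + 1)) ^ G.dist o v *
        etaP θ (fun i => M (geo G o v i) ω) (G.dist o v) ∂P := by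
    apply integral_mono_of_nonneg (Filter.Eventually.of_forall fun ω => by
        change 0 ≤ covT G θ (fun x => M x ω) o v ^ (2 * K + 2)
        rw [show 2 * K + 2 = 2 * (K + 1) by ring, pow_mul]; (clear * -; positivity))
      ((integrable_etaP hT.meas hT.bdd h0 h1 _ _).const_mul _)
    refine Filter.Eventually.of_forall fun ω => ?_
    have hb : ∀ i, |M (geo G o v i) ω| ≤ 1 := fun i => hT.bdd _ ω
    have c0 := covP_nonneg (a := fun i => M (geo G o v i) ω) h0 h1 hb (G.dist o v)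
    have c1 := covP_le (a := fun i => M (geo G o v i) ω) h0 h1 hb (G.dist o v)
    have e0 := etaP_nonneg (a := fun i => M (geo G o v i) ω) h0 h1 hb (G.dist o v)
    have e1 := etaP_le_one (a := fun i => M (geo G o v i) ω) h0 h1 hb (G.dist o v)
    simp only [covT]
    calc _ ≤ (θ ^ G.dist o v * etaP θ (fun i => M (geo G o v i) ω) (G.dist o v)) ^
            (2 * K + 2) := pow_le_pow_left₀ c0 c1 _
      _ = ((θ ^ 2) ^ (K + 1)) ^ G.dist o v *
            etaP θ (fun i => M (geo G o v i) ω) (G.dist o v) ^ (2 * K + 2) := by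
          rw [mul_pow, ← pow_mul, ← pow_mul, ← pow_mul]
          congr 2
          ring
      _ ≤ _ := by
          refine mul_le_mul_of_nonneg_left ?_ (by (clear * -; positivity))
          calc etaP θ (fun i => M (geo G o v i) ω) (G.dist o v) ^ (2 * K + 2)
              ≤ etaP θ (fun i => M (geo G o v i) ω) (G.dist o v) ^ 1 :=
                pow_le_pow_of_le_one e0 e1 (by omega)
            _ = _ := pow_one _
  refine h3.trans ?_
  rw [integral_const_mul, mul_pow]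
  exact mul_le_mul_of_nonneg_left h2 (by (clear * -; positivity))

/-- THE MOMENT BOUND: `E M_o(t)^(2K+2) ≤ (D t)^(K+1)` with `D` depending on `d, K, c` only. -/
theorem Rate.moment_bound (hr : Rate G μ lam C) (hG : G.IsTree) {d : ℕ} (hd : 2 ≤ d)
    (hreg : G.IsRegularOfDegree d) {θ : ℝ} (h0 : 0 ≤ θ) (h1 : θ < 1)
    (hθ : ((d : ℝ) - 1) * θ ^ 2 < 1) (hμ : EdgeSplit G θ μ) (o : V) (hsym : mean μ [] o = 0)
    {t : ℝ} (ht : 0 < t) (ht2 : t ≤ 1 / 2) {c : ℝ} (hc : 0 < c) {ρ : ℝ → ℝ}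
    (hT : ∀ r ∈ Set.Ioc 0 t, TField G θ (ρ r) (PP V) (Minf hG μ r))
    (hρ1 : ∀ r ∈ Set.Ioc 0 t, ρ r ≤ 1)
    (hR : ∀ r ∈ Set.Ioc 0 t, c * r ≤ 1 - ((d : ℝ) - 1) * θ ^ 2 * (1 - ρ r)) (K : ℕ) :
    ∫ ω, Minf hG μ t o ω ^ (2 * K + 2) ∂(PP V) ≤
      ((2 * (16 ^ (K + 1) * (1 * (4 * d * (K + 1) / c))) + 1) * t) ^ (K + 1) := by
  have : Countable V := Encodable.countable
  refine moments_abstract hG hd hreg h0 hθ.le (P := PP V)
    (M := fun r => Minf hG μ r o) (C := fun r v ω => covT G θ (fun x => Minf hG μ r x ω) o v)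
    (o := o) ht (fun r => (measurable_Minf r o).aestronglyMeasurable)
    (fun r v => (measurable_covT (G := G) (M := fun x ω => Minf hG μ r x ω)
      (fun v => measurable_Minf r v) θ o v).aestronglyMeasurable)
    (fun r ω => abs_Minf_le r o ω) (fun r v ω => ?_) K
    (hr.moment_evol hG hd hreg h0 h1 hθ hμ o hsym K ht ht2)
    (fun r hrt => hr.moment_mono hG o K hrt.2) (β := fun r => 1 - ρ r) le_rfl hc
    (fun r hrt => ⟨by linarith only [hρ1 r hrt], by linarith only [hR r hrt]⟩)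
    (fun r hrt v => ?_)
  · rw [abs_of_nonneg (covT_nonneg h0 h1 (fun x => abs_Minf_le r x ω) o v)]
    refine (covT_le_pow h0 h1 (fun x => abs_Minf_le r x ω) o v).trans ?_
    exact (pow_le_one₀ h0 h1.le).trans (by norm_num)
  · rw [one_mul]
    exact (hT r hrt).integral_covT_pow_le hG hd hreg h0 h1 (hρ1 r hrt) K o v

end Vale.Agent.P161
end
end

section

section

/-!
# Step (II): the final estimate
-/

open MeasureTheory Finset

namespace Vale.Agent.P161

/-- choice of the cut-off of the sum `V` -/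
theorem EE_small {b : ℕ} (hb : 2 ≤ b) {c : ℝ} (hc : 0 < c) (Q : ℕ) {r : ℝ} (hr : 0 < r)
    (hcr : c * r ≤ 1) :
    1 ≤ 8 / (c * r) ∧ 4 / (c * r) ≤ 8 / (c * r) ∧ ((⌊8 / (c * r) / 4⌋₊ : ℕ) : ℝ) + 1 ≤ 8 / (c * r) ∧
      EE b (c * r) (8 / (c * r)) ⌊8 / (c * r) / 4⌋₊
        ≤ (((Q + 2).factorial : ℝ) / (1 / 4) ^ (Q + 2)) * (c / 8) ^ Q * r ^ Q := by
  have hcr0 : 0 < c * r := mul_pos hc hr
  set t : ℝ := 8 / (c * r) with ht
  have ht8 : 8 ≤ t := by
    rw [ht, le_div_iff₀ hcr0]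
    linarith only [hcr]
  set m : ℕ := ⌊t / 4⌋₊ with hm
  have hm1 : (m : ℝ) ≤ t / 4 := Nat.floor_le (by linarith only [ht8])
  have hm2 : t / 4 < m + 1 := Nat.lt_floor_add_one _
  have htcr : c * r * t = 8 := by
    rw [ht]
    field_simp
  refine ⟨by linarith only [ht8], ?_, by linarith only [hm1, ht8], ?_⟩
  · rw [ht]
    exact div_le_div_of_nonneg_right (by norm_num) hcr0.le
  · have hlog : Real.log 2 ≤ 1 := by
      have := Real.log_le_sub_one_of_pos (show (0 : ℝ) < 2 by norm_num)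
      linarith only [this]
    have h1 : (1 : ℝ) ≤ c * r / 2 * (t - (m + 1)) - Real.log 2 := by
      have h2 : t / 2 ≤ t - (m + 1) := by linarith only [ht8, hm1]
      have h3 : c * r / 2 * (t / 2) ≤ c * r / 2 * (t - (m + 1)) :=
        mul_le_mul_of_nonneg_left h2 (by linarith only [hcr0])
      have h4 : c * r / 2 * (t / 2) = 2 := by
        rw [show c * r / 2 * (t / 2) = (c * r * t) / 4 by ring, htcr]
        norm_num
      linarith only [htcr, hlog, h3]
    have hb' : (2 : ℝ) ≤ b := by exact_mod_cast hb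
    have hpow : t / 4 ≤ (b : ℝ) ^ (m + 1) := by
      have h5 : ((m + 1 : ℕ) : ℝ) < (2 : ℝ) ^ (m + 1) := by
        exact_mod_cast Nat.lt_two_pow_self
      have h6 : (2 : ℝ) ^ (m + 1) ≤ (b : ℝ) ^ (m + 1) :=
        pow_le_pow_left₀ (by norm_num) hb' _
      push_cast at h5
      linarith only [hm2, h6, h5]
    have hexp : Real.exp (-((b : ℝ) ^ (m + 1) * (c * r / 2 * (t - (m + 1)) - Real.log 2)))
        ≤ Real.exp (-(1 / 4 * t)) := by
      apply Real.exp_le_exp.mpr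
      have h7 : t / 4 * 1 ≤ (b : ℝ) ^ (m + 1) * (c * r / 2 * (t - (m + 1)) - Real.log 2) :=
        mul_le_mul hpow h1 (by norm_num) (by positivity)
      linarith only [h7]
    have ht0 : 0 < t := by linarith only [ht8]
    have h8 := exp_neg_le_div_pow (c := 1 / 4) (by norm_num) (Q + 2) ht0
    have h9 : (c / 8) * r * t = 1 := by
      rw [show c / 8 * r * t = (c * r * t) / 8 by ring, htcr]
      norm_num
    unfold EE
    calc t ^ 2 * Real.exp (-((b : ℝ) ^ (m + 1) * (c * r / 2 * (t - (m + 1)) - Real.log 2)))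
        ≤ t ^ 2 * ((((Q + 2).factorial : ℝ) / (1 / 4) ^ (Q + 2)) / t ^ (Q + 2)) :=
          mul_le_mul_of_nonneg_left (hexp.trans h8) (by positivity)
      _ = (((Q + 2).factorial : ℝ) / (1 / 4) ^ (Q + 2)) * (1 / t ^ Q) := by
          rw [pow_add t Q 2]
          field_simp
      _ = (((Q + 2).factorial : ℝ) / (1 / 4) ^ (Q + 2)) * ((c / 8) * r) ^ Q := by
          congr 1
          rw [div_eq_iff (by positivity), ← mul_pow, h9, one_pow]
      _ = _ := by
          rw [mul_pow, mul_assoc]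

theorem one_le_rpow_neg {r : ℝ} (hr : 0 < r) (hr1 : r ≤ 1) : 1 ≤ r ^ (-(3 / 4) : ℝ) :=
  Real.one_le_rpow_of_pos_of_le_one_of_nonpos hr hr1 (by (clear * -; norm_num))

/-- the `V`-terms in the final estimate -/
theorem V_final {b : ℕ} (hb : 2 ≤ b) {c : ℝ} (hc : 0 < c) (Q : ℕ) :
    ∃ CV : ℝ, 0 ≤ CV ∧ ∀ r : ℝ, 0 < r → r ≤ 1 → c * r ≤ 1 → ∃ (t : ℝ) (m : ℕ),
      1 ≤ t ∧ 4 / (c * r) ≤ t ∧ (m : ℝ) + 1 ≤ t ∧ ∀ F : ℝ, 0 ≤ F →
        r * ((b + 2) * (t * F + 4 * EE b (c * r) t m))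
          ≤ CV * (r ^ (-(3 / 4) : ℝ) * F + r ^ Q) := by
  set D : ℝ := (((Q + 2).factorial : ℝ) / (1 / 4) ^ (Q + 2)) * (c / 8) ^ Q with hD
  have hD0 : 0 ≤ D := by positivity
  refine ⟨(b + 2) * (8 / c + 4 * D), by positivity, fun r hr hr1 hcr => ?_⟩
  obtain ⟨h1, h2, h3, h4⟩ := EE_small hb hc Q hr hcr
  refine ⟨8 / (c * r), ⌊8 / (c * r) / 4⌋₊, h1, h2, h3, fun F hF => ?_⟩
  have hE0 := EE_nonneg b (c * r) (8 / (c * r)) ⌊8 / (c * r) / 4⌋₊
  rw [← hD] at h4
  have h5 := one_le_rpow_neg hr hr1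
  have h6 : r * (8 / (c * r) * F) ≤ 8 / c * (r ^ (-(3 / 4) : ℝ) * F) := by
    calc r * (8 / (c * r) * F) = 8 / c * (1 * F) := by
          field_simp
      _ ≤ 8 / c * (r ^ (-(3 / 4) : ℝ) * F) :=
          mul_le_mul_of_nonneg_left (mul_le_mul_of_nonneg_right h5 hF) (by positivity)
  have h7 : r * (4 * EE b (c * r) (8 / (c * r)) ⌊8 / (c * r) / 4⌋₊) ≤ 4 * D * r ^ Q := by
    calc r * (4 * EE b (c * r) (8 / (c * r)) ⌊8 / (c * r) / 4⌋₊)
        ≤ 1 * (4 * EE b (c * r) (8 / (c * r)) ⌊8 / (c * r) / 4⌋₊) :=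
          mul_le_mul_of_nonneg_right hr1 (by (clear * - hE0; positivity))
      _ ≤ 4 * D * r ^ Q := by linarith only [h4]
  have h8 : 0 ≤ 8 / c * r ^ Q := by positivity
  have h9 : 0 ≤ 4 * D * (r ^ (-(3 / 4) : ℝ) * F) := by (clear * - hc hr hF; positivity)
  have hb0 : (0 : ℝ) ≤ (b : ℝ) + 2 := by positivity
  calc r * ((b + 2) * (8 / (c * r) * F + 4 * EE b (c * r) (8 / (c * r)) ⌊8 / (c * r) / 4⌋₊))
      = (b + 2) * (r * (8 / (c * r) * F)
          + r * (4 * EE b (c * r) (8 / (c * r)) ⌊8 / (c * r) / 4⌋₊)) := by ring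
    _ ≤ (b + 2) * (8 / c * (r ^ (-(3 / 4) : ℝ) * F) + 4 * D * r ^ Q) :=
        mul_le_mul_of_nonneg_left (add_le_add h6 h7) hb0
    _ ≤ (b + 2) * ((8 / c + 4 * D) * (r ^ (-(3 / 4) : ℝ) * F + r ^ Q)) := by
        refine mul_le_mul_of_nonneg_left ?_ hb0
        have h10 : (8 / c + 4 * D) * (r ^ (-(3 / 4) : ℝ) * F + r ^ Q)
            = 8 / c * (r ^ (-(3 / 4) : ℝ) * F) + 8 / c * r ^ Q
              + 4 * D * (r ^ (-(3 / 4) : ℝ) * F) + 4 * D * r ^ Q := by ring
        rw [h10]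
        linarith only [h8, h9]
    _ = _ := by ring

section Final

variable {V : Type*} {G : SimpleGraph V} [G.LocallyFinite]
  {Ω : Type*} [MeasurableSpace Ω] {P : Measure Ω} [IsProbabilityMeasure P]

/-- what is used about one system at the time `r` -/
structure SysII (G : SimpleGraph V) (P : Measure Ω) (b : ℕ) (c r : ℝ) (Cm : ℕ → ℝ)
    (θ ρ : ℝ) (M : V → Ω → ℝ) : Prop where
  pos : 0 < θ
  half : θ ^ 2 ≤ 1 / 2
  crit : b * θ ^ 2 ≤ 1
  rho0 : 0 ≤ ρ
  rho1 : ρ ≤ 1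
  field : TField G θ ρ P M
  rate : c * r ≤ 1 - b * θ ^ 2 * (1 - ρ)
  mom : ∀ v k, ∫ ω, M v ω ^ (2 * k) ∂P ≤ Cm k * r ^ k

omit [G.LocallyFinite] [IsProbabilityMeasure P] in
theorem SysII.lt_one {b : ℕ} {c r : ℝ} {Cm : ℕ → ℝ} {θ ρ : ℝ} {M : V → Ω → ℝ}
    (h : SysII G P b c r Cm θ ρ M) : θ < 1 :=
  (theta_le_of_sq h.half).trans_lt (by norm_num)

omit [G.LocallyFinite] [IsProbabilityMeasure P] in
theorem SysII.cr_le_one {b : ℕ} {c r : ℝ} {Cm : ℕ → ℝ} {θ ρ : ℝ} {M : V → Ω → ℝ}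
    (h : SysII G P b c r Cm θ ρ M) : c * r ≤ 1 := by
  have h1 := h.rate
  have h2 : 0 ≤ b * θ ^ 2 * (1 - ρ) := mul_nonneg (by (clear * -; positivity)) (by linarith only [h.rho1])
  linarith only [h1, h2]

variable {b : ℕ} {c r : ℝ} {Cm : ℕ → ℝ} {θ ρ θ' ρ' : ℝ} {M M' : V → Ω → ℝ}

/-- the first group of terms -/
theorem group1_le (hG : G.IsTree) (hb : 2 ≤ b) (hreg : G.IsRegularOfDegree (b + 1))
    (hc : 0 < c) (hr : 0 < r) (hCm : ∀ k, 0 ≤ Cm k) (h : SysII G P b c r Cm θ ρ M)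
    (h' : SysII G P b c r Cm θ' ρ' M') (hinv : PInv G P M M') {A δ : ℝ} {j : ℕ} (hA : 0 ≤ A)
    (hA2 : ∀ a v, ∫ ω, (xiF θ (tau θ (M a ω) (M v ω))
      - xiF θ' (tau θ' (M' a ω) (M' v ω))) ^ 2 ∂P ≤ A ^ 2)
    {a0 b0 : V} (hab : G.Adj a0 b0)
    (hδ : |∫ ω, xiF θ (tau θ (M a0 ω) (M b0 ω)) ∂P
      - ∫ ω, xiF θ' (tau θ' (M' a0 ω) (M' b0 ω)) ∂P| ≤ δ) (o : V) (S : Finset V) (N K : ℕ)
    {ϱ : ℝ} (hϱ : ϱ = 1 / Real.sqrt b) {t : ℝ} {m : ℕ} (ht1 : 1 ≤ t) (ht : 4 / (c * r) ≤ t)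
    (htm : (m : ℝ) + 1 ≤ t) :
    ∑ v ∈ S, ∫ ω, (covT G θ (fun x => M x ω) o v - covT G θ' (fun x => M' x ω) o v) ^ 2 ∂P
      ≤ 12 * ((b + 2) * (t * ∫ ω, (M o ω - M' o ω) ^ 2 ∂P + 4 * EE b (c * r) t m))
        + 3 * ((∑ n ∈ range (N + 1), ((sph hG.connected o n).card : ℝ) * n ^ 2) * (θ - θ') ^ 2)
        + 3 * ((N : ℝ) ^ 2 * (8 / (1 - ϱ) * (K * A ^ 2 + A * ϱ ^ K + N * (A * δ))
          + 8 * 4096 ^ (2 * j) * (Cm j * r ^ j)))
        + 4 * ((1 - c * r) ^ N / (c * r)) := by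
  obtain ⟨R, hR⟩ := sum_le_spheres_split hG o S
    (g := fun v => ∫ ω, (covT G θ (fun x => M x ω) o v
      - covT G θ' (fun x => M' x ω) o v) ^ 2 ∂P)
    (fun v => integral_nonneg fun ω => sq_nonneg _) N
  have hcr : 0 < c * r := mul_pos hc hr
  have h1 := sum_cov_diff_le (P := P) hG h.field.meas h'.field.meas h.field.bdd h'.field.bdd
    h.pos.le h.lt_one h'.pos.le h'.lt_one o (N + 1)
  have h2 := integral_Vr_le hG (by omega) hreg h.pos h.lt_one h.crit h.rho0 h.rho1 hcr h.rate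
    h.field h'.field.meas h'.field.bdd hinv o (N + 1) m ht1 ht htm
  have h3 := sum_eta_le hG hb hreg h.field h'.field hinv h.pos.le h.half h'.pos.le h'.half
    h'.crit (j := j) (mul_nonneg (hCm j) (by positivity)) (fun v => h.mom v j)
    (fun v => h'.mom v j) hA hA2 hab hδ o N K hϱ
  have h4 := tail_cov_le hG hb hreg h.field h'.field h.pos.le h.lt_one h'.pos.le h'.lt_one
    h.rho1 h'.rho1 hcr h.cr_le_one h.rate h'.rate o N R
  linarith only [hR, h1, h2, h3, h4]

omit [G.LocallyFinite] in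
theorem integral_gsp_eq (hM : ∀ v, Measurable (M v)) (hM' : ∀ v, Measurable (M' v))
    (hb : ∀ v ω, |M v ω| ≤ 1) (hb' : ∀ v ω, |M' v ω| ≤ 1) (h0 : 0 ≤ θ) (h1 : θ < 1)
    (h0' : 0 ≤ θ') (h1' : θ' < 1) (o v : V) :
    ∫ ω, gsp G θ θ' (fun x => M x ω) (fun x => M' x ω) o v ∂P
      = 8 * ∫ ω, (covT G θ (fun x => M x ω) o v - covT G θ' (fun x => M' x ω) o v) ^ 2 ∂P
        + 32 * ∫ ω, covT G θ' (fun x => M' x ω) o v ^ 2 * (M v ω - M' v ω) ^ 2 ∂P := by
  have hcb : ∀ {θ : ℝ} {M : V → Ω → ℝ}, (∀ v ω, |M v ω| ≤ 1) → 0 ≤ θ → θ < 1 → ∀ ω,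
      |covT G θ (fun x => M x ω) o v| ≤ 1 := by
    intro θ M hb h0 h1 ω
    have c0 := covP_nonneg (a := fun i => M (geo G o v i) ω) h0 h1 (fun i => hb _ ω)
      (G.dist o v)
    have c1 := covP_le (a := fun i => M (geo G o v i) ω) h0 h1 (fun i => hb _ ω) (G.dist o v)
    have e0 := etaP_nonneg (a := fun i => M (geo G o v i) ω) h0 h1 (fun i => hb _ ω)
      (G.dist o v)
    have e1 := etaP_le_one (a := fun i => M (geo G o v i) ω) h0 h1 (fun i => hb _ ω)
      (G.dist o v)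
    have e2 : θ ^ G.dist o v ≤ 1 := pow_le_one₀ h0 h1.le
    unfold covT
    rw [abs_of_nonneg c0]
    exact c1.trans (mul_le_one₀ e2 e0 e1)
  have i1 : Integrable (fun ω => (covT G θ (fun x => M x ω) o v
      - covT G θ' (fun x => M' x ω) o v) ^ 2) P := by
    refine integrable_of_bdd (((measurable_covT hM θ o v).sub
      (measurable_covT hM' θ' o v)).pow_const 2) (C := 4) fun ω => ?_
    have c1 := abs_le.1 (hcb hb h0 h1 ω)
    have c2 := abs_le.1 (hcb hb' h0' h1' ω)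
    rw [abs_of_nonneg (sq_nonneg _)]
    nlinarith only [c1, c2]
  have i2 : Integrable (fun ω => covT G θ' (fun x => M' x ω) o v ^ 2
      * (M v ω - M' v ω) ^ 2) P := by
    refine integrable_of_bdd (((measurable_covT hM' θ' o v).pow_const 2).mul
      (((hM v).sub (hM' v)).pow_const 2)) (C := 1 * 4) fun ω => ?_
    have c2 := hcb hb' h0' h1' ω
    have h2 : (M v ω - M' v ω) ^ 2 ≤ 4 := by
      have h3 := abs_le.1 (hb v ω)
      have h4 := abs_le.1 (hb' v ω)
      nlinarith only [h3, h4]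
    rw [abs_of_nonneg (by (clear * -; positivity))]
    refine mul_le_mul ?_ h2 (sq_nonneg _) zero_le_one
    rw [← sq_abs]
    exact pow_le_one₀ (abs_nonneg _) c2
  unfold gsp
  rw [integral_add (i1.const_mul 8) (i2.const_mul 32), integral_const_mul, integral_const_mul]

/-- the number `A` of the main estimate -/
theorem exists_A {Q : ℕ} (hG : G.IsTree) (hreg : G.IsRegularOfDegree (b + 1))
    (hr : 0 < r) (hr1 : r ≤ 1) (hCm : ∀ k, 0 ≤ Cm k)
    (h : SysII G P b c r Cm θ ρ M) (h' : SysII G P b c r Cm θ' ρ' M') (hinv : PInv G P M M')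
    (o : V) :
    ∃ A : ℝ, 0 ≤ A ∧ (∀ a v, ∫ ω, (xiF θ (tau θ (M a ω) (M v ω))
      - xiF θ' (tau θ' (M' a ω) (M' v ω))) ^ 2 ∂P ≤ A ^ 2) ∧
      A ≤ Real.sqrt (5 * (72 * (6 * 1024 ^ 2)
        + 72 * (2 ^ (4 * Q + 3) * (2048 ^ (2 * (2 * Q + 2)) * 4 * Cm (2 * Q + 2))))
        + 72 * (3 * 1024 ^ 2 + 1)) ∧
      A ^ 2 ≤ (72 * (6 * 1024 ^ 2)
        + 72 * (2 ^ (4 * Q + 3) * (2048 ^ (2 * (2 * Q + 2)) * 4 * Cm (2 * Q + 2))))
          * (r ^ (1 / 2 : ℝ) * ∫ ω, (M o ω - M' o ω) ^ 2 ∂P + r ^ (Q + 2))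
        + 72 * (3 * 1024 ^ 2 + 1) * |θ - θ'| := by
  set F : ℝ := ∫ ω, (M o ω - M' o ω) ^ 2 ∂P with hF
  have hF0 : 0 ≤ F := integral_nonneg fun ω => sq_nonneg _
  have hFv : ∀ v, ∫ ω, (M v ω - M' v ω) ^ 2 ∂P ≤ F := by
    intro v
    have hK : Measurable fun z : ℝ × ℝ => (z.1 - z.2) ^ 2 :=
      (measurable_fst.sub measurable_snd).pow_const 2
    exact (PInv.vertex h.field.meas h'.field.meas hinv hG hreg v o (K := fun z => (z.1 - z.2) ^ 2)
      hK).le
  have hF4 : F ≤ 4 := by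
    have h2 : F ≤ ∫ _ω, (4 : ℝ) ∂P := by
      refine integral_mono_of_nonneg (Filter.Eventually.of_forall fun ω => sq_nonneg _)
        (integrable_const _) (Filter.Eventually.of_forall fun ω => ?_)
      have h3 := abs_le.1 (h.field.bdd o ω)
      have h4 := abs_le.1 (h'.field.bdd o ω)
      simp only
      nlinarith only [h3, h4]
    simpa only [ge_iff_le, integral_const, probReal_univ, smul_eq_mul, one_mul] using h2
  set X1 : ℝ := 72 * (6 * 1024 ^ 2) with hX1
  set X2 : ℝ := 72 * (2 ^ (4 * Q + 3) * (2048 ^ (2 * (2 * Q + 2)) * 4 * Cm (2 * Q + 2))) with hX2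
  set E0 : ℝ := 72 * (3 * 1024 ^ 2 + 1) with hE0
  have hX10 : 0 ≤ X1 := by positivity
  have hX20 : 0 ≤ X2 := by
    have := hCm (2 * Q + 2)
    (clear * - this; positivity)
  have hE00 : 0 ≤ E0 := by positivity
  have hrh : 0 ≤ r ^ (1 / 2 : ℝ) := Real.rpow_nonneg hr.le _
  have hrh1 : r ^ (1 / 2 : ℝ) ≤ 1 := Real.rpow_le_one hr.le hr1 (by norm_num)
  have hrQ : 0 ≤ r ^ (Q + 2) := by positivity
  have hrQ1 : r ^ (Q + 2) ≤ 1 := pow_le_one₀ hr.le hr1
  have hB0 : 0 ≤ (X1 + X2) * (r ^ (1 / 2 : ℝ) * F + r ^ (Q + 2)) + E0 * |θ - θ'| := by (clear * - hX20 hr; (clear * - hX20 hr; positivity))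
  refine ⟨Real.sqrt ((X1 + X2) * (r ^ (1 / 2 : ℝ) * F + r ^ (Q + 2)) + E0 * |θ - θ'|),
    Real.sqrt_nonneg _, ?_, ?_, ?_⟩
  · intro a v
    rw [Real.sq_sqrt hB0]
    have h2 := integral_xi_sq_le (P := P) h.field.meas h'.field.meas h.field.bdd h'.field.bdd
      h.pos.le h.half h'.pos.le h'.half (Cm := Cm (2 * Q + 2)) (Q := Q) hr hr1 hFv
      (fun v => h.mom v (2 * Q + 2)) (fun v => h'.mom v (2 * Q + 2)) a v
    rw [← hX1, ← hX2, ← hE0] at h2
    have h3 : 0 ≤ X2 * (r ^ (1 / 2 : ℝ) * F) := by (clear * - hX20 hr; positivity)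
    have h4 : 0 ≤ X1 * r ^ (Q + 2) := by positivity
    calc _ ≤ _ := h2
      _ ≤ (X1 + X2) * (r ^ (1 / 2 : ℝ) * F + r ^ (Q + 2)) + E0 * |θ - θ'| := by
        rw [show (X1 + X2) * (r ^ (1 / 2 : ℝ) * F + r ^ (Q + 2))
          = X1 * (r ^ (1 / 2 : ℝ) * F) + X2 * (r ^ (1 / 2 : ℝ) * F)
            + X1 * r ^ (Q + 2) + X2 * r ^ (Q + 2) by ring]
        linarith only [h3, hrQ]
  · apply Real.sqrt_le_sqrt
    have h5 : r ^ (1 / 2 : ℝ) * F ≤ 1 * 4 := mul_le_mul hrh1 hF4 hF0 zero_le_one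
    have h6 : (X1 + X2) * (r ^ (1 / 2 : ℝ) * F + r ^ (Q + 2)) ≤ (X1 + X2) * 5 :=
      mul_le_mul_of_nonneg_left (by linarith only [hrQ1, h5]) (by (clear * - hX20; positivity))
    have h7 : |θ - θ'| ≤ 1 := by
      rw [abs_le]
      constructor <;> linarith only [h'.pos, h.lt_one, h.pos, h'.lt_one]
    have h8 : E0 * |θ - θ'| ≤ E0 * 1 := mul_le_mul_of_nonneg_left h7 hE00
    (clear * - h6 h7; linarith only [h7, h6])
  · rw [Real.sq_sqrt hB0]

/-- arithmetic of the final estimate -/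
theorem final_arith {r X F1 F2 V1 Sp Dθ H1 H2 CB k1 CV Cst L1 E0 δ N2 : ℝ} (hr : 0 ≤ r)
    (hr1 : r ≤ 1)
    (hk1 : 0 ≤ k1) (hH1 : 0 ≤ H1) (hH2 : 0 ≤ H2) (hSp : 0 ≤ Sp) (hD0 : 0 ≤ Dθ) (hD1 : Dθ ≤ 1)
    (hL1 : 0 ≤ L1) (hE0 : 0 ≤ E0) (hδ : 0 ≤ δ)
    (hF1 : F1 ≤ 12 * V1 + 3 * (Sp * Dθ ^ 2) + 3 * (N2 * (k1 * H1 + CB)) + 4 * H2)
    (hF2 : F2 ≤ V1) (hV : r * V1 ≤ CV * X) {CB' : ℝ} (hCB : r * (N2 * CB) ≤ CB' * X)
    (hN2 : 0 ≤ N2) (hH : r * (N2 * H1) + r * H2 ≤ Cst * X + L1 * (E0 * Dθ + δ)) :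
    r * (8 * F1 + 32 * F2) ≤ (128 * CV + (24 * k1 + 32) * Cst + 24 * CB') * X
      + (24 * Sp + (24 * k1 + 32) * (L1 * (E0 + 1))) * (δ + Dθ) := by
  have h1 : r * F1 ≤ r * (12 * V1 + 3 * (Sp * Dθ ^ 2) + 3 * (N2 * (k1 * H1 + CB)) + 4 * H2) :=
    mul_le_mul_of_nonneg_left hF1 hr
  have h2 : r * F2 ≤ r * V1 := mul_le_mul_of_nonneg_left hF2 hr
  have h3 : r * (Sp * Dθ ^ 2) ≤ Sp * Dθ := by
    calc r * (Sp * Dθ ^ 2) ≤ 1 * (Sp * Dθ ^ 2) :=
          mul_le_mul_of_nonneg_right hr1 (by (clear * - hSp; positivity))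
      _ = Sp * (Dθ * Dθ) := by ring
      _ ≤ Sp * (Dθ * 1) :=
          mul_le_mul_of_nonneg_left (mul_le_mul_of_nonneg_left hD1 hD0) hSp
      _ = Sp * Dθ := by ring
  have h4 : 0 ≤ r * (N2 * H1) := mul_nonneg hr (mul_nonneg hN2 hH1)
  have h5 : 0 ≤ r * H2 := mul_nonneg hr hH2
  have h6 : (24 * k1) * (r * (N2 * H1)) + 32 * (r * H2)
      ≤ (24 * k1 + 32) * (r * (N2 * H1) + r * H2) := by
    have g1 : 0 ≤ 32 * (r * (N2 * H1)) := by (clear * - hr hN2 hH1; positivity)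
    have g2 : 0 ≤ 24 * k1 * (r * H2) := by positivity
    have g3 : (24 * k1 + 32) * (r * (N2 * H1) + r * H2)
        = (24 * k1) * (r * (N2 * H1)) + 32 * (r * H2) + 32 * (r * (N2 * H1))
          + 24 * k1 * (r * H2) := by ring
    rw [g3]
    linarith only [h4, g2]
  have h7 : (24 * k1 + 32) * (r * (N2 * H1) + r * H2)
      ≤ (24 * k1 + 32) * (Cst * X + L1 * (E0 * Dθ + δ)) :=
    mul_le_mul_of_nonneg_left hH (by positivity)
  have h8 : (24 * k1 + 32) * (L1 * (E0 * Dθ + δ))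
      ≤ (24 * k1 + 32) * (L1 * (E0 + 1)) * (δ + Dθ) := by
    have g1 : E0 * Dθ + δ ≤ (E0 + 1) * (δ + Dθ) := by
      have : 0 ≤ E0 * δ := by positivity
      have g2 : (E0 + 1) * (δ + Dθ) = E0 * δ + E0 * Dθ + δ + Dθ := by ring
      rw [g2]
      linarith only [hD0, this]
    calc (24 * k1 + 32) * (L1 * (E0 * Dθ + δ))
        ≤ (24 * k1 + 32) * (L1 * ((E0 + 1) * (δ + Dθ))) :=
          mul_le_mul_of_nonneg_left (mul_le_mul_of_nonneg_left g1 hL1) (by positivity)
      _ = _ := by ring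
  have h9 : Sp * Dθ ≤ Sp * (δ + Dθ) := mul_le_mul_of_nonneg_left (by linarith only [hδ]) hSp
  have e1 : r * (12 * V1 + 3 * (Sp * Dθ ^ 2) + 3 * (N2 * (k1 * H1 + CB)) + 4 * H2)
      = 12 * (r * V1) + 3 * (r * (Sp * Dθ ^ 2)) + 3 * (k1 * (r * (N2 * H1)))
        + 3 * (r * (N2 * CB)) + 4 * (r * H2) := by ring
  rw [e1] at h1
  have e2 : (128 * CV + (24 * k1 + 32) * Cst + 24 * CB') * X
      + (24 * Sp + (24 * k1 + 32) * (L1 * (E0 + 1))) * (δ + Dθ)
      = 128 * (CV * X) + (24 * k1 + 32) * (Cst * X) + 24 * (CB' * X)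
        + 24 * (Sp * (δ + Dθ)) + (24 * k1 + 32) * (L1 * (E0 + 1)) * (δ + Dθ) := by ring
  have e3 : (24 * k1 + 32) * (Cst * X + L1 * (E0 * Dθ + δ))
      = (24 * k1 + 32) * (Cst * X) + (24 * k1 + 32) * (L1 * (E0 * Dθ + δ)) := by ring
  rw [e3] at h7
  rw [e2]
  linarith only [hV, hCB, h1, h2, h3, h6, h7, h8, h9]

/-- **Step (II)** for a pair of systems at a fixed time. -/
theorem main_II (hG : G.IsTree) (hb : 2 ≤ b) (hreg : G.IsRegularOfDegree (b + 1))
    (hc : 0 < c) (hCm : ∀ k, 0 ≤ Cm k) (o : V) (P : Measure Ω) [IsProbabilityMeasure P] (Q : ℕ) :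
    ∃ C' : ℝ, 0 ≤ C' ∧ ∀ r : ℝ, 0 < r → r ≤ 1 → ∃ L : ℝ, 0 ≤ L ∧
      ∀ (θ ρ : ℝ) (M : V → Ω → ℝ) (θ' ρ' : ℝ) (M' : V → Ω → ℝ),
        SysII G P b c r Cm θ ρ M → SysII G P b c r Cm θ' ρ' M' → PInv G P M M' →
        ∀ a0 b0 : V, G.Adj a0 b0 → ∀ δ : ℝ,
          |∫ ω, xiF θ (tau θ (M a0 ω) (M b0 ω)) ∂P
            - ∫ ω, xiF θ' (tau θ' (M' a0 ω) (M' b0 ω)) ∂P| ≤ δ →
        ∀ S : Finset V,
          r * ∑ v ∈ S, ∫ ω, gsp G θ θ' (fun x => M x ω) (fun x => M' x ω) o v ∂P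
            ≤ C' * (r ^ (-(3 / 4) : ℝ) * ∫ ω, (M o ω - M' o ω) ^ 2 ∂P + r ^ Q)
              + L * (δ + |θ - θ'|) := by
  have hb2 : (2 : ℝ) ≤ b := by exact_mod_cast hb
  have hs1 : 1 < Real.sqrt b := by
    rw [Real.lt_sqrt (by norm_num)]
    linarith only [hb2]
  obtain ⟨ϱ, hϱ⟩ : ∃ ϱ : ℝ, ϱ = 1 / Real.sqrt b := ⟨_, rfl⟩
  have hϱ0 : 0 < ϱ := by
    rw [hϱ]
    positivity
  have hϱ1 : ϱ < 1 := by
    rw [hϱ, div_lt_one (by linarith only [hs1])]
    exact hs1
  have h1ϱ : 0 < 1 - ϱ := by linarith only [hϱ1]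
  obtain ⟨C1, hC1⟩ : ∃ C1 : ℝ, C1 = 72 * (6 * 1024 ^ 2)
        + 72 * (2 ^ (4 * Q + 3) * (2048 ^ (2 * (2 * Q + 2)) * 4 * Cm (2 * Q + 2))) := ⟨_, rfl⟩
  obtain ⟨E0, hE0⟩ : ∃ E0 : ℝ, E0 = 72 * (3 * 1024 ^ 2 + 1) := ⟨_, rfl⟩
  have hE00 : 0 ≤ E0 := by rw [hE0]; positivity
  have hC10 : 0 ≤ C1 := by
    rw [hC1]
    have := hCm (2 * Q + 2)
    (clear * - this; positivity)
  obtain ⟨CV, hCV0, hCV⟩ := V_final hb hc Q
  obtain ⟨Cst, hCst0, hCst⟩ := rate_choice hc hϱ0 hϱ1 hC10 (Real.sqrt_nonneg (5 * C1 + E0)) Q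
  have hCQ := hCm (Q + 2)
  have hk10 : 0 ≤ 8 / (1 - ϱ) := by positivity
  refine ⟨128 * CV + (24 * (8 / (1 - ϱ)) + 32) * Cst
    + 24 * (8 * 4096 ^ (2 * (Q + 2)) * Cm (Q + 2) * 4), by (clear * - hCV0 hϱ1 hCst0 hCQ; positivity), fun r hr hr1 => ?_⟩
  obtain ⟨N, K, L1, hL1, hNr, hmain⟩ := hCst r hr hr1
  refine ⟨24 * (∑ n ∈ range (N + 1), ((sph hG.connected o n).card : ℝ) * n ^ 2)
    + (24 * (8 / (1 - ϱ)) + 32) * (L1 * (E0 + 1)), ?_, ?_⟩
  · have : 0 ≤ ∑ n ∈ range (N + 1), ((sph hG.connected o n).card : ℝ) * n ^ 2 :=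
      sum_nonneg fun n _ => by (clear * - hG; (clear * - hG; positivity))
    (clear * - hG hϱ1 hL1 hE0; positivity)
  intro θ ρ M θ' ρ' M' h h' hinv a0 b0 hab δ hδ S
  have hδ0 : 0 ≤ δ := (abs_nonneg _).trans hδ
  have hSp : 0 ≤ ∑ n ∈ range (N + 1), ((sph hG.connected o n).card : ℝ) * n ^ 2 :=
    sum_nonneg fun n _ => by (clear * - hG; (clear * - hG; positivity))
  have hcr := h.cr_le_one
  have hcr0 : 0 < c * r := mul_pos hc hr
  obtain ⟨t, m, ht1, ht, htm, hVF⟩ := hCV r hr hr1 hcr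
  obtain ⟨A, hA0, hA2, hA3, hA4⟩ := exists_A (Q := Q) hG hreg hr hr1 hCm h h' hinv o
  rw [← hC1, ← hE0] at hA3 hA4
  have hF0 : 0 ≤ ∫ ω, (M o ω - M' o ω) ^ 2 ∂P := integral_nonneg fun ω => sq_nonneg _
  have hD1 : |θ - θ'| ≤ 1 := by
    rw [abs_le]
    constructor <;> linarith only [h'.pos, h.lt_one, h.pos, h'.lt_one]
  have g1 := group1_le hG hb hreg hc hr hCm h h' hinv (j := Q + 2) hA0 hA2 hab hδ o S N K hϱ
    ht1 ht htm
  have g2 := group2_le hG (by (clear * - hb; omega)) hreg h'.pos h'.lt_one h'.crit h'.rho0 h'.rho1 hcr0 h'.rate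
    h.field.meas h.field.bdd h'.field hinv o S m ht1 ht htm
  have g3 := hmain (∫ ω, (M o ω - M' o ω) ^ 2 ∂P) (E0 * |θ - θ'|) A δ (c * r) hF0
    (by (clear * - hE0; (clear * - hE0; positivity))) hA0 hδ0 hA3 hA4 le_rfl hcr
  have hsum : ∑ v ∈ S, ∫ ω, gsp G θ θ' (fun x => M x ω) (fun x => M' x ω) o v ∂P
      = 8 * ∑ v ∈ S, ∫ ω, (covT G θ (fun x => M x ω) o v
          - covT G θ' (fun x => M' x ω) o v) ^ 2 ∂P
        + 32 * ∑ v ∈ S, ∫ ω, covT G θ' (fun x => M' x ω) o v ^ 2 * (M v ω - M' v ω) ^ 2 ∂P := by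
    rw [Finset.mul_sum, Finset.mul_sum, ← Finset.sum_add_distrib]
    exact Finset.sum_congr rfl fun v _ => integral_gsp_eq h.field.meas h'.field.meas
      h.field.bdd h'.field.bdd h.pos.le h.lt_one h'.pos.le h'.lt_one o v
  rw [hsum]
  have hrF : 0 ≤ r ^ (-(3 / 4) : ℝ) * ∫ ω, (M o ω - M' o ω) ^ 2 ∂P :=
    mul_nonneg (Real.rpow_nonneg hr.le _) hF0
  have hNB : r * ((N : ℝ) ^ 2 * (8 * 4096 ^ (2 * (Q + 2)) * (Cm (Q + 2) * r ^ (Q + 2))))
      ≤ (8 * 4096 ^ (2 * (Q + 2)) * Cm (Q + 2) * 4)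
        * (r ^ (-(3 / 4) : ℝ) * ∫ ω, (M o ω - M' o ω) ^ 2 ∂P + r ^ Q) := by
    calc r * ((N : ℝ) ^ 2 * (8 * 4096 ^ (2 * (Q + 2)) * (Cm (Q + 2) * r ^ (Q + 2))))
        = (8 * 4096 ^ (2 * (Q + 2)) * Cm (Q + 2)) * ((N : ℝ) ^ 2 * r ^ 3) * r ^ Q := by ring
      _ ≤ (8 * 4096 ^ (2 * (Q + 2)) * Cm (Q + 2)) * 4 * r ^ Q := by
          refine mul_le_mul_of_nonneg_right ?_ (by positivity)
          exact mul_le_mul_of_nonneg_left hNr (by (clear * - hCQ; positivity))
      _ ≤ _ := by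
          refine mul_le_mul_of_nonneg_left ?_ (by (clear * - hCQ; positivity))
          linarith only [hrF]
  refine final_arith (N2 := (N : ℝ) ^ 2) (H1 := K * A ^ 2 + A * ϱ ^ K + N * (A * δ))
    (H2 := (1 - c * r) ^ N / (c * r)) hr.le hr1 hk10 ?_ ?_ hSp (abs_nonneg _) hD1 hL1 hE00 hδ0
    ?_ g2 (hVF _ hF0) hNB (by (clear * -; positivity)) g3
  · (clear * - hA0 hϱ0 hδ0; positivity)
  · have : 0 ≤ 1 - c * r := by linarith only [hcr]
    (clear * - hcr hc hr; positivity)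
  · rw [sq_abs]
    exact g1

end Final

end Vale.Agent.P161
end
end

section

section

/-! Critical point: the moment bounds along the sequence and the estimate (II) for the sequence. -/

open MeasureTheory Filter Topology Set

namespace Vale.Agent.P161

variable {V : Type*} {G : SimpleGraph V}

/-- the constant of the moment bound -/
noncomputable def Dm (d : ℕ) (c : ℝ) : ℕ → ℝ
  | 0 => 1
  | K + 1 => (2 * (16 ^ (K + 1) * (1 * (4 * d * (K + 1) / c))) + 1) ^ (K + 1)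

theorem Dm_nonneg (d : ℕ) {c : ℝ} (hc : 0 < c) (K : ℕ) : 0 ≤ Dm d c K := by
  cases K with
  | zero => simp only [Dm, zero_le_one]
  | succ K => simp only [Dm]; positivity

theorem RateBd.moment [Encodable V] [G.LocallyFinite] {hG : G.IsTree} {d : ℕ} (hd : 2 ≤ d)
    (hreg : G.IsRegularOfDegree d) {c θ : ℝ} (hc : 0 < c) (h0 : 0 ≤ θ) (h1 : θ < 1)
    (hθ : ((d : ℝ) - 1) * θ ^ 2 < 1) {μ : Measure (V → ℤˣ)} (hμ : IsFreeIsing G θ μ)
    (h : RateBd hG d c θ μ) {r : ℝ} (hr : 0 < r) (hr2 : r ≤ 1 / 2) (o : V) (k : ℕ) :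
    ∫ ω, Minf hG μ r o ω ^ (2 * k) ∂(PP V) ≤ Dm d c k * r ^ k := by
  cases k with
  | zero => simp [Dm]
  | succ K =>
    have := hμ.isProb
    have hES := hμ.edgeSplit hG h0 h1
    obtain ⟨lam, C, hr0⟩ := exists_rate hG hd hreg h0 hθ h1
    have hrt := hr0 μ hES
    have hex : ∀ s : ℝ, ∃ ρ : ℝ, 0 < s → 0 ≤ ρ ∧ ρ ≤ 1 ∧
        TField G θ ρ (PP V) (Minf hG μ s) ∧ c * min s 1 ≤ 1 - ((d : ℝ) - 1) * θ ^ 2 * (1 - ρ) := by
      intro s
      by_cases hs : 0 < s
      · obtain ⟨ρ, h2⟩ := h s hs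
        exact ⟨ρ, fun _ => h2⟩
      · exact ⟨0, fun h2 => absurd h2 hs⟩
    choose ρ hρ using hex
    have hmean := mean_nil_eq_zero (hμ.flipInv hG h0 h1) o
    have hb := hrt.moment_bound hG hd hreg h0 h1 hθ hES o hmean hr hr2 hc (ρ := ρ)
      (fun s hs => (hρ s hs.1).2.2.1) (fun s hs => (hρ s hs.1).2.1)
      (fun s hs => by
        have h3 := (hρ s hs.1).2.2.2
        rwa [min_eq_left (by linarith only [hs.2, hr2] : s ≤ 1)] at h3) K
    rw [show 2 * (K + 1) = 2 * K + 2 from by ring]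
    refine hb.trans (le_of_eq ?_)
    simp only [Dm]
    rw [← mul_pow]

section Seqn

variable [Encodable V] [G.LocallyFinite] {hG : G.IsTree} {b : ℕ} {c θc : ℝ}
  {θ : ℕ → ℝ} {ν : ℕ → Measure (V → ℤˣ)}

theorem Seqn.sysII (hreg : G.IsRegularOfDegree (b + 1)) (hS : Seqn G (b + 1) θc θ ν)
    (hd : 3 ≤ b + 1) (hθc : 0 < θc) (hcrit : (((b + 1 : ℕ) : ℝ) - 1) * θc ^ 2 = 1) (hc : 0 < c)
    (hRB : ∀ n, RateBd hG (b + 1) c (θ n) (ν n)) (n : ℕ) {r : ℝ} (hr : 0 < r)
    (hr2 : r ≤ 1 / 2) :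
    ∃ ρ : ℝ, SysII G (PP V) b c r (Dm (b + 1) c) (θ n) ρ (Minf hG (ν n) r) := by
  obtain ⟨ρ, hρ0, hρ1, hT, hR⟩ := hRB n r hr
  have e : (((b + 1 : ℕ) : ℝ) - 1) = b := by push_cast; ring
  have hsub := hS.sub hd hθc hcrit n
  refine ⟨ρ, ?_, crit_theta_sq_le hd hcrit (hS.nonneg hθc n) (hS.lt n).le, ?_, hρ0, hρ1, hT, ?_,
    fun v k => (hRB n).moment (by omega) hreg hc (hS.nonneg hθc n) (hS.lt_one hd hcrit n)
      hsub (hS.ising n) hr hr2 v k⟩
  · have := hS.lo n
    linarith only [this, hθc]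
  · rw [e] at hsub
    exact hsub.le
  · rw [e, min_eq_left (by linarith only [hr2] : r ≤ 1)] at hR
    exact hR

/-- the estimate (II) for the sequence -/
theorem hII_of_seqn (hreg : G.IsRegularOfDegree (b + 1)) (hS : Seqn G (b + 1) θc θ ν)
    (hd : 3 ≤ b + 1) (hθc : 0 < θc) (hcrit : (((b + 1 : ℕ) : ℝ) - 1) * θc ^ 2 = 1) (hc : 0 < c)
    (hRB : ∀ n, RateBd hG (b + 1) c (θ n) (ν n)) {a0 b0 : V} (hab : G.Adj a0 b0)
    (hcau : ∀ r : ℝ, 0 < r → Tendsto (fun p : ℕ × ℕ =>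
        |mxi hG (θ p.1) (ν p.1) r a0 b0 - mxi hG (θ p.2) (ν p.2) r a0 b0|)
        (atTop ×ˢ atTop) (𝓝 0)) (o : V) (P : ℕ) :
    ∃ C' : ℝ, ∀ r ∈ Ioc (0 : ℝ) (1 / 2), ∀ η : ℝ, 0 < η →
      ∀ᶠ p : ℕ × ℕ in atTop ×ˢ atTop,
        wgt r * spdT hG (θ p.1) (θ p.2) (ν p.1) (ν p.2) o r ≤
          C' * r ^ ((1 / 4 : ℝ) - 1) * Fd hG (ν p.1) (ν p.2) o r + C' * r ^ P + η := by
  have hprob : ∀ n, IsProbabilityMeasure (ν n) := fun n => (hS.ising n).isProb
  have h0 := fun n => hS.nonneg hθc n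
  have h1 := fun n => hS.lt_one hd hcrit n
  obtain ⟨C', hC0, hC'⟩ := main_II hG (by omega : 2 ≤ b) hreg hc
    (fun k => Dm_nonneg (b + 1) hc k) o (PP V) P
  refine ⟨C', fun r hr η hη => ?_⟩
  obtain ⟨hr0, hr2⟩ := hr
  obtain ⟨L, hL0, hL⟩ := hC' r hr0 (by linarith only [hr2])
  -- the error tends to zero
  have hθ1 : Tendsto (fun p : ℕ × ℕ => |θ p.1 - θ p.2|) (atTop ×ˢ atTop) (𝓝 0) := by
    have h3 : Tendsto (fun p : ℕ × ℕ => θ p.1) (atTop ×ˢ atTop) (𝓝 θc) :=
      hS.lim.comp tendsto_fst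
    have h4 : Tendsto (fun p : ℕ × ℕ => θ p.2) (atTop ×ˢ atTop) (𝓝 θc) :=
      hS.lim.comp tendsto_snd
    have h5 := (h3.sub h4).abs
    simpa only [sub_self, abs_zero] using h5
  have herr := (((hcau r hr0).add hθ1).const_mul L)
  rw [add_zero, mul_zero] at herr
  filter_upwards [herr.eventually_lt_const hη] with p hp
  obtain ⟨ρ, hsys⟩ := hS.sysII hreg hd hθc hcrit hc hRB p.1 hr0 hr2
  obtain ⟨ρ', hsys'⟩ := hS.sysII hreg hd hθc hcrit hc hRB p.2 hr0 hr2
  have hinv : PInv G (PP V) (Minf hG (ν p.1) r) (Minf hG (ν p.2) r) :=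
    pInv_Minf hG r (fun g => (hS.ising p.1).map_aut hG (h0 _) (h1 _) g)
      (fun g => (hS.ising p.2).map_aut hG (h0 _) (h1 _) g)
  have hmain := hL (θ p.1) ρ (Minf hG (ν p.1) r) (θ p.2) ρ' (Minf hG (ν p.2) r) hsys hsys' hinv
    a0 b0 hab _ le_rfl
  have hspd : spdT hG (θ p.1) (θ p.2) (ν p.1) (ν p.2) o r ≤
      (C' * (r ^ (-(3 / 4) : ℝ) * Fd hG (ν p.1) (ν p.2) o r + r ^ P) + η) / r := by
    refine Real.tsum_le_of_sum_le (fun v => integral_nonneg fun ω => ?_) fun A => ?_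
    · unfold gsp
      (clear * - hG; positivity)
    · rw [le_div_iff₀ hr0, mul_comm]
      refine (hmain A).trans ?_
      have : L * (|∫ ω, xiF (θ p.1) (tau (θ p.1) (Minf hG (ν p.1) r a0 ω)
          (Minf hG (ν p.1) r b0 ω)) ∂(PP V) - ∫ ω, xiF (θ p.2) (tau (θ p.2)
          (Minf hG (ν p.2) r a0 ω) (Minf hG (ν p.2) r b0 ω)) ∂(PP V)| + |θ p.1 - θ p.2|) ≤ η :=
        hp.le
      unfold Fd
      (clear * - hG this; linarith [this])
  have hw := wgt_le_self hr0.le
  have hs0 := spdT_nonneg (μ := ν p.1) (μ' := ν p.2) hG (θ p.1) (θ p.2) o r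
  have e1 : r ^ ((1 / 4 : ℝ) - 1) = r ^ (-(3 / 4) : ℝ) := by norm_num
  rw [e1]
  have h2 : wgt r * spdT hG (θ p.1) (θ p.2) (ν p.1) (ν p.2) o r ≤
      r * ((C' * (r ^ (-(3 / 4) : ℝ) * Fd hG (ν p.1) (ν p.2) o r + r ^ P) + η) / r) :=
    mul_le_mul (by linarith only [hr0, hw]) hspd hs0 hr0.le
  rw [mul_div_cancel₀ _ hr0.ne'] at h2
  linarith only [h2]

end Seqn

end Vale.Agent.P161
end
end

section

section

/-! Critical point: the estimate (I) for the sequence, and the theorem at the critical point. -/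

open MeasureTheory Filter Topology Set

namespace Vale.Agent.P161

variable {V : Type*} {G : SimpleGraph V}

section Seqn

variable [Encodable V] [G.LocallyFinite] {hG : G.IsTree} {b : ℕ} {c θc : ℝ}
  {θ : ℕ → ℝ} {ν : ℕ → Measure (V → ℤˣ)}

/-- the estimate (I) for the sequence -/
theorem hI_of_seqn (hreg : G.IsRegularOfDegree (b + 1)) (hS : Seqn G (b + 1) θc θ ν)
    (hd : 3 ≤ b + 1) (hθc : 0 < θc) (hcrit : (((b + 1 : ℕ) : ℝ) - 1) * θc ^ 2 = 1) (hc : 0 < c)
    (hRB : ∀ n, RateBd hG (b + 1) c (θ n) (ν n)) (o : V) :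
    ∀ n m r, 0 < r → ∀ (t : ℝ) (k : ℕ), 4 / (c * min r 1) ≤ t → 1 ≤ t →
      (k : ℝ) + 1 ≤ t → spdT hG (θ n) (θ m) (ν n) (ν m) o r ≤
        KI b θc * (t ^ 2 * Fd hG (ν n) (ν m) o r +
          t ^ 2 * Real.exp (-((((b + 1 - 1 : ℕ) : ℝ)) ^ (k + 1) *
            ((c * min r 1) * (t - k - 1) / 2 - Real.log 2)))
          + (θ n - θ m) ^ 2 / (c * min r 1) ^ 4) := by
  intro n m r hr t k ht ht1 hk
  have hprob : ∀ n, IsProbabilityMeasure (ν n) := fun n => (hS.ising n).isProb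
  have h0 := fun n => hS.nonneg hθc n
  have h1 := fun n => hS.lt_one hd hcrit n
  have hpos : ∀ n, 0 < θ n := fun n => by
    have := hS.lo n
    linarith only [hθc, this]
  have e : (((b + 1 : ℕ) : ℝ) - 1) = b := by push_cast; ring
  have hκ : ∀ n, (b : ℝ) * θ n ^ 2 ≤ 1 := fun n => by
    have := hS.sub hd hθc hcrit n
    rw [e] at this
    exact this.le
  obtain ⟨ρ, hρ0, hρ1, hT, hR⟩ := hRB n r hr
  obtain ⟨ρ', hρ0', hρ1', hT', hR'⟩ := hRB m r hr
  rw [e] at hR hR'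
  have hinv : PInv G (PP V) (Minf hG (ν n) r) (Minf hG (ν m) r) :=
    pInv_Minf hG r (fun g => (hS.ising n).map_aut hG (h0 _) (h1 _) g)
      (fun g => (hS.ising m).map_aut hG (h0 _) (h1 _) g)
  refine Real.tsum_le_of_sum_le (fun v => integral_nonneg fun ω => ?_) fun A => ?_
  · unfold gsp
    (clear * - hG; (clear * - hG; positivity))
  · have h2 := mainI hG (by omega : 0 < b) hreg (theta_lt_one hd hcrit) (hpos n) (hS.lt n).le
      (hκ n) hρ0 hρ1 (hpos m) (hS.lt m).le (hκ m) hρ0' hρ1' (cmin_pos hc hr) hR hR' hT hT' hinv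
      o A k ht1 ht hk
    have e2 : EE b (c * min r 1) t k = t ^ 2 * Real.exp (-((((b + 1 - 1 : ℕ) : ℝ)) ^ (k + 1) *
        ((c * min r 1) * (t - k - 1) / 2 - Real.log 2))) := by
      unfold EE
      rw [Nat.add_sub_cancel]
      congr 4
      ring
    rw [e2] at h2
    exact h2

end Seqn

theorem KI_nonneg (b : ℕ) {c : ℝ} (hc0 : 0 < c) (hc : c < 1) : 0 ≤ KI b c := by
  have h1 : 0 < 1 - c ^ 2 := by nlinarith
  have h2 : 0 < 1 - c := by linarith only [hc]
  unfold KI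
  (clear * - h1 hc; positivity)

/-- **the free Ising measure at the critical point is a factor of IID** -/
theorem factor_of_iid_of_critical [G.LocallyFinite] (hG : G.IsTree) {d : ℕ} (hd : 3 ≤ d)
    (hreg : G.IsRegularOfDegree d) {θc : ℝ} (h0 : 0 < θc) (hcrit : ((d : ℝ) - 1) * θc ^ 2 = 1)
    {μ : Measure (V → ℤˣ)} (hμ : IsFreeIsing G θc μ) : IsFactorOfIID G μ := by
  classical
  have hcount : Countable V := countable_of_tree hG
  have : Encodable V := Encodable.ofCountable V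
  obtain ⟨b, rfl⟩ : ∃ b, d = b + 1 := ⟨d - 1, by omega⟩
  have hne : Nonempty V := hG.connected.nonempty
  obtain ⟨a0⟩ := hne
  obtain ⟨b0, hab⟩ := exists_adj_of_regular (by omega) hreg a0
  obtain ⟨θ, ν, hS, hRB, hcau⟩ := exists_good_seqn hG hd hreg h0 hcrit hab
  have hc : 0 < θc ^ 2 / 12800 := by positivity
  refine factor_of_seq hG hreg hS hd h0 hcrit hμ fun t v => ?_
  have h := conv_of_est hreg hS hd h0 hcrit hc hRB v
    (KI_nonneg b h0 (theta_lt_one hd hcrit))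
    (hI_of_seqn hreg hS hd h0 hcrit hc hRB v) (δ := 1 / 4) (by norm_num)
    (hII_of_seqn hreg hS hd h0 hcrit hc hRB hab hcau v) t (Nat.cast_nonneg t)
  exact h

end Vale.Agent.P161
end
end
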